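import Mathlib
import Crest.Prelude.Def_Bosonic
import Crest.Prelude.Def_FockState

-- ▼ part R331/BS_375
section

/-! # Algebra of the beam-splitter amplitudes (helper375) -/

set_option autoImplicit false

noncomputable section

namespace Crest.Agent.R331.BS375

open Crest.MathPhysics.Bosonic Polynomial Finset

/-- dehomogenised coefficient: coefficient of `X^p` in `(sX - c)^k (cX + s)^l`. -/
def Kc (s c : ℝ) (k l p : ℕ) : ℝ :=
  ((C s * X - C c) ^ k * (C c * X + C s) ^ l : ℝ[X]).coeff p

lemma coeff_lin_pow (a b : ℝ) (n i : ℕ) :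
    ((C a * X + C b) ^ n : ℝ[X]).coeff i = a ^ i * b ^ (n - i) * (n.choose i : ℝ) := by
  rw [add_pow]
  simp only [mul_pow, ← C_pow, finsetSum_coeff]
  have : ∀ m ∈ range (n + 1),
      ((C (a ^ m) * X ^ m * C (b ^ (n - m)) * (n.choose m : ℝ[X])) : ℝ[X]).coeff i
        = if i = m then a ^ m * b ^ (n - m) * (n.choose m : ℝ) else 0 := by
    intro m _
    have h1 : (C (a ^ m) * X ^ m * C (b ^ (n - m)) * (n.choose m : ℝ[X]) : ℝ[X])
        = C (a ^ m * b ^ (n - m) * (n.choose m : ℝ)) * X ^ m := by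
      simp only [map_mul, map_natCast]; ring
    rw [h1, coeff_C_mul, coeff_X_pow]
    split_ifs <;> simp
  rw [Finset.sum_congr rfl this]
  rw [Finset.sum_ite_eq]
  split_ifs with h
  · rfl
  · have : n < i := by simpa using h
    rw [Nat.choose_eq_zero_of_lt this]; simp

lemma Kc_eq_sum (s c : ℝ) (k l p : ℕ) :
    Kc s c k l p = ∑ i ∈ range (k + 1),
        if i ≤ p ∧ p - i ≤ l then
          (Nat.choose k i * Nat.choose l (p - i) : ℕ) *
            (s ^ i * (-c) ^ (k - i) * c ^ (p - i) * s ^ (l - (p - i)))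
        else 0 := by
  have hk : (C s * X - C c : ℝ[X]) = C s * X + C (-c) := by simp [sub_eq_add_neg]
  rw [Kc, hk, coeff_mul, Finset.Nat.sum_antidiagonal_eq_sum_range_succ_mk]
  simp only [coeff_lin_pow]
  have h1 : ∀ i ∈ range p.succ, s ^ i * (-c) ^ (k - i) * (k.choose i : ℝ) *
      (c ^ (p - i) * s ^ (l - (p - i)) * (l.choose (p - i) : ℝ))
      = if i ≤ k ∧ p - i ≤ l then (Nat.choose k i * Nat.choose l (p - i) : ℕ) *
            (s ^ i * (-c) ^ (k - i) * c ^ (p - i) * s ^ (l - (p - i))) else 0 := by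
    intro i _
    split_ifs with h
    · push_cast; ring
    · rw [not_and_or] at h
      rcases h with h | h
      · rw [Nat.choose_eq_zero_of_lt (not_le.mp h)]; simp
      · rw [Nat.choose_eq_zero_of_lt (not_le.mp h)]; simp
  rw [Finset.sum_congr rfl h1, ← Finset.sum_filter, ← Finset.sum_filter]
  apply Finset.sum_congr _ (fun _ _ => rfl)
  ext i
  simp only [mem_filter, mem_range, Nat.succ_eq_add_one]
  omega

lemma bsAmp_eq (η : ℝ) (k l p q : ℕ) :
    bsAmp η k l p q = if p + q = k + l then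
      Real.sqrt ((Nat.factorial p * Nat.factorial q : ℝ) / (Nat.factorial k * Nat.factorial l : ℝ)) *
        Kc (Real.sqrt η) (Real.sqrt (1 - η)) k l p else 0 := by
  unfold bsAmp
  split_ifs with h
  · rw [Kc_eq_sum]
    push_cast
    rfl
  · rfl

lemma bsAmp_of_ne (η : ℝ) {k l p q : ℕ} (h : p + q ≠ k + l) : bsAmp η k l p q = 0 := by
  rw [bsAmp_eq, if_neg h]


/-! ### polynomial ladder relations -/

lemma Kc_succ_left (s c : ℝ) (k l p : ℕ) :
    Kc s c (k + 1) l (p + 1) = s * Kc s c k l p - c * Kc s c k l (p + 1) := by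
  have : ((C s * X - C c) ^ (k + 1) * (C c * X + C s) ^ l : ℝ[X])
      = C s * (((C s * X - C c) ^ k * (C c * X + C s) ^ l) * X)
        - C c * ((C s * X - C c) ^ k * (C c * X + C s) ^ l) := by ring
  rw [Kc, this, coeff_sub, coeff_C_mul, coeff_C_mul, coeff_mul_X]; rfl

lemma Kc_succ_left_zero (s c : ℝ) (k l : ℕ) :
    Kc s c (k + 1) l 0 = - c * Kc s c k l 0 := by
  have : ((C s * X - C c) ^ (k + 1) * (C c * X + C s) ^ l : ℝ[X])
      = C s * (((C s * X - C c) ^ k * (C c * X + C s) ^ l) * X)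
        - C c * ((C s * X - C c) ^ k * (C c * X + C s) ^ l) := by ring
  rw [Kc, this, coeff_sub, coeff_C_mul, coeff_C_mul, coeff_mul_X_zero]; simp [Kc]

lemma Kc_succ_right (s c : ℝ) (k l p : ℕ) :
    Kc s c k (l + 1) (p + 1) = c * Kc s c k l p + s * Kc s c k l (p + 1) := by
  have : ((C s * X - C c) ^ k * (C c * X + C s) ^ (l + 1) : ℝ[X])
      = C c * (((C s * X - C c) ^ k * (C c * X + C s) ^ l) * X)
        + C s * ((C s * X - C c) ^ k * (C c * X + C s) ^ l) := by ring
  rw [Kc, this, coeff_add, coeff_C_mul, coeff_C_mul, coeff_mul_X]; rfl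

lemma Kc_succ_right_zero (s c : ℝ) (k l : ℕ) :
    Kc s c k (l + 1) 0 = s * Kc s c k l 0 := by
  have : ((C s * X - C c) ^ k * (C c * X + C s) ^ (l + 1) : ℝ[X])
      = C c * (((C s * X - C c) ^ k * (C c * X + C s) ^ l) * X)
        + C s * ((C s * X - C c) ^ k * (C c * X + C s) ^ l) := by ring
  rw [Kc, this, coeff_add, coeff_C_mul, coeff_C_mul, coeff_mul_X_zero]; simp [Kc]


lemma deriv_f (s c : ℝ) (k l : ℕ) :
    derivative ((C s * X - C c) ^ k * (C c * X + C s) ^ l : ℝ[X])
      = C (k * s) * ((C s * X - C c) ^ (k - 1) * (C c * X + C s) ^ l)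
        + C (l * c) * ((C s * X - C c) ^ k * (C c * X + C s) ^ (l - 1)) := by
  rw [derivative_mul, derivative_pow, derivative_pow, derivative_sub, derivative_add,
    derivative_mul, derivative_mul]
  simp only [derivative_C, derivative_X, zero_mul, mul_one, zero_add, sub_zero, add_zero, map_mul]
  ring

lemma Kc_deriv (s c : ℝ) (k l p : ℕ) :
    ((p : ℝ) + 1) * Kc s c k l (p + 1)
      = k * s * Kc s c (k - 1) l p + l * c * Kc s c k (l - 1) p := by
  have h := congrArg (fun f : ℝ[X] => f.coeff p) (deriv_f s c k l)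
  simp only [coeff_derivative, coeff_add, coeff_C_mul] at h
  simp only [Kc]
  linarith

lemma Kc_euler (s c : ℝ) (k l p : ℕ) :
    ((k : ℝ) + l - p) * Kc s c k l p
      = - k * c * Kc s c (k - 1) l p + l * s * Kc s c k (l - 1) p := by
  -- N f - X f' = -k c f_{k-1,l} + l s f_{k,l-1}
  set f : ℝ[X] := (C s * X - C c) ^ k * (C c * X + C s) ^ l with hf
  have hd : X * derivative f = C ((k : ℝ) + l) * f
      + C (k * c) * ((C s * X - C c) ^ (k - 1) * (C c * X + C s) ^ l)
      - C (l * s) * ((C s * X - C c) ^ k * (C c * X + C s) ^ (l - 1)) := by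
    rw [hf, deriv_f]
    have hk : (C (k : ℝ) * (C s * X - C c) ^ k : ℝ[X])
        = C (k : ℝ) * (C s * X - C c) ^ (k - 1) * (C s * X - C c) := by
      rcases k with _ | k
      · simp
      · simp [pow_succ, mul_assoc]
    have hl : (C (l : ℝ) * (C c * X + C s) ^ l : ℝ[X])
        = C (l : ℝ) * (C c * X + C s) ^ (l - 1) * (C c * X + C s) := by
      rcases l with _ | l
      · simp
      · simp [pow_succ, mul_assoc]
    have : (C ((k : ℝ) + l) * ((C s * X - C c) ^ k * (C c * X + C s) ^ l) : ℝ[X])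
        = (C (k : ℝ) * (C s * X - C c) ^ k) * (C c * X + C s) ^ l
          + (C s * X - C c) ^ k * (C (l : ℝ) * (C c * X + C s) ^ l) := by
      rw [map_add]; ring
    rw [this, hk, hl]
    simp only [map_mul]; ring
  have h := congrArg (fun g : ℝ[X] => g.coeff p) hd
  simp only [coeff_add, coeff_sub, coeff_C_mul] at h
  have h2 : (X * derivative f).coeff p = p * f.coeff p := by
    rcases p with _ | p
    · simp
    · rw [coeff_X_mul, coeff_derivative]; push_cast; ring
  rw [h2] at h
  simp only [Kc]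
  simp only [hf] at h ⊢
  linarith

/-! ### weights -/

/-- `√(p! q! / (k! l!))` -/
def wt (k l p q : ℕ) : ℝ :=
  Real.sqrt ((Nat.factorial p * Nat.factorial q : ℝ) / (Nat.factorial k * Nat.factorial l : ℝ))

lemma fpos (n : ℕ) : (0 : ℝ) < (Nat.factorial n : ℝ) := by exact_mod_cast Nat.factorial_pos n

lemma wt_p (k l p q : ℕ) : wt k l (p + 1) q = Real.sqrt (p + 1) * wt k l p q := by
  have := fpos p; have := fpos q; have := fpos k; have := fpos l
  rw [wt, wt, ← Real.sqrt_mul (by positivity), Nat.factorial_succ]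
  congr 1; push_cast; ring

lemma wt_q (k l p q : ℕ) : wt k l p (q + 1) = Real.sqrt (q + 1) * wt k l p q := by
  have := fpos p; have := fpos q; have := fpos k; have := fpos l
  rw [wt, wt, ← Real.sqrt_mul (by positivity), Nat.factorial_succ]
  congr 1; push_cast; ring

lemma wt_k (k l p q : ℕ) : Real.sqrt (k + 1) * wt (k + 1) l p q = wt k l p q := by
  have := fpos p; have := fpos q; have := fpos k; have := fpos l
  rw [wt, wt, ← Real.sqrt_mul (by positivity), Nat.factorial_succ]
  congr 1; push_cast; field_simp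

lemma wt_l (k l p q : ℕ) : Real.sqrt (l + 1) * wt k (l + 1) p q = wt k l p q := by
  have := fpos p; have := fpos q; have := fpos k; have := fpos l
  rw [wt, wt, ← Real.sqrt_mul (by positivity), Nat.factorial_succ]
  congr 1; push_cast; field_simp

lemma bsAmp_eq' (η : ℝ) (k l p q : ℕ) :
    bsAmp η k l p q = if p + q = k + l then
      wt k l p q * Kc (Real.sqrt η) (Real.sqrt (1 - η)) k l p else 0 := bsAmp_eq η k l p q


/-! ### ladder relations of the one-pair amplitudes

`amp(k,l;p,q) = ⟨p,q|U|k,l⟩`, `U a†_A U* = √η c† - √(1-η) d†`, `U a†_B U* = √(1-η) c† + √η d†`. -/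

lemma sqrt_mul_wt_left (k l p q : ℕ) (x : ℝ) :
    wt (k + 1) l p q * (((k + 1 : ℕ) : ℝ) * x) = Real.sqrt (k + 1) * (wt k l p q * x) := by
  rw [← wt_k k l p q]
  have : (Real.sqrt ((k : ℝ) + 1)) * Real.sqrt ((k : ℝ) + 1) = (k : ℝ) + 1 :=
    Real.mul_self_sqrt (by positivity)
  push_cast
  linear_combination (-(wt (k + 1) l p q * x)) * this

lemma sqrt_mul_wt_right (k l p q : ℕ) (x : ℝ) :
    wt k (l + 1) p q * (((l + 1 : ℕ) : ℝ) * x) = Real.sqrt (l + 1) * (wt k l p q * x) := by
  rw [← wt_l k l p q]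
  have : (Real.sqrt ((l : ℝ) + 1)) * Real.sqrt ((l : ℝ) + 1) = (l : ℝ) + 1 :=
    Real.mul_self_sqrt (by positivity)
  push_cast
  linear_combination (-(wt k (l + 1) p q * x)) * this

/-- `⟨p,q| c U |k,l⟩ = ⟨p,q| U (√η a + √(1-η) b) |k,l⟩`. -/
theorem amp_c (η : ℝ) (k l p q : ℕ) :
    Real.sqrt (p + 1) * bsAmp η k l (p + 1) q
      = Real.sqrt η * Real.sqrt k * bsAmp η (k - 1) l p q
        + Real.sqrt (1 - η) * Real.sqrt l * bsAmp η k (l - 1) p q := by
  set s := Real.sqrt η
  set c := Real.sqrt (1 - η)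
  by_cases h : p + 1 + q = k + l
  · have hp : Real.sqrt ((p : ℝ) + 1) * Real.sqrt ((p : ℝ) + 1) = (p : ℝ) + 1 :=
      Real.mul_self_sqrt (by positivity)
    rw [bsAmp_eq' η k l (p + 1) q, if_pos h, wt_p]
    have e0 : Real.sqrt (p + 1) * (Real.sqrt (p + 1) * wt k l p q * Kc s c k l (p + 1))
        = wt k l p q * (((p : ℝ) + 1) * Kc s c k l (p + 1)) := by
      linear_combination (wt k l p q * Kc s c k l (p + 1)) * hp
    rw [e0, Kc_deriv]
    have e1 : s * Real.sqrt k * bsAmp η (k - 1) l p q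
        = wt k l p q * (k * s * Kc s c (k - 1) l p) := by
      rcases k with _ | k
      · simp
      · rw [bsAmp_eq', if_pos (by simp; omega)]
        have := sqrt_mul_wt_left k l p q (s * Kc s c k l p)
        simp only [Nat.add_sub_cancel]
        push_cast at this ⊢
        linear_combination -this
    have e2 : c * Real.sqrt l * bsAmp η k (l - 1) p q
        = wt k l p q * (l * c * Kc s c k (l - 1) p) := by
      rcases l with _ | l
      · simp
      · rw [bsAmp_eq', if_pos (by simp; omega)]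
        have := sqrt_mul_wt_right k l p q (c * Kc s c k l p)
        simp only [Nat.add_sub_cancel]
        push_cast at this ⊢
        linear_combination -this
    rw [e1, e2]; ring
  · rw [bsAmp_of_ne η (by omega)]
    rcases k with _ | k <;> rcases l with _ | l
    · simp
    · rw [bsAmp_of_ne (k := 0) (l := l + 1 - 1) η (by simp; omega)]; simp
    · rw [bsAmp_of_ne (k := k + 1 - 1) (l := 0) η (by simp; omega)]; simp
    · rw [bsAmp_of_ne (k := k + 1) (l := l + 1 - 1) η (by simp; omega),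
        bsAmp_of_ne (k := k + 1 - 1) (l := l + 1) η (by simp; omega)]; simp

/-- `⟨p,q| d U |k,l⟩ = ⟨p,q| U (-√(1-η) a + √η b) |k,l⟩`. -/
theorem amp_d (η : ℝ) (k l p q : ℕ) :
    Real.sqrt (q + 1) * bsAmp η k l p (q + 1)
      = - (Real.sqrt (1 - η) * Real.sqrt k * bsAmp η (k - 1) l p q)
        + Real.sqrt η * Real.sqrt l * bsAmp η k (l - 1) p q := by
  set s := Real.sqrt η
  set c := Real.sqrt (1 - η)
  by_cases h : p + (q + 1) = k + l
  · have hq : Real.sqrt ((q : ℝ) + 1) * Real.sqrt ((q : ℝ) + 1) = (q : ℝ) + 1 :=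
      Real.mul_self_sqrt (by positivity)
    rw [bsAmp_eq' η k l p (q + 1), if_pos h, wt_q]
    have hR : (k : ℝ) + l - p = (q : ℝ) + 1 := by
      have := congrArg (Nat.cast (R := ℝ)) h
      push_cast at this; linarith
    have e0 : Real.sqrt (q + 1) * (Real.sqrt (q + 1) * wt k l p q * Kc s c k l p)
        = wt k l p q * (((k : ℝ) + l - p) * Kc s c k l p) := by
      rw [hR]
      linear_combination (wt k l p q * Kc s c k l p) * hq
    rw [e0, Kc_euler]
    have e1 : c * Real.sqrt k * bsAmp η (k - 1) l p q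
        = wt k l p q * (k * c * Kc s c (k - 1) l p) := by
      rcases k with _ | k
      · simp
      · rw [bsAmp_eq', if_pos (by simp; omega)]
        have := sqrt_mul_wt_left k l p q (c * Kc s c k l p)
        simp only [Nat.add_sub_cancel]
        push_cast at this ⊢
        linear_combination -this
    have e2 : s * Real.sqrt l * bsAmp η k (l - 1) p q
        = wt k l p q * (l * s * Kc s c k (l - 1) p) := by
      rcases l with _ | l
      · simp
      · rw [bsAmp_eq', if_pos (by simp; omega)]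
        have := sqrt_mul_wt_right k l p q (s * Kc s c k l p)
        simp only [Nat.add_sub_cancel]
        push_cast at this ⊢
        linear_combination -this
    rw [e1, e2]; ring
  · rw [bsAmp_of_ne η (by omega)]
    rcases k with _ | k <;> rcases l with _ | l
    · simp
    · rw [bsAmp_of_ne (k := 0) (l := l + 1 - 1) η (by simp; omega)]; simp
    · rw [bsAmp_of_ne (k := k + 1 - 1) (l := 0) η (by simp; omega)]; simp
    · rw [bsAmp_of_ne (k := k + 1) (l := l + 1 - 1) η (by simp; omega),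
        bsAmp_of_ne (k := k + 1 - 1) (l := l + 1) η (by simp; omega)]; simp

/-- `⟨p,q| U a† |k,l⟩ = ⟨p,q| (√η c† - √(1-η) d†) U |k,l⟩`. -/
theorem amp_a_dag (η : ℝ) (k l p q : ℕ) :
    Real.sqrt (k + 1) * bsAmp η (k + 1) l p q
      = Real.sqrt η * Real.sqrt p * bsAmp η k l (p - 1) q
        - Real.sqrt (1 - η) * Real.sqrt q * bsAmp η k l p (q - 1) := by
  set s := Real.sqrt η
  set c := Real.sqrt (1 - η)
  by_cases h : p + q = k + 1 + l
  · have ew : Real.sqrt ((k : ℝ) + 1) * bsAmp η (k + 1) l p q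
        = wt k l p q * Kc s c (k + 1) l p := by
      rw [bsAmp_eq', if_pos h, ← mul_assoc, wt_k]
    rw [ew]
    rcases p with _ | p
    · rcases q with _ | q
      · omega
      · rw [Kc_succ_left_zero, wt_q]
        have : bsAmp η k l 0 (q + 1 - 1) = wt k l 0 q * Kc s c k l 0 := by
          rw [bsAmp_eq', if_pos (by simp; omega)]; simp [s, c]
        rw [this]; push_cast; simp only [Real.sqrt_zero]; ring
    · rcases q with _ | q
      · have hz : Kc s c k l (p + 1) = 0 := by
          unfold Kc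
          apply coeff_eq_zero_of_natDegree_lt
          refine lt_of_le_of_lt natDegree_mul_le ?_
          have h1 : ((C s * X - C c : ℝ[X]) ^ k).natDegree ≤ k := by
            refine (natDegree_pow_le).trans ?_
            have : (C s * X - C c : ℝ[X]).natDegree ≤ 1 := by compute_degree
            nlinarith
          have h2 : ((C c * X + C s : ℝ[X]) ^ l).natDegree ≤ l := by
            refine (natDegree_pow_le).trans ?_
            have : (C c * X + C s : ℝ[X]).natDegree ≤ 1 := by compute_degree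
            nlinarith
          omega
        rw [Kc_succ_left, hz, wt_p]
        have : bsAmp η k l (p + 1 - 1) 0 = wt k l p 0 * Kc s c k l p := by
          rw [bsAmp_eq', if_pos (by simp; omega)]; simp [s, c]
        rw [this]; push_cast; simp only [Real.sqrt_zero]; ring
      · rw [Kc_succ_left]
        have e1 : bsAmp η k l (p + 1 - 1) (q + 1) = wt k l p (q + 1) * Kc s c k l p := by
          rw [bsAmp_eq', if_pos (by simp; omega)]; simp [s, c]
        have e2 : bsAmp η k l (p + 1) (q + 1 - 1) = wt k l (p + 1) q * Kc s c k l (p + 1) := by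
          rw [bsAmp_eq', if_pos (by simp; omega)]; simp [s, c]
        rw [e1, e2, wt_p k l p (q + 1), wt_q k l p q, wt_p k l p q]
        push_cast
        ring
  · rw [bsAmp_of_ne η (by omega)]
    rcases p with _ | p <;> rcases q with _ | q
    · simp
    · rw [bsAmp_of_ne (p := 0) (q := q + 1 - 1) η (by simp; omega)]; simp
    · rw [bsAmp_of_ne (p := p + 1 - 1) (q := 0) η (by simp; omega)]; simp
    · rw [bsAmp_of_ne (p := p + 1) (q := q + 1 - 1) η (by simp; omega),
        bsAmp_of_ne (p := p + 1 - 1) (q := q + 1) η (by simp; omega)]; simp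

/-- `⟨p,q| U b† |k,l⟩ = ⟨p,q| (√(1-η) c† + √η d†) U |k,l⟩`. -/
theorem amp_b_dag (η : ℝ) (k l p q : ℕ) :
    Real.sqrt (l + 1) * bsAmp η k (l + 1) p q
      = Real.sqrt (1 - η) * Real.sqrt p * bsAmp η k l (p - 1) q
        + Real.sqrt η * Real.sqrt q * bsAmp η k l p (q - 1) := by
  set s := Real.sqrt η
  set c := Real.sqrt (1 - η)
  by_cases h : p + q = k + (l + 1)
  · have ew : Real.sqrt ((l : ℝ) + 1) * bsAmp η k (l + 1) p q
        = wt k l p q * Kc s c k (l + 1) p := by
      rw [bsAmp_eq', if_pos h, ← mul_assoc, wt_l]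
    rw [ew]
    rcases p with _ | p
    · rcases q with _ | q
      · omega
      · rw [Kc_succ_right_zero, wt_q]
        have : bsAmp η k l 0 (q + 1 - 1) = wt k l 0 q * Kc s c k l 0 := by
          rw [bsAmp_eq', if_pos (by simp; omega)]; simp [s, c]
        rw [this]; push_cast; simp only [Real.sqrt_zero]; ring
    · rcases q with _ | q
      · have hz : Kc s c k l (p + 1) = 0 := by
          unfold Kc
          apply coeff_eq_zero_of_natDegree_lt
          refine lt_of_le_of_lt natDegree_mul_le ?_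
          have h1 : ((C s * X - C c : ℝ[X]) ^ k).natDegree ≤ k := by
            refine (natDegree_pow_le).trans ?_
            have : (C s * X - C c : ℝ[X]).natDegree ≤ 1 := by compute_degree
            nlinarith
          have h2 : ((C c * X + C s : ℝ[X]) ^ l).natDegree ≤ l := by
            refine (natDegree_pow_le).trans ?_
            have : (C c * X + C s : ℝ[X]).natDegree ≤ 1 := by compute_degree
            nlinarith
          omega
        rw [Kc_succ_right, hz, wt_p]
        have : bsAmp η k l (p + 1 - 1) 0 = wt k l p 0 * Kc s c k l p := by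
          rw [bsAmp_eq', if_pos (by simp; omega)]; simp [s, c]
        rw [this]; push_cast; simp only [Real.sqrt_zero]; ring
      · rw [Kc_succ_right]
        have e1 : bsAmp η k l (p + 1 - 1) (q + 1) = wt k l p (q + 1) * Kc s c k l p := by
          rw [bsAmp_eq', if_pos (by simp; omega)]; simp [s, c]
        have e2 : bsAmp η k l (p + 1) (q + 1 - 1) = wt k l (p + 1) q * Kc s c k l (p + 1) := by
          rw [bsAmp_eq', if_pos (by simp; omega)]; simp [s, c]
        rw [e1, e2, wt_p k l p (q + 1), wt_q k l p q, wt_p k l p q]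
        push_cast
        ring
  · rw [bsAmp_of_ne η (by omega)]
    rcases p with _ | p <;> rcases q with _ | q
    · simp
    · rw [bsAmp_of_ne (p := 0) (q := q + 1 - 1) η (by simp; omega)]; simp
    · rw [bsAmp_of_ne (p := p + 1 - 1) (q := 0) η (by simp; omega)]; simp
    · rw [bsAmp_of_ne (p := p + 1) (q := q + 1 - 1) η (by simp; omega),
        bsAmp_of_ne (p := p + 1 - 1) (q := q + 1) η (by simp; omega)]; simp


/-! ### inverse ladder relations and orthogonality (`0 ≤ η ≤ 1`) -/

lemma sq_add_sq {η : ℝ} (h0 : 0 ≤ η) (h1 : η ≤ 1) :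
    Real.sqrt η * Real.sqrt η + Real.sqrt (1 - η) * Real.sqrt (1 - η) = 1 := by
  rw [Real.mul_self_sqrt h0, Real.mul_self_sqrt (by linarith)]; ring

/-- `⟨p,q| U a |k,l⟩ = ⟨p,q| (√η c - √(1-η) d) U |k,l⟩`. -/
theorem amp_a {η : ℝ} (h0 : 0 ≤ η) (h1 : η ≤ 1) (k l p q : ℕ) :
    Real.sqrt k * bsAmp η (k - 1) l p q
      = Real.sqrt η * (Real.sqrt (p + 1) * bsAmp η k l (p + 1) q)
        - Real.sqrt (1 - η) * (Real.sqrt (q + 1) * bsAmp η k l p (q + 1)) := by
  rw [amp_c, amp_d]
  linear_combination (-(Real.sqrt k * bsAmp η (k - 1) l p q)) * sq_add_sq h0 h1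

/-- `⟨p,q| U b |k,l⟩ = ⟨p,q| (√(1-η) c + √η d) U |k,l⟩`. -/
theorem amp_b {η : ℝ} (h0 : 0 ≤ η) (h1 : η ≤ 1) (k l p q : ℕ) :
    Real.sqrt l * bsAmp η k (l - 1) p q
      = Real.sqrt (1 - η) * (Real.sqrt (p + 1) * bsAmp η k l (p + 1) q)
        + Real.sqrt η * (Real.sqrt (q + 1) * bsAmp η k l p (q + 1)) := by
  rw [amp_c, amp_d]
  linear_combination (-(Real.sqrt l * bsAmp η k (l - 1) p q)) * sq_add_sq h0 h1

/-- `⟨p,q| c† U |k,l⟩ = ⟨p,q| U (√η a† + √(1-η) b†) |k,l⟩`. -/
theorem amp_c_dag {η : ℝ} (h0 : 0 ≤ η) (h1 : η ≤ 1) (k l p q : ℕ) :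
    Real.sqrt p * bsAmp η k l (p - 1) q
      = Real.sqrt η * (Real.sqrt (k + 1) * bsAmp η (k + 1) l p q)
        + Real.sqrt (1 - η) * (Real.sqrt (l + 1) * bsAmp η k (l + 1) p q) := by
  rw [amp_a_dag, amp_b_dag]
  linear_combination (-(Real.sqrt p * bsAmp η k l (p - 1) q)) * sq_add_sq h0 h1

/-- `⟨p,q| d† U |k,l⟩ = ⟨p,q| U (-√(1-η) a† + √η b†) |k,l⟩`. -/
theorem amp_d_dag {η : ℝ} (h0 : 0 ≤ η) (h1 : η ≤ 1) (k l p q : ℕ) :
    Real.sqrt q * bsAmp η k l p (q - 1)
      = - (Real.sqrt (1 - η) * (Real.sqrt (k + 1) * bsAmp η (k + 1) l p q))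
        + Real.sqrt η * (Real.sqrt (l + 1) * bsAmp η k (l + 1) p q) := by
  rw [amp_a_dag, amp_b_dag]
  linear_combination (-(Real.sqrt q * bsAmp η k l p (q - 1))) * sq_add_sq h0 h1

lemma bsAmp_zero (η : ℝ) : bsAmp η 0 0 0 0 = 1 := by
  simp [bsAmp]

/-- inner product of two rows on the block `p + q = N`. -/
def row (η : ℝ) (k l k' l' N : ℕ) : ℝ :=
  ∑ x ∈ antidiagonal N, bsAmp η k l x.1 x.2 * bsAmp η k' l' x.1 x.2

/-- summation shift on the antidiagonal in the first variable. -/
lemma sum_antidiag_shift_fst (N : ℕ) (f g : ℕ → ℕ → ℝ) :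
    ∑ x ∈ antidiagonal (N + 1), Real.sqrt x.1 * f (x.1 - 1) x.2 * g x.1 x.2
      = ∑ x ∈ antidiagonal N, f x.1 x.2 * (Real.sqrt (x.1 + 1) * g (x.1 + 1) x.2) := by
  rw [Finset.Nat.antidiagonal_succ]
  simp only [sum_cons, sum_map, Function.Embedding.prodMap, Function.Embedding.coeFn_mk,
    Prod.map_fst, Prod.map_snd, Nat.cast_zero, Real.sqrt_zero, zero_mul, zero_add,
    Nat.succ_eq_add_one, Function.Embedding.refl_apply, Nat.cast_add, Nat.cast_one,
    Nat.add_sub_cancel]
  exact Finset.sum_congr rfl fun x _ => by ring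

lemma sum_antidiag_shift_snd (N : ℕ) (f g : ℕ → ℕ → ℝ) :
    ∑ x ∈ antidiagonal (N + 1), Real.sqrt x.2 * f x.1 (x.2 - 1) * g x.1 x.2
      = ∑ x ∈ antidiagonal N, f x.1 x.2 * (Real.sqrt (x.2 + 1) * g x.1 (x.2 + 1)) := by
  rw [Finset.Nat.antidiagonal_succ']
  simp only [sum_cons, sum_map, Function.Embedding.prodMap, Function.Embedding.coeFn_mk,
    Prod.map_fst, Prod.map_snd, Nat.cast_zero, Real.sqrt_zero, zero_mul, zero_add,
    Nat.succ_eq_add_one, Function.Embedding.refl_apply, Nat.cast_add, Nat.cast_one,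
    Nat.add_sub_cancel]
  exact Finset.sum_congr rfl fun x _ => by ring


lemma row_succ_left {η : ℝ} (h0 : 0 ≤ η) (h1 : η ≤ 1) (k l k' l' N : ℕ) :
    Real.sqrt (k + 1) * row η (k + 1) l k' l' (N + 1)
      = Real.sqrt k' * row η k l (k' - 1) l' N := by
  unfold row
  rw [mul_sum]
  have e1 : ∀ x ∈ antidiagonal (N + 1),
      Real.sqrt (k + 1) * (bsAmp η (k + 1) l x.1 x.2 * bsAmp η k' l' x.1 x.2)
      = Real.sqrt η * (Real.sqrt x.1 * bsAmp η k l (x.1 - 1) x.2 * bsAmp η k' l' x.1 x.2)
        - Real.sqrt (1 - η) * (Real.sqrt x.2 * bsAmp η k l x.1 (x.2 - 1) *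
            bsAmp η k' l' x.1 x.2) := by
    intro x _
    rw [← mul_assoc, amp_a_dag]; ring
  rw [sum_congr rfl e1, sum_sub_distrib, ← mul_sum, ← mul_sum,
    sum_antidiag_shift_fst N (fun a b => bsAmp η k l a b) (fun a b => bsAmp η k' l' a b),
    sum_antidiag_shift_snd N (fun a b => bsAmp η k l a b) (fun a b => bsAmp η k' l' a b),
    mul_sum, mul_sum, mul_sum, ← sum_sub_distrib]
  apply sum_congr rfl
  intro x _
  have := amp_a h0 h1 k' l' x.1 x.2
  linear_combination (-(bsAmp η k l x.1 x.2)) * this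

lemma row_succ_right {η : ℝ} (h0 : 0 ≤ η) (h1 : η ≤ 1) (k l k' l' N : ℕ) :
    Real.sqrt (l + 1) * row η k (l + 1) k' l' (N + 1)
      = Real.sqrt l' * row η k l k' (l' - 1) N := by
  unfold row
  rw [mul_sum]
  have e1 : ∀ x ∈ antidiagonal (N + 1),
      Real.sqrt (l + 1) * (bsAmp η k (l + 1) x.1 x.2 * bsAmp η k' l' x.1 x.2)
      = Real.sqrt (1 - η) * (Real.sqrt x.1 * bsAmp η k l (x.1 - 1) x.2 * bsAmp η k' l' x.1 x.2)
        + Real.sqrt η * (Real.sqrt x.2 * bsAmp η k l x.1 (x.2 - 1) *
            bsAmp η k' l' x.1 x.2) := by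
    intro x _
    rw [← mul_assoc, amp_b_dag]; ring
  rw [sum_congr rfl e1, sum_add_distrib, ← mul_sum, ← mul_sum,
    sum_antidiag_shift_fst N (fun a b => bsAmp η k l a b) (fun a b => bsAmp η k' l' a b),
    sum_antidiag_shift_snd N (fun a b => bsAmp η k l a b) (fun a b => bsAmp η k' l' a b),
    mul_sum, mul_sum, mul_sum, ← sum_add_distrib]
  apply sum_congr rfl
  intro x _
  have := amp_b h0 h1 k' l' x.1 x.2
  linear_combination (-(bsAmp η k l x.1 x.2)) * this

theorem row_eq {η : ℝ} (h0 : 0 ≤ η) (h1 : η ≤ 1) (N : ℕ) :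
    ∀ k l k' l' : ℕ, k + l = N → k' + l' = N →
      row η k l k' l' N = if k = k' then 1 else 0 := by
  induction N with
  | zero =>
    intro k l k' l' h h'
    obtain rfl : k = 0 := by omega
    obtain rfl : l = 0 := by omega
    obtain rfl : k' = 0 := by omega
    obtain rfl : l' = 0 := by omega
    simp [row, bsAmp_zero]
  | succ N ih =>
    intro k l k' l' h h'
    rcases k with _ | k
    · obtain ⟨l, rfl⟩ : ∃ l₁, l = l₁ + 1 := ⟨l - 1, by omega⟩
      have hr := row_succ_right h0 h1 0 l k' l' N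
      have hpos : 0 < Real.sqrt ((l : ℝ) + 1) := Real.sqrt_pos.mpr (by positivity)
      rcases l' with _ | l'
      · have : k' ≠ 0 := by omega
        rw [if_neg (Ne.symm this)]
        simp only [Nat.cast_zero, Real.sqrt_zero, zero_mul] at hr
        rcases mul_eq_zero.mp hr with h2 | h2
        · exact absurd h2 hpos.ne'
        · exact h2
      · rw [Nat.add_sub_cancel, ih 0 l k' l' (by omega) (by omega)] at hr
        by_cases hk : 0 = k'
        · rw [if_pos hk] at hr ⊢
          have hl : l = l' := by omega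
          subst hl
          push_cast at hr
          exact mul_left_cancel₀ hpos.ne' hr
        · rw [if_neg hk] at hr ⊢
          rw [mul_zero] at hr
          rcases mul_eq_zero.mp hr with h2 | h2
          · exact absurd h2 hpos.ne'
          · exact h2
    · have hr := row_succ_left h0 h1 k l k' l' N
      have hpos : 0 < Real.sqrt ((k : ℝ) + 1) := Real.sqrt_pos.mpr (by positivity)
      rcases k' with _ | k'
      · simp only [Nat.cast_zero, Real.sqrt_zero, zero_mul] at hr
        rw [if_neg (by omega)]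
        rcases mul_eq_zero.mp hr with h2 | h2
        · exact absurd h2 hpos.ne'
        · exact h2
      · rw [Nat.add_sub_cancel, ih k l k' l' (by omega) (by omega)] at hr
        by_cases hk : k = k'
        · subst hk
          rw [if_pos rfl] at hr ⊢
          push_cast at hr
          exact mul_left_cancel₀ hpos.ne' hr
        · rw [if_neg hk] at hr
          rw [if_neg (by omega)]
          rw [mul_zero] at hr
          rcases mul_eq_zero.mp hr with h2 | h2
          · exact absurd h2 hpos.ne'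
          · exact h2

/-- inner product of two columns on the block `k + l = N`. -/
def col (η : ℝ) (p q p' q' N : ℕ) : ℝ :=
  ∑ x ∈ antidiagonal N, bsAmp η x.1 x.2 p q * bsAmp η x.1 x.2 p' q'

lemma col_succ_left {η : ℝ} (h0 : 0 ≤ η) (h1 : η ≤ 1) (p q p' q' N : ℕ) :
    Real.sqrt (p + 1) * col η (p + 1) q p' q' (N + 1)
      = Real.sqrt p' * col η p q (p' - 1) q' N := by
  unfold col
  rw [mul_sum]
  have e1 : ∀ x ∈ antidiagonal (N + 1),
      Real.sqrt (p + 1) * (bsAmp η x.1 x.2 (p + 1) q * bsAmp η x.1 x.2 p' q')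
      = Real.sqrt η * (Real.sqrt x.1 * bsAmp η (x.1 - 1) x.2 p q * bsAmp η x.1 x.2 p' q')
        + Real.sqrt (1 - η) * (Real.sqrt x.2 * bsAmp η x.1 (x.2 - 1) p q *
            bsAmp η x.1 x.2 p' q') := by
    intro x _
    rw [← mul_assoc, amp_c]; ring
  rw [sum_congr rfl e1, sum_add_distrib, ← mul_sum, ← mul_sum,
    sum_antidiag_shift_fst N (fun a b => bsAmp η a b p q) (fun a b => bsAmp η a b p' q'),
    sum_antidiag_shift_snd N (fun a b => bsAmp η a b p q) (fun a b => bsAmp η a b p' q'),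
    mul_sum, mul_sum, mul_sum, ← sum_add_distrib]
  apply sum_congr rfl
  intro x _
  have := amp_c_dag h0 h1 x.1 x.2 p' q'
  linear_combination (-(bsAmp η x.1 x.2 p q)) * this

lemma col_succ_right {η : ℝ} (h0 : 0 ≤ η) (h1 : η ≤ 1) (p q p' q' N : ℕ) :
    Real.sqrt (q + 1) * col η p (q + 1) p' q' (N + 1)
      = Real.sqrt q' * col η p q p' (q' - 1) N := by
  unfold col
  rw [mul_sum]
  have e1 : ∀ x ∈ antidiagonal (N + 1),
      Real.sqrt (q + 1) * (bsAmp η x.1 x.2 p (q + 1) * bsAmp η x.1 x.2 p' q')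
      = Real.sqrt η * (Real.sqrt x.2 * bsAmp η x.1 (x.2 - 1) p q * bsAmp η x.1 x.2 p' q')
        - Real.sqrt (1 - η) * (Real.sqrt x.1 * bsAmp η (x.1 - 1) x.2 p q *
            bsAmp η x.1 x.2 p' q') := by
    intro x _
    rw [← mul_assoc, amp_d]; ring
  rw [sum_congr rfl e1, sum_sub_distrib, ← mul_sum, ← mul_sum,
    sum_antidiag_shift_fst N (fun a b => bsAmp η a b p q) (fun a b => bsAmp η a b p' q'),
    sum_antidiag_shift_snd N (fun a b => bsAmp η a b p q) (fun a b => bsAmp η a b p' q'),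
    mul_sum, mul_sum, mul_sum, ← sum_sub_distrib]
  apply sum_congr rfl
  intro x _
  have := amp_d_dag h0 h1 x.1 x.2 p' q'
  linear_combination (-(bsAmp η x.1 x.2 p q)) * this

theorem col_eq {η : ℝ} (h0 : 0 ≤ η) (h1 : η ≤ 1) (N : ℕ) :
    ∀ p q p' q' : ℕ, p + q = N → p' + q' = N →
      col η p q p' q' N = if p = p' then 1 else 0 := by
  induction N with
  | zero =>
    intro k l k' l' h h'
    obtain rfl : k = 0 := by omega
    obtain rfl : l = 0 := by omega
    obtain rfl : k' = 0 := by omega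
    obtain rfl : l' = 0 := by omega
    simp [col, bsAmp_zero]
  | succ N ih =>
    intro k l k' l' h h'
    rcases k with _ | k
    · obtain ⟨l, rfl⟩ : ∃ l₁, l = l₁ + 1 := ⟨l - 1, by omega⟩
      have hr := col_succ_right h0 h1 0 l k' l' N
      have hpos : 0 < Real.sqrt ((l : ℝ) + 1) := Real.sqrt_pos.mpr (by positivity)
      rcases l' with _ | l'
      · have : k' ≠ 0 := by omega
        rw [if_neg (Ne.symm this)]
        simp only [Nat.cast_zero, Real.sqrt_zero, zero_mul] at hr
        rcases mul_eq_zero.mp hr with h2 | h2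
        · exact absurd h2 hpos.ne'
        · exact h2
      · rw [Nat.add_sub_cancel, ih 0 l k' l' (by omega) (by omega)] at hr
        by_cases hk : 0 = k'
        · rw [if_pos hk] at hr ⊢
          have hl : l = l' := by omega
          subst hl
          push_cast at hr
          exact mul_left_cancel₀ hpos.ne' hr
        · rw [if_neg hk] at hr ⊢
          rw [mul_zero] at hr
          rcases mul_eq_zero.mp hr with h2 | h2
          · exact absurd h2 hpos.ne'
          · exact h2
    · have hr := col_succ_left h0 h1 k l k' l' N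
      have hpos : 0 < Real.sqrt ((k : ℝ) + 1) := Real.sqrt_pos.mpr (by positivity)
      rcases k' with _ | k'
      · simp only [Nat.cast_zero, Real.sqrt_zero, zero_mul] at hr
        rw [if_neg (by omega)]
        rcases mul_eq_zero.mp hr with h2 | h2
        · exact absurd h2 hpos.ne'
        · exact h2
      · rw [Nat.add_sub_cancel, ih k l k' l' (by omega) (by omega)] at hr
        by_cases hk : k = k'
        · subst hk
          rw [if_pos rfl] at hr ⊢
          push_cast at hr
          exact mul_left_cancel₀ hpos.ne' hr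
        · rw [if_neg hk] at hr
          rw [if_neg (by omega)]
          rw [mul_zero] at hr
          rcases mul_eq_zero.mp hr with h2 | h2
          · exact absurd h2 hpos.ne'
          · exact h2

end Crest.Agent.R331.BS375
end
end

-- ▼ part R331/BSn_375

/-! # n-mode beam splitter: orthogonality, ladders, the unitary on the pair Fock space (helper375) -/

set_option autoImplicit false

noncomputable section

namespace Crest.Agent.R331.BS375

open Crest.MathPhysics.Bosonic Finset
open scoped InnerProductSpace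

variable {n : ℕ}

lemma ampOcc_of_ne (η : ℝ) {a a' k e : Occ n} (h : k + e ≠ a + a') : ampOcc η a a' k e = 0 := by
  have : ∃ j, k j + e j ≠ a j + a' j := by
    by_contra hc
    push Not at hc
    exact h (funext hc)
  obtain ⟨j, hj⟩ := this
  exact Finset.prod_eq_zero (mem_univ j) (bsAmp_of_ne η hj)

@[simp] lemma fst_add_snd {m : Occ n} (x : Splitting m) : x.fst + x.snd = m := by
  funext j
  have := (x j).is_lt
  simp only [Pi.add_apply, Splitting.fst, Splitting.snd]
  omega

lemma splitting_fst_injective {m : Occ n} : Function.Injective (Splitting.fst (m := m)) := by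
  intro x y h
  funext j
  exact Fin.ext (congrFun h j)

/-- the splitting of `a + a'` given by `a`. -/
def splitOf (a a' m : Occ n) (h : a + a' = m) : Splitting m :=
  fun j => ⟨a j, by have := congrFun h j; simp only [Pi.add_apply] at this; omega⟩

@[simp] lemma splitOf_fst (a a' m : Occ n) (h : a + a' = m) : (splitOf a a' m h).fst = a := rfl
@[simp] lemma splitOf_snd (a a' m : Occ n) (h : a + a' = m) : (splitOf a a' m h).snd = a' := by
  funext j
  have := congrFun h j
  simp only [Pi.add_apply] at this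
  simp only [Splitting.snd, splitOf]
  omega

/-- a sum over splittings of a product is the product of the antidiagonal sums. -/
lemma sum_splitting_prod (m : Occ n) (f : Fin n → ℕ → ℕ → ℝ) :
    ∑ x : Splitting m, ∏ j, f j (x.fst j) (x.snd j)
      = ∏ j, ∑ y ∈ antidiagonal (m j), f j y.1 y.2 := by
  have h1 : ∀ j, ∑ y ∈ antidiagonal (m j), f j y.1 y.2
      = ∑ i : Fin (m j + 1), f j i (m j - i) := by
    intro j
    rw [Finset.Nat.sum_antidiagonal_eq_sum_range_succ_mk]
    exact (Fin.sum_univ_eq_sum_range (fun i => f j i (m j - i)) (m j + 1)).symm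
  simp only [h1]
  rw [Finset.prod_univ_sum]
  rw [Fintype.piFinset_univ]
  rfl

/-- rows of the n-mode amplitude matrix are orthonormal. -/
theorem ampOcc_row {η : ℝ} (h0 : 0 ≤ η) (h1 : η ≤ 1) (m a a' b b' : Occ n)
    (ha : a + a' = m) (hb : b + b' = m) :
    ∑ x : Splitting m, ampOcc η a a' x.fst x.snd * ampOcc η b b' x.fst x.snd
      = if a = b then 1 else 0 := by
  have e : ∀ x : Splitting m, ampOcc η a a' x.fst x.snd * ampOcc η b b' x.fst x.snd
      = ∏ j, (fun j p q => bsAmp η (a j) (a' j) p q * bsAmp η (b j) (b' j) p q) j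
          (x.fst j) (x.snd j) := by
    intro x
    simp only [ampOcc, ← Finset.prod_mul_distrib]
  rw [Finset.sum_congr rfl (fun x _ => e x),
    sum_splitting_prod m (fun j p q => bsAmp η (a j) (a' j) p q * bsAmp η (b j) (b' j) p q)]
  have e2 : ∀ j, ∑ y ∈ antidiagonal (m j),
      bsAmp η (a j) (a' j) y.1 y.2 * bsAmp η (b j) (b' j) y.1 y.2
      = if a j = b j then 1 else 0 := fun j =>
    row_eq h0 h1 (m j) _ _ _ _ (congrFun ha j) (congrFun hb j)
  simp only [e2]
  by_cases hab : a = b
  · subst hab; simp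
  · rw [if_neg hab]
    have : ∃ j, a j ≠ b j := by
      by_contra hc; push Not at hc; exact hab (funext hc)
    obtain ⟨j, hj⟩ := this
    exact Finset.prod_eq_zero (mem_univ j) (if_neg hj)

/-- columns of the n-mode amplitude matrix are orthonormal. -/
theorem ampOcc_col {η : ℝ} (h0 : 0 ≤ η) (h1 : η ≤ 1) (m k e k' e' : Occ n)
    (ha : k + e = m) (hb : k' + e' = m) :
    ∑ x : Splitting m, ampOcc η x.fst x.snd k e * ampOcc η x.fst x.snd k' e'
      = if k = k' then 1 else 0 := by
  have e1 : ∀ x : Splitting m, ampOcc η x.fst x.snd k e * ampOcc η x.fst x.snd k' e'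
      = ∏ j, (fun j p q => bsAmp η p q (k j) (e j) * bsAmp η p q (k' j) (e' j)) j
          (x.fst j) (x.snd j) := by
    intro x
    simp only [ampOcc, ← Finset.prod_mul_distrib]
  rw [Finset.sum_congr rfl (fun x _ => e1 x),
    sum_splitting_prod m (fun j p q => bsAmp η p q (k j) (e j) * bsAmp η p q (k' j) (e' j))]
  have e2 : ∀ j, ∑ y ∈ antidiagonal (m j),
      bsAmp η y.1 y.2 (k j) (e j) * bsAmp η y.1 y.2 (k' j) (e' j)
      = if k j = k' j then 1 else 0 := fun j =>
    col_eq h0 h1 (m j) _ _ _ _ (congrFun ha j) (congrFun hb j)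
  simp only [e2]
  by_cases hab : k = k'
  · subst hab; simp
  · rw [if_neg hab]
    have : ∃ j, k j ≠ k' j := by
      by_contra hc; push Not at hc; exact hab (funext hc)
    obtain ⟨j, hj⟩ := this
    exact Finset.prod_eq_zero (mem_univ j) (if_neg hj)

/-! ### ladders, one mode at a time -/

/-- the unit occupation tuple of mode `j`. -/
abbrev uni (j : Fin n) : Occ n := Pi.single j 1

lemma ampOcc_split (η : ℝ) (a a' k e : Occ n) (j : Fin n) :
    ampOcc η a a' k e = bsAmp η (a j) (a' j) (k j) (e j)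
      * ∏ i ∈ univ.erase j, bsAmp η (a i) (a' i) (k i) (e i) := by
  rw [ampOcc, ← Finset.mul_prod_erase univ _ (mem_univ j)]

lemma prod_erase_congr (η : ℝ) {a a' k e b b' l f : Occ n} (j : Fin n)
    (h : ∀ i, i ≠ j → a i = b i ∧ a' i = b' i ∧ k i = l i ∧ e i = f i) :
    ∏ i ∈ univ.erase j, bsAmp η (a i) (a' i) (k i) (e i)
      = ∏ i ∈ univ.erase j, bsAmp η (b i) (b' i) (l i) (f i) := by
  apply Finset.prod_congr rfl
  intro i hi
  obtain ⟨h1, h2, h3, h4⟩ := h i (Finset.ne_of_mem_erase hi)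
  rw [h1, h2, h3, h4]

lemma add_uni_ne {j i : Fin n} (k : Occ n) (h : i ≠ j) : (k + uni j) i = k i := by
  simp [uni, Pi.single_eq_of_ne h]
lemma sub_uni_ne {j i : Fin n} (k : Occ n) (h : i ≠ j) : (k - uni j) i = k i := by
  simp [uni, Pi.single_eq_of_ne h]
@[simp] lemma add_uni_self (j : Fin n) (k : Occ n) : (k + uni j) j = k j + 1 := by simp [uni]
@[simp] lemma sub_uni_self (j : Fin n) (k : Occ n) : (k - uni j) j = k j - 1 := by simp [uni]

theorem ampOcc_c (η : ℝ) (a a' k e : Occ n) (j : Fin n) :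
    Real.sqrt (k j + 1) * ampOcc η a a' (k + uni j) e
      = Real.sqrt η * Real.sqrt (a j) * ampOcc η (a - uni j) a' k e
        + Real.sqrt (1 - η) * Real.sqrt (a' j) * ampOcc η a (a' - uni j) k e := by
  rw [ampOcc_split η a a' (k + uni j) e j, ampOcc_split η (a - uni j) a' k e j,
    ampOcc_split η a (a' - uni j) k e j,
    prod_erase_congr η (b := a) (b' := a') (l := k) (f := e) j
      (fun i hi => ⟨rfl, rfl, add_uni_ne k hi, rfl⟩),
    prod_erase_congr η (a := a - uni j) (b := a) (b' := a') (l := k) (f := e) j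
      (fun i hi => ⟨sub_uni_ne a hi, rfl, rfl, rfl⟩),
    prod_erase_congr η (a' := a' - uni j) (b := a) (b' := a') (l := k) (f := e) j
      (fun i hi => ⟨rfl, sub_uni_ne a' hi, rfl, rfl⟩)]
  simp only [add_uni_self, sub_uni_self]
  have := amp_c η (a j) (a' j) (k j) (e j)
  linear_combination (∏ i ∈ univ.erase j, bsAmp η (a i) (a' i) (k i) (e i)) * this

theorem ampOcc_d (η : ℝ) (a a' k e : Occ n) (j : Fin n) :
    Real.sqrt (e j + 1) * ampOcc η a a' k (e + uni j)
      = - (Real.sqrt (1 - η) * Real.sqrt (a j) * ampOcc η (a - uni j) a' k e)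
        + Real.sqrt η * Real.sqrt (a' j) * ampOcc η a (a' - uni j) k e := by
  rw [ampOcc_split η a a' k (e + uni j) j, ampOcc_split η (a - uni j) a' k e j,
    ampOcc_split η a (a' - uni j) k e j,
    prod_erase_congr η (b := a) (b' := a') (l := k) (f := e) j
      (fun i hi => ⟨rfl, rfl, rfl, add_uni_ne e hi⟩),
    prod_erase_congr η (a := a - uni j) (b := a) (b' := a') (l := k) (f := e) j
      (fun i hi => ⟨sub_uni_ne a hi, rfl, rfl, rfl⟩),
    prod_erase_congr η (a' := a' - uni j) (b := a) (b' := a') (l := k) (f := e) j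
      (fun i hi => ⟨rfl, sub_uni_ne a' hi, rfl, rfl⟩)]
  simp only [add_uni_self, sub_uni_self]
  have := amp_d η (a j) (a' j) (k j) (e j)
  linear_combination (∏ i ∈ univ.erase j, bsAmp η (a i) (a' i) (k i) (e i)) * this

theorem ampOcc_a_dag (η : ℝ) (a a' k e : Occ n) (j : Fin n) :
    Real.sqrt (a j + 1) * ampOcc η (a + uni j) a' k e
      = Real.sqrt η * Real.sqrt (k j) * ampOcc η a a' (k - uni j) e
        - Real.sqrt (1 - η) * Real.sqrt (e j) * ampOcc η a a' k (e - uni j) := by
  rw [ampOcc_split η (a + uni j) a' k e j, ampOcc_split η a a' (k - uni j) e j,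
    ampOcc_split η a a' k (e - uni j) j,
    prod_erase_congr η (a := a + uni j) (b := a) (b' := a') (l := k) (f := e) j
      (fun i hi => ⟨add_uni_ne a hi, rfl, rfl, rfl⟩),
    prod_erase_congr η (k := k - uni j) (b := a) (b' := a') (l := k) (f := e) j
      (fun i hi => ⟨rfl, rfl, sub_uni_ne k hi, rfl⟩),
    prod_erase_congr η (e := e - uni j) (b := a) (b' := a') (l := k) (f := e) j
      (fun i hi => ⟨rfl, rfl, rfl, sub_uni_ne e hi⟩)]
  simp only [add_uni_self, sub_uni_self]
  have := amp_a_dag η (a j) (a' j) (k j) (e j)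
  linear_combination (∏ i ∈ univ.erase j, bsAmp η (a i) (a' i) (k i) (e i)) * this

theorem ampOcc_b_dag (η : ℝ) (a a' k e : Occ n) (j : Fin n) :
    Real.sqrt (a' j + 1) * ampOcc η a (a' + uni j) k e
      = Real.sqrt (1 - η) * Real.sqrt (k j) * ampOcc η a a' (k - uni j) e
        + Real.sqrt η * Real.sqrt (e j) * ampOcc η a a' k (e - uni j) := by
  rw [ampOcc_split η a (a' + uni j) k e j, ampOcc_split η a a' (k - uni j) e j,
    ampOcc_split η a a' k (e - uni j) j,
    prod_erase_congr η (a' := a' + uni j) (b := a) (b' := a') (l := k) (f := e) j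
      (fun i hi => ⟨rfl, add_uni_ne a' hi, rfl, rfl⟩),
    prod_erase_congr η (k := k - uni j) (b := a) (b' := a') (l := k) (f := e) j
      (fun i hi => ⟨rfl, rfl, sub_uni_ne k hi, rfl⟩),
    prod_erase_congr η (e := e - uni j) (b := a) (b' := a') (l := k) (f := e) j
      (fun i hi => ⟨rfl, rfl, rfl, sub_uni_ne e hi⟩)]
  simp only [add_uni_self, sub_uni_self]
  have := amp_b_dag η (a j) (a' j) (k j) (e j)
  linear_combination (∏ i ∈ univ.erase j, bsAmp η (a i) (a' i) (k i) (e i)) * this





/-! ### the unitary on the pair Fock space -/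

/-- two Fock spaces: square-summable amplitudes on pairs of occupation tuples. -/
abbrev Fock2 (n : ℕ) : Type := lp (fun _ : Occ n × Occ n => ℂ) 2

/-- number-basis vector of the pair space. -/
def ket2 (x : Occ n × Occ n) : Fock2 n := lp.single 2 x (1 : ℂ)

lemma inner_ket2_left (x : Occ n × Occ n) (f : Fock2 n) : ⟪ket2 x, f⟫_ℂ = f x := by
  rw [ket2, lp.inner_single_left]; simp

lemma inner_ket2 (x y : Occ n × Occ n) : ⟪ket2 x, ket2 y⟫_ℂ = if x = y then 1 else 0 := by
  rw [inner_ket2_left, ket2]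
  by_cases h : x = y
  · subst h; simp
  · rw [if_neg h, lp.single_apply_ne _ _ _ h]


/-- image of `|a, a'⟩` under the beam splitter. -/
def bsVec (η : ℝ) (x : Occ n × Occ n) : Fock2 n :=
  ∑ y : Splitting (x.1 + x.2), (ampOcc η x.1 x.2 y.fst y.snd : ℂ) • ket2 (y.fst, y.snd)

lemma bsVec_apply (η : ℝ) (x z : Occ n × Occ n) :
    (bsVec η x : Fock2 n) z = (ampOcc η x.1 x.2 z.1 z.2 : ℂ) := by
  rw [← inner_ket2_left, bsVec, inner_sum]
  simp only [inner_smul_right, inner_ket2]
  by_cases h : z.1 + z.2 = x.1 + x.2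
  · rw [Finset.sum_eq_single (splitOf z.1 z.2 _ h)]
    · simp
    · intro y _ hy
      rw [if_neg, mul_zero]
      intro hz
      apply hy
      apply splitting_fst_injective
      rw [splitOf_fst, hz]
    · simp
  · rw [ampOcc_of_ne η h]
    simp only [Complex.ofReal_zero]
    apply Finset.sum_eq_zero
    intro y _
    rw [if_neg, mul_zero]
    intro hz
    apply h
    rw [hz]; exact fst_add_snd y

lemma orthonormal_bsVec {η : ℝ} (h0 : 0 ≤ η) (h1 : η ≤ 1) :
    Orthonormal ℂ (bsVec (n := n) η) := by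
  rw [orthonormal_iff_ite]
  intro x y
  conv_lhs => rw [bsVec]
  rw [sum_inner]
  simp only [inner_smul_left, inner_ket2_left, bsVec_apply, Complex.conj_ofReal]
  by_cases h : y.1 + y.2 = x.1 + x.2
  · have := ampOcc_row h0 h1 (x.1 + x.2) x.1 x.2 y.1 y.2 rfl h
    have h2 : (∑ s : Splitting (x.1 + x.2), (ampOcc η x.1 x.2 s.fst s.snd : ℂ) *
        (ampOcc η y.1 y.2 s.fst s.snd : ℂ)) = ((if x.1 = y.1 then 1 else 0 : ℝ) : ℂ) := by
      rw [← this]; push_cast; rfl
    rw [h2]
    by_cases hxy : x = y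
    · subst hxy; simp
    · rw [if_neg hxy, if_neg]
      · simp
      · intro h3
        apply hxy
        rw [h3] at h
        exact Prod.ext h3 (add_left_cancel h).symm
  · rw [if_neg (fun hxy => h (by rw [hxy]))]
    apply Finset.sum_eq_zero
    intro s _
    rw [ampOcc_of_ne η (a := y.1) (a' := y.2) (by rw [fst_add_snd]; exact fun h' => h h'.symm)]
    simp

/-- `|k, e⟩` in terms of the images. -/
lemma ket2_eq_sum {η : ℝ} (h0 : 0 ≤ η) (h1 : η ≤ 1) (z : Occ n × Occ n) :
    ket2 z = ∑ y : Splitting (z.1 + z.2), (ampOcc η y.fst y.snd z.1 z.2 : ℂ) •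
      bsVec η (y.fst, y.snd) := by
  apply lp.ext
  funext w
  rw [lp.coeFn_sum, Finset.sum_apply]
  simp only [lp.coeFn_smul, Pi.smul_apply, bsVec_apply, smul_eq_mul]
  have hL : (ket2 z : Fock2 n) w = if w = z then 1 else 0 := by
    rw [← inner_ket2_left, inner_ket2]
  rw [hL]
  by_cases h : w.1 + w.2 = z.1 + z.2
  · have := ampOcc_col h0 h1 (z.1 + z.2) z.1 z.2 w.1 w.2 rfl h
    have h2 : (∑ s : Splitting (z.1 + z.2), (ampOcc η s.fst s.snd z.1 z.2 : ℂ) *
        (ampOcc η s.fst s.snd w.1 w.2 : ℂ)) = ((if z.1 = w.1 then 1 else 0 : ℝ) : ℂ) := by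
      rw [← this]; push_cast; rfl
    rw [h2]
    by_cases hxy : w = z
    · subst hxy; simp
    · rw [if_neg hxy, if_neg]
      · simp
      · intro h3
        apply hxy
        rw [h3] at h
        exact Prod.ext h3.symm (add_left_cancel h)
  · rw [if_neg (fun hxy => h (by rw [hxy]))]
    symm
    apply Finset.sum_eq_zero
    intro s _
    rw [ampOcc_of_ne η (k := w.1) (e := w.2) (by rw [fst_add_snd]; exact h)]
    simp

lemma ket2_dense : (⊤ : Submodule ℂ (Fock2 n)) ≤
    (Submodule.span ℂ (Set.range (ket2 (n := n)))).topologicalClosure := by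
  intro f _
  rw [← SetLike.mem_coe, Submodule.topologicalClosure_coe]
  have h : HasSum (fun i : Occ n × Occ n => lp.single 2 i (f i)) f :=
    lp.hasSum_single ENNReal.ofNat_ne_top f
  apply mem_closure_of_tendsto h
  refine Filter.Eventually.of_forall fun s => ?_
  rw [SetLike.mem_coe]
  apply Submodule.sum_mem
  intro i _
  have : (lp.single 2 i (f i) : Fock2 n) = (f i) • ket2 i := by
    rw [ket2, ← lp.single_smul]; simp
  rw [this]
  exact Submodule.smul_mem _ _ (Submodule.subset_span ⟨i, rfl⟩)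

lemma bsVec_dense {η : ℝ} (h0 : 0 ≤ η) (h1 : η ≤ 1) : (⊤ : Submodule ℂ (Fock2 n)) ≤
    (Submodule.span ℂ (Set.range (bsVec (n := n) η))).topologicalClosure := by
  refine ket2_dense.trans (Submodule.topologicalClosure_mono ?_)
  rw [Submodule.span_le]
  rintro _ ⟨z, rfl⟩
  rw [SetLike.mem_coe, ket2_eq_sum h0 h1 z]
  apply Submodule.sum_mem
  intro y _
  exact Submodule.smul_mem _ _ (Submodule.subset_span ⟨_, rfl⟩)

/-- the Hilbert basis of images. -/
def bsBasis {η : ℝ} (h0 : 0 ≤ η) (h1 : η ≤ 1) : HilbertBasis (Occ n × Occ n) ℂ (Fock2 n) :=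
  HilbertBasis.mk (orthonormal_bsVec h0 h1) (bsVec_dense h0 h1)

/-- the beam-splitter unitary `U` on the pair Fock space. -/
def bsU {η : ℝ} (h0 : 0 ≤ η) (h1 : η ≤ 1) : Fock2 n ≃ₗᵢ[ℂ] Fock2 n :=
  (bsBasis h0 h1).repr.symm

theorem bsU_ket2 {η : ℝ} (h0 : 0 ≤ η) (h1 : η ≤ 1) (x : Occ n × Occ n) :
    bsU h0 h1 (ket2 x) = bsVec η x := by
  rw [bsU, ket2, HilbertBasis.repr_symm_single, bsBasis, HilbertBasis.coe_mk]


theorem bsU_symm_ket2 {η : ℝ} (h0 : 0 ≤ η) (h1 : η ≤ 1) (z : Occ n × Occ n) :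
    (bsU h0 h1).symm (ket2 z) = ∑ y : Splitting (z.1 + z.2),
      (ampOcc η y.fst y.snd z.1 z.2 : ℂ) • ket2 (y.fst, y.snd) := by
  rw [LinearIsometryEquiv.symm_apply_eq, map_sum]
  simp only [map_smul, bsU_ket2]
  exact ket2_eq_sum h0 h1 z

/-- entries of `U f`: a finite sum. -/
theorem bsU_apply {η : ℝ} (h0 : 0 ≤ η) (h1 : η ≤ 1) (f : Fock2 n) (z : Occ n × Occ n) :
    (bsU h0 h1 f : Fock2 n) z = ∑ y : Splitting (z.1 + z.2),
      (ampOcc η y.fst y.snd z.1 z.2 : ℂ) * f (y.fst, y.snd) := by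
  rw [← inner_ket2_left, ← LinearIsometryEquiv.inner_map_map (bsU h0 h1).symm,
    LinearIsometryEquiv.symm_apply_apply, bsU_symm_ket2, sum_inner]
  simp only [inner_smul_left, inner_ket2_left, Complex.conj_ofReal]

end Crest.Agent.R331.BS375
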