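import Mathlib
import Crest.Prelude.Def_FockState

/-! Scalar layer for row 331 (EPnI): `b(N) = log (1+1/N)`, `g = gBose`, matching facts. -/

set_option autoImplicit false
open Crest.MathPhysics.Bosonic Real Set Filter Topology

namespace Crest.Agent.R331.Scal587

/-! ### Generic helpers -/


lemma strictAntiOn_Ioi_of_hasDerivAt {f f' : ℝ → ℝ} (h : ∀ x, 0 < x → HasDerivAt f (f' x) x)
    (hneg : ∀ x, 0 < x → f' x < 0) : StrictAntiOn f (Ioi 0) := by
  apply strictAntiOn_of_deriv_neg (convex_Ioi 0)
  · intro x hx; exact (h x hx).continuousAt.continuousWithinAt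
  · intro x hx
    rw [interior_Ioi] at hx
    rw [(h x hx).deriv]; exact hneg x hx


/-! ### The function `b` -/

/-- inverse temperature `b(N) = log (1 + 1/N)` -/
noncomputable def bN (N : ℝ) : ℝ := Real.log (1 + 1 / N)

lemma bN_pos {N : ℝ} (hN : 0 < N) : 0 < bN N := by
  unfold bN
  apply Real.log_pos
  have : 0 < 1 / N := by positivity
  linarith

lemma bN_eq {N : ℝ} (hN : 0 < N) : bN N = Real.log (N + 1) - Real.log N := by
  unfold bN
  rw [← Real.log_div (by positivity) hN.ne']
  congr 1
  field_simp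



lemma hasDerivAt_bN {N : ℝ} (hN : 0 < N) : HasDerivAt bN (-(1 / (N * (N + 1)))) N := by
  have h1 : HasDerivAt (fun x : ℝ => Real.log (x + 1) - Real.log x) (1 / (N + 1) - 1 / N) N := by
    have ha : HasDerivAt (fun x : ℝ => Real.log (x + 1)) (1 / (N + 1)) N := by
      have := (hasDerivAt_id N).add_const (1 : ℝ)
      exact this.log (by simp only [id]; positivity)
    have hb : HasDerivAt (fun x : ℝ => Real.log x) (1 / N) N := by
      simpa [one_div] using Real.hasDerivAt_log hN.ne'
    exact ha.sub hb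
  have h2 : (1 / (N + 1) - 1 / N) = -(1 / (N * (N + 1))) := by field_simp; ring
  rw [h2] at h1
  apply h1.congr_of_eventuallyEq
  filter_upwards [lt_mem_nhds hN] with x hx
  exact bN_eq hx


lemma strictAntiOn_bN : StrictAntiOn bN (Ioi 0) :=
  strictAntiOn_Ioi_of_hasDerivAt (fun _ hx => hasDerivAt_bN hx) (fun x hx => by
    have : 0 < 1 / (x * (x + 1)) := by positivity
    linarith)



/-! ### The function `g` -/


lemma continuous_gBose : Continuous gBose := by
  unfold gBose
  have h := Real.continuous_mul_log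
  exact (h.comp (continuous_id.add continuous_const)).sub h












/-! ### Concavity of `1/b` and of `N (N+1) b` -/





/-! ### Matching facts for finite families -/

section Family

variable {ι : Type*} (s : Finset ι) (η N : ι → ℝ)




end Family

/-! ### Two inputs -/

/-- the two-input coefficient `lam_X = η_X (b_C + kap) / b_X` -/
noncomputable def lam (ηX kap NC NX : ℝ) : ℝ := ηX * (bN NC + kap) / bN NX

lemma lam_nonneg {ηX kap NC NX : ℝ} (h : 0 ≤ ηX) (hk : 0 ≤ kap) (hC : 0 < NC) (hX : 0 < NX) :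
    0 ≤ lam ηX kap NC NX := by
  unfold lam
  have := bN_pos hC; have := bN_pos hX
  positivity








/-- `λ_X ≤ 1` for `κ = 0`, from `N_C ≥ η_X N_X` only. -/
lemma lam_le_one {ηX NX NC : ℝ} (h0 : 0 ≤ ηX) (h1 : ηX ≤ 1) (hX : 0 < NX) (hC : 0 < NC)
    (h : ηX * NX ≤ NC) : lam ηX 0 NC NX ≤ 1 := by
  unfold lam
  rw [add_zero, div_le_one (bN_pos hX)]
  rcases h0.eq_or_lt with h00 | h00
  · rw [← h00]; simpa using (bN_pos hX).le
  have hmul : 0 < ηX * NX := mul_pos h00 hX
  have hb : bN NC ≤ bN (ηX * NX) := strictAntiOn_bN.antitoneOn hmul hC h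
  have hj : ηX * bN (ηX * NX) ≤ bN NX := by
    have hconc := strictConcaveOn_log_Ioi.concaveOn.2 (x := 1 + 1 / (ηX * NX)) (y := 1)
      (by simp only [mem_Ioi]; positivity) (by simp) h00.le (by linarith : 0 ≤ 1 - ηX) (by ring)
    simp only [smul_eq_mul, Real.log_one, mul_zero, add_zero, mul_one] at hconc
    have e : ηX * (1 + 1 / (ηX * NX)) + (1 - ηX) = 1 + 1 / NX := by
      field_simp; ring
    rw [e] at hconc
    exact hconc
  calc ηX * bN NC ≤ ηX * bN (ηX * NX) := mul_le_mul_of_nonneg_left hb h0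
    _ ≤ bN NX := hj

end Crest.Agent.R331.Scal587
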