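import Mathlib
import Crest.Prelude.Def_FockState
import Crest.Agent.R331.BSn_375
import Crest.Agent.R331.BSIso_375
import Crest.Agent.R331.Scal_587

-- ▼ part R331/SP_892
section

/-!
Row 331, base leaf [SP]: spectral layer for states.
Part 1: Hilbert bases, positive operators of finite trace, eigenbases, functional calculus on
eigenvectors.
-/

set_option autoImplicit false
set_option linter.unusedSectionVars false
set_option linter.style.haveILetI false

open scoped InnerProductSpace ENNReal Topology
open Module.End Filter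

noncomputable section

namespace Crest.Agent.R331.SP892

universe u

variable {H : Type u} [NormedAddCommGroup H] [InnerProductSpace ℂ H] [CompleteSpace H]
variable {ι κ : Type*}

/-! ### Parseval -/

/-- Parseval for a Hilbert basis. -/
lemma hasSum_norm_sq (b : HilbertBasis ι ℂ H) (x : H) :
    HasSum (fun i => ‖⟪b i, x⟫_ℂ‖ ^ 2) (‖x‖ ^ 2) := by
  have h := b.hasSum_inner_mul_inner x x
  have h2 := (Complex.hasSum_re h)
  have e1 : (⟪x, x⟫_ℂ).re = ‖x‖ ^ 2 := by
    have := inner_self_eq_norm_sq (𝕜 := ℂ) x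
    simpa using this
  rw [e1] at h2
  convert h2 using 2 with i
  rw [← inner_conj_symm x (b i), Complex.conj_mul']
  norm_cast

lemma norm_inner_comm' (x y : H) : ‖⟪x, y⟫_ℂ‖ = ‖⟪y, x⟫_ℂ‖ := by
  rw [← inner_conj_symm, RCLike.norm_conj]


lemma tsum_ofReal_norm_sq (b : HilbertBasis ι ℂ H) (x : H) :
    ∑' i, ENNReal.ofReal (‖⟪b i, x⟫_ℂ‖ ^ 2) = ENNReal.ofReal (‖x‖ ^ 2) := by
  rw [← (hasSum_norm_sq b x).tsum_eq,
    ENNReal.ofReal_tsum_of_nonneg (fun i => by positivity) (hasSum_norm_sq b x).summable]

lemma tsum_ofReal_norm_sq' (b : HilbertBasis ι ℂ H) (x : H) :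
    ∑' i, ENNReal.ofReal (‖⟪x, b i⟫_ℂ‖ ^ 2) = ENNReal.ofReal (‖x‖ ^ 2) := by
  simp only [norm_inner_comm' x]
  exact tsum_ofReal_norm_sq b x

/-- The Hilbert--Schmidt sum is independent of the basis (adjoint on the other side). -/
lemma hs_swap (b : HilbertBasis ι ℂ H) (c : HilbertBasis κ ℂ H) (S : H →L[ℂ] H) :
    ∑' i, ENNReal.ofReal (‖S (b i)‖ ^ 2) =
      ∑' j, ENNReal.ofReal (‖ContinuousLinearMap.adjoint S (c j)‖ ^ 2) := by
  have h1 : ∀ i, ENNReal.ofReal (‖S (b i)‖ ^ 2) =
      ∑' j, ENNReal.ofReal (‖⟪c j, S (b i)⟫_ℂ‖ ^ 2) := fun i => (tsum_ofReal_norm_sq c _).symm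
  have h2 : ∀ j, ENNReal.ofReal (‖ContinuousLinearMap.adjoint S (c j)‖ ^ 2) =
      ∑' i, ENNReal.ofReal (‖⟪ContinuousLinearMap.adjoint S (c j), b i⟫_ℂ‖ ^ 2) :=
    fun j => (tsum_ofReal_norm_sq' b _).symm
  simp only [h1, h2]
  rw [ENNReal.tsum_comm]
  refine tsum_congr fun j => tsum_congr fun i => ?_
  rw [ContinuousLinearMap.adjoint_inner_left]

/-- The square root of a positive operator. -/
lemma exists_sqrt {T : H →L[ℂ] H} (hT : T.IsPositive) :
    ∃ S : H →L[ℂ] H, S.IsPositive ∧ S * S = T ∧ ∀ x, ‖S x‖ ^ 2 = (⟪x, T x⟫_ℂ).re := by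
  have h0 : (0 : H →L[ℂ] H) ≤ T := (ContinuousLinearMap.nonneg_iff_isPositive T).2 hT
  have hS : (CFC.sqrt T).IsPositive :=
    (ContinuousLinearMap.nonneg_iff_isPositive _).1 (CFC.sqrt_nonneg T)
  have hSS : CFC.sqrt T * CFC.sqrt T = T := CFC.sqrt_mul_sqrt_self T h0
  refine ⟨CFC.sqrt T, hS, hSS, fun x => ?_⟩
  have h1 : ⟪x, T x⟫_ℂ = ⟪CFC.sqrt T x, CFC.sqrt T x⟫_ℂ := by
    rw [hS.inner_left_eq_inner_right]
    conv_lhs => rw [← hSS]
    rfl
  rw [h1]
  have := inner_self_eq_norm_sq (𝕜 := ℂ) (CFC.sqrt T x)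
  simpa using this.symm

lemma re_inner_nonneg {T : H →L[ℂ] H} (hT : T.IsPositive) (x : H) : 0 ≤ (⟪x, T x⟫_ℂ).re :=
  hT.re_inner_nonneg_right x



/-- The trace of a positive operator does not depend on the basis. -/
theorem trace_indep {T : H →L[ℂ] H} (hT : T.IsPositive) (b : HilbertBasis ι ℂ H)
    (c : HilbertBasis κ ℂ H) :
    ∑' i, ENNReal.ofReal ((⟪b i, T (b i)⟫_ℂ).re) = ∑' j, ENNReal.ofReal ((⟪c j, T (c j)⟫_ℂ).re) := by
  obtain ⟨S, hS, -, hn⟩ := exists_sqrt hT
  simp only [← hn]
  rw [hs_swap b c S]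
  have : ContinuousLinearMap.adjoint S = S := hS.isSelfAdjoint.adjoint_eq
  rw [this]

/-- The trace of a positive operator does not depend on the basis, `HasSum` form. -/
theorem hasSum_trace_indep {T : H →L[ℂ] H} (hT : T.IsPositive) (b : HilbertBasis ι ℂ H)
    (c : HilbertBasis κ ℂ H) {s : ℝ} (h : HasSum (fun i => (⟪b i, T (b i)⟫_ℂ).re) s) :
    HasSum (fun j => (⟪c j, T (c j)⟫_ℂ).re) s := by
  have hs : 0 ≤ s := h.nonneg fun i => re_inner_nonneg hT _
  have h1 : ∑' i, ENNReal.ofReal ((⟪b i, T (b i)⟫_ℂ).re) = ENNReal.ofReal s := by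
    rw [← h.tsum_eq, ENNReal.ofReal_tsum_of_nonneg (fun i => re_inner_nonneg hT _) h.summable]
  rw [trace_indep hT b c] at h1
  have h2 : Summable (fun j => (⟪c j, T (c j)⟫_ℂ).re) := by
    have h3 : ∑' j, ENNReal.ofReal ((⟪c j, T (c j)⟫_ℂ).re) ≠ ∞ := by
      rw [h1]; exact ENNReal.ofReal_ne_top
    have h4 := ENNReal.summable_toReal h3
    refine h4.congr fun j => ?_
    rw [ENNReal.toReal_ofReal (re_inner_nonneg hT _)]
  rw [← ENNReal.ofReal_tsum_of_nonneg (fun i => re_inner_nonneg hT _) h2] at h1
  have h5 : ∑' j, (⟪c j, T (c j)⟫_ℂ).re = s := by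
    have h6 : 0 ≤ ∑' j, (⟪c j, T (c j)⟫_ℂ).re := tsum_nonneg fun j => re_inner_nonneg hT _
    exact (ENNReal.ofReal_eq_ofReal_iff h6 hs).1 h1
  rw [← h5]
  exact h2.hasSum

theorem hasSum_trace_iff {T : H →L[ℂ] H} (hT : T.IsPositive) (b : HilbertBasis ι ℂ H)
    (c : HilbertBasis κ ℂ H) {s : ℝ} :
    HasSum (fun i => (⟪b i, T (b i)⟫_ℂ).re) s ↔ HasSum (fun j => (⟪c j, T (c j)⟫_ℂ).re) s :=
  ⟨hasSum_trace_indep hT b c, hasSum_trace_indep hT c b⟩



/-- Reindexing a Hilbert basis. -/
def reindex (e : HilbertBasis ι ℂ H) (σ : κ ≃ ι) : HilbertBasis κ ℂ H :=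
  HilbertBasis.mkOfOrthogonalEqBot (v := fun k => e (σ k)) (e.orthonormal.comp σ σ.injective) (by
    have h1 : Set.range (fun k => e (σ k)) = Set.range e := σ.surjective.range_comp e
    rw [h1, ← Submodule.orthogonal_closure, e.dense_span, Submodule.top_orthogonal_eq_bot])

@[simp] lemma reindex_apply (e : HilbertBasis ι ℂ H) (σ : κ ≃ ι) (k : κ) :
    reindex e σ k = e (σ k) := by
  simp only [reindex, HilbertBasis.coe_mkOfOrthogonalEqBot]



/-! ### Diagonal operators -/

section Diag

variable {T : H →L[ℂ] H} (e : HilbertBasis ι ℂ H)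

/-- Matrix coefficients of an operator diagonal in a basis. -/
lemma hasSum_inner_diag {c : ι → ℂ} (hT : ∀ i, T (e i) = c i • e i) (x y : H) :
    HasSum (fun i => c i * (⟪x, e i⟫_ℂ * ⟪e i, y⟫_ℂ)) ⟪x, T y⟫_ℂ := by
  have h1 := ((e.hasSum_repr y).mapL T).mapL (innerSL ℂ x)
  have e1 : (innerSL ℂ x) (T y) = ⟪x, T y⟫_ℂ := rfl
  rw [e1] at h1
  have h2 : (fun i => c i * (⟪x, e i⟫_ℂ * ⟪e i, y⟫_ℂ)) =
      fun i => (innerSL ℂ x) (T (e.repr y i • e i)) := by
    funext i
    rw [map_smul, hT, e.repr_apply_apply, innerSL_apply_apply, inner_smul_right, inner_smul_right]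
    ring
  rw [h2]
  exact h1

/-- Quadratic form of an operator diagonal in a basis with real eigenvalues. -/
lemma hasSum_quad {p : ι → ℝ} (hT : ∀ i, T (e i) = (p i : ℂ) • e i) (x : H) :
    HasSum (fun i => p i * ‖⟪e i, x⟫_ℂ‖ ^ 2) (⟪x, T x⟫_ℂ).re := by
  have h := Complex.hasSum_re (hasSum_inner_diag e hT x x)
  convert h using 2 with i
  rw [← inner_conj_symm x (e i), Complex.conj_mul']
  norm_cast

lemma isPositive_of_diag {p : ι → ℝ} (hT : ∀ i, T (e i) = (p i : ℂ) • e i) (hp : ∀ i, 0 ≤ p i) :
    T.IsPositive := by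
  rw [ContinuousLinearMap.isPositive_iff_complex]
  intro x
  have h1 := hasSum_inner_diag e hT x x
  have h2 := hasSum_quad e hT x
  have h3 : HasSum (fun i => ((p i * ‖⟪e i, x⟫_ℂ‖ ^ 2 : ℝ) : ℂ)) ⟪x, T x⟫_ℂ := by
    convert h1 using 2 with i
    rw [← inner_conj_symm x (e i), Complex.conj_mul']
    push_cast; ring
  have h4 : HasSum (fun i => ((p i * ‖⟪e i, x⟫_ℂ‖ ^ 2 : ℝ) : ℂ)) (((⟪x, T x⟫_ℂ).re : ℝ) : ℂ) :=
    Complex.hasSum_ofReal.2 h2
  have h5 : (((⟪x, T x⟫_ℂ).re : ℝ) : ℂ) = ⟪x, T x⟫_ℂ := h4.unique h3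
  have h6 : 0 ≤ (⟪x, T x⟫_ℂ).re := h2.nonneg fun i => mul_nonneg (hp i) (by positivity)
  have h7 : ⟪T x, x⟫_ℂ = ⟪x, T x⟫_ℂ := by
    rw [← inner_conj_symm, ← h5, Complex.conj_ofReal]
  rw [h7]
  exact ⟨h5, h6⟩



lemma hasSum_diag_iff (b : HilbertBasis κ ℂ H) {p : ι → ℝ}
    (hT : ∀ i, T (e i) = (p i : ℂ) • e i) (hp : ∀ i, 0 ≤ p i) {s : ℝ} :
    HasSum (fun k => (⟪b k, T (b k)⟫_ℂ).re) s ↔ HasSum p s := by
  rw [hasSum_trace_iff (isPositive_of_diag e hT hp) b e]
  have : (fun j => (⟪e j, T (e j)⟫_ℂ).re) = p := by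
    funext i
    rw [hT, inner_smul_right, inner_self_eq_norm_sq_to_K, e.orthonormal.1]
    simp
  rw [this]

/-- Two bounded operators which agree on a Hilbert basis agree. -/
lemma clm_ext_basis {A B : H →L[ℂ] H} (h : ∀ i, A (e i) = B (e i)) : A = B := by
  ext x
  have h1 := (e.hasSum_repr x).mapL A
  have h2 := (e.hasSum_repr x).mapL B
  simp only [map_smul, h] at h1
  simp only [map_smul] at h2
  exact h1.unique h2

end Diag

/-! ### Functional calculus on eigenvectors -/


end Crest.Agent.R331.SP892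
end
end

-- ▼ part R331/SPE_892
section

/-!
Row 331, base leaf [SP], part 2: trace and entropy of positive operators on a Hilbert space
(values in `ℝ≥0∞`), Peierls' inequality, Gibbs' inequality.
-/

set_option autoImplicit false
set_option linter.unusedSectionVars false
set_option linter.style.haveILetI false

open scoped InnerProductSpace ENNReal Topology
open Module.End Filter

noncomputable section

namespace Crest.Agent.R331.SP892

universe u

variable {H : Type u} [NormedAddCommGroup H] [InnerProductSpace ℂ H] [CompleteSpace H]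
variable {ι κ : Type*}

/-! ### General facts on sums -/






/-! ### The scalar inequality -/





/-! ### Spectral decompositions -/

/-- `T` is diagonal in the basis `e` with nonnegative eigenvalues `p`. -/
structure IsSpec (T : H →L[ℂ] H) (e : HilbertBasis ι ℂ H) (p : ι → ℝ) : Prop where
  nonneg : ∀ i, 0 ≤ p i
  eig : ∀ i, T (e i) = (p i : ℂ) • e i

namespace IsSpec

variable {T : H →L[ℂ] H} {e : HilbertBasis ι ℂ H} {p : ι → ℝ}




lemma hasSum_iff (h : IsSpec T e p) (b : HilbertBasis κ ℂ H) {s : ℝ} :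
    HasSum (fun k => (⟪b k, T (b k)⟫_ℂ).re) s ↔ HasSum p s :=
  hasSum_diag_iff e b h.eig h.nonneg


end IsSpec

/-! ### The trace with values in `ℝ≥0∞` -/

/-- The trace of a positive operator, in `ℝ≥0∞`. -/
def trE (T : H →L[ℂ] H) : ℝ≥0∞ :=
  ∑' i, ENNReal.ofReal
    ((⟪(exists_hilbertBasis ℂ H).choose_spec.choose i,
      T ((exists_hilbertBasis ℂ H).choose_spec.choose i)⟫_ℂ).re)






@[simp] theorem trE_zero : trE (0 : H →L[ℂ] H) = 0 := by
  simp [trE]


/-! ### Entropy -/

/-- The entropy function `z ↦ -z log z` on the real axis, in the exact form used by `HasEntropy`. -/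
def eF : ℂ → ℂ := fun z : ℂ => (-(z.re * Real.log z.re) : ℂ)










end Crest.Agent.R331.SP892
end
end

-- ▼ part R331/SPF_892
section

/-!
Row 331, base leaf [SP], part 3: states of the Fock space. Spectral decompositions, entropy in
`ℝ≥0∞`, Peierls and Gibbs inequalities, constructors.
-/

set_option autoImplicit false
set_option linter.unusedSectionVars false
set_option linter.style.haveILetI false

open scoped InnerProductSpace ENNReal Topology
open Module.End Filter
open Crest.MathPhysics.Bosonic

noncomputable section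

namespace Crest.Agent.R331.SP892

variable {n : ℕ} {ι κ : Type*}

/-! ### The number basis -/

/-- The number basis as a Hilbert basis. -/
def ketB (n : ℕ) : HilbertBasis (Occ n) ℂ (Fock n) :=
  HilbertBasis.ofRepr (LinearIsometryEquiv.refl ℂ (Fock n))

@[simp] lemma ketB_apply (k : Occ n) : ketB n k = ket k := by
  have h := (ketB n).repr_symm_single k
  rw [← h]
  rfl

lemma entry_eq (T : Fock n →L[ℂ] Fock n) (k l : Occ n) :
    entry T k l = ⟪ketB n k, T (ketB n l)⟫_ℂ := by
  rw [ketB_apply, ketB_apply]; rfl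

lemma ket_orthonormal : Orthonormal ℂ (fun k : Occ n => ket k) := by
  have h := (ketB n).orthonormal
  have e : (fun k : Occ n => ket k) = ketB n := by
    funext k; exact (ketB_apply k).symm
  rw [e]; exact h

@[simp] lemma norm_ket (k : Occ n) : ‖ket k‖ = 1 := ket_orthonormal.1 k



lemma entry_conj_symm {T : Fock n →L[ℂ] Fock n} (hT : T.IsPositive) (k l : Occ n) :
    starRingEnd ℂ (entry T k l) = entry T l k := by
  rw [entry, entry, inner_conj_symm]
  exact hT.inner_left_eq_inner_right _ _



/-- Two operators with the same entries agree. -/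
lemma op_ext {S T : Fock n →L[ℂ] Fock n} (h : ∀ k l, entry S k l = entry T k l) : S = T := by
  refine clm_ext_basis (ketB n) fun l => ?_
  have h1 := (ketB n).hasSum_repr (S (ketB n l))
  have h2 := (ketB n).hasSum_repr (T (ketB n l))
  have h3 : ∀ k, (ketB n).repr (S (ketB n l)) k = (ketB n).repr (T (ketB n l)) k := by
    intro k
    rw [(ketB n).repr_apply_apply, (ketB n).repr_apply_apply, ← entry_eq, ← entry_eq, h]
  simp only [h3] at h1
  exact h1.unique h2

/-- Two states with the same entries agree. -/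
lemma state_ext {ρ σ : FockState n} (h : ∀ k l, entry ρ.op k l = entry σ.op k l) : ρ = σ := by
  cases ρ; cases σ
  congr 1
  exact op_ext h

/-! ### Spectral decomposition of a state -/














section Spec

variable {ρ : FockState n} {e : HilbertBasis ι ℂ (Fock n)} {p : ι → ℝ}



end Spec

/-! ### Entropy -/











theorem HasEntropy.unique {ρ : FockState n} {s t : ℝ} (h : HasEntropy ρ s)
    (h' : HasEntropy ρ t) : s = t :=
  HasSum.unique h h'






/-! ### Constructors -/

/-- A state from a positive operator of trace one in some Hilbert basis. -/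
def mkState (T : Fock n →L[ℂ] Fock n) (hT : T.IsPositive) (b : HilbertBasis ι ℂ (Fock n))
    (h : HasSum (fun k => (⟪b k, T (b k)⟫_ℂ).re) 1) : FockState n where
  op := T
  pos := hT
  traceOne := by
    have := hasSum_trace_indep hT b (ketB n) h
    simpa only [entry_eq] using this

@[simp] lemma mkState_op (T : Fock n →L[ℂ] Fock n) (hT : T.IsPositive)
    (b : HilbertBasis ι ℂ (Fock n)) (h : HasSum (fun k => (⟪b k, T (b k)⟫_ℂ).re) 1) :
    (mkState T hT b h).op = T := rfl


/-! ### Diagonal states -/

section DiagOp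

variable {H : Type*} [NormedAddCommGroup H] [InnerProductSpace ℂ H] [CompleteSpace H]





end DiagOp



end Crest.Agent.R331.SP892
end
end

-- ▼ part R331/Emb_915
section

/-!
R331 / [EMB], helper915.  Bridge between finite matrices and the frozen `FockState`:
functional calculus of finite orthonormal diagonal operators, embedding of a density matrix along
an injection `f : ι → Occ n`.
-/

set_option autoImplicit false

open scoped InnerProductSpace ComplexConjugate ComplexOrder
open Crest.MathPhysics.Bosonic InnerProductSpace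

namespace Crest.Agent.R331.Emb915

noncomputable section

section diag

variable {H : Type*} [NormedAddCommGroup H] [InnerProductSpace ℂ H] [CompleteSpace H]
variable {ι : Type*} [Fintype ι]

/-- the operator `∑ c_i |w_i⟩⟨w_i|` -/
def diagOp (w : ι → H) (c : ι → ℂ) : H →L[ℂ] H := ∑ i, c i • rankOne ℂ (w i) (w i)

omit [CompleteSpace H] in
theorem diagOp_apply (w : ι → H) (c : ι → ℂ) (x : H) :
    diagOp w c x = ∑ i, c i • (⟪w i, x⟫_ℂ • w i) := by
  simp [diagOp]

omit [CompleteSpace H] in
theorem diagOp_mul [DecidableEq ι] {w : ι → H} (hw : Orthonormal ℂ w) (c d : ι → ℂ) :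
    diagOp w (c * d) = diagOp w c * diagOp w d := by
  ext x
  rw [mul_apply_eq_comp, diagOp_apply, diagOp_apply w d, map_sum]
  refine Finset.sum_congr rfl fun i _ => ?_
  rw [map_smul, map_smul, diagOp_apply]
  rw [Finset.sum_eq_single i]
  · rw [orthonormal_iff_ite.1 hw i i, if_pos rfl, one_smul, Pi.mul_apply]
    simp only [smul_smul]
    congr 1
    ring
  · intro j _ hj
    rw [orthonormal_iff_ite.1 hw j i, if_neg hj, zero_smul, smul_zero]
  · intro h; exact absurd (Finset.mem_univ i) h

theorem diagOp_star (w : ι → H) (c : ι → ℂ) :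
    star (diagOp w c) = diagOp w (star c) := by
  rw [ContinuousLinearMap.star_eq_adjoint, diagOp, map_sum, diagOp]
  refine Finset.sum_congr rfl fun i _ => ?_
  rw [LinearIsometryEquiv.map_smulₛₗ, adjoint_rankOne]
  rfl

/-- `c ↦ ∑ c_i |w_i⟩⟨w_i|` as a non-unital star algebra homomorphism -/
def diagHom [DecidableEq ι] {w : ι → H} (hw : Orthonormal ℂ w) :
    (ι → ℂ) →⋆ₙₐ[ℂ] (H →L[ℂ] H) where
  toFun := diagOp w
  map_smul' a c := by
    simp [diagOp, Finset.smul_sum, smul_smul]
  map_zero' := by simp [diagOp]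
  map_add' c d := by simp [diagOp, add_smul, Finset.sum_add_distrib]
  map_mul' := diagOp_mul hw
  map_star' c := (diagOp_star w c).symm

theorem continuous_diagOp (w : ι → H) : Continuous (diagOp w) := by
  unfold diagOp
  fun_prop

theorem diagOp_isStarNormal [DecidableEq ι] {w : ι → H} (hw : Orthonormal ℂ w) (c : ι → ℂ) :
    IsStarNormal (diagOp w c) := by
  constructor
  rw [commute_iff_eq, diagOp_star, ← diagOp_mul hw, ← diagOp_mul hw, mul_comm]

/-- functional calculus of a finite diagonal operator -/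
theorem cfc_diagOp [DecidableEq ι] {w : ι → H} (hw : Orthonormal ℂ w) (c : ι → ℂ) {g : ℂ → ℂ}
    (hg : Continuous g) (h0 : g 0 = 0) :
    cfc g (diagOp w c) = diagOp w (fun i => g (c i)) := by
  have hn := diagOp_isStarNormal hw c
  have hnc : IsStarNormal c := ⟨by rw [commute_iff_eq, mul_comm]⟩
  rw [← cfcₙ_eq_cfc (hf := hg.continuousOn) (hf0 := h0)]
  have h1 := NonUnitalStarAlgHomClass.map_cfcₙ (R := ℂ) (S := ℂ) (diagHom hw) g c
    (hf := hg.continuousOn) (hf₀ := h0) (hφ := continuous_diagOp w) (ha := hnc) (hφa := hn)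
  have h2 : cfcₙ g c = fun i => g (c i) := by
    rw [cfcₙ_eq_cfc (hf := hg.continuousOn) (hf0 := h0)]
    rw [cfc_map_pi (S := ℂ) (q := fun _ => IsStarNormal) g c hg.continuousOn hnc
      (fun i => ⟨mul_comm _ _⟩)]
    funext i
    exact cfc_algebraMap (R := ℂ) (A := ℂ) (c i) g
  rw [h2] at h1
  exact h1.symm

omit [CompleteSpace H] in
theorem diagOp_isPositive (w : ι → H) (c : ι → ℝ) (hc : ∀ i, 0 ≤ c i) :
    (diagOp w (fun i => (c i : ℂ))).IsPositive := by
  unfold diagOp
  refine Finset.sum_induction _ (fun T : H →L[ℂ] H => T.IsPositive)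
    (fun a b ha hb => ha.add hb) ContinuousLinearMap.isPositive_zero fun i _ => ?_
  exact (isPositive_rankOne_self (w i)).smul_of_nonneg (Complex.zero_le_real.2 (hc i))

end diag

section emb

variable {n : ℕ}

theorem inner_ket (k : Occ n) (x : Fock n) : ⟪ket k, x⟫_ℂ = x k := by
  unfold ket
  rw [lp.inner_single_left]
  simp

theorem ket_apply (k l : Occ n) : (ket k : Fock n) l = if l = k then 1 else 0 := by
  unfold ket
  split_ifs with h
  · subst h; rw [lp.single_apply_self]
  · rw [lp.single_apply_ne _ _ _ h]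

theorem inner_ket_ket (k l : Occ n) : ⟪(ket k : Fock n), ket l⟫_ℂ = if k = l then 1 else 0 := by
  rw [inner_ket, ket_apply]

variable {ι : Type*} [Fintype ι]

/-- embedding of a finite matrix along `f : ι → Occ n` -/
def embOp (f : ι → Occ n) (M : Matrix ι ι ℂ) : Fock n →L[ℂ] Fock n :=
  ∑ i, ∑ j, M i j • rankOne ℂ (ket (f i)) (ket (f j))

theorem entry_embOp (f : ι → Occ n) (M : Matrix ι ι ℂ) (k l : Occ n) :
    entry (embOp f M) k l = ∑ i, ∑ j, if f i = k ∧ f j = l then M i j else 0 := by
  unfold entry embOp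
  simp only [sum_apply, inner_sum, smul_apply,
    rankOne_apply, inner_smul_right, inner_ket_ket]
  refine Finset.sum_congr rfl fun i _ => Finset.sum_congr rfl fun j _ => ?_
  by_cases h1 : k = f i
  · by_cases h2 : f j = l
    · simp [h1, h2]
    · simp [h1, h2]
  · simp [h1, Ne.symm h1]

theorem entry_embOp_apply [DecidableEq ι] {f : ι → Occ n} (hf : Function.Injective f)
    (M : Matrix ι ι ℂ) (i j : ι) : entry (embOp f M) (f i) (f j) = M i j := by
  rw [entry_embOp, Finset.sum_eq_single i, Finset.sum_eq_single j]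
  · simp
  · intro b _ hb
    rw [if_neg]
    rintro ⟨_, h⟩
    exact hb (hf h)
  · intro h; exact absurd (Finset.mem_univ _) h
  · intro b _ hb
    refine Finset.sum_eq_zero fun c _ => ?_
    rw [if_neg]
    rintro ⟨h, _⟩
    exact hb (hf h)
  · intro h; exact absurd (Finset.mem_univ _) h

theorem entry_embOp_left (f : ι → Occ n) (M : Matrix ι ι ℂ) {k : Occ n} (l : Occ n)
    (hk : ∀ i, f i ≠ k) : entry (embOp f M) k l = 0 := by
  rw [entry_embOp]
  exact Finset.sum_eq_zero fun i _ => Finset.sum_eq_zero fun j _ => if_neg fun h => hk i h.1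

theorem entry_embOp_right (f : ι → Occ n) (M : Matrix ι ι ℂ) (k : Occ n) {l : Occ n}
    (hl : ∀ i, f i ≠ l) : entry (embOp f M) k l = 0 := by
  rw [entry_embOp]
  exact Finset.sum_eq_zero fun i _ => Finset.sum_eq_zero fun j _ => if_neg fun h => hl j h.2

/-- embedding of a finite vector -/
def embVec (f : ι → Occ n) (v : ι → ℂ) : Fock n := ∑ i, v i • ket (f i)

theorem inner_embVec [DecidableEq ι] {f : ι → Occ n} (hf : Function.Injective f) (u v : ι → ℂ) :
    ⟪embVec f u, embVec f v⟫_ℂ = ∑ i, conj (u i) * v i := by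
  unfold embVec
  rw [sum_inner]
  refine Finset.sum_congr rfl fun i _ => ?_
  rw [inner_sum, Finset.sum_eq_single i]
  · rw [inner_smul_left, inner_smul_right, inner_ket_ket, if_pos rfl, mul_one]
  · intro j _ hj
    rw [inner_smul_left, inner_smul_right, inner_ket_ket, if_neg (fun h => hj (hf h).symm)]
    simp
  · intro h; exact absurd (Finset.mem_univ i) h

theorem rankOne_embVec (f : ι → Occ n) (u v : ι → ℂ) :
    rankOne ℂ (embVec f u) (embVec f v)
      = ∑ i, ∑ j, (u i * conj (v j)) • rankOne ℂ (ket (f i)) (ket (f j)) := by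
  ext1 x
  simp only [rankOne_apply, sum_apply, smul_apply]
  unfold embVec
  rw [sum_inner, Finset.smul_sum]
  refine Finset.sum_congr rfl fun i _ => ?_
  rw [Finset.sum_smul]
  refine Finset.sum_congr rfl fun j _ => ?_
  rw [inner_smul_left, smul_smul, smul_smul]
  congr 1
  ring

theorem hermitian_entry [DecidableEq ι] {M : Matrix ι ι ℂ} (hM : M.IsHermitian) (i j : ι) :
    M i j = ∑ m, (hM.eigenvalues m : ℂ) * (hM.eigenvectorBasis m i * conj (hM.eigenvectorBasis m j)) := by
  conv_lhs => rw [hM.spectral_theorem]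
  rw [Unitary.conjStarAlgAut_apply, Matrix.mul_apply]
  refine Finset.sum_congr rfl fun m _ => ?_
  rw [Matrix.mul_diagonal]
  simp only [Matrix.IsHermitian.eigenvectorUnitary_apply, Function.comp_apply, Matrix.star_apply]
  simp only [RCLike.star_def]
  change _ * (hM.eigenvalues m : ℂ) * _ = _
  ring

theorem embOp_eq_diagOp [DecidableEq ι] (f : ι → Occ n) {M : Matrix ι ι ℂ} (hM : M.IsHermitian) :
    embOp f M = diagOp (fun m => embVec f (hM.eigenvectorBasis m))
      (fun m => (hM.eigenvalues m : ℂ)) := by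
  unfold embOp diagOp
  simp only [rankOne_embVec, Finset.smul_sum, smul_smul]
  rw [Finset.sum_comm]
  calc ∑ j, ∑ i, M i j • rankOne ℂ (ket (f i) : Fock n) (ket (f j))
      = ∑ j, ∑ i, ∑ m, ((hM.eigenvalues m : ℂ) *
          (hM.eigenvectorBasis m i * conj (hM.eigenvectorBasis m j))) •
            rankOne ℂ (ket (f i) : Fock n) (ket (f j)) := by
        refine Finset.sum_congr rfl fun j _ => Finset.sum_congr rfl fun i _ => ?_
        rw [← Finset.sum_smul, ← hermitian_entry hM i j]
    _ = ∑ j, ∑ m, ∑ i, ((hM.eigenvalues m : ℂ) *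
          (hM.eigenvectorBasis m i * conj (hM.eigenvectorBasis m j))) •
            rankOne ℂ (ket (f i) : Fock n) (ket (f j)) :=
        Finset.sum_congr rfl fun j _ => Finset.sum_comm
    _ = ∑ m, ∑ j, ∑ i, ((hM.eigenvalues m : ℂ) *
          (hM.eigenvectorBasis m i * conj (hM.eigenvectorBasis m j))) •
            rankOne ℂ (ket (f i) : Fock n) (ket (f j)) := Finset.sum_comm
    _ = _ := Finset.sum_congr rfl fun m _ => Finset.sum_comm

theorem orthonormal_embVec [DecidableEq ι] {f : ι → Occ n} (hf : Function.Injective f)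
    {M : Matrix ι ι ℂ} (hM : M.IsHermitian) :
    Orthonormal ℂ (fun m => embVec f (hM.eigenvectorBasis m)) := by
  rw [orthonormal_iff_ite]
  intro a b
  rw [inner_embVec hf]
  have h := orthonormal_iff_ite.1 hM.eigenvectorBasis.orthonormal a b
  rw [EuclideanSpace.inner_eq_star_dotProduct] at h
  rw [← h]
  simp [dotProduct, mul_comm]

theorem hasSum_entry_rankOne (w : Fock n) :
    HasSum (fun k => entry (rankOne ℂ w w) k k) ((‖w‖ ^ 2 : ℝ) : ℂ) := by
  have h := lp.hasSum_norm (p := 2) (by norm_num) w
  have h2 : HasSum (fun k => ‖w k‖ ^ 2) (‖w‖ ^ 2) := by simpa using h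
  have h3 := h2.mapL Complex.ofRealCLM
  convert h3 using 1
  · funext k
    unfold entry
    rw [rankOne_apply, inner_smul_right, inner_ket, ← inner_conj_symm, inner_ket]
    simp [RCLike.conj_mul]
  · rfl

theorem hasSum_entry_diagOp {w : ι → Fock n} (hw : ∀ i, ‖w i‖ = 1) (c : ι → ℂ) :
    HasSum (fun k => entry (diagOp w c) k k) (∑ i, c i) := by
  have h : ∀ i ∈ (Finset.univ : Finset ι),
      HasSum (fun k => c i * entry (rankOne ℂ (w i) (w i)) k k) (c i) := by
    intro i _
    have := (hasSum_entry_rankOne (w i)).mul_left (c i)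
    rw [hw i] at this
    simpa using this
  have h2 := hasSum_sum h
  convert h2 using 1
  funext k
  unfold entry diagOp
  simp only [sum_apply, inner_sum, smul_apply, inner_smul_right]

theorem hasSum_entry_embOp [DecidableEq ι] {f : ι → Occ n} (hf : Function.Injective f)
    {M : Matrix ι ι ℂ} (hM : M.IsHermitian) :
    HasSum (fun k => entry (embOp f M) k k) M.trace := by
  rw [embOp_eq_diagOp f hM, hM.trace_eq_sum_eigenvalues]
  exact hasSum_entry_diagOp (fun i => (orthonormal_embVec hf hM).1 i) _

theorem embOp_isPositive [DecidableEq ι] (f : ι → Occ n)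
    {M : Matrix ι ι ℂ} (hM : M.PosSemidef) : (embOp f M).IsPositive := by
  rw [embOp_eq_diagOp f hM.1]
  exact diagOp_isPositive _ _ hM.eigenvalues_nonneg

/-- the embedded state -/
def embState [DecidableEq ι] (f : ι → Occ n) (hf : Function.Injective f) (M : Matrix ι ι ℂ)
    (hM : Crest.Quantum.IsDensity M) : FockState n where
  op := embOp f M
  pos := embOp_isPositive f hM.1
  traceOne := by
    have h := hasSum_entry_embOp hf hM.1.1
    rw [hM.2] at h
    have h2 := h.mapL Complex.reCLM
    simpa using h2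

/-- functional calculus of an embedded Hermitian matrix -/
theorem cfc_embOp [DecidableEq ι] {f : ι → Occ n} (hf : Function.Injective f)
    {M : Matrix ι ι ℂ} (hM : M.IsHermitian) {g : ℂ → ℂ} (hg : Continuous g) (h0 : g 0 = 0) :
    cfc g (embOp f M) = diagOp (fun m => embVec f (hM.eigenvectorBasis m))
      (fun m => g (hM.eigenvalues m : ℂ)) := by
  rw [embOp_eq_diagOp f hM, cfc_diagOp (orthonormal_embVec hf hM) _ hg h0]

theorem continuous_eta : Continuous (fun z : ℂ => (-(z.re * Real.log z.re) : ℂ)) := by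
  have h : Continuous (fun x : ℝ => x * Real.log x) := Real.continuous_mul_log
  have h2 := (Complex.continuous_ofReal.comp (h.comp Complex.continuous_re)).neg
  convert h2 using 2
  simp [Function.comp]

/-- entropy of the embedded state = `vnEntropy` of the matrix -/
theorem hasEntropy_embOp [DecidableEq ι] {f : ι → Occ n} (hf : Function.Injective f)
    {M : Matrix ι ι ℂ} (hM : M.IsHermitian) :
    HasSum (fun k : Occ n =>
      (entry (cfc (fun z : ℂ => (-(z.re * Real.log z.re) : ℂ)) (embOp f M)) k k).re)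
      (Crest.Quantum.vnEntropy M) := by
  rw [cfc_embOp hf hM continuous_eta (by simp)]
  have h := hasSum_entry_diagOp (fun i => (orthonormal_embVec hf hM).1 i)
    (fun m => (-(((hM.eigenvalues m : ℂ)).re * Real.log ((hM.eigenvalues m : ℂ)).re) : ℂ))
  have h2 := h.mapL Complex.reCLM
  unfold Crest.Quantum.vnEntropy
  rw [dif_pos hM]
  convert h2 using 1
  · rfl
  · rw [Complex.reCLM_apply, Complex.re_sum, ← Finset.sum_neg_distrib]
    refine Finset.sum_congr rfl fun i _ => ?_
    simp only [Complex.ofReal_re]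
    rw [Complex.neg_re, ← Complex.ofReal_mul, Complex.ofReal_re]

theorem hasEntropy_embState [DecidableEq ι] {f : ι → Occ n} (hf : Function.Injective f)
    {M : Matrix ι ι ℂ} (hM : Crest.Quantum.IsDensity M) :
    HasEntropy (embState f hf M hM) (Crest.Quantum.vnEntropy M) :=
  hasEntropy_embOp hf hM.1.1

end emb

end

end Crest.Agent.R331.Emb915
end

-- ▼ part R331/EmbOut_915
section

/-!
R331 / [EMB], helper915, part 2.  The prelude's finite beam-splitter output `bsOutput` (box cut-off)
is the frozen `IsBeamSplitterOutput` of the embedded states.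
-/

set_option autoImplicit false

open scoped InnerProductSpace ComplexConjugate ComplexOrder
open Crest.MathPhysics.Bosonic InnerProductSpace
open Crest.Agent.R331.BS375 Crest.Agent.R331.Emb915

namespace Crest.Agent.R331.EmbOut915

noncomputable section

variable {n : ℕ}

/-- change of summation: splittings of `m` versus pairs of indices -/
theorem sum_splitting_eq {ι : Type*} [Fintype ι] {R : Type*} [AddCommMonoid R]
    {f : ι → Occ n} (hf : Function.Injective f) (m : Occ n) (F : Occ n → Occ n → R)
    (hF : ∀ a : Splitting m, F a.fst a.snd ≠ 0 → (∃ i, f i = a.fst) ∧ ∃ j, f j = a.snd) :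
    ∑ a : Splitting m, F a.fst a.snd
      = ∑ i, ∑ j, if f i + f j = m then F (f i) (f j) else 0 := by
  classical
  rw [← Fintype.sum_prod_type' (f := fun i j => if f i + f j = m then F (f i) (f j) else 0)]
  rw [← Finset.sum_filter]
  symm
  refine Finset.sum_of_injOn
    (e := fun x : ι × ι => (fun j => ⟨min (f x.1 j) (m j), Nat.lt_succ_of_le (min_le_right _ _)⟩ :
      Splitting m)) ?_ ?_ ?_ ?_
  · intro x hx y hy hxy
    simp only [Finset.coe_filter, Finset.mem_univ, true_and, Set.mem_ofPred_eq] at hx hy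
    have h1 : f x.1 = f y.1 := by
      funext j
      have h := congrArg Fin.val (congrFun hxy j)
      simp only at h
      have h2 := congrFun hx j
      have h3 := congrFun hy j
      simp only [Pi.add_apply] at h2 h3
      omega
    have h2 : f x.2 = f y.2 := by
      funext j
      have h := congrFun h1 j
      have h2 := congrFun hx j
      have h3 := congrFun hy j
      simp only [Pi.add_apply] at h2 h3
      omega
    exact Prod.ext (hf h1) (hf h2)
  · intro x _
    exact Finset.mem_coe.2 (Finset.mem_univ _)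
  · intro a _ ha
    by_contra h0
    obtain ⟨⟨i, hi⟩, ⟨j, hj⟩⟩ := hF a h0
    apply ha
    refine ⟨(i, j), ?_, ?_⟩
    · simp only [Finset.coe_filter, Finset.mem_univ, true_and, Set.mem_ofPred_eq]
      rw [hi, hj, fst_add_snd]
    · funext l
      apply Fin.ext
      have h1 := congrFun hi l
      have h2 := (a l).is_lt
      simp only [Splitting.fst] at h1
      simp only [h1]
      omega
  · intro x hx
    simp only [Finset.mem_filter, Finset.mem_univ, true_and] at hx
    have h1 : (Splitting.fst (m := m) (fun j => ⟨min (f x.1 j) (m j),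
        Nat.lt_succ_of_le (min_le_right _ _)⟩)) = f x.1 := by
      funext j
      have := congrFun hx j
      simp only [Pi.add_apply] at this
      simp only [Splitting.fst]
      omega
    have h2 : (Splitting.snd (m := m) (fun j => ⟨min (f x.1 j) (m j),
        Nat.lt_succ_of_le (min_le_right _ _)⟩)) = f x.2 := by
      funext j
      have := congrFun hx j
      simp only [Pi.add_apply] at this
      simp only [Splitting.snd]
      omega
    rw [h1, h2]

/-- as `sum_splitting_eq`, when `F` vanishes off `x + y = m` -/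
theorem sum_splitting_eq' {ι : Type*} [Fintype ι] {R : Type*} [AddCommMonoid R]
    {f : ι → Occ n} (hf : Function.Injective f) (m : Occ n) (F : Occ n → Occ n → R)
    (hF : ∀ a : Splitting m, F a.fst a.snd ≠ 0 → (∃ i, f i = a.fst) ∧ ∃ j, f j = a.snd)
    (h0 : ∀ x y, m ≠ x + y → F x y = 0) :
    ∑ a : Splitting m, F a.fst a.snd = ∑ i, ∑ j, F (f i) (f j) := by
  rw [sum_splitting_eq hf m F hF]
  refine Finset.sum_congr rfl fun i _ => Finset.sum_congr rfl fun j _ => ?_
  split_ifs with h
  · rfl
  · exact (h0 _ _ (fun h' => h h'.symm)).symm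

variable {ι : Type*} [Fintype ι] [DecidableEq ι]

omit [DecidableEq ι] in
theorem entry_embOp_ne_zero {f : ι → Occ n} {M : Matrix ι ι ℂ} {k l : Occ n}
    (h : entry (embOp f M) k l ≠ 0) : (∃ i, f i = k) ∧ ∃ j, f j = l := by
  constructor
  · by_contra hk
    push Not at hk
    exact h (entry_embOp_left f M l hk)
  · by_contra hl
    push Not at hl
    exact h (entry_embOp_right f M k hl)

/-- the blocks of the output of embedded states, as a finite sum over the index types -/
theorem outBlock_emb {f : ι → Occ n} (hf : Function.Injective f) (η : ℝ) (ρA ρB : FockState n)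
    (A B : Matrix ι ι ℂ) (hA : ρA.op = embOp f A) (hB : ρB.op = embOp f B) (k l e : Occ n) :
    outBlock η ρA ρB k l e
      = ∑ i, ∑ j, ∑ i', ∑ j', (ampOcc η (f i) (f j) k e : ℂ) * A i i' * B j j' *
          (ampOcc η (f i') (f j') l e : ℂ) := by
  unfold outBlock
  rw [hA, hB]
  have inner : ∀ x y : Occ n, ∑ b : Splitting (l + e),
      (ampOcc η x y k e : ℂ) * entry (embOp f A) x b.fst * entry (embOp f B) y b.snd *
        (ampOcc η b.fst b.snd l e : ℂ)
      = ∑ i', ∑ j', (ampOcc η x y k e : ℂ) * entry (embOp f A) x (f i') *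
          entry (embOp f B) y (f j') * (ampOcc η (f i') (f j') l e : ℂ) := by
    intro x y
    refine sum_splitting_eq' hf (l + e) (fun b b' => (ampOcc η x y k e : ℂ) *
      entry (embOp f A) x b * entry (embOp f B) y b' * (ampOcc η b b' l e : ℂ)) ?_ ?_
    · intro a ha
      have h1 : entry (embOp f A) x a.fst ≠ 0 := by
        intro h; apply ha; simp only [h]; ring
      have h2 : entry (embOp f B) y a.snd ≠ 0 := by
        intro h; apply ha; simp only [h]; ring
      exact ⟨(entry_embOp_ne_zero h1).2, (entry_embOp_ne_zero h2).2⟩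
    · intro b b' hb
      simp only [ampOcc_of_ne η hb]
      simp
  have outer := sum_splitting_eq' hf (k + e) (fun x y =>
    ∑ b : Splitting (l + e),
      (ampOcc η x y k e : ℂ) * entry (embOp f A) x b.fst * entry (embOp f B) y b.snd *
        (ampOcc η b.fst b.snd l e : ℂ)) (by
      intro a ha
      obtain ⟨b, _, hb⟩ := Finset.exists_ne_zero_of_sum_ne_zero ha
      have h1 : entry (embOp f A) a.fst b.fst ≠ 0 := by
        intro h; apply hb; simp only [h]; ring
      have h2 : entry (embOp f B) a.snd b.snd ≠ 0 := by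
        intro h; apply hb; simp only [h]; ring
      exact ⟨(entry_embOp_ne_zero h1).1, (entry_embOp_ne_zero h2).1⟩) (by
      intro x y hxy
      refine Finset.sum_eq_zero fun b _ => ?_
      rw [ampOcc_of_ne η hxy]
      simp)
  refine Eq.trans outer ?_
  refine Finset.sum_congr rfl fun i _ => Finset.sum_congr rfl fun j _ => ?_
  rw [inner]
  refine Finset.sum_congr rfl fun i' _ => Finset.sum_congr rfl fun j' _ => ?_
  rw [entry_embOp_apply hf, entry_embOp_apply hf]

/-! ### the box cut-off -/

/-- the box `k_j ≤ K` inside `Occ n` -/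
def box (n K : ℕ) : (Fin n → Fin (K + 1)) → Occ n := fun k j => (k j : ℕ)

theorem box_injective (n K : ℕ) : Function.Injective (box n K) := by
  intro x y h
  funext j
  exact Fin.ext (congrFun h j)

@[simp] theorem box_apply {n K : ℕ} (k : Fin n → Fin (K + 1)) (j : Fin n) :
    box n K k j = (k j : ℕ) := rfl

theorem exists_box {n K : ℕ} {k : Occ n} (h : ∀ j, k j ≤ K) : ∃ i, box n K i = k :=
  ⟨fun j => ⟨k j, Nat.lt_succ_of_le (h j)⟩, rfl⟩

theorem box_le {n K : ℕ} (k : Fin n → Fin (K + 1)) (j : Fin n) : box n K k j ≤ K :=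
  Nat.lt_succ_iff.1 (k j).is_lt


/-- the output of embedded box states: entries -/
theorem hasSum_outBlock {n K : ℕ} (η : ℝ) (ρA ρB : FockState n)
    (A B : Matrix (Fin n → Fin (K + 1)) (Fin n → Fin (K + 1)) ℂ)
    (hA : ρA.op = embOp (box n K) A) (hB : ρB.op = embOp (box n K) B) (k l : Occ n) :
    HasSum (fun e => outBlock η ρA ρB k l e)
      (entry (embOp (box n (2 * K)) (bsOutput η A B)) k l) := by
  have hG := outBlock_emb (box_injective n K) η ρA ρB A B hA hB
  simp_rw [hG]
  by_cases hk : ∀ j, k j ≤ 2 * K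
  · by_cases hl : ∀ j, l j ≤ 2 * K
    · obtain ⟨p, rfl⟩ := exists_box hk
      obtain ⟨p', rfl⟩ := exists_box hl
      rw [entry_embOp_apply (box_injective n (2 * K))]
      rw [← (box_injective n (2 * K)).hasSum_iff]
      · have h := hasSum_fintype (fun q : Fin n → Fin (2 * K + 1) =>
          ∑ i, ∑ j, ∑ i', ∑ j', (ampOcc η (box n K i) (box n K j) (box n (2 * K) p)
            (box n (2 * K) q) : ℂ) * A i i' * B j j' *
            (ampOcc η (box n K i') (box n K j') (box n (2 * K) p') (box n (2 * K) q) : ℂ))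
        exact h
      · intro e he
        refine Finset.sum_eq_zero fun i _ => Finset.sum_eq_zero fun j _ =>
          Finset.sum_eq_zero fun i' _ => Finset.sum_eq_zero fun j' _ => ?_
        rw [ampOcc_of_ne]
        · simp
        · intro h
          apply he
          obtain ⟨q, hq⟩ := exists_box (K := 2 * K) (k := e) (by
            intro x
            have h1 := congrFun h x
            simp only [Pi.add_apply] at h1
            have h2 := box_le i x
            have h3 := box_le j x
            omega)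
          exact ⟨q, hq⟩
    · have hl' : ∀ i, box n (2 * K) i ≠ l := by
        rintro i rfl
        exact hl (box_le i)
      rw [entry_embOp_right _ _ _ hl']
      convert hasSum_zero using 1
      funext e
      refine Finset.sum_eq_zero fun i _ => Finset.sum_eq_zero fun j _ =>
        Finset.sum_eq_zero fun i' _ => Finset.sum_eq_zero fun j' _ => ?_
      rw [ampOcc_of_ne (k := l)]
      · simp
      · intro h
        apply hl
        intro x
        have h1 := congrFun h x
        simp only [Pi.add_apply] at h1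
        have h2 := box_le i' x
        have h3 := box_le j' x
        omega
  · have hk' : ∀ i, box n (2 * K) i ≠ k := by
      rintro i rfl
      exact hk (box_le i)
    rw [entry_embOp_left _ _ _ hk']
    convert hasSum_zero using 1
    funext e
    refine Finset.sum_eq_zero fun i _ => Finset.sum_eq_zero fun j _ =>
      Finset.sum_eq_zero fun i' _ => Finset.sum_eq_zero fun j' _ => ?_
    rw [ampOcc_of_ne (k := k)]
    · simp
    · intro h
      apply hk
      intro x
      have h1 := congrFun h x
      simp only [Pi.add_apply] at h1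
      have h2 := box_le i x
      have h3 := box_le j x
      omega

end

end Crest.Agent.R331.EmbOut915
end

-- ▼ part R331/Emb3_915

/-!
R331 / [EMB], helper915, part 3.  `bsOutput` of densities is a density; the frozen output relation for
embedded box states; finite energy; truncation of a `FockState` to a finite index set; box-supported
states are embedded states; transfer of the finite tangent inequality.
-/

set_option autoImplicit false

open scoped InnerProductSpace ComplexConjugate ComplexOrder
open Crest.MathPhysics.Bosonic InnerProductSpace Crest.Quantum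
open Crest.Agent.R331.BS375 Crest.Agent.R331.Emb915 Crest.Agent.R331.EmbOut915

namespace Crest.Agent.R331.Emb3

noncomputable section

variable {n : ℕ} {ι : Type*} [Fintype ι]

/-- the matrix of entries of an operator on a finite index set -/
def truncMat (f : ι → Occ n) (T : Fock n →L[ℂ] Fock n) : Matrix ι ι ℂ :=
  Matrix.of fun i j => entry T (f i) (f j)

omit [Fintype ι] in
@[simp] theorem truncMat_apply (f : ι → Occ n) (T : Fock n →L[ℂ] Fock n) (i j : ι) :
    truncMat f T i j = entry T (f i) (f j) := rfl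

theorem truncMat_posSemidef (f : ι → Occ n) {T : Fock n →L[ℂ] Fock n} (hT : T.IsPositive) :
    (truncMat f T).PosSemidef := by
  refine Matrix.PosSemidef.of_dotProduct_mulVec_nonneg ?_ ?_
  · ext i j
    rw [Matrix.conjTranspose_apply, truncMat_apply, truncMat_apply]
    have h := SP892.entry_conj_symm hT (f j) (f i)
    simpa using h
  · intro x
    have h : star x ⬝ᵥ (truncMat f T).mulVec x = ⟪embVec f x, T (embVec f x)⟫_ℂ := by
      unfold embVec
      rw [map_sum, sum_inner, dotProduct]
      refine Finset.sum_congr rfl fun i _ => ?_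
      rw [inner_sum, Matrix.mulVec, dotProduct, Finset.mul_sum]
      refine Finset.sum_congr rfl fun j _ => ?_
      rw [map_smul, inner_smul_left, inner_smul_right, truncMat_apply]
      unfold entry
      simp only [Pi.star_apply, RCLike.star_def]
      ring
    rw [h]
    exact hT.inner_nonneg_right _

theorem truncMat_embOp [DecidableEq ι] {f : ι → Occ n} (hf : Function.Injective f)
    (M : Matrix ι ι ℂ) : truncMat f (embOp f M) = M := by
  ext i j
  rw [truncMat_apply, entry_embOp_apply hf]

/-- an operator whose entries vanish off the range of `f` is the embedding of its matrix -/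
theorem eq_embOp [DecidableEq ι] {f : ι → Occ n} (hf : Function.Injective f)
    {T : Fock n →L[ℂ] Fock n}
    (h : ∀ k l, entry T k l ≠ 0 → (∃ i, f i = k) ∧ ∃ j, f j = l) :
    T = embOp f (truncMat f T) := by
  refine SP892.op_ext fun k l => ?_
  by_cases hk : ∃ i, f i = k
  · by_cases hl : ∃ j, f j = l
    · obtain ⟨i, rfl⟩ := hk
      obtain ⟨j, rfl⟩ := hl
      rw [entry_embOp_apply hf, truncMat_apply]
    · rw [entry_embOp_right f _ k (by simpa using hl)]
      by_contra h0
      exact hl (h k l h0).2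
  · rw [entry_embOp_left f _ l (by simpa using hk)]
    by_contra h0
    exact hk (h k l h0).1

theorem hasSum_diag_embOp [DecidableEq ι] {f : ι → Occ n} (hf : Function.Injective f)
    (w : Occ n → ℝ) (M : Matrix ι ι ℂ) :
    HasSum (fun k => w k * (entry (embOp f M) k k).re) (∑ i, w (f i) * (M i i).re) := by
  rw [← hf.hasSum_iff]
  · have h := hasSum_fintype (fun i => w (f i) * (M i i).re)
    convert h using 1
    funext i
    simp only [Function.comp_apply]
    rw [entry_embOp_apply hf]
  · intro k hk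
    rw [entry_embOp_left f M k (fun i hi => hk ⟨i, hi⟩)]
    simp



theorem truncMat_isDensity {f : ι → Occ n} (hf : Function.Injective f) (ρ : FockState n)
    (h : ∀ k l, entry ρ.op k l ≠ 0 → (∃ i, f i = k) ∧ ∃ j, f j = l) :
    IsDensity (truncMat f ρ.op) := by
  classical
  refine ⟨truncMat_posSemidef f ρ.pos, ?_⟩
  have hre : (truncMat f ρ.op).trace.re = 1 := by
    have h1 := ρ.traceOne
    rw [eq_embOp hf h] at h1
    have h2 := hasSum_diag_embOp hf (fun _ => 1) (truncMat f ρ.op)
    simp only [one_mul] at h2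
    rw [← h2.unique h1, Matrix.trace, Complex.re_sum]
    rfl
  have him : (truncMat f ρ.op).trace.im = 0 := by
    have h3 := (truncMat_posSemidef f ρ.pos).trace_nonneg
    exact (Complex.le_def.1 h3).2.symm
  exact Complex.ext (by simpa using hre) (by simpa using him)

/-- a state supported on the range of `f` is an embedded state -/
theorem eq_embState [DecidableEq ι] {f : ι → Occ n} (hf : Function.Injective f) (ρ : FockState n)
    (h : ∀ k l, entry ρ.op k l ≠ 0 → (∃ i, f i = k) ∧ ∃ j, f j = l) :
    ρ = embState f hf (truncMat f ρ.op) (truncMat_isDensity hf ρ h) := by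
  refine SP892.state_ext fun k l => ?_
  change entry ρ.op k l = entry (embOp f (truncMat f ρ.op)) k l
  rw [← eq_embOp hf h]

/-! ### beam-splitter output of box states -/

variable {K : ℕ}

theorem truncMat_eq_bsOutput {η : ℝ} (ρA ρB ρC : FockState n)
    (A B : Matrix (Fin n → Fin (K + 1)) (Fin n → Fin (K + 1)) ℂ)
    (hA : ρA.op = embOp (box n K) A) (hB : ρB.op = embOp (box n K) B)
    (hC : IsBeamSplitterOutput η ρA ρB ρC) : ρC.op = embOp (box n (2 * K)) (bsOutput η A B) :=
  SP892.op_ext fun k l => (hC k l).unique (hasSum_outBlock η ρA ρB A B hA hB k l)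

/-- the finite output of densities is a density -/
theorem bsOutput_isDensity {η : ℝ} (hη : η ∈ Set.Icc (0 : ℝ) 1)
    {A B : Matrix (Fin n → Fin (K + 1)) (Fin n → Fin (K + 1)) ℂ}
    (hA : IsDensity A) (hB : IsDensity B) : IsDensity (bsOutput η A B) := by
  classical
  obtain ⟨ρC, hC⟩ := BS375.exists_output hη (embState (box n K) (box_injective n K) A hA)
    (embState (box n K) (box_injective n K) B hB)
  have h := truncMat_eq_bsOutput _ _ ρC A B rfl rfl hC
  have h2 := truncMat_isDensity (box_injective n (2 * K)) ρC (by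
    intro k l hkl
    rw [h] at hkl
    exact entry_embOp_ne_zero hkl)
  rwa [h, truncMat_embOp (box_injective n (2 * K))] at h2


/-- any output of embedded box states is the embedded `bsOutput` -/
theorem output_embState {η : ℝ} (hη : η ∈ Set.Icc (0 : ℝ) 1)
    {A B : Matrix (Fin n → Fin (K + 1)) (Fin n → Fin (K + 1)) ℂ}
    (hA : IsDensity A) (hB : IsDensity B) {ρC : FockState n}
    (hC : IsBeamSplitterOutput η (embState (box n K) (box_injective n K) A hA)
      (embState (box n K) (box_injective n K) B hB) ρC) :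
    ρC = embState (box n (2 * K)) (box_injective n (2 * K)) (bsOutput η A B)
        (bsOutput_isDensity hη hA hB) := by
  refine SP892.state_ext fun k l => ?_
  rw [truncMat_eq_bsOutput _ _ ρC A B rfl rfl hC]
  rfl

/-- a box-supported state: entries vanish unless both indices are in the box -/
def BoxSupp (K : ℕ) (ρ : FockState n) : Prop :=
  ∀ k l, entry ρ.op k l ≠ 0 → (∀ j, k j ≤ K) ∧ ∀ j, l j ≤ K

theorem BoxSupp.eq_embState {ρ : FockState n} (h : BoxSupp K ρ) :
    ∃ (A : Matrix (Fin n → Fin (K + 1)) (Fin n → Fin (K + 1)) ℂ) (hA : IsDensity A),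
      ρ = embState (box n K) (box_injective n K) A hA :=
  ⟨_, _, Emb3.eq_embState (box_injective n K) ρ
    (fun k l hkl => ⟨exists_box (h k l hkl).1, exists_box (h k l hkl).2⟩)⟩


/-- the tangent inequality for finite matrices, prelude objects only -/
def LINmat : Prop :=
  ∀ (n : ℕ), 1 ≤ n → ∀ (η : ℝ), η ∈ Set.Ioo (0 : ℝ) 1 → ∀ (K : ℕ)
    (A B : Matrix (Fin n → Fin (K + 1)) (Fin n → Fin (K + 1)) ℂ),
    IsDensity A → IsDensity B → ∀ NA NB : ℝ, 0 < NA → 0 < NB →
      n * gBose (η * NA + (1 - η) * NB)
        + Scal587.lam η 0 (η * NA + (1 - η) * NB) NA * (vnEntropy A - n * gBose NA)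
        + Scal587.lam (1 - η) 0 (η * NA + (1 - η) * NB) NB * (vnEntropy B - n * gBose NB)
        ≤ vnEntropy (bsOutput η A B)

/-- the tangent inequality for box-supported Fock states -/
def LINbox : Prop :=
  ∀ (n : ℕ), 1 ≤ n → ∀ (η : ℝ), η ∈ Set.Ioo (0 : ℝ) 1 → ∀ (K : ℕ) (ρA ρB ρC : FockState n),
    BoxSupp K ρA → BoxSupp K ρB → IsBeamSplitterOutput η ρA ρB ρC →
    ∀ sA sB sC : ℝ, HasEntropy ρA sA → HasEntropy ρB sB → HasEntropy ρC sC →
    ∀ NA NB : ℝ, 0 < NA → 0 < NB →
      n * gBose (η * NA + (1 - η) * NB)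
        + Scal587.lam η 0 (η * NA + (1 - η) * NB) NA * (sA - n * gBose NA)
        + Scal587.lam (1 - η) 0 (η * NA + (1 - η) * NB) NB * (sB - n * gBose NB) ≤ sC

theorem linbox_of_linmat (h : LINmat) : LINbox := by
  intro n hn η hη K ρA ρB ρC hA hB hC sA sB sC hsA hsB hsC NA NB hNA hNB
  obtain ⟨A, hA', rfl⟩ := hA.eq_embState
  obtain ⟨B, hB', rfl⟩ := hB.eq_embState
  have hη' : η ∈ Set.Icc (0 : ℝ) 1 := ⟨hη.1.le, hη.2.le⟩
  have hC' := output_embState hη' hA' hB' hC
  subst hC'
  have e1 : sA = vnEntropy A := hsA.unique (hasEntropy_embState (box_injective n K) hA')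
  have e2 : sB = vnEntropy B := hsB.unique (hasEntropy_embState (box_injective n K) hB')
  have e3 : sC = vnEntropy (bsOutput η A B) := hsC.unique
    (hasEntropy_embState (box_injective n (2 * K)) (bsOutput_isDensity hη' hA' hB'))
  rw [e1, e2, e3]
  exact h n hn η hη K A B hA' hB' NA NB hNA hNB

end

end Crest.Agent.R331.Emb3
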