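import Crest.Agent.R331.FCov_76

/-!
Row 331 (S0514), FINITE MATRIX TRACK: Cauchy-Schwarz / Kadison bounds for the defect `Err_A`,
data processing for the forms `R`, `L` (ANOVA).
-/

set_option autoImplicit false
set_option linter.unusedSectionVars false
set_option linter.unusedSimpArgs false

namespace Crest.Agent.R331.FCov76

open Matrix
open scoped Kronecker ComplexOrder BigOperators MatrixOrder

noncomputable section

variable {m n : Type*} [Fintype m] [Fintype n] [DecidableEq m] [DecidableEq n]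
variable {α β γ δ : Type*} [Fintype α] [Fintype β] [Fintype γ] [Fintype δ]
  [DecidableEq α] [DecidableEq β] [DecidableEq γ] [DecidableEq δ]

/-! ### weighted Cauchy–Schwarz -/

lemma rpos {ρ : Matrix n n ℂ} (hρ : ρ.PosSemidef) (M : Matrix m n ℂ) :
    0 ≤ (ρ * (Mᴴ * M)).trace := by
  have h := (hρ.mul_mul_conjTranspose_same M).trace_nonneg
  rw [Matrix.trace_mul_comm, ← Matrix.mul_assoc, Matrix.trace_mul_comm] at h
  exact h

lemma rpos_re {ρ : Matrix n n ℂ} (hρ : ρ.PosSemidef) (M : Matrix m n ℂ) :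
    0 ≤ (ρ * (Mᴴ * M)).trace.re := (Complex.le_def.mp (rpos hρ M)).1

lemma rpos_im {ρ : Matrix n n ℂ} (hρ : ρ.PosSemidef) (M : Matrix m n ℂ) :
    (ρ * (Mᴴ * M)).trace.im = 0 := ((Complex.le_def.mp (rpos hρ M)).2).symm

lemma rconj {ρ : Matrix n n ℂ} (hρ : ρᴴ = ρ) (M N : Matrix m n ℂ) :
    (ρ * (Nᴴ * M)).trace = star (ρ * (Mᴴ * N)).trace := by
  rw [← Matrix.trace_conjTranspose, Matrix.conjTranspose_mul, Matrix.conjTranspose_mul,
    Matrix.conjTranspose_conjTranspose, hρ, Matrix.trace_mul_comm]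

lemma quad_cs {a b : ℝ} {w : ℂ} (h : ∀ z : ℂ, 0 ≤ a + 2 * (z * w).re + ‖z‖ ^ 2 * b) :
    ‖w‖ ^ 2 ≤ a * b := by
  have hnz : w * (starRingEnd ℂ) w = ((‖w‖ ^ 2 : ℝ) : ℂ) := by
    rw [Complex.mul_conj, Complex.normSq_eq_norm_sq]
  have hre : ∀ t : ℝ, (((t : ℂ) * (starRingEnd ℂ) w) * w).re = t * ‖w‖ ^ 2 := by
    intro t
    have : ((t : ℂ) * (starRingEnd ℂ) w) * w = ((t * ‖w‖ ^ 2 : ℝ) : ℂ) := by
      rw [mul_assoc, mul_comm ((starRingEnd ℂ) w) w, hnz]; push_cast; ring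
    rw [this, Complex.ofReal_re]
  have hn : ∀ t : ℝ, ‖((t : ℂ) * (starRingEnd ℂ) w)‖ ^ 2 = t ^ 2 * ‖w‖ ^ 2 := by
    intro t
    rw [norm_mul, mul_pow, Complex.norm_conj, Complex.norm_real, Real.norm_eq_abs, sq_abs]
  have key : ∀ t : ℝ, 0 ≤ a + 2 * (t * ‖w‖ ^ 2) + t ^ 2 * ‖w‖ ^ 2 * b := by
    intro t
    have := h ((t : ℂ) * (starRingEnd ℂ) w)
    rwa [hre, hn] at this
  have ha : 0 ≤ a := by simpa using h 0
  have hb : 0 ≤ b ∨ b < 0 := le_or_gt 0 b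
  rcases hb with hb | hb
  · rcases hb.eq_or_lt with hb0 | hb0
    · -- b = 0
      subst hb0
      have h1 := key (-(a + 1) / (‖w‖ ^ 2))
      by_cases hw : ‖w‖ ^ 2 = 0
      · rw [hw]; simp
      · exfalso
        have : -(a + 1) / (‖w‖ ^ 2) * ‖w‖ ^ 2 = -(a + 1) := div_mul_cancel₀ _ hw
        rw [this] at h1
        simp at h1
        linarith
    · have h1 := key (-1 / b)
      have h2 : a + 2 * (-1 / b * ‖w‖ ^ 2) + (-1 / b) ^ 2 * ‖w‖ ^ 2 * b = a - ‖w‖ ^ 2 / b := by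
        field_simp; ring
      rw [h2] at h1
      have h3 : ‖w‖ ^ 2 / b ≤ a := by linarith
      rwa [div_le_iff₀ hb0] at h3
  · exfalso
    by_cases hw : w = 0
    · have h1 := h (Real.sqrt ((a + 1) / (-b)) : ℝ)
      rw [hw] at h1
      simp only [mul_zero, Complex.zero_re, add_zero, Complex.norm_real, Real.norm_eq_abs,
        sq_abs] at h1
      rw [Real.sq_sqrt (by apply div_nonneg <;> linarith)] at h1
      have : (a + 1) / (-b) * b = -(a + 1) := by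
        have hb' : b ≠ 0 := hb.ne
        rw [div_neg, neg_mul, div_mul_cancel₀ _ hb']
      rw [this] at h1
      linarith
    · have hwp : 0 < ‖w‖ ^ 2 := by positivity
      -- take t large negative
      have h1 := key (-(a + 1) / ‖w‖ ^ 2)
      have e1 : -(a + 1) / ‖w‖ ^ 2 * ‖w‖ ^ 2 = -(a + 1) := div_mul_cancel₀ _ hwp.ne'
      have e2 : (-(a + 1) / ‖w‖ ^ 2) ^ 2 * ‖w‖ ^ 2 * b ≤ 0 := by
        apply mul_nonpos_of_nonneg_of_nonpos
        · positivity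
        · exact hb.le
      rw [e1] at h1
      linarith

/-- weighted Cauchy–Schwarz `|Tr ρ M^H N|² ≤ Tr ρ M^H M · Tr ρ N^H N` -/
lemma rcs {ρ : Matrix n n ℂ} (hρ : ρ.PosSemidef) (M N : Matrix m n ℂ) :
    ‖(ρ * (Mᴴ * N)).trace‖ ^ 2 ≤ (ρ * (Mᴴ * M)).trace.re * (ρ * (Nᴴ * N)).trace.re := by
  apply quad_cs
  intro z
  have h := rpos_re hρ (M + z • N)
  have hc := rconj hρ.isHermitian.eq M N
  have e : (ρ * ((M + z • N)ᴴ * (M + z • N))).trace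
      = (ρ * (Mᴴ * M)).trace + z * (ρ * (Mᴴ * N)).trace + star (z * (ρ * (Mᴴ * N)).trace)
        + (star z * z) * (ρ * (Nᴴ * N)).trace := by
    rw [star_mul, ← hc]
    simp only [Matrix.conjTranspose_add, Matrix.conjTranspose_smul, Matrix.add_mul,
      Matrix.mul_add, Matrix.smul_mul, Matrix.mul_smul, Matrix.trace_add, Matrix.trace_smul,
      smul_eq_mul]
    ring
  rw [e] at h
  have him := rpos_im hρ N
  have e2 : (star z * z) * (ρ * (Nᴴ * N)).trace = ((‖z‖ ^ 2 * (ρ * (Nᴴ * N)).trace.re : ℝ) : ℂ) := by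
    have h1 : star z * z = ((‖z‖ ^ 2 : ℝ) : ℂ) := by
      rw [mul_comm]
      show z * (starRingEnd ℂ) z = _
      rw [Complex.mul_conj, Complex.normSq_eq_norm_sq]
    have h2 : (ρ * (Nᴴ * N)).trace = (((ρ * (Nᴴ * N)).trace.re : ℝ) : ℂ) := by
      apply Complex.ext
      · simp
      · simp [him]
    rw [h1, h2]; push_cast; simp
  rw [e2] at h
  simp only [Complex.add_re, Complex.ofReal_re, Complex.star_def, Complex.conj_re] at h
  linarith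

/-- monotonicity of `X ↦ Tr ρ X` -/
lemma trace_mono {ρ X Y : Matrix n n ℂ} (hρ : ρ.PosSemidef) (h : (Y - X).PosSemidef) :
    (ρ * X).trace.re ≤ (ρ * Y).trace.re := by
  obtain ⟨M, hM⟩ := CStarAlgebra.nonneg_iff_eq_star_mul_self.mp h.nonneg
  have h1 := rpos_re hρ M
  rw [← Matrix.star_eq_conjTranspose, ← hM, Matrix.mul_sub, Matrix.trace_sub, Complex.sub_re] at h1
  linarith

/-- if `G^H G ≤ e` then `Tr ρ (G N)^H (G N) ≤ e Tr ρ N^H N` -/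
lemma trace_bound {k : Type*} [Fintype k] [DecidableEq k] {ρ : Matrix n n ℂ} (hρ : ρ.PosSemidef)
    {e : ℝ} {G : Matrix k m ℂ} (hG : ((e : ℂ) • (1 : Matrix m m ℂ) - Gᴴ * G).PosSemidef)
    (N : Matrix m n ℂ) :
    (ρ * ((G * N)ᴴ * (G * N))).trace.re ≤ e * (ρ * (Nᴴ * N)).trace.re := by
  have h1 := hG.conjTranspose_mul_mul_same N
  have h2 : Nᴴ * ((e : ℂ) • (1 : Matrix m m ℂ) - Gᴴ * G) * N
      = (e : ℂ) • (Nᴴ * N) - (G * N)ᴴ * (G * N) := by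
    rw [Matrix.conjTranspose_mul]
    simp only [Matrix.mul_sub, Matrix.sub_mul, Matrix.mul_smul, Matrix.smul_mul, Matrix.mul_one,
      Matrix.mul_assoc]
  rw [h2] at h1
  have h3 := trace_mono hρ h1
  rw [Matrix.mul_smul, Matrix.trace_smul, smul_eq_mul, Complex.re_ofReal_mul] at h3
  exact h3

/-! ### Kadison–Schwarz for the partial expectation -/

/-- `𝓔(M) = Tr_B[(1 ⊗ B) M]` -/
def ex (B : Matrix β β ℂ) (M : Matrix (α × β) (α × β) ℂ) : Matrix α α ℂ :=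
  ptR (((1 : Matrix α α ℂ) ⊗ₖ B) * M)

lemma ex_kron_mul (B : Matrix β β ℂ) (Z : Matrix α α ℂ) (M : Matrix (α × β) (α × β) ℂ) :
    ex B ((Z ⊗ₖ (1 : Matrix β β ℂ)) * M) = Z * ex B M := by
  have hc : ((1 : Matrix α α ℂ) ⊗ₖ B) * (Z ⊗ₖ (1 : Matrix β β ℂ))
      = (Z ⊗ₖ (1 : Matrix β β ℂ)) * ((1 : Matrix α α ℂ) ⊗ₖ B) := by
    rw [← Matrix.mul_kronecker_mul, ← Matrix.mul_kronecker_mul]; simp
  rw [ex, ← Matrix.mul_assoc, hc, Matrix.mul_assoc, ptR_kron_one_mul]; rfl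

lemma ex_mul_kron (B : Matrix β β ℂ) (Z : Matrix α α ℂ) (M : Matrix (α × β) (α × β) ℂ) :
    ex B (M * (Z ⊗ₖ (1 : Matrix β β ℂ))) = ex B M * Z := by
  rw [ex, ← Matrix.mul_assoc, ptR_mul_kron_one]; rfl


lemma ex_sub (B : Matrix β β ℂ) (M N : Matrix (α × β) (α × β) ℂ) :
    ex B (M - N) = ex B M - ex B N := by simp [ex, Matrix.mul_sub, ptR_sub]


lemma ex_one {B : Matrix β β ℂ} (hB : B.trace = 1) : ex B (1 : Matrix (α × β) (α × β) ℂ) = 1 := by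
  rw [ex, Matrix.mul_one]
  ext i j
  by_cases h : i = j
  · subst h; simpa [ptR, Matrix.trace] using hB
  · simp [ptR, h]

lemma ex_kron {B : Matrix β β ℂ} (hB : B.trace = 1) (Z : Matrix α α ℂ) :
    ex B (Z ⊗ₖ (1 : Matrix β β ℂ)) = Z := by
  have h := ex_kron_mul B Z (1 : Matrix (α × β) (α × β) ℂ)
  rw [Matrix.mul_one, ex_one hB, Matrix.mul_one] at h
  exact h

lemma ex_conj {B : Matrix β β ℂ} (hB : Bᴴ = B) (M : Matrix (α × β) (α × β) ℂ) :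
    ex B Mᴴ = (ex B M)ᴴ := by
  rw [ex, ex, ← ptR_conjTranspose, Matrix.conjTranspose_mul,
    Matrix.conjTranspose_kronecker, Matrix.conjTranspose_one, hB, ptR_one_kron_comm]

lemma trace_mul_ex (A : Matrix α α ℂ) (B : Matrix β β ℂ) (M : Matrix (α × β) (α × β) ℂ) :
    (A * ex B M).trace = ((A ⊗ₖ B) * M).trace := by
  rw [ex, trace_mul_ptR, ← Matrix.mul_assoc, ← Matrix.mul_kronecker_mul, Matrix.mul_one,
    Matrix.one_mul]

lemma ex_pos {B : Matrix β β ℂ} (hB : B.PosSemidef) {M : Matrix (α × β) (α × β) ℂ}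
    (hM : M.PosSemidef) : (ex B M).PosSemidef := by
  have hH : (ex B M).IsHermitian := by
    show (ex B M)ᴴ = _
    rw [← ex_conj hB.isHermitian.eq, hM.isHermitian.eq]
  refine Matrix.PosSemidef.of_dotProduct_mulVec_nonneg hH fun v => ?_
  have h1 : star v ⬝ᵥ (ex B M *ᵥ v) = (Matrix.vecMulVec v (star v) * ex B M).trace := by
    rw [Matrix.trace_mul_comm, Matrix.trace]
    simp only [Matrix.diag_apply, Matrix.mul_apply, Matrix.vecMulVec_apply, dotProduct,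
      Matrix.mulVec, Pi.star_apply]
    refine Finset.sum_congr rfl fun i _ => ?_
    rw [Finset.mul_sum]
    refine Finset.sum_congr rfl fun j _ => ?_
    ring
  have h2 : (Matrix.vecMulVec v (star v)).PosSemidef := Matrix.posSemidef_vecMulVec_self_star v
  rw [h1, trace_mul_ex]
  obtain ⟨X, hX⟩ := CStarAlgebra.nonneg_iff_eq_star_mul_self.mp hM.nonneg
  rw [hX]
  exact rpos (h2.kronecker hB) X

/-- **Kadison–Schwarz** `𝓔(M)^H 𝓔(M) ≤ 𝓔(M^H M)` -/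
lemma kadison {B : Matrix β β ℂ} (hB : B.PosSemidef) (hB1 : B.trace = 1)
    (M : Matrix (α × β) (α × β) ℂ) : (ex B (Mᴴ * M) - (ex B M)ᴴ * ex B M).PosSemidef := by
  have h := ex_pos hB (Matrix.posSemidef_conjTranspose_mul_self
    (M - (ex B M) ⊗ₖ (1 : Matrix β β ℂ)))
  have e : ex B ((M - (ex B M) ⊗ₖ (1 : Matrix β β ℂ))ᴴ * (M - (ex B M) ⊗ₖ (1 : Matrix β β ℂ)))
      = ex B (Mᴴ * M) - (ex B M)ᴴ * ex B M := by
    rw [Matrix.conjTranspose_sub, Matrix.conjTranspose_kronecker, Matrix.conjTranspose_one,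
      Matrix.sub_mul, Matrix.mul_sub, Matrix.mul_sub, ex_sub, ex_sub, ex_sub, ex_mul_kron,
      ex_kron_mul, ex_kron_mul, ex_conj hB.isHermitian.eq, ex_kron hB1]
    abel
  rwa [e] at h


namespace BS

variable (S : BS α β γ δ)

lemma PA_eq_ex (B : Matrix β β ℂ) (Y : Matrix γ γ ℂ) : S.PA B Y = ex B (S.heis Y) := rfl

lemma ErrA_eq_ex (B : Matrix β β ℂ) (Y : Matrix γ γ ℂ) :
    S.ErrA B Y = ex B (S.EA * (Y ⊗ₖ (1 : Matrix δ δ ℂ)) * S.ι) := rfl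

/-- `ι ι^H ≤ 1` -/
lemma one_sub_iota : ((1 : Matrix (γ × δ) (γ × δ) ℂ) - S.ι * S.ιᴴ).PosSemidef := by
  have h := Matrix.posSemidef_conjTranspose_mul_self ((1 : Matrix (γ × δ) (γ × δ) ℂ) - S.ι * S.ιᴴ)
  have e : ((1 : Matrix (γ × δ) (γ × δ) ℂ) - S.ι * S.ιᴴ)ᴴ * (1 - S.ι * S.ιᴴ)
      = 1 - S.ι * S.ιᴴ := by
    rw [Matrix.conjTranspose_sub, Matrix.conjTranspose_one, Matrix.conjTranspose_mul,
      Matrix.conjTranspose_conjTranspose, Matrix.sub_mul, Matrix.one_mul, Matrix.mul_sub,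
      Matrix.mul_one]
    have : S.ι * S.ιᴴ * (S.ι * S.ιᴴ) = S.ι * S.ιᴴ := by
      rw [Matrix.mul_assoc, ← Matrix.mul_assoc S.ιᴴ, S.iso, Matrix.one_mul]
    rw [this]; abel
  rwa [e] at h

/-- `heis(Y)^H heis(Y) ≤ heis(Y^H Y)` -/
lemma heis_kadison (Y : Matrix γ γ ℂ) :
    (S.heis (Yᴴ * Y) - (S.heis Y)ᴴ * S.heis Y).PosSemidef := by
  have h := S.one_sub_iota.conjTranspose_mul_mul_same ((Y ⊗ₖ (1 : Matrix δ δ ℂ)) * S.ι)
  have e : ((Y ⊗ₖ (1 : Matrix δ δ ℂ)) * S.ι)ᴴ * (1 - S.ι * S.ιᴴ) * ((Y ⊗ₖ (1 : Matrix δ δ ℂ)) * S.ι)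
      = S.heis (Yᴴ * Y) - (S.heis Y)ᴴ * S.heis Y := by
    have e1 : (Yᴴ * Y) ⊗ₖ (1 : Matrix δ δ ℂ) = (Yᴴ ⊗ₖ (1 : Matrix δ δ ℂ)) * (Y ⊗ₖ (1 : Matrix δ δ ℂ)) := by
      rw [← Matrix.mul_kronecker_mul, Matrix.mul_one]
    rw [heis, heis, e1]
    simp only [Matrix.conjTranspose_mul, Matrix.conjTranspose_kronecker,
      Matrix.conjTranspose_one, Matrix.conjTranspose_conjTranspose, Matrix.mul_sub,
      Matrix.sub_mul, Matrix.mul_one, Matrix.mul_assoc]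
  rwa [e] at h

lemma out_posSemidef {A : Matrix α α ℂ} {B : Matrix β β ℂ} (hA : A.PosSemidef)
    (hB : B.PosSemidef) : (S.out A B).PosSemidef := by
  have hH : (S.out A B).IsHermitian := S.out_conjTranspose hA.isHermitian.eq hB.isHermitian.eq
  refine Matrix.PosSemidef.of_dotProduct_mulVec_nonneg hH fun v => ?_
  have h1 : star v ⬝ᵥ (S.out A B *ᵥ v) = (S.out A B * Matrix.vecMulVec v (star v)).trace := by
    rw [Matrix.trace]
    simp only [Matrix.diag_apply, Matrix.mul_apply, Matrix.vecMulVec_apply, dotProduct,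
      Matrix.mulVec, Pi.star_apply]
    refine Finset.sum_congr rfl fun i _ => ?_
    rw [Finset.mul_sum]
    refine Finset.sum_congr rfl fun j _ => ?_
    ring
  have h2 : (Matrix.vecMulVec v (star v)).PosSemidef := Matrix.posSemidef_vecMulVec_self_star v
  rw [h1, out, trace_Phi_mul]
  have h3 : (S.heis (Matrix.vecMulVec v (star v))).PosSemidef :=
    (h2.kronecker Matrix.PosSemidef.one).conjTranspose_mul_mul_same S.ι
  obtain ⟨X, hX⟩ := CStarAlgebra.nonneg_iff_eq_star_mul_self.mp h3.nonneg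
  rw [hX]
  exact rpos (hA.kronecker hB) X

/-! ### bounds of the defect -/

section bounds

variable {A : Matrix α α ℂ} {B : Matrix β β ℂ} {e : ℝ}

lemma EY_bound (hA : A.PosSemidef) (hB : B.PosSemidef)
    (hE : ((e : ℂ) • (1 : Matrix (γ × δ) (γ × δ) ℂ) - S.EAᴴ * S.EA).PosSemidef)
    (Y : Matrix γ γ ℂ) :
    ((A ⊗ₖ B) * ((S.EA * (Y ⊗ₖ (1 : Matrix δ δ ℂ)) * S.ι)ᴴ
      * (S.EA * (Y ⊗ₖ (1 : Matrix δ δ ℂ)) * S.ι))).trace.re
      ≤ e * (S.out A B * (Yᴴ * Y)).trace.re := by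
  have h := trace_bound (hA.kronecker hB) hE ((Y ⊗ₖ (1 : Matrix δ δ ℂ)) * S.ι)
  have e1 : ((A ⊗ₖ B) * (((Y ⊗ₖ (1 : Matrix δ δ ℂ)) * S.ι)ᴴ
      * ((Y ⊗ₖ (1 : Matrix δ δ ℂ)) * S.ι))).trace = (S.out A B * (Yᴴ * Y)).trace := by
    rw [out, trace_Phi_mul, heis]
    have e2 : (Yᴴ * Y) ⊗ₖ (1 : Matrix δ δ ℂ)
        = (Yᴴ ⊗ₖ (1 : Matrix δ δ ℂ)) * (Y ⊗ₖ (1 : Matrix δ δ ℂ)) := by
      rw [← Matrix.mul_kronecker_mul, Matrix.mul_one]
    rw [e2, Matrix.conjTranspose_mul, Matrix.conjTranspose_kronecker, Matrix.conjTranspose_one]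
    simp only [Matrix.mul_assoc]
  rw [e1] at h
  simpa only [Matrix.mul_assoc] using h

/-- `|Tr A Err_A(Y)|² ≤ e · Tr(A QA) · Tr(C Y^H Y)` -/
lemma trace_ErrA_bound (hA : A.PosSemidef) (hB : B.PosSemidef) (hB1 : B.trace = 1)
    (hE : ((e : ℂ) • (1 : Matrix (γ × δ) (γ × δ) ℂ) - S.EAᴴ * S.EA).PosSemidef)
    (Y : Matrix γ γ ℂ) :
    ‖(A * S.ErrA B Y).trace‖ ^ 2
      ≤ (A * S.QA).trace.re * (e * (S.out A B * (Yᴴ * Y)).trace.re) := by
  have h := rcs (hA.kronecker hB) (S.QA ⊗ₖ (1 : Matrix β β ℂ))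
    (S.EA * (Y ⊗ₖ (1 : Matrix δ δ ℂ)) * S.ι)
  have e1 : ((A ⊗ₖ B) * ((S.QA ⊗ₖ (1 : Matrix β β ℂ))ᴴ
      * (S.EA * (Y ⊗ₖ (1 : Matrix δ δ ℂ)) * S.ι))).trace = (A * S.ErrA B Y).trace := by
    rw [Matrix.conjTranspose_kronecker, Matrix.conjTranspose_one, S.QA_herm, ErrA_eq_ex,
      trace_mul_ex]
    rw [← Matrix.mul_assoc (S.QA ⊗ₖ (1 : Matrix β β ℂ)), ← Matrix.mul_assoc (S.QA ⊗ₖ (1 : Matrix β β ℂ)),
      QA_EA]
  have e2 : ((A ⊗ₖ B) * ((S.QA ⊗ₖ (1 : Matrix β β ℂ))ᴴ * (S.QA ⊗ₖ (1 : Matrix β β ℂ)))).trace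
      = (A * S.QA).trace := by
    rw [Matrix.conjTranspose_kronecker, Matrix.conjTranspose_one, S.QA_herm,
      ← Matrix.mul_kronecker_mul, ← Matrix.mul_kronecker_mul, S.QA_idem, Matrix.trace_kronecker,
      Matrix.mul_one, Matrix.mul_one, hB1, mul_one]
  rw [e1, e2] at h
  refine h.trans ?_
  apply mul_le_mul_of_nonneg_left (S.EY_bound hA hB hE Y)
  have := rpos_re hA S.QA
  rwa [S.QA_herm, S.QA_idem] at this




end bounds

end BS

end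

end Crest.Agent.R331.FCov76
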