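import Mathlib

/-!
Row 331 (S0514), FINITE MATRIX TRACK: algebra of the truncated beam splitter.

Abstract data `BS α β γ δ`: an isometry `ι : H_A ⊗ H_B → H_C ⊗ H_D` and lowering matrices
`a, b, c, d` with `c ι = ι (hA a + hB b)`, `d ι = ι (-hB a + hA b)` and the creation relations below
the top level.
-/

set_option autoImplicit false
set_option linter.unusedSectionVars false
set_option linter.unusedSimpArgs false

namespace Crest.Agent.R331.FCov76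

open Matrix
open scoped Kronecker ComplexOrder BigOperators

noncomputable section

universe u

variable {α β γ δ : Type*} [Fintype α] [Fintype β] [Fintype γ] [Fintype δ]
  [DecidableEq α] [DecidableEq β] [DecidableEq γ] [DecidableEq δ]

/-! ### Partial trace -/

/-- partial trace over the second factor -/
def ptR (M : Matrix (α × β) (α × β) ℂ) : Matrix α α ℂ := fun i i' => ∑ j, M (i, j) (i', j)


omit [Fintype α] [DecidableEq α] [DecidableEq β] in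
lemma ptR_add (M N : Matrix (α × β) (α × β) ℂ) : ptR (M + N) = ptR M + ptR N := by
  ext i j; simp [ptR, Finset.sum_add_distrib]

omit [Fintype α] [DecidableEq α] [DecidableEq β] in
lemma ptR_sub (M N : Matrix (α × β) (α × β) ℂ) : ptR (M - N) = ptR M - ptR N := by
  ext i j; simp [ptR, Finset.sum_sub_distrib]

omit [Fintype α] [DecidableEq α] [DecidableEq β] in
lemma ptR_smul (z : ℂ) (M : Matrix (α × β) (α × β) ℂ) : ptR (z • M) = z • ptR M := by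
  ext i j; simp [ptR, Finset.mul_sum]

omit [Fintype α] [DecidableEq α] [DecidableEq β] in
lemma ptR_conjTranspose (M : Matrix (α × β) (α × β) ℂ) : ptR Mᴴ = (ptR M)ᴴ := by
  ext i j; simp [ptR, Matrix.conjTranspose_apply]

omit [DecidableEq α] [DecidableEq β] in
lemma trace_ptR (M : Matrix (α × β) (α × β) ℂ) : (ptR M).trace = M.trace := by
  simp [ptR, Matrix.trace, Fintype.sum_prod_type]

omit [DecidableEq α] in
lemma ptR_kron_one_mul (Z : Matrix α α ℂ) (M : Matrix (α × β) (α × β) ℂ) :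
    ptR ((Z ⊗ₖ (1 : Matrix β β ℂ)) * M) = Z * ptR M := by
  ext i i'
  simp only [ptR, Matrix.mul_apply, Fintype.sum_prod_type, Matrix.kroneckerMap_apply,
    Matrix.one_apply, mul_ite, mul_one, mul_zero, ite_mul, zero_mul]
  simp only [Finset.sum_ite_eq, Finset.mem_univ, if_true]
  rw [Finset.sum_comm]
  refine Finset.sum_congr rfl fun k _ => ?_
  rw [Finset.mul_sum]

omit [DecidableEq α] in
lemma ptR_mul_kron_one (Z : Matrix α α ℂ) (M : Matrix (α × β) (α × β) ℂ) :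
    ptR (M * (Z ⊗ₖ (1 : Matrix β β ℂ))) = ptR M * Z := by
  ext i i'
  simp only [ptR, Matrix.mul_apply, Fintype.sum_prod_type, Matrix.kroneckerMap_apply,
    Matrix.one_apply, mul_ite, mul_one, mul_zero]
  simp only [Finset.sum_ite_eq', Finset.mem_univ, if_true]
  rw [Finset.sum_comm]
  refine Finset.sum_congr rfl fun k _ => ?_
  rw [Finset.sum_mul]

omit [DecidableEq β] in
lemma ptR_one_kron_comm (B : Matrix β β ℂ) (M : Matrix (α × β) (α × β) ℂ) :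
    ptR (((1 : Matrix α α ℂ) ⊗ₖ B) * M) = ptR (M * ((1 : Matrix α α ℂ) ⊗ₖ B)) := by
  ext i i'
  simp only [ptR, Matrix.mul_apply, Fintype.sum_prod_type, Matrix.kroneckerMap_apply,
    Matrix.one_apply, ite_mul, one_mul, zero_mul, mul_ite, mul_zero]
  have h1 : ∀ j : β, (∑ k : α, ∑ l : β, if i = k then B j l * M (k, l) (i', j) else 0)
      = ∑ l : β, B j l * M (i, l) (i', j) := by
    intro j
    rw [Finset.sum_comm]
    simp
  have h2 : ∀ j : β, (∑ k : α, ∑ l : β, if k = i' then M (i, j) (k, l) * B l j else 0)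
      = ∑ l : β, M (i, j) (i', l) * B l j := by
    intro j
    rw [Finset.sum_comm]
    simp
  simp only [h1, h2]
  rw [Finset.sum_comm]
  refine Finset.sum_congr rfl fun k _ => Finset.sum_congr rfl fun l _ => ?_
  ring

lemma trace_mul_ptR (Z : Matrix α α ℂ) (M : Matrix (α × β) (α × β) ℂ) :
    (Z * ptR M).trace = ((Z ⊗ₖ (1 : Matrix β β ℂ)) * M).trace := by
  rw [← ptR_kron_one_mul, trace_ptR]

/-- swap of tensor factors, columns and rows -/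
def sw (M : Matrix (α × β) (α × β) ℂ) : Matrix (β × α) (β × α) ℂ :=
  M.submatrix Prod.swap Prod.swap



/-! ### Beam-splitter data -/

/-- abstract truncated beam splitter -/
structure BS (α β γ δ : Type*) [Fintype α] [Fintype β] [Fintype γ] [Fintype δ]
    [DecidableEq α] [DecidableEq β] [DecidableEq γ] [DecidableEq δ] where
  ι : Matrix (γ × δ) (α × β) ℂ
  a : Matrix α α ℂ
  b : Matrix β β ℂ
  c : Matrix γ γ ℂ
  d : Matrix δ δ ℂ
  QA : Matrix α α ℂ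
  QB : Matrix β β ℂ
  hA : ℝ
  hB : ℝ
  hAB : hA ^ 2 + hB ^ 2 = 1
  iso : ιᴴ * ι = 1
  H1 : (c ⊗ₖ (1 : Matrix δ δ ℂ)) * ι
    = ι * ((hA : ℂ) • (a ⊗ₖ (1 : Matrix β β ℂ)) + (hB : ℂ) • ((1 : Matrix α α ℂ) ⊗ₖ b))
  H2 : ((1 : Matrix γ γ ℂ) ⊗ₖ d) * ι
    = ι * ((-(hB : ℂ)) • (a ⊗ₖ (1 : Matrix β β ℂ)) + (hA : ℂ) • ((1 : Matrix α α ℂ) ⊗ₖ b))
  QA_herm : QAᴴ = QA
  QA_idem : QA * QA = QA
  QA_a : QA * a = 0
  QB_herm : QBᴴ = QB
  QB_idem : QB * QB = QB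
  QB_b : QB * b = 0
  H3A : ((hA : ℂ) • (cᴴ ⊗ₖ (1 : Matrix δ δ ℂ)) - (hB : ℂ) • ((1 : Matrix γ γ ℂ) ⊗ₖ dᴴ)) * ι
      * ((1 - QA) ⊗ₖ (1 : Matrix β β ℂ)) = ι * ((aᴴ * (1 - QA)) ⊗ₖ (1 : Matrix β β ℂ))
  H3B : ((hB : ℂ) • (cᴴ ⊗ₖ (1 : Matrix δ δ ℂ)) + (hA : ℂ) • ((1 : Matrix γ γ ℂ) ⊗ₖ dᴴ)) * ι
      * ((1 : Matrix α α ℂ) ⊗ₖ (1 - QB)) = ι * ((1 : Matrix α α ℂ) ⊗ₖ (bᴴ * (1 - QB)))

namespace BS

variable (S : BS α β γ δ)

/-- swap of the two inputs: `a ↔ b`, `hA ↔ hB`, `d → -d` -/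
def swap : BS β α γ δ where
  ι := S.ι.submatrix id Prod.swap
  a := S.b
  b := S.a
  c := S.c
  d := -S.d
  QA := S.QB
  QB := S.QA
  hA := S.hB
  hB := S.hA
  hAB := by have := S.hAB; linarith
  iso := by
    have h := S.iso
    ext ⟨i, j⟩ ⟨i', j'⟩
    have h1 := congrFun (congrFun h (j, i)) (j', i')
    simp only [Matrix.mul_apply, Matrix.conjTranspose_apply, Matrix.submatrix_apply, id_eq,
      Prod.swap_prod_mk] at h1 ⊢
    rw [h1]
    simp [Matrix.one_apply, Prod.ext_iff, and_comm]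
  H1 := by
    have h := S.H1
    ext ⟨k, e⟩ ⟨j, i⟩
    have h1 := congrFun (congrFun h (k, e)) (i, j)
    simp only [Matrix.mul_apply, Matrix.submatrix_apply, id_eq, Prod.swap_prod_mk,
      Matrix.add_apply, Matrix.smul_apply, Matrix.kroneckerMap_apply, Fintype.sum_prod_type,
      Prod.fst_swap, Prod.snd_swap, smul_eq_mul] at h1 ⊢
    rw [h1, Finset.sum_comm]
    refine Finset.sum_congr rfl fun x _ => Finset.sum_congr rfl fun y _ => ?_
    ring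
  H2 := by
    have h := S.H2
    ext ⟨k, e⟩ ⟨j, i⟩
    have h1 := congrFun (congrFun h (k, e)) (i, j)
    simp only [Matrix.mul_apply, Matrix.submatrix_apply, id_eq, Prod.swap_prod_mk,
      Matrix.add_apply, Matrix.smul_apply, Matrix.kroneckerMap_apply, Fintype.sum_prod_type,
      Prod.fst_swap, Prod.snd_swap, smul_eq_mul, Matrix.neg_apply] at h1 ⊢
    have h2 : (∑ x : γ, ∑ x_1 : δ, (1 : Matrix γ γ ℂ) k x * -S.d e x_1 * S.ι (x, x_1) (i, j))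
        = - ∑ x : γ, ∑ x_1 : δ, (1 : Matrix γ γ ℂ) k x * S.d e x_1 * S.ι (x, x_1) (i, j) := by
      rw [← Finset.sum_neg_distrib]
      refine Finset.sum_congr rfl fun x _ => ?_
      rw [← Finset.sum_neg_distrib]
      refine Finset.sum_congr rfl fun y _ => ?_
      ring
    rw [h2, h1, Finset.sum_comm, ← Finset.sum_neg_distrib]
    refine Finset.sum_congr rfl fun x _ => ?_
    rw [← Finset.sum_neg_distrib]
    refine Finset.sum_congr rfl fun y _ => ?_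
    ring
  QA_herm := S.QB_herm
  QA_idem := S.QB_idem
  QA_a := S.QB_b
  QB_herm := S.QA_herm
  QB_idem := S.QA_idem
  QB_b := S.QA_a
  H3A := by
    have h := S.H3B
    ext ⟨k, e⟩ ⟨j, i⟩
    have h1 := congrFun (congrFun h (k, e)) (i, j)
    simp only [Matrix.mul_apply, Matrix.submatrix_apply, id_eq, Prod.swap_prod_mk,
      Matrix.add_apply, Matrix.sub_apply, Matrix.smul_apply, Matrix.kroneckerMap_apply,
      Fintype.sum_prod_type, Matrix.conjTranspose_apply, Matrix.neg_apply,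
      Prod.fst_swap, Prod.snd_swap, smul_eq_mul, star_neg] at h1 ⊢
    rw [Finset.sum_comm] at h1
    rw [Finset.sum_comm (s := (Finset.univ : Finset α))] at h1
    convert h1 using 1
    · refine Finset.sum_congr rfl fun x _ => Finset.sum_congr rfl fun y _ => ?_
      rw [mul_comm ((1 : Matrix β β ℂ) _ _ - _) _]
      congr 1
      refine Finset.sum_congr rfl fun z _ => Finset.sum_congr rfl fun w _ => ?_
      ring
    · refine Finset.sum_congr rfl fun x _ => Finset.sum_congr rfl fun y _ => ?_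
      ring
  H3B := by
    have h := S.H3A
    ext ⟨k, e⟩ ⟨j, i⟩
    have h1 := congrFun (congrFun h (k, e)) (i, j)
    simp only [Matrix.mul_apply, Matrix.submatrix_apply, id_eq, Prod.swap_prod_mk,
      Matrix.add_apply, Matrix.sub_apply, Matrix.smul_apply, Matrix.kroneckerMap_apply,
      Fintype.sum_prod_type, Matrix.conjTranspose_apply, Matrix.neg_apply,
      Prod.fst_swap, Prod.snd_swap, smul_eq_mul, star_neg] at h1 ⊢
    rw [Finset.sum_comm] at h1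
    rw [Finset.sum_comm (s := (Finset.univ : Finset α))] at h1
    convert h1 using 1
    · refine Finset.sum_congr rfl fun x _ => Finset.sum_congr rfl fun y _ => ?_
      rw [mul_comm ((1 : Matrix β β ℂ) _ _) _]
      congr 1
      refine Finset.sum_congr rfl fun z _ => Finset.sum_congr rfl fun w _ => ?_
      ring
    · refine Finset.sum_congr rfl fun x _ => Finset.sum_congr rfl fun y _ => ?_
      ring


/-- Heisenberg picture: `Y ↦ ι^H (Y ⊗ 1) ι` -/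
def heis (Y : Matrix γ γ ℂ) : Matrix (α × β) (α × β) ℂ :=
  S.ιᴴ * (Y ⊗ₖ (1 : Matrix δ δ ℂ)) * S.ι

/-- conditional expectation on the first input, `B` the state of the second input -/
def PA (B : Matrix β β ℂ) (Y : Matrix γ γ ℂ) : Matrix α α ℂ :=
  ptR (((1 : Matrix α α ℂ) ⊗ₖ B) * S.heis Y)

/-- conditional expectation on the second input -/
def PB (A : Matrix α α ℂ) (Y : Matrix γ γ ℂ) : Matrix β β ℂ := S.swap.PA A Y

/-- the channel -/
def Phi (Z : Matrix (α × β) (α × β) ℂ) : Matrix γ γ ℂ := ptR (S.ι * Z * S.ιᴴ)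

/-- the output state -/
def out (A : Matrix α α ℂ) (B : Matrix β β ℂ) : Matrix γ γ ℂ := S.Phi (A ⊗ₖ B)

lemma heis_add (Y Z : Matrix γ γ ℂ) : S.heis (Y + Z) = S.heis Y + S.heis Z := by
  simp [heis, Matrix.add_kronecker, Matrix.mul_add, Matrix.add_mul]

lemma heis_smul (z : ℂ) (Y : Matrix γ γ ℂ) : S.heis (z • Y) = z • S.heis Y := by
  simp [heis, Matrix.smul_kronecker, Matrix.mul_smul, Matrix.smul_mul]

lemma heis_sub (Y Z : Matrix γ γ ℂ) : S.heis (Y - Z) = S.heis Y - S.heis Z := by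
  rw [sub_eq_add_neg, heis_add, ← neg_one_smul ℂ Z, heis_smul, neg_one_smul, sub_eq_add_neg]

lemma heis_one : S.heis 1 = 1 := by
  simp [heis, S.iso]

lemma heis_conjTranspose (Y : Matrix γ γ ℂ) : S.heis Yᴴ = (S.heis Y)ᴴ := by
  simp [heis, Matrix.conjTranspose_mul, Matrix.conjTranspose_kronecker, Matrix.mul_assoc]

lemma PA_add (B : Matrix β β ℂ) (Y Z : Matrix γ γ ℂ) : S.PA B (Y + Z) = S.PA B Y + S.PA B Z := by
  simp [PA, heis_add, Matrix.mul_add, ptR_add]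

lemma PA_sub (B : Matrix β β ℂ) (Y Z : Matrix γ γ ℂ) : S.PA B (Y - Z) = S.PA B Y - S.PA B Z := by
  simp [PA, heis_sub, Matrix.mul_sub, ptR_sub]

lemma PA_smul (B : Matrix β β ℂ) (z : ℂ) (Y : Matrix γ γ ℂ) :
    S.PA B (z • Y) = z • S.PA B Y := by
  simp [PA, heis_smul, ptR_smul]

lemma PA_neg (B : Matrix β β ℂ) (Y : Matrix γ γ ℂ) : S.PA B (-Y) = - S.PA B Y := by
  rw [← neg_one_smul ℂ Y, PA_smul, neg_one_smul]

lemma PB_add (A : Matrix α α ℂ) (Y Z : Matrix γ γ ℂ) : S.PB A (Y + Z) = S.PB A Y + S.PB A Z :=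
  S.swap.PA_add A Y Z


lemma PB_smul (A : Matrix α α ℂ) (z : ℂ) (Y : Matrix γ γ ℂ) :
    S.PB A (z • Y) = z • S.PB A Y := S.swap.PA_smul A z Y


lemma PA_one (B : Matrix β β ℂ) : S.PA B 1 = B.trace • (1 : Matrix α α ℂ) := by
  rw [PA, heis_one, Matrix.mul_one]
  ext i j
  by_cases h : i = j
  · subst h; simp [ptR, Matrix.trace]
  · simp [ptR, h]

lemma PB_one (A : Matrix α α ℂ) : S.PB A 1 = A.trace • (1 : Matrix β β ℂ) := S.swap.PA_one A

lemma PA_conjTranspose {B : Matrix β β ℂ} (hB : Bᴴ = B) (Y : Matrix γ γ ℂ) :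
    S.PA B Yᴴ = (S.PA B Y)ᴴ := by
  rw [PA, PA, ← ptR_conjTranspose, Matrix.conjTranspose_mul, heis_conjTranspose,
    Matrix.conjTranspose_kronecker, Matrix.conjTranspose_one, hB, ptR_one_kron_comm]

lemma PB_conjTranspose {A : Matrix α α ℂ} (hA : Aᴴ = A) (Y : Matrix γ γ ℂ) :
    S.PB A Yᴴ = (S.PB A Y)ᴴ := S.swap.PA_conjTranspose hA Y

lemma trace_Phi_mul (Z : Matrix (α × β) (α × β) ℂ) (Y : Matrix γ γ ℂ) :
    (S.Phi Z * Y).trace = (Z * S.heis Y).trace := by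
  rw [Matrix.trace_mul_comm, Phi, trace_mul_ptR, heis]
  rw [Matrix.trace_mul_comm]
  simp only [Matrix.mul_assoc]
  rw [Matrix.trace_mul_comm]
  simp only [Matrix.mul_assoc]

/-- duality on the first input -/
lemma trace_Phi_kron (Z : Matrix α α ℂ) (B : Matrix β β ℂ) (Y : Matrix γ γ ℂ) :
    (S.Phi (Z ⊗ₖ B) * Y).trace = (Z * S.PA B Y).trace := by
  rw [trace_Phi_mul, PA, trace_mul_ptR, ← Matrix.mul_assoc, ← Matrix.mul_kronecker_mul,
    Matrix.mul_one, Matrix.one_mul]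

lemma swap_heis (Y : Matrix γ γ ℂ) : S.swap.heis Y = (S.heis Y).submatrix Prod.swap Prod.swap := by
  ext ⟨j, i⟩ ⟨j', i'⟩
  simp [heis, swap, Matrix.mul_apply]

lemma swap_Phi (Z : Matrix (α × β) (α × β) ℂ) :
    S.swap.Phi (Z.submatrix Prod.swap Prod.swap) = S.Phi Z := by
  have h : S.swap.ι * (Z.submatrix Prod.swap Prod.swap) * S.swap.ιᴴ = S.ι * Z * S.ιᴴ := by
    ext ⟨k, e⟩ ⟨k', e'⟩
    simp only [swap, Matrix.mul_apply, Matrix.submatrix_apply, id_eq, Fintype.sum_prod_type,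
      Matrix.conjTranspose_apply, Prod.swap_prod_mk]
    rw [Finset.sum_comm]
    refine Finset.sum_congr rfl fun x _ => Finset.sum_congr rfl fun y _ => ?_
    rw [Finset.sum_comm]
  rw [Phi, h, Phi]

lemma swap_out (A : Matrix α α ℂ) (B : Matrix β β ℂ) : S.swap.out B A = S.out A B := by
  have h := S.swap_Phi (A ⊗ₖ B)
  rw [out, out, ← h]
  congr 1
  ext ⟨j, i⟩ ⟨j', i'⟩
  simp [mul_comm]

/-- duality on the second input -/
lemma trace_Phi_kron' (A : Matrix α α ℂ) (Z : Matrix β β ℂ) (Y : Matrix γ γ ℂ) :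
    (S.Phi (A ⊗ₖ Z) * Y).trace = (Z * S.PB A Y).trace := by
  have h := S.swap.trace_Phi_kron Z A Y
  rw [PB, ← h]
  congr 2
  exact (S.swap_out A Z).symm

lemma trace_A_PA (A : Matrix α α ℂ) (B : Matrix β β ℂ) (Y : Matrix γ γ ℂ) :
    (A * S.PA B Y).trace = (S.out A B * Y).trace := (S.trace_Phi_kron A B Y).symm

lemma trace_B_PB (A : Matrix α α ℂ) (B : Matrix β β ℂ) (Y : Matrix γ γ ℂ) :
    (B * S.PB A Y).trace = (S.out A B * Y).trace := (S.trace_Phi_kron' A B Y).symm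

lemma out_conjTranspose {A : Matrix α α ℂ} {B : Matrix β β ℂ} (hA : Aᴴ = A) (hB : Bᴴ = B) :
    (S.out A B)ᴴ = S.out A B := by
  rw [out, Phi, ← ptR_conjTranspose]
  simp only [Matrix.conjTranspose_mul, Matrix.conjTranspose_conjTranspose,
    Matrix.conjTranspose_kronecker, hA, hB, Matrix.mul_assoc]

lemma trace_out (A : Matrix α α ℂ) (B : Matrix β β ℂ) :
    (S.out A B).trace = A.trace * B.trace := by
  have h := S.trace_A_PA A B 1
  rw [Matrix.mul_one] at h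
  rw [← h, PA_one, Matrix.mul_smul, Matrix.mul_one, Matrix.trace_smul, smul_eq_mul, mul_comm]

/-- right multiplication by `c` -/
lemma heis_mul_c (Y : Matrix γ γ ℂ) : S.heis (Y * S.c) = S.heis Y *
    ((S.hA : ℂ) • (S.a ⊗ₖ (1 : Matrix β β ℂ)) + (S.hB : ℂ) • ((1 : Matrix α α ℂ) ⊗ₖ S.b)) := by
  have h1 : (Y * S.c) ⊗ₖ (1 : Matrix δ δ ℂ)
      = (Y ⊗ₖ (1 : Matrix δ δ ℂ)) * (S.c ⊗ₖ (1 : Matrix δ δ ℂ)) := by
    rw [← Matrix.mul_kronecker_mul, Matrix.mul_one]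
  rw [heis, heis, h1]
  simp only [Matrix.mul_assoc]
  rw [S.H1]

lemma heis_c : S.heis S.c = 
    (S.hA : ℂ) • (S.a ⊗ₖ (1 : Matrix β β ℂ)) + (S.hB : ℂ) • ((1 : Matrix α α ℂ) ⊗ₖ S.b) := by
  have h := S.heis_mul_c 1
  rw [Matrix.one_mul, heis_one, Matrix.one_mul] at h
  exact h


/-- the hard-wall defect of the commutator identity -/
def DA (B : Matrix β β ℂ) (Y : Matrix γ γ ℂ) : Matrix α α ℂ :=
  S.PA B (S.c * Y - Y * S.c) - (S.hA : ℂ)⁻¹ • (S.a * S.PA B Y - S.PA B Y * S.a)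

def DB (A : Matrix α α ℂ) (Y : Matrix γ γ ℂ) : Matrix β β ℂ := S.swap.DA A Y




lemma PA_comm (B : Matrix β β ℂ) (Y : Matrix γ γ ℂ) :
    S.PA B (S.c * Y - Y * S.c) = (S.hA : ℂ)⁻¹ • (S.a * S.PA B Y - S.PA B Y * S.a)
      + S.DA B Y := by
  rw [DA]; abel


/-- `P_A c = hA a + hB <b> 1` -/
lemma PA_c {B : Matrix β β ℂ} (hB : B.trace = 1) :
    S.PA B S.c = (S.hA : ℂ) • S.a + ((S.hB : ℂ) * (B * S.b).trace) • (1 : Matrix α α ℂ) := by
  rw [PA, heis_c, Matrix.mul_add, ptR_add, Matrix.mul_smul, Matrix.mul_smul, ptR_smul, ptR_smul,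
    ← Matrix.mul_kronecker_mul, ← Matrix.mul_kronecker_mul]
  congr 1
  · congr 1
    ext i j
    simp only [ptR, Matrix.kroneckerMap_apply, Matrix.mul_one, Matrix.one_mul]
    rw [← Finset.mul_sum]
    have : ∑ x, B x x = 1 := by simpa [Matrix.trace] using hB
    rw [this, mul_one]
  · rw [mul_smul]
    congr 1
    ext i j
    have : ∀ x : β, (((1 : Matrix α α ℂ) * 1) ⊗ₖ (B * S.b)) (i, x) (j, x)
        = (1 : Matrix α α ℂ) i j * (B * S.b) x x := by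
      intro x; simp
    simp only [ptR, this, ← Finset.mul_sum, Matrix.smul_apply, smul_eq_mul, Matrix.trace,
      Matrix.diag_apply]
    rw [mul_comm]

lemma PB_c {A : Matrix α α ℂ} (hA : A.trace = 1) :
    S.PB A S.c = (S.hB : ℂ) • S.b + ((S.hA : ℂ) * (A * S.a).trace) • (1 : Matrix β β ℂ) :=
  S.swap.PA_c hA

/-- mean of `c` in the output -/
lemma trace_out_c {A : Matrix α α ℂ} {B : Matrix β β ℂ} (hA : A.trace = 1) (hB : B.trace = 1) :
    (S.out A B * S.c).trace = (S.hA : ℂ) * (A * S.a).trace + (S.hB : ℂ) * (B * S.b).trace := by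
  rw [← trace_A_PA, PA_c S hB, Matrix.mul_add, Matrix.trace_add, Matrix.mul_smul,
    Matrix.trace_smul, Matrix.mul_smul, Matrix.trace_smul, Matrix.mul_one, hA]
  simp [smul_eq_mul]

/-- **exact R-pairing with `c`** : `Tr C Y^H c = Σ h_X Tr X (P_X Y)^H x` (stated for `Y^H = W`) -/
lemma trace_out_mul_c (A : Matrix α α ℂ) (B : Matrix β β ℂ) (W : Matrix γ γ ℂ) :
    (S.out A B * (W * S.c)).trace
      = (S.hA : ℂ) * (A * (S.PA B W * S.a)).trace + (S.hB : ℂ) * (B * (S.PB A W * S.b)).trace := by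
  have h1 : (A * (S.PA B W * S.a)).trace
      = ((A ⊗ₖ B) * (S.heis W * (S.a ⊗ₖ (1 : Matrix β β ℂ)))).trace := by
    rw [PA, ← ptR_mul_kron_one, trace_mul_ptR]
    simp only [← Matrix.mul_assoc]
    rw [← Matrix.mul_kronecker_mul, Matrix.mul_one, Matrix.one_mul]
  have h2 : (B * (S.PB A W * S.b)).trace
      = ((A ⊗ₖ B) * (S.heis W * ((1 : Matrix α α ℂ) ⊗ₖ S.b))).trace := by
    have e1 : (B * (S.PB A W * S.b)).trace
      = ((B ⊗ₖ A) * (S.swap.heis W * (S.b ⊗ₖ (1 : Matrix α α ℂ)))).trace := by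
      rw [PB, PA, show S.b = S.swap.a from rfl, ← ptR_mul_kron_one, trace_mul_ptR]
      simp only [← Matrix.mul_assoc]
      rw [← Matrix.mul_kronecker_mul, Matrix.mul_one, Matrix.one_mul]
    rw [e1, swap_heis]
    simp only [Matrix.trace, Matrix.diag_apply, Matrix.mul_apply, Fintype.sum_prod_type,
      Matrix.submatrix_apply, Prod.swap_prod_mk, Matrix.kroneckerMap_apply]
    rw [Finset.sum_comm]
    refine Finset.sum_congr rfl fun x _ => Finset.sum_congr rfl fun y _ => ?_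
    rw [Finset.sum_comm]
    refine Finset.sum_congr rfl fun z _ => Finset.sum_congr rfl fun w _ => ?_
    rw [Finset.sum_comm, mul_comm (B _ _) (A _ _)]
    congr 1
    refine Finset.sum_congr rfl fun u _ => Finset.sum_congr rfl fun v _ => ?_
    rw [mul_comm (S.b _ _)]
  have e0 : (S.out A B * (W * S.c)).trace = ((A ⊗ₖ B) * S.heis (W * S.c)).trace := by
    rw [out, trace_Phi_mul]
  rw [e0, heis_mul_c, h1, h2, Matrix.mul_add, Matrix.mul_add, Matrix.trace_add, Matrix.mul_smul,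
    Matrix.mul_smul, Matrix.mul_smul, Matrix.mul_smul, Matrix.trace_smul, Matrix.trace_smul,
    smul_eq_mul, smul_eq_mul]

/-- **covariance** : `Tr (P_A W) [A,a] = hA Tr W [C,c] - hA Tr A Δ_A(W)` -/
lemma covariance_A (hA0 : S.hA ≠ 0) (A : Matrix α α ℂ) (B : Matrix β β ℂ) (W : Matrix γ γ ℂ) :
    (S.PA B W * (A * S.a - S.a * A)).trace
      = (S.hA : ℂ) * (W * (S.out A B * S.c - S.c * S.out A B)).trace
        - (S.hA : ℂ) * (A * S.DA B W).trace := by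
  have hA0' : (S.hA : ℂ) ≠ 0 := by exact_mod_cast hA0
  have h1 : (W * (S.out A B * S.c - S.c * S.out A B)).trace
      = (S.out A B * (S.c * W - W * S.c)).trace := by
    rw [Matrix.mul_sub, Matrix.mul_sub, Matrix.trace_sub, Matrix.trace_sub]
    congr 1
    · rw [Matrix.trace_mul_comm, Matrix.mul_assoc]
    · rw [← Matrix.mul_assoc, Matrix.trace_mul_comm]
  have h2 : (S.PA B W * (A * S.a - S.a * A)).trace
      = (A * (S.a * S.PA B W - S.PA B W * S.a)).trace := by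
    rw [Matrix.mul_sub, Matrix.mul_sub, Matrix.trace_sub, Matrix.trace_sub]
    congr 1
    · rw [Matrix.trace_mul_comm, Matrix.mul_assoc]
    · rw [← Matrix.mul_assoc, Matrix.trace_mul_comm]
  rw [h1, h2, ← trace_A_PA, PA_comm, Matrix.mul_add, Matrix.trace_add, Matrix.mul_smul,
    Matrix.trace_smul, smul_eq_mul]
  field_simp
  ring

lemma covariance_B (hB0 : S.hB ≠ 0) (A : Matrix α α ℂ) (B : Matrix β β ℂ) (W : Matrix γ γ ℂ) :
    (S.PB A W * (B * S.b - S.b * B)).trace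
      = (S.hB : ℂ) * (W * (S.out A B * S.c - S.c * S.out A B)).trace
        - (S.hB : ℂ) * (B * S.DB A W).trace := by
  have h := S.swap.covariance_A hB0 B A W
  rw [swap_out] at h
  exact h


/-! ### The defect operator `E` (136's conventions) -/

/-- `E = ι^H (hA c - hB d) - a ι^H` -/
def EA : Matrix (α × β) (γ × δ) ℂ :=
  S.ιᴴ * ((S.hA : ℂ) • (S.c ⊗ₖ (1 : Matrix δ δ ℂ)) - (S.hB : ℂ) • ((1 : Matrix γ γ ℂ) ⊗ₖ S.d))
    - (S.a ⊗ₖ (1 : Matrix β β ℂ)) * S.ιᴴ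

/-- `Err_A(Y) = Tr_B[(1 ⊗ B) E (Y ⊗ 1) ι]` -/
def ErrA (B : Matrix β β ℂ) (Y : Matrix γ γ ℂ) : Matrix α α ℂ :=
  ptR (((1 : Matrix α α ℂ) ⊗ₖ B) * (S.EA * (Y ⊗ₖ (1 : Matrix δ δ ℂ)) * S.ι))

def ErrB (A : Matrix α α ℂ) (Y : Matrix γ γ ℂ) : Matrix β β ℂ := S.swap.ErrA A Y

lemma QA_EA : (S.QA ⊗ₖ (1 : Matrix β β ℂ)) * S.EA = S.EA := by
  have hQa : (1 - S.QA) * S.a = S.a := by rw [Matrix.sub_mul, S.QA_a]; simp
  have h3 : ((1 - S.QA) ⊗ₖ (1 : Matrix β β ℂ)) * S.ιᴴ *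
      ((S.hA : ℂ) • (S.c ⊗ₖ (1 : Matrix δ δ ℂ)) - (S.hB : ℂ) • ((1 : Matrix γ γ ℂ) ⊗ₖ S.d))
      = (S.a ⊗ₖ (1 : Matrix β β ℂ)) * S.ιᴴ := by
    have h := congrArg Matrix.conjTranspose S.H3A
    simp only [Matrix.conjTranspose_mul, Matrix.conjTranspose_kronecker,
      Matrix.conjTranspose_one, Matrix.conjTranspose_sub, Matrix.conjTranspose_smul,
      Matrix.conjTranspose_conjTranspose, S.QA_herm, RCLike.star_def, Complex.conj_ofReal,
      Complex.star_def] at h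
    rw [hQa] at h
    rw [← h]
    simp only [Matrix.mul_assoc]
  have h5 : ((1 - S.QA) ⊗ₖ (1 : Matrix β β ℂ)) * ((S.a ⊗ₖ (1 : Matrix β β ℂ)) * S.ιᴴ)
      = (S.a ⊗ₖ (1 : Matrix β β ℂ)) * S.ιᴴ := by
    rw [← Matrix.mul_assoc, ← Matrix.mul_kronecker_mul, hQa, Matrix.one_mul]
  have h6 : ((1 - S.QA) ⊗ₖ (1 : Matrix β β ℂ)) * S.EA = 0 := by
    rw [EA, Matrix.mul_sub, h5, ← Matrix.mul_assoc, h3, sub_self]
  have h7 : ((1 - S.QA) ⊗ₖ (1 : Matrix β β ℂ)) = 1 - S.QA ⊗ₖ (1 : Matrix β β ℂ) := by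
    rw [sub_eq_add_neg, Matrix.add_kronecker, ← neg_one_smul ℂ S.QA, Matrix.smul_kronecker,
      Matrix.one_kronecker_one, neg_one_smul, ← sub_eq_add_neg]
  rw [h7, Matrix.sub_mul, Matrix.one_mul, sub_eq_zero] at h6
  exact h6.symm


lemma heis_comm (Y : Matrix γ γ ℂ) :
    (S.hA : ℂ) • S.heis (S.c * Y - Y * S.c) = S.EA * (Y ⊗ₖ (1 : Matrix δ δ ℂ)) * S.ι
      + ((S.a ⊗ₖ (1 : Matrix β β ℂ)) * S.heis Y - S.heis Y * (S.a ⊗ₖ (1 : Matrix β β ℂ))) := by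
  have h2 : S.ιᴴ * ((1 : Matrix γ γ ℂ) ⊗ₖ S.d) * (Y ⊗ₖ (1 : Matrix δ δ ℂ)) * S.ι
      = S.heis Y * ((-(S.hB : ℂ)) • (S.a ⊗ₖ (1 : Matrix β β ℂ))
        + (S.hA : ℂ) • ((1 : Matrix α α ℂ) ⊗ₖ S.b)) := by
    have e1 : ((1 : Matrix γ γ ℂ) ⊗ₖ S.d) * (Y ⊗ₖ (1 : Matrix δ δ ℂ))
        = (Y ⊗ₖ (1 : Matrix δ δ ℂ)) * ((1 : Matrix γ γ ℂ) ⊗ₖ S.d) := by
      rw [← Matrix.mul_kronecker_mul, ← Matrix.mul_kronecker_mul]; simp
    rw [Matrix.mul_assoc S.ιᴴ, e1, heis]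
    simp only [Matrix.mul_assoc]
    rw [S.H2]
  have hcY : (S.c * Y) ⊗ₖ (1 : Matrix δ δ ℂ)
      = (S.c ⊗ₖ (1 : Matrix δ δ ℂ)) * (Y ⊗ₖ (1 : Matrix δ δ ℂ)) := by
    rw [← Matrix.mul_kronecker_mul, Matrix.mul_one]
  have h4 : (S.hA : ℂ) • S.heis (S.c * Y)
      = S.EA * (Y ⊗ₖ (1 : Matrix δ δ ℂ)) * S.ι + (S.a ⊗ₖ (1 : Matrix β β ℂ)) * S.heis Y
        + (S.hB : ℂ) • (S.heis Y *
          ((-(S.hB : ℂ)) • (S.a ⊗ₖ (1 : Matrix β β ℂ))
            + (S.hA : ℂ) • ((1 : Matrix α α ℂ) ⊗ₖ S.b))) := by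
    rw [← h2, heis, hcY, heis, EA]
    simp only [Matrix.mul_sub, Matrix.sub_mul, Matrix.mul_smul, Matrix.smul_mul, Matrix.mul_assoc]
    abel
  have hh : (S.hA : ℂ) ^ 2 + (S.hB : ℂ) ^ 2 = 1 := by exact_mod_cast S.hAB
  rw [heis_sub, heis_mul_c, smul_sub, h4]
  set X1 := S.heis Y * (S.a ⊗ₖ (1 : Matrix β β ℂ)) with hX1
  set X2 := S.heis Y * ((1 : Matrix α α ℂ) ⊗ₖ S.b) with hX2
  simp only [Matrix.mul_add, Matrix.mul_smul, smul_add, smul_smul, ← hX1, ← hX2]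
  have e3 : X1 = ((S.hA : ℂ) ^ 2 + (S.hB : ℂ) ^ 2) • X1 := by rw [hh, one_smul]
  rw [add_smul] at e3
  have e4 : (S.hB : ℂ) * -(S.hB : ℂ) = -((S.hB : ℂ) ^ 2) := by ring
  have e5 : (S.hA : ℂ) * (S.hA : ℂ) = (S.hA : ℂ) ^ 2 := by ring
  have e6 : (S.hA : ℂ) * (S.hB : ℂ) = (S.hB : ℂ) * (S.hA : ℂ) := by ring
  rw [e4, e5, e6, neg_smul]
  nth_rewrite 3 [e3]
  abel

/-- **(COV)** `[a, P_A Y] = hA P_A [c,Y] - Err_A(Y)` -/
lemma cov_A (B : Matrix β β ℂ) (Y : Matrix γ γ ℂ) :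
    S.a * S.PA B Y - S.PA B Y * S.a
      = (S.hA : ℂ) • S.PA B (S.c * Y - Y * S.c) - S.ErrA B Y := by
  have h := S.heis_comm Y
  have h1 := congrArg (fun M => ptR (((1 : Matrix α α ℂ) ⊗ₖ B) * M)) h
  simp only [Matrix.mul_add, Matrix.mul_sub, Matrix.mul_smul, ptR_add, ptR_sub, ptR_smul] at h1
  have hc : ∀ Z : Matrix α α ℂ, ((1 : Matrix α α ℂ) ⊗ₖ B) * (Z ⊗ₖ (1 : Matrix β β ℂ))
      = (Z ⊗ₖ (1 : Matrix β β ℂ)) * ((1 : Matrix α α ℂ) ⊗ₖ B) := by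
    intro Z
    rw [← Matrix.mul_kronecker_mul, ← Matrix.mul_kronecker_mul]; simp
  have e1 : ptR (((1 : Matrix α α ℂ) ⊗ₖ B) * ((S.a ⊗ₖ (1 : Matrix β β ℂ)) * S.heis Y))
      = S.a * S.PA B Y := by
    rw [← Matrix.mul_assoc, hc, Matrix.mul_assoc, ptR_kron_one_mul]; rfl
  have e2 : ptR (((1 : Matrix α α ℂ) ⊗ₖ B) * (S.heis Y * (S.a ⊗ₖ (1 : Matrix β β ℂ))))
      = S.PA B Y * S.a := by
    rw [← Matrix.mul_assoc, ptR_mul_kron_one]; rfl
  rw [e1, e2] at h1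
  have e3 : ptR (((1 : Matrix α α ℂ) ⊗ₖ B) * S.heis (S.c * Y - Y * S.c))
      = S.PA B (S.c * Y - Y * S.c) := rfl
  have e4 : ptR (((1 : Matrix α α ℂ) ⊗ₖ B) * (S.EA * (Y ⊗ₖ (1 : Matrix δ δ ℂ)) * S.ι))
      = S.ErrA B Y := rfl
  rw [e3, e4] at h1
  rw [h1]
  abel

lemma cov_B (A : Matrix α α ℂ) (Y : Matrix γ γ ℂ) :
    S.b * S.PB A Y - S.PB A Y * S.b
      = (S.hB : ℂ) • S.PB A (S.c * Y - Y * S.c) - S.ErrB A Y := S.swap.cov_A A Y

lemma ErrA_eq (hA0 : S.hA ≠ 0) (B : Matrix β β ℂ) (Y : Matrix γ γ ℂ) :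
    S.ErrA B Y = (S.hA : ℂ) • S.DA B Y := by
  have hA0' : (S.hA : ℂ) ≠ 0 := by exact_mod_cast hA0
  have h := S.cov_A B Y
  rw [DA, smul_sub, smul_smul, mul_inv_cancel₀ hA0', one_smul, h]
  abel

lemma QA_ErrA (B : Matrix β β ℂ) (Y : Matrix γ γ ℂ) : S.QA * S.ErrA B Y = S.ErrA B Y := by
  have hc : ∀ Z : Matrix α α ℂ, ((1 : Matrix α α ℂ) ⊗ₖ B) * (Z ⊗ₖ (1 : Matrix β β ℂ))
      = (Z ⊗ₖ (1 : Matrix β β ℂ)) * ((1 : Matrix α α ℂ) ⊗ₖ B) := by
    intro Z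
    rw [← Matrix.mul_kronecker_mul, ← Matrix.mul_kronecker_mul]; simp
  rw [ErrA, ← ptR_kron_one_mul, ← Matrix.mul_assoc, ← hc, Matrix.mul_assoc,
    ← Matrix.mul_assoc (S.QA ⊗ₖ (1 : Matrix β β ℂ)), ← Matrix.mul_assoc (S.QA ⊗ₖ (1 : Matrix β β ℂ)),
    QA_EA]








end BS

end

end Crest.Agent.R331.FCov76
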