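import Mathlib
import Crest.Agent.R331.Duh_839
import Crest.Agent.R331.NetDefs_835

-- ▼ part R331/Fin7_380
section

set_option autoImplicit false

/-!
Row 331, finite track, leaf FIN-7 (route independent form).

`h k = log` of the eigenvalues of the (regularised) output `C`, everything in an eigenbasis of `C`.
From a bound on the weighted form of `ψ = (h k - h l - b) * c0 k l` we deduce that
`T = c C - exp(-b) C c` is small and the energy relation.
-/

open Matrix Finset
open scoped ComplexOrder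

namespace Crest.Agent.R331.Fin7_380

open Crest.Agent.R331.Duh839 (LMe LMe_symm LMe_pos)

/-! ### Scalar facts -/








/-! ### The weighted form -/

variable {κ : Type*} [Fintype κ]

/-- `M`-form with weight `w(t)`, `t = log r_k - log r_l`, in the eigenbasis. -/
noncomputable def wForm (h : κ → ℝ) (w : ℝ → ℝ) (Y : Matrix κ κ ℂ) : ℝ :=
  ∑ k, ∑ l, LMe (h k) (h l) * w (h k - h l) * ‖Y k l‖ ^ 2





/-! ### Pairing with an arbitrary matrix -/


/-! ### Matrix form -/

variable [DecidableEq κ]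


open Crest.Agent.R331.Duh839 (dg)


/-- a matrix `C` is diagonalised by `U` with log-eigenvalues `h` -/
structure Diag (C : Matrix κ κ ℂ) (U : Matrix κ κ ℂ) (h : κ → ℝ) : Prop where
  unit : Uᴴ * U = 1
  eq : C = U * dg (fun k => Real.exp (h k)) * Uᴴ

namespace Diag

variable {C U : Matrix κ κ ℂ} {h : κ → ℝ}

theorem unit' (H : Diag C U h) : U * Uᴴ = 1 := mul_eq_one_comm.1 H.unit

theorem conj_C (H : Diag C U h) : Uᴴ * C * U = dg (fun k => Real.exp (h k)) := by
  rw [H.eq]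
  calc Uᴴ * (U * dg (fun k => Real.exp (h k)) * Uᴴ) * U
      = (Uᴴ * U) * dg (fun k => Real.exp (h k)) * (Uᴴ * U) := by simp only [Matrix.mul_assoc]
    _ = _ := by rw [H.unit]; simp


theorem trace_conj (H : Diag C U h) (Y T : Matrix κ κ ℂ) :
    trace (Yᴴ * T) = ∑ k, ∑ l, star ((Uᴴ * Y * U) k l) * (Uᴴ * T * U) k l := by
  have h1 : trace (Yᴴ * T) = trace ((Uᴴ * Y * U)ᴴ * (Uᴴ * T * U)) := by
    rw [Matrix.conjTranspose_mul, Matrix.conjTranspose_mul, Matrix.conjTranspose_conjTranspose]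
    calc trace (Yᴴ * T) = trace (Yᴴ * T * (U * Uᴴ)) := by rw [H.unit']; simp
      _ = trace (Yᴴ * T * U * Uᴴ) := by simp only [Matrix.mul_assoc]
      _ = trace (Uᴴ * (Yᴴ * T * U)) := by rw [trace_mul_comm]
      _ = trace (Uᴴ * Yᴴ * (U * Uᴴ) * T * U) := by rw [H.unit']; simp [Matrix.mul_assoc]
      _ = _ := by simp only [Matrix.mul_assoc]
  rw [h1, Matrix.trace, Finset.sum_comm]
  refine Finset.sum_congr rfl fun l _ => ?_
  rw [Matrix.diag_apply, Matrix.mul_apply]
  refine Finset.sum_congr rfl fun k _ => ?_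
  rw [Matrix.conjTranspose_apply]

/-- `∑ r_l |Y'_{kl}|² = Tr C YᴴY`. -/
theorem trace_right (H : Diag C U h) (Y : Matrix κ κ ℂ) :
    (trace (C * (Yᴴ * Y))).re = ∑ k, ∑ l, Real.exp (h l) * ‖(Uᴴ * Y * U) k l‖ ^ 2 := by
  have h1 : trace (C * (Yᴴ * Y)) = trace (Yᴴ * (Y * C)) := by
    rw [← Matrix.mul_assoc Yᴴ, trace_mul_comm C]
  rw [h1, H.trace_conj]
  have h2 : Uᴴ * (Y * C) * U = (Uᴴ * Y * U) * dg (fun k => Real.exp (h k)) := by
    rw [← H.conj_C]
    calc Uᴴ * (Y * C) * U = Uᴴ * Y * (U * Uᴴ) * C * U := by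
          rw [H.unit']; simp [Matrix.mul_assoc]
      _ = _ := by simp only [Matrix.mul_assoc]
  rw [h2, Complex.re_sum]
  refine Finset.sum_congr rfl fun k _ => ?_
  rw [Complex.re_sum]
  refine Finset.sum_congr rfl fun l _ => ?_
  rw [Matrix.mul_diagonal, ← mul_assoc, Complex.star_def, ← Complex.normSq_eq_conj_mul_self,
    ← Complex.ofReal_mul, Complex.ofReal_re, Complex.normSq_eq_norm_sq]
  ring

/-- `∑ r_k |Y'_{kl}|² = Tr C YYᴴ`. -/
theorem trace_left (H : Diag C U h) (Y : Matrix κ κ ℂ) :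
    (trace (C * (Y * Yᴴ))).re = ∑ k, ∑ l, Real.exp (h k) * ‖(Uᴴ * Y * U) k l‖ ^ 2 := by
  have h1 : trace (C * (Y * Yᴴ)) = trace (Yᴴ * (C * Y)) := by
    rw [← Matrix.mul_assoc C, trace_mul_comm (C * Y)]
  rw [h1, H.trace_conj]
  have h2 : Uᴴ * (C * Y) * U = dg (fun k => Real.exp (h k)) * (Uᴴ * Y * U) := by
    rw [← H.conj_C]
    calc Uᴴ * (C * Y) * U = Uᴴ * C * (U * Uᴴ) * Y * U := by
          rw [H.unit']; simp [Matrix.mul_assoc]
      _ = _ := by simp only [Matrix.mul_assoc]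
  rw [h2, Complex.re_sum]
  refine Finset.sum_congr rfl fun k _ => ?_
  rw [Complex.re_sum]
  refine Finset.sum_congr rfl fun l _ => ?_
  rw [Matrix.diagonal_mul, mul_left_comm, Complex.star_def, ← Complex.normSq_eq_conj_mul_self,
    ← Complex.ofReal_mul, Complex.ofReal_re, Complex.normSq_eq_norm_sq]

/-- the `L + R` form of `Y` -/
noncomputable def LR (C Y : Matrix κ κ ℂ) : ℝ := (trace (C * (Yᴴ * Y))).re + (trace (C * (Y * Yᴴ))).re


end Diag


/-! ### Consequences for entries, energy -/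

namespace Diag

variable {C U : Matrix κ κ ℂ} {h : κ → ℝ}

theorem isHermitian (H : Diag C U h) : C.IsHermitian := by
  unfold Matrix.IsHermitian
  rw [H.eq, Matrix.conjTranspose_mul, Matrix.conjTranspose_mul, Matrix.conjTranspose_conjTranspose,
    ← Matrix.mul_assoc]
  congr 2
  rw [dg, Matrix.diagonal_conjTranspose]
  congr 1
  ext i
  rw [Pi.star_apply, Complex.star_def, Complex.conj_ofReal]

theorem LR_single (C : Matrix κ κ ℂ) (k l : κ) :
    LR C (Matrix.single k l (1 : ℂ)) = (C l l).re + (C k k).re := by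
  unfold LR
  have e1 : (Matrix.single k l (1 : ℂ))ᴴ * Matrix.single k l (1 : ℂ) = Matrix.single l l 1 := by
    rw [Matrix.conjTranspose_single, Matrix.single_mul_single_same]; simp
  have e2 : Matrix.single k l (1 : ℂ) * (Matrix.single k l (1 : ℂ))ᴴ = Matrix.single k k 1 := by
    rw [Matrix.conjTranspose_single, Matrix.single_mul_single_same]; simp
  rw [e1, e2]
  have e3 : ∀ i : κ, trace (C * Matrix.single i i (1 : ℂ)) = C i i := by
    intro i
    rw [Matrix.trace_mul_single]; simp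
  rw [e3, e3]








end Diag

end Crest.Agent.R331.Fin7_380
end

-- ▼ part R331/FCur_380

set_option autoImplicit false

/-!
Row 331, finite track, leaf FCUR (architect helper136): the total current identity.

`Q = U diag(exp h) Uᴴ`, `t = h k - h l`, `b = log (1 + 1/N)`, `u t = t/(e^t - 1)`.
`slk` is the slack `D0(G_Q^c)` of the operator inequality; it controls
`w = (N+1) c Q - N Q c - m Q` in the dual of the `L + R` form.
-/

open Matrix Finset
open scoped ComplexOrder

namespace Crest.Agent.R331.FCur380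

open Crest.Agent.R331.NetDefs835 (u)
open Crest.Agent.R331.Fin7_380 (Diag)
open Crest.Agent.R331.Fin7_380.Diag (LR LR_single)
open Crest.Agent.R331.Duh839 (dg)

/-! ### Scalar facts -/

theorem u_neg (t : ℝ) : u (-t) = Real.exp t * u t := by
  unfold u
  by_cases h : t = 0
  · simp [h]
  · rw [if_neg (neg_ne_zero.2 h), if_neg h, Real.exp_neg]
    have h1 : Real.exp t - 1 ≠ 0 := by
      intro h2
      apply h
      have : Real.exp t = 1 := by linarith
      exact (Real.exp_eq_one_iff t).1 this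
    have h3 := Real.exp_pos t
    have h4 : (Real.exp t)⁻¹ - 1 ≠ 0 := by
      intro h5
      apply h1
      have h6 : (Real.exp t)⁻¹ = 1 := by linarith
      have := inv_eq_one.1 h6
      linarith
    rw [div_eq_iff h4]
    field_simp
    ring

theorem u_neg' (t : ℝ) : u (-t) = u t + t := by
  rw [u_neg]
  unfold u
  by_cases h : t = 0
  · simp [h]
  · rw [if_neg h]
    have h1 : Real.exp t - 1 ≠ 0 := by
      intro h2
      apply h
      have : Real.exp t = 1 := by linarith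
      exact (Real.exp_eq_one_iff t).1 this
    field_simp
    ring

theorem exp_sub_mul_u (x y : ℝ) : Real.exp y * u (-(x - y)) = Real.exp x * u (x - y) := by
  rw [u_neg, ← mul_assoc, ← Real.exp_add]
  ring_nf

theorem b_pos {N : ℝ} (hN : 0 < N) : 0 < Real.log (1 + 1 / N) := by
  apply Real.log_pos
  have : 0 < 1 / N := by positivity
  linarith

theorem u_b {N : ℝ} (hN : 0 < N) : u (Real.log (1 + 1 / N)) = Real.log (1 + 1 / N) * N := by
  have hb := b_pos hN
  unfold u
  rw [if_neg hb.ne', Real.exp_log (by positivity)]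
  field_simp
  ring

theorem u_neg_b {N : ℝ} (hN : 0 < N) :
    u (-Real.log (1 + 1 / N)) = Real.log (1 + 1 / N) * (N + 1) := by
  rw [u_neg', u_b hN]; ring

/-- the current identity for one matrix element -/
theorem current_scalar {N : ℝ} (hN : 0 < N) (x y : ℝ) :
    Real.exp y * (u (-Real.log (1 + 1 / N)) - u (-(x - y))) +
      Real.exp x * (u (x - y) - u (Real.log (1 + 1 / N))) =
    Real.log (1 + 1 / N) * ((N + 1) * Real.exp y - N * Real.exp x) := by
  rw [u_neg_b hN, u_b hN, mul_sub, mul_sub, exp_sub_mul_u]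
  ring

/-! ### The slack -/

section

variable {κ : Type*} [Fintype κ]

/-- `D0 (G^c)` in an eigenbasis -/
noncomputable def slk (h : κ → ℝ) (b : ℝ) (c0 : Matrix κ κ ℂ) : ℝ :=
  ∑ k, ∑ l, (Real.exp (h l) * (u (-b) - u (-(h k - h l))) ^ 2 +
    Real.exp (h k) * (u (h k - h l) - u b) ^ 2) * ‖c0 k l‖ ^ 2

/-- `D0` as a form: potentials `al`, `1 - al` -/
noncomputable def D0 (h : κ → ℝ) (al : ℝ → ℝ) (Y : Matrix κ κ ℂ) : ℝ :=
  ∑ k, ∑ l, (Real.exp (h l) * (al (h k - h l)) ^ 2 +
    Real.exp (h k) * (1 - al (h k - h l)) ^ 2) * ‖Y k l‖ ^ 2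

theorem slk_eq (h : κ → ℝ) (b : ℝ) (c0 : Matrix κ κ ℂ) (al : ℝ → ℝ)
    (hal : ∀ t, t ≠ b → al t = (u (-b) - u (-t)) / (b - t)) :
    D0 h al (Matrix.of fun k l => ((b - (h k - h l) : ℝ) : ℂ) * c0 k l) = slk h b c0 := by
  unfold D0 slk
  refine Finset.sum_congr rfl fun k _ => Finset.sum_congr rfl fun l _ => ?_
  rw [Matrix.of_apply, norm_mul, Complex.norm_real, Real.norm_eq_abs, mul_pow, sq_abs]
  by_cases ht : h k - h l = b
  · rw [ht]; simp
  · rw [hal _ ht]
    have hne : b - (h k - h l) ≠ 0 := sub_ne_zero.2 (Ne.symm ht)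
    have e1 : (1 - (u (-b) - u (-(h k - h l))) / (b - (h k - h l))) =
        (u (h k - h l) - u b) / (b - (h k - h l)) := by
      rw [eq_div_iff hne, sub_mul, div_mul_cancel₀ _ hne, u_neg' b, u_neg' (h k - h l)]
      ring
    rw [e1, div_pow, div_pow]
    field_simp


/-- pairing in the eigenbasis -/
theorem pairing0 {N : ℝ} (hN : 0 < N) (h : κ → ℝ) (c0 Y : Matrix κ κ ℂ) :
    Real.log (1 + 1 / N) * ‖∑ k, ∑ l, star (Y k l) *
      ((((N + 1) * Real.exp (h l) - N * Real.exp (h k) : ℝ) : ℂ) * c0 k l)‖ ≤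
    √(∑ k, ∑ l, (Real.exp (h l) + Real.exp (h k)) * ‖Y k l‖ ^ 2) *
      √(slk h (Real.log (1 + 1 / N)) c0) := by
  have hb := b_pos hN
  set b := Real.log (1 + 1 / N) with hbdef
  -- index set with two copies
  let f : κ × κ → ℝ := fun p => √(Real.exp (h p.2)) * ‖Y p.1 p.2‖
  let f' : κ × κ → ℝ := fun p => √(Real.exp (h p.1)) * ‖Y p.1 p.2‖
  let g : κ × κ → ℝ := fun p => √(Real.exp (h p.2)) * |u (-b) - u (-(h p.1 - h p.2))| *
    ‖c0 p.1 p.2‖
  let g' : κ × κ → ℝ := fun p => √(Real.exp (h p.1)) * |u (h p.1 - h p.2) - u b| * ‖c0 p.1 p.2‖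
  have e1 : b * ‖∑ k, ∑ l, star (Y k l) *
      ((((N + 1) * Real.exp (h l) - N * Real.exp (h k) : ℝ) : ℂ) * c0 k l)‖ ≤
      ∑ p : κ × κ, (f p * g p + f' p * g' p) := by
    rw [← Finset.univ_product_univ, Finset.sum_product]
    calc b * ‖∑ k, ∑ l, star (Y k l) *
        ((((N + 1) * Real.exp (h l) - N * Real.exp (h k) : ℝ) : ℂ) * c0 k l)‖
        ≤ b * ∑ k, ∑ l, ‖star (Y k l) *
          ((((N + 1) * Real.exp (h l) - N * Real.exp (h k) : ℝ) : ℂ) * c0 k l)‖ := by
          apply mul_le_mul_of_nonneg_left _ hb.le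
          exact (norm_sum_le _ _).trans (Finset.sum_le_sum fun k _ => norm_sum_le _ _)
      _ = ∑ k, ∑ l, b * ‖star (Y k l) *
          ((((N + 1) * Real.exp (h l) - N * Real.exp (h k) : ℝ) : ℂ) * c0 k l)‖ := by
          rw [Finset.mul_sum]
          refine Finset.sum_congr rfl fun k _ => ?_
          rw [Finset.mul_sum]
      _ ≤ _ := by
          refine Finset.sum_le_sum fun k _ => Finset.sum_le_sum fun l _ => ?_
          rw [norm_mul, norm_mul, norm_star, Complex.norm_real, Real.norm_eq_abs]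
          have h1 := current_scalar hN (h k) (h l)
          rw [← hbdef] at h1
          have h2 : b * |(N + 1) * Real.exp (h l) - N * Real.exp (h k)| ≤
              Real.exp (h l) * |u (-b) - u (-(h k - h l))| +
              Real.exp (h k) * |u (h k - h l) - u b| := by
            calc b * |(N + 1) * Real.exp (h l) - N * Real.exp (h k)|
                = |b * ((N + 1) * Real.exp (h l) - N * Real.exp (h k))| := by
                  rw [abs_mul, abs_of_pos hb]
              _ = |Real.exp (h l) * (u (-b) - u (-(h k - h l))) +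
                    Real.exp (h k) * (u (h k - h l) - u b)| := by rw [h1]
              _ ≤ |Real.exp (h l) * (u (-b) - u (-(h k - h l)))| +
                    |Real.exp (h k) * (u (h k - h l) - u b)| := abs_add_le _ _
              _ = _ := by
                  rw [abs_mul, abs_mul, abs_of_pos (Real.exp_pos _), abs_of_pos (Real.exp_pos _)]
          have h3 : √(Real.exp (h l)) * √(Real.exp (h l)) = Real.exp (h l) :=
            Real.mul_self_sqrt (Real.exp_pos _).le
          have h4 : √(Real.exp (h k)) * √(Real.exp (h k)) = Real.exp (h k) :=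
            Real.mul_self_sqrt (Real.exp_pos _).le
          have h5 : f (k, l) * g (k, l) + f' (k, l) * g' (k, l) =
              (Real.exp (h l) * |u (-b) - u (-(h k - h l))| +
              Real.exp (h k) * |u (h k - h l) - u b|) * (‖Y k l‖ * ‖c0 k l‖) := by
            simp only [f, g, f', g']
            calc _ = (√(Real.exp (h l)) * √(Real.exp (h l))) * |u (-b) - u (-(h k - h l))| *
                  (‖Y k l‖ * ‖c0 k l‖) + (√(Real.exp (h k)) * √(Real.exp (h k))) *
                  |u (h k - h l) - u b| * (‖Y k l‖ * ‖c0 k l‖) := by ring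
              _ = _ := by rw [h3, h4]; ring
          rw [h5]
          calc b * (‖Y k l‖ * (|(N + 1) * Real.exp (h l) - N * Real.exp (h k)| * ‖c0 k l‖))
              = b * |(N + 1) * Real.exp (h l) - N * Real.exp (h k)| * (‖Y k l‖ * ‖c0 k l‖) := by
                ring
            _ ≤ _ := mul_le_mul_of_nonneg_right h2 (by positivity)
  refine e1.trans ?_
  -- Cauchy-Schwarz over the disjoint union
  have e2 : ∑ p : κ × κ, (f p * g p + f' p * g' p) =
      ∑ s : (κ × κ) ⊕ (κ × κ), Sum.elim f f' s * Sum.elim g g' s := by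
    rw [Fintype.sum_sum_type, Finset.sum_add_distrib]
    simp
  have e3 : ∑ s : (κ × κ) ⊕ (κ × κ), (Sum.elim f f' s) ^ 2 =
      ∑ k, ∑ l, (Real.exp (h l) + Real.exp (h k)) * ‖Y k l‖ ^ 2 := by
    rw [Fintype.sum_sum_type]
    simp only [Sum.elim_inl, Sum.elim_inr]
    rw [← Finset.sum_add_distrib, ← Finset.univ_product_univ, Finset.sum_product]
    refine Finset.sum_congr rfl fun k _ => Finset.sum_congr rfl fun l _ => ?_
    simp only [f, f']
    rw [mul_pow, mul_pow, Real.sq_sqrt (Real.exp_pos _).le, Real.sq_sqrt (Real.exp_pos _).le]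
    ring
  have e4 : ∑ s : (κ × κ) ⊕ (κ × κ), (Sum.elim g g' s) ^ 2 = slk h b c0 := by
    rw [Fintype.sum_sum_type]
    simp only [Sum.elim_inl, Sum.elim_inr]
    unfold slk
    rw [← Finset.sum_add_distrib, ← Finset.univ_product_univ, Finset.sum_product]
    refine Finset.sum_congr rfl fun k _ => Finset.sum_congr rfl fun l _ => ?_
    simp only [g, g']
    rw [mul_pow, mul_pow, mul_pow, mul_pow, Real.sq_sqrt (Real.exp_pos _).le,
      Real.sq_sqrt (Real.exp_pos _).le, sq_abs, sq_abs]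
    ring
  rw [e2]
  refine (Real.sum_mul_le_sqrt_mul_sqrt _ _ _).trans (le_of_eq ?_)
  rw [e3, e4]

end

/-! ### Matrix form -/

section

variable {κ : Type*} [Fintype κ] [DecidableEq κ]

/-- `(N+1) c Q - N Q c` -/
noncomputable def wmat (N : ℝ) (Q c : Matrix κ κ ℂ) : Matrix κ κ ℂ :=
  ((N + 1 : ℝ) : ℂ) • (c * Q) - (N : ℂ) • (Q * c)

theorem wmat_sub (N : ℝ) (Q c : Matrix κ κ ℂ) (m : ℂ) :
    wmat N Q (c - m • (1 : Matrix κ κ ℂ)) = wmat N Q c - m • Q := by
  unfold wmat
  rw [Matrix.sub_mul, Matrix.mul_sub, Matrix.smul_mul, Matrix.mul_smul, Matrix.one_mul,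
    Matrix.mul_one]
  push_cast
  ext i j
  simp only [Matrix.sub_apply, Matrix.smul_apply, smul_eq_mul]
  ring

theorem wmat_dg (N : ℝ) (h : κ → ℝ) (c : Matrix κ κ ℂ) (k l : κ) :
    wmat N (dg fun k => Real.exp (h k)) c k l =
      (((N + 1) * Real.exp (h l) - N * Real.exp (h k) : ℝ) : ℂ) * c k l := by
  unfold wmat
  rw [Matrix.sub_apply, Matrix.smul_apply, Matrix.smul_apply, Matrix.mul_diagonal,
    Matrix.diagonal_mul]
  push_cast
  simp only [smul_eq_mul]
  ring

variable {Q U : Matrix κ κ ℂ} {h : κ → ℝ}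

theorem conj_w (H : Diag Q U h) (N : ℝ) (c : Matrix κ κ ℂ) :
    Uᴴ * wmat N Q c * U = wmat N (dg fun k => Real.exp (h k)) (Uᴴ * c * U) := by
  rw [← H.conj_C]
  unfold wmat
  have h1 : (Uᴴ * c * U) * (Uᴴ * Q * U) = Uᴴ * (c * Q) * U := by
    calc (Uᴴ * c * U) * (Uᴴ * Q * U) = Uᴴ * c * (U * Uᴴ) * Q * U := by
          simp only [Matrix.mul_assoc]
      _ = _ := by rw [H.unit']; simp [Matrix.mul_assoc]
  have h2 : (Uᴴ * Q * U) * (Uᴴ * c * U) = Uᴴ * (Q * c) * U := by
    calc (Uᴴ * Q * U) * (Uᴴ * c * U) = Uᴴ * Q * (U * Uᴴ) * c * U := by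
          simp only [Matrix.mul_assoc]
      _ = _ := by rw [H.unit']; simp [Matrix.mul_assoc]
  rw [h1, h2, Matrix.mul_sub, Matrix.sub_mul, Matrix.mul_smul, Matrix.smul_mul, Matrix.mul_smul,
    Matrix.smul_mul]

/-- **(CURRENT)** centred matrix `c0` -/
theorem current0 (H : Diag Q U h) {N : ℝ} (hN : 0 < N) (c0 Y : Matrix κ κ ℂ) :
    Real.log (1 + 1 / N) * ‖trace (Yᴴ * wmat N Q c0)‖ ≤
      √(LR Q Y) * √(slk h (Real.log (1 + 1 / N)) (Uᴴ * c0 * U)) := by
  rw [H.trace_conj, conj_w H]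
  have h1 := pairing0 hN h (Uᴴ * c0 * U) (Uᴴ * Y * U)
  have h2 : LR Q Y = ∑ k, ∑ l, (Real.exp (h l) + Real.exp (h k)) * ‖(Uᴴ * Y * U) k l‖ ^ 2 := by
    unfold LR
    rw [H.trace_right, H.trace_left, ← Finset.sum_add_distrib]
    refine Finset.sum_congr rfl fun k _ => ?_
    rw [← Finset.sum_add_distrib]
    refine Finset.sum_congr rfl fun l _ => ?_
    ring
  rw [h2]
  simp only [wmat_dg]
  exact h1

/-- **(CURRENT)** -/
theorem current (H : Diag Q U h) {N : ℝ} (hN : 0 < N) (c Y : Matrix κ κ ℂ) (m : ℂ) :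
    Real.log (1 + 1 / N) * ‖trace (Yᴴ * (wmat N Q c - m • Q))‖ ≤
      √(LR Q Y) * √(slk h (Real.log (1 + 1 / N)) (Uᴴ * (c - m • (1 : Matrix κ κ ℂ)) * U)) := by
  rw [← wmat_sub]
  exact current0 H hN _ Y

/-- entries of the current -/
theorem current_entry (H : Diag Q U h) {N : ℝ} (hN : 0 < N) (c : Matrix κ κ ℂ) (m : ℂ) (k l : κ) :
    Real.log (1 + 1 / N) * ‖wmat N Q c k l - m * Q k l‖ ≤
      √((Q l l).re + (Q k k).re) *
        √(slk h (Real.log (1 + 1 / N)) (Uᴴ * (c - m • (1 : Matrix κ κ ℂ)) * U)) := by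
  have h1 := current H hN c (Matrix.single k l (1 : ℂ)) m
  rw [LR_single] at h1
  have e : ∀ T : Matrix κ κ ℂ, trace ((Matrix.single k l (1 : ℂ))ᴴ * T) = T k l := by
    intro T
    rw [Matrix.conjTranspose_single, trace_mul_comm, Matrix.trace_mul_single]; simp
  rwa [e, Matrix.sub_apply, Matrix.smul_apply, smul_eq_mul] at h1

/-! ### `Q = C + ε` -/

variable {C : Matrix κ κ ℂ}

theorem trace_Q (C Z : Matrix κ κ ℂ) (ε : ℝ) :
    trace ((C + (ε : ℂ) • (1 : Matrix κ κ ℂ)) * Z) = trace (C * Z) + (ε : ℂ) * trace Z := by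
  rw [Matrix.add_mul, Matrix.trace_add, Matrix.smul_mul, Matrix.one_mul, Matrix.trace_smul,
    smul_eq_mul]

theorem LR_Q (C c : Matrix κ κ ℂ) (ε : ℝ) :
    LR (C + (ε : ℂ) • (1 : Matrix κ κ ℂ)) c = LR C c + 2 * ε * (trace (cᴴ * c)).re := by
  unfold LR
  rw [trace_Q, trace_Q, Complex.add_re, Complex.add_re, Complex.re_ofReal_mul,
    Complex.re_ofReal_mul, trace_mul_comm c cᴴ]
  ring

/-- **energy**: `b (E - N - |m|²) ≤ √(2E + 1 + 2 ε Tr cᴴc) √slk`. -/
theorem energy_le {ε N : ℝ} (hN : 0 < N) (H : Diag (C + (ε : ℂ) • (1 : Matrix κ κ ℂ)) U h)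
    (hC : C.IsHermitian) (c : Matrix κ κ ℂ) (hc : trace c = 0) {m : ℂ}
    (hm : m = trace (C * c)) (hε : 0 ≤ ε)
    (hcc : (trace (C * (c * cᴴ))).re ≤ (trace (C * (cᴴ * c))).re + 1) :
    Real.log (1 + 1 / N) * ((trace (C * (cᴴ * c))).re - N - ‖m‖ ^ 2) ≤
      √(2 * (trace (C * (cᴴ * c))).re + 1 + 2 * ε * (trace (cᴴ * c)).re) *
        √(slk h (Real.log (1 + 1 / N)) (Uᴴ * (c - m • (1 : Matrix κ κ ℂ)) * U)) := by
  have hb := b_pos hN
  have h1 := current H hN c c m
  have hmm : (m * star m).re = ‖m‖ ^ 2 := by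
    rw [mul_comm, Complex.star_def, ← Complex.normSq_eq_conj_mul_self, Complex.ofReal_re,
      Complex.normSq_eq_norm_sq]
  have htc : trace cᴴ = 0 := by rw [Matrix.trace_conjTranspose, hc, star_zero]
  have hCc : trace (C * cᴴ) = star m := by
    rw [hm, ← Matrix.trace_conjTranspose, Matrix.conjTranspose_mul, hC.eq, trace_mul_comm]
  have hp : 0 ≤ (trace (cᴴ * c)).re := by
    have h := (Matrix.posSemidef_conjTranspose_mul_self c).trace_nonneg
    exact (Complex.le_def.1 h).1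
  have h2 : (trace (cᴴ * (wmat N (C + (ε : ℂ) • (1 : Matrix κ κ ℂ)) c -
      m • (C + (ε : ℂ) • (1 : Matrix κ κ ℂ))))).re =
      (N + 1) * (trace (C * (cᴴ * c))).re - N * (trace (C * (c * cᴴ))).re +
        ε * (trace (cᴴ * c)).re - ‖m‖ ^ 2 := by
    unfold wmat
    set Q := C + (ε : ℂ) • (1 : Matrix κ κ ℂ) with hQ
    have a1 : trace (cᴴ * (c * Q)) = trace (C * (cᴴ * c)) + (ε : ℂ) * trace (cᴴ * c) := by
      rw [← Matrix.mul_assoc, trace_mul_comm (cᴴ * c) Q, hQ, trace_Q]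
    have a2 : trace (cᴴ * (Q * c)) = trace (C * (c * cᴴ)) + (ε : ℂ) * trace (cᴴ * c) := by
      rw [trace_mul_comm cᴴ (Q * c), Matrix.mul_assoc Q c, hQ, trace_Q, trace_mul_comm c cᴴ]
    have a3 : trace (cᴴ * Q) = star m := by
      rw [trace_mul_comm, hQ, trace_Q, hCc, htc]; ring
    rw [Matrix.mul_sub, Matrix.mul_sub, Matrix.mul_smul, Matrix.mul_smul, Matrix.mul_smul,
      Matrix.trace_sub, Matrix.trace_sub, Matrix.trace_smul, Matrix.trace_smul, Matrix.trace_smul,
      a1, a2, a3, smul_eq_mul, smul_eq_mul, smul_eq_mul, Complex.sub_re, Complex.sub_re,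
      hmm, Complex.re_ofReal_mul, Complex.re_ofReal_mul, Complex.add_re, Complex.add_re,
      Complex.re_ofReal_mul]
    ring
  have h3 : (trace (C * (cᴴ * c))).re - N - ‖m‖ ^ 2 ≤
      ‖trace (cᴴ * (wmat N (C + (ε : ℂ) • (1 : Matrix κ κ ℂ)) c -
      m • (C + (ε : ℂ) • (1 : Matrix κ κ ℂ))))‖ := by
    refine le_trans ?_ (Complex.re_le_norm _)
    rw [h2]
    nlinarith [mul_nonneg hε hp, mul_le_mul_of_nonneg_left hcc hN.le]
  refine (mul_le_mul_of_nonneg_left h3 hb.le).trans (h1.trans ?_)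
  apply mul_le_mul_of_nonneg_right _ (Real.sqrt_nonneg _)
  apply Real.sqrt_le_sqrt
  rw [LR_Q]
  unfold LR
  linarith

end

end Crest.Agent.R331.FCur380
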