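import Mathlib
import Crest.Agent.R331.FDefs_136

/-!
Row 331 (S0514), FINITE MATRIX TRACK (FIN), second set of leaf statements: error bounds, edge
weight, energies, current inequality, limit `K → ∞`, value, finite main theorem.
Architect: helper136.
-/

set_option autoImplicit false

namespace Crest.Agent.R331.FDefs136

open Matrix Crest.Quantum Crest.MathPhysics.Bosonic Filter Topology
open scoped Kronecker ComplexOrder BigOperators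

noncomputable section

/-- `κ = log (1/ε)`, the bound of `‖log Q‖` (for `ε ≤ 1/2`) -/
def kap (ε : ℝ) : ℝ := Real.log (1 / ε)

/-- energy of the output -/
def EnC (η : ℝ) {n K : ℕ} (A B : Matrix (Bx n K) (Bx n K) ℂ) : ℝ :=
  (outC η A B * num n (2 * K)).trace.re

/-- LEAF FERR (helper8, 561): explicit bound of the three error terms; only densities needed. -/
def FERR : Prop := ∀ p : Par, ∃ c0 : ℝ, 0 < c0 ∧ ∀ (n K : ℕ) (j : Fin n) (ε : ℝ), 0 < ε → ε ≤ 1 / 2 →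
  ∀ A B : Matrix (Bx n K) (Bx n K) ℂ, IsDensity A → IsDensity B →
    gapErr p ε j A B ≤ c0 * ((kap ε + 1) * Real.sqrt ((K + 1) * (Tp j A + Tp j B))
        * Real.sqrt (1 + En A + En B)
      + ε * (kap ε + 1) * ((2 * K + 1 : ℕ) : ℝ) ^ (n + 1))

/-- LEAF FEDGE (931, 633): the edge weight at a minimiser, and the means. -/
def FEDGE : Prop := ∀ p : Par, ∃ c0 : ℝ, 0 < c0 ∧ ∀ (n K : ℕ) (j : Fin n) (ε : ℝ), 0 < ε → ε ≤ 1 / 2 →
  ∀ A B : Matrix (Bx n K) (Bx n K) ℂ, IsMin p ε A B → 2 * (En A + En B + 1) ≤ K →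
    Tp j A ≤ (c0 * (kap ε + n * Real.log (2 * K + 2) + 1) / K) ^ 2 ∧
    Tp j B ≤ (c0 * (kap ε + n * Real.log (2 * K + 2) + 1) / K) ^ 2 ∧
    ‖mX j A‖ ≤ c0 * kap ε * Real.sqrt ((K + 1) * Tp j A) ∧
    ‖mX j B‖ ≤ c0 * kap ε * Real.sqrt ((K + 1) * Tp j B)

/-- LEAF FENERGY (931, 839, 834): a priori energy bound, no condition on `ε`: `F(A,B) ≤ F(vac,vac)`
and `S(Q) ≥ S(Q_vac)` because `h(c) = -(c+ε) log(c+ε)` is concave: `h(c) ≥ (1-c) h(0) + c h(1)`,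
`Σ c_i = 1`; then `μ Σ η_X E_X ≤ Σ λ_X S(X) ≤ Σ λ_X (s E_X + n φ(s))` with small `s`. -/
def FENERGY : Prop := ∀ (p : Par) (n : ℕ), ∃ E0 : ℝ, ∀ (K : ℕ) (ε : ℝ), 0 < ε →
  ∀ A B : Matrix (Bx n K) (Bx n K) ℂ, IsMin p ε A B → En A ≤ E0 ∧ En B ≤ E0


/-- LEAF FVALUE (834): Gibbs on the inputs. -/
def FVALUE : Prop := ∀ (p : Par) (n K : ℕ) (ε : ℝ), 0 < ε →
  ∀ A B : Matrix (Bx n K) (Bx n K) ℂ, IsDensity A → IsDensity B →
    vnEntropy (outQ p.η ε A B) - p.bC * (p.η * En A + (1 - p.η) * En B)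
      - n * (p.lamA * Real.log (p.NA + 1) + p.lamB * Real.log (p.NB + 1)) ≤ F p ε A B

/-- LEAF FENSUM (87, 834): energy identity. -/
def FENSUM : Prop := ∀ (η : ℝ) (n K : ℕ), 0 < η → η < 1 →
  ∀ A B : Matrix (Bx n K) (Bx n K) ℂ, IsDensity A → IsDensity B →
    η * En A + (1 - η) * En B + 2 * Real.sqrt η * Real.sqrt (1 - η) *
      ∑ j, ((starRingEnd ℂ) (mX j A) * mX j B).re = EnC η A B

/-! ### Sequences: `ε_K = (K+1)^{-(n+4)}` -/

/-- the regularisation parameter -/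
def epsK (n K : ℕ) : ℝ := 1 / ((K : ℝ) + 1) ^ (n + 4)

/-- entry of an output matrix at arbitrary occupation numbers, `0` outside the box -/
def ent {n M : ℕ} (X : Matrix (Bx n M) (Bx n M) ℂ) (k l : Fin n → ℕ) : ℂ :=
  if h : (∀ i, k i < M + 1) ∧ (∀ i, l i < M + 1) then
    X (fun i => ⟨k i, h.1 i⟩) (fun i => ⟨l i, h.2 i⟩) else 0

/-- LEMMA LGAP (from FGAP, FERR, FEDGE, FENERGY): the slack tends to `0`, and the means. -/
def LGAP : Prop := ∀ (p : Par) (n : ℕ) (j : Fin n) (δ : ℝ), 0 < δ → ∃ K0 : ℕ, ∀ K, K0 ≤ K →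
  ∀ A B : Matrix (Bx n K) (Bx n K) ℂ, IsMin p (epsK n K) A B →
    formD p.bC (outQ p.η (epsK n K) A B) (GQc p (epsK n K) j A B) ≤ δ ∧
    ‖mX j A‖ ≤ δ ∧ ‖mX j B‖ ≤ δ

/-- energies of the minimisers are bounded (from FENERGY) -/
def LENERGY : Prop := ∀ (p : Par) (n : ℕ), ∃ E0 : ℝ, ∀ K : ℕ,
  ∀ A B : Matrix (Bx n K) (Bx n K) ℂ, IsMin p (epsK n K) A B →
    En A ≤ E0 ∧ En B ≤ E0 ∧ EnC p.η A B ≤ E0

/-- LEMMA LENC (from FCUR with `Y = c`, LGAP): output energy. -/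
def LENC : Prop := ∀ (p : Par) (n : ℕ) (δ : ℝ), 0 < δ → ∃ K0 : ℕ, ∀ K, K0 ≤ K →
  ∀ A B : Matrix (Bx n K) (Bx n K) ℂ, IsMin p (epsK n K) A B →
    EnC p.η A B ≤ n * p.NC + δ

/-- LEMMA LREC (from FCUR with `Y = |k⟩⟨l|`, LGAP): ladder recursion for the entries of the
output, `x = N_C/(N_C+1)`. -/
def LREC : Prop := ∀ (p : Par) (n : ℕ) (j : Fin n) (k l : Fin n → ℕ) (δ : ℝ), 0 < δ → ∃ K0 : ℕ,
  ∀ K, K0 ≤ K → ∀ A B : Matrix (Bx n K) (Bx n K) ℂ, IsMin p (epsK n K) A B →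
    ‖(Real.sqrt (k j + 1) : ℂ) * ent (outC p.η A B) (Function.update k j (k j + 1)) l
      - ((p.NC / (p.NC + 1) : ℝ) : ℂ) * (Real.sqrt (l j) : ℂ) *
        ent (outC p.η A B) k (Function.update l j (l j - 1))‖ ≤ δ

/-- LEAF FVAL (563, 628): entropy of the output from the recursion (`LREC`, `LENERGY`). Abstract:
a sequence of density matrices on boxes. -/
def FVAL : Prop := ∀ (n : ℕ) (N E0 : ℝ), 0 < N → ∀ (M : ℕ → ℕ)
  (ρ : ∀ K : ℕ, Matrix (Bx n (M K)) (Bx n (M K)) ℂ), Tendsto M atTop atTop →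
  (∀ K, IsDensity (ρ K)) → (∀ K, (ρ K * num n (M K)).trace.re ≤ E0) →
  (∀ (j : Fin n) (k l : Fin n → ℕ), Tendsto (fun K =>
    (Real.sqrt (k j + 1) : ℂ) * ent (ρ K) (Function.update k j (k j + 1)) l
      - ((N / (N + 1) : ℝ) : ℂ) * (Real.sqrt (l j) : ℂ) *
        ent (ρ K) k (Function.update l j (l j - 1))) atTop (𝓝 0)) →
  ∀ δ : ℝ, 0 < δ → ∀ᶠ K in atTop, n * gBose N - δ ≤ vnEntropy (ρ K)

/-- LEAF FSQ (entropy of `C + ε` versus `C`): both directions, any dimension. -/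
def FSQ : Prop := ∀ (ι : Type) [Fintype ι] [DecidableEq ι] (C : Matrix ι ι ℂ) (ε : ℝ), 0 < ε →
  ε ≤ 1 / 2 → IsDensity C →
    |vnEntropy (C + (ε : ℂ) • (1 : Matrix ι ι ℂ)) - vnEntropy C|
      ≤ Fintype.card ι * (ε * (kap ε + 2))

/-- thermal value of the functional -/
def thVal (p : Par) (n : ℕ) : ℝ :=
  n * (Real.log (p.NC + 1) - p.lamA * Real.log (p.NA + 1) - p.lamB * Real.log (p.NB + 1))

/-- LEMMA LMIN (from LENC, LREC + FVAL, FSQ, FVALUE, FENSUM, LGAP). -/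
def LMIN : Prop := ∀ (p : Par) (n : ℕ) (δ : ℝ), 0 < δ → ∃ K0 : ℕ, ∀ K, K0 ≤ K →
  ∀ A B : Matrix (Bx n K) (Bx n K) ℂ, IsMin p (epsK n K) A B →
    thVal p n - δ ≤ F p (epsK n K) A B



/-- **FINITE MAIN THEOREM** (`μ → 0`), in the frozen `bsOutput` -/
def FINMAIN : Prop := ∀ (η NA NB : ℝ) (n K0 : ℕ), 0 < η → η < 1 → 0 < NA → 0 < NB →
  ∀ A0 B0 : Matrix (Bx n K0) (Bx n K0) ℂ, IsDensity A0 → IsDensity B0 →
    n * gBose (η * NA + (1 - η) * NB)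
      + η * bN (η * NA + (1 - η) * NB) / bN NA * (vnEntropy A0 - n * gBose NA)
      + (1 - η) * bN (η * NA + (1 - η) * NB) / bN NB * (vnEntropy B0 - n * gBose NB)
    ≤ vnEntropy (bsOutput η A0 B0)


end

end Crest.Agent.R331.FDefs136
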