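import Crest.Agent.R331.FCov_76
import Crest.Agent.R331.FCovB_76
import Crest.Agent.R331.FDefs_136
import Crest.Agent.R331.FOpiDefs_712

-- ▼ part R331/FGap_633
section

/-!
Row 331 (EPnI), finite-matrix track, leaf FGAP (helper633): the algebra
(EL) + (OPI with slack) + (COV) ⟹ (GAP), in the convention of helper136:
`Q = C + ε`, `lam_X b_X = h_X² β`, `β = b_C + μ`.
-/

set_option autoImplicit false
set_option linter.unusedSectionVars false

namespace Crest.Agent.R331.FGap633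

open Matrix FCov76
open scoped Kronecker ComplexOrder BigOperators

noncomputable section

variable {α β γ δ : Type*} [Fintype α] [Fintype β] [Fintype γ] [Fintype δ]
  [DecidableEq α] [DecidableEq β] [DecidableEq γ] [DecidableEq δ]

/-- `w = (N+1) y X - N X y` -/
def ww (N : ℝ) (X y : Matrix α α ℂ) : Matrix α α ℂ := ((N : ℂ) + 1) • (y * X) - (N : ℂ) • (X * y)

/-- `G = [K, y] + b y` -/
def gg (b : ℝ) (K y : Matrix α α ℂ) : Matrix α α ℂ := K * y - y * K + (b : ℂ) • y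

/-- centred operator -/
def cen (X y : Matrix α α ℂ) : Matrix α α ℂ := y - (X * y).trace • (1 : Matrix α α ℂ)

/-- real part of the trace pairing -/
def rp (Y Z : Matrix α α ℂ) : ℝ := ((Yᴴ * Z).trace).re

/-- A real positive quadratic form (real part of a sesquilinear form) compatible with the
modular data `(K, X, N, b)`. -/
structure HForm (N b : ℝ) (K X : Matrix α α ℂ) where
  H : Matrix α α ℂ → Matrix α α ℂ → ℝ
  sq : ∀ Y Z : Matrix α α ℂ, ∀ s : ℝ, 0 ≤ H Y Y - 2 * s * H Y Z + s ^ 2 * H Z Z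
  key : ∀ Y y : Matrix α α ℂ, H Y (gg b K y) = b * rp Y (ww N X y)

theorem trace_ww_cen {N : ℝ} {X y : Matrix α α ℂ} (hX : X.trace = 1) :
    (ww N X (cen X y)).trace = 0 := by
  unfold ww cen
  rw [trace_sub, trace_smul, trace_smul, Matrix.trace_mul_comm (y - _) X, Matrix.mul_sub,
    trace_sub, Matrix.mul_smul, Matrix.mul_one, trace_smul, hX]
  simp

theorem rp_sub_smul_one {N : ℝ} {X y : Matrix α α ℂ} (hX : X.trace = 1) (Y : Matrix α α ℂ) (z : ℂ) :
    rp (Y - z • (1 : Matrix α α ℂ)) (ww N X (cen X y)) = rp Y (ww N X (cen X y)) := by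
  unfold rp
  rw [conjTranspose_sub, conjTranspose_smul, conjTranspose_one, Matrix.sub_mul, Matrix.smul_mul,
    Matrix.one_mul, trace_sub, trace_smul, trace_ww_cen hX]
  simp

theorem rp_add (Y Z W : Matrix α α ℂ) : rp (Y + Z) W = rp Y W + rp Z W := by
  unfold rp; rw [conjTranspose_add, Matrix.add_mul, trace_add, Complex.add_re]

theorem rp_smul (s : ℝ) (Y W : Matrix α α ℂ) : rp ((s : ℂ) • Y) W = s * rp Y W := by
  unfold rp
  rw [conjTranspose_smul, Matrix.smul_mul, trace_smul]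
  simp


/-- lower bound for one input: if `P = s G^c - D^c` then
`H(P) ≥ s b (⟨P, w⟩ - ⟨D, w⟩)`. Here `G^c = gg b K (cen X x)`. -/
theorem one_input {N b : ℝ} {K X : Matrix α α ℂ} (F : HForm N b K X) (hX : X.trace = 1)
    (x P D : Matrix α α ℂ) (s : ℝ) (z : ℂ)
    (hP : P = (s : ℂ) • gg b K (cen X x) - D - z • (1 : Matrix α α ℂ)) :
    s * b * (rp P (ww N X (cen X x)) - rp D (ww N X (cen X x))) ≤ F.H P P := by
  have h := F.sq P (gg b K (cen X x)) s
  rw [F.key, F.key] at h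
  have h2 : s * rp (gg b K (cen X x)) (ww N X (cen X x)) =
      rp P (ww N X (cen X x)) + rp D (ww N X (cen X x)) := by
    have h3 : (s : ℂ) • gg b K (cen X x) = (P + D) - (-z) • (1 : Matrix α α ℂ) := by
      rw [hP, neg_smul]; abel
    have h4 := congrArg (fun M => rp M (ww N X (cen X x))) h3
    rw [rp_smul, rp_sub_smul_one hX, rp_add] at h4
    exact h4
  have h5 : s ^ 2 * (b * rp (gg b K (cen X x)) (ww N X (cen X x))) =
      s * b * (rp P (ww N X (cen X x)) + rp D (ww N X (cen X x))) := by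
    rw [← h2]; ring
  rw [h5] at h
  linarith

theorem ww_cen (N : ℝ) (X y : Matrix α α ℂ) :
    ww N X (cen X y) = cen X y * X - (N : ℂ) • (X * y - y * X) := by
  unfold ww cen
  simp only [Matrix.sub_mul, Matrix.mul_sub, Matrix.smul_mul, Matrix.mul_smul, Matrix.one_mul,
    Matrix.mul_one]
  module

theorem trace_mul_ww_cen (N : ℝ) (X y W : Matrix α α ℂ) :
    (W * ww N X (cen X y)).trace = (X * (W * y)).trace - (X * y).trace * (X * W).trace
      - (N : ℂ) * (W * (X * y - y * X)).trace := by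
  rw [ww_cen, Matrix.mul_sub, trace_sub, Matrix.mul_smul, trace_smul, smul_eq_mul]
  congr 1
  rw [cen, Matrix.sub_mul, Matrix.mul_sub, trace_sub, Matrix.smul_mul, Matrix.one_mul,
    Matrix.mul_smul, trace_smul, smul_eq_mul, ← Matrix.mul_assoc, Matrix.trace_mul_comm (W * y) X,
    Matrix.trace_mul_comm W X]

/-- the exact pairing identity -/
theorem pairing (S : BS α β γ δ) (hA0 : S.hA ≠ 0) (hB0 : S.hB ≠ 0) {A : Matrix α α ℂ}
    {B : Matrix β β ℂ} (htA : A.trace = 1) (htB : B.trace = 1) {NA NB NC : ℝ}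
    (hNC : NC = S.hA ^ 2 * NA + S.hB ^ 2 * NB) (W : Matrix γ γ ℂ) :
    (S.hA : ℂ) * (S.PA B W * ww NA A (cen A S.a)).trace
      + (S.hB : ℂ) * (S.PB A W * ww NB B (cen B S.b)).trace =
    (W * ww NC (S.out A B) (cen (S.out A B) S.c)).trace
      + ((S.hA : ℂ) ^ 2 * NA * (A * S.DA B W).trace + (S.hB : ℂ) ^ 2 * NB * (B * S.DB A W).trace) := by
  rw [trace_mul_ww_cen, trace_mul_ww_cen, trace_mul_ww_cen, S.trace_out_mul_c A B W,
    S.covariance_A hA0, S.covariance_B hB0, S.trace_A_PA, S.trace_B_PB, S.trace_out_c htA htB, hNC]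
  push_cast
  ring

theorem el_A (S : BS α β γ δ) (hA0 : S.hA ≠ 0) {A : Matrix α α ℂ}
    {B : Matrix β β ℂ} (htB : B.trace = 1) {bA bC β' μ lamA : ℝ}
    {KA nA : Matrix α α ℂ} {KQ : Matrix γ γ ℂ} (hβ : β' = bC + μ) (hlA : lamA * bA = S.hA ^ 2 * β')
    (hnA : S.a * nA - nA * S.a = S.a) (cA m : ℂ)
    (ELA : (lamA : ℂ) • KA = S.PA B KQ + ((μ * S.hA ^ 2 : ℝ) : ℂ) • nA + cA • (1 : Matrix α α ℂ)) :
    ∃ z : ℂ, S.PA B (gg bC KQ (S.c - m • (1 : Matrix γ γ ℂ))) =
      ((lamA / S.hA : ℝ) : ℂ) • gg bA KA (cen A S.a) - S.DA B KQ - z • (1 : Matrix α α ℂ) := by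
  have hA0' : (S.hA : ℂ) ≠ 0 := by exact_mod_cast hA0
  have e1 : gg bC KQ (S.c - m • (1 : Matrix γ γ ℂ)) =
      -(S.c * KQ - KQ * S.c) + (bC : ℂ) • S.c - ((bC : ℂ) * m) • (1 : Matrix γ γ ℂ) := by
    unfold gg
    simp only [Matrix.sub_mul, Matrix.mul_sub, Matrix.smul_mul, Matrix.mul_smul, Matrix.one_mul,
      Matrix.mul_one]
    module
  have e2 : S.PA B KQ = (lamA : ℂ) • KA - ((μ * S.hA ^ 2 : ℝ) : ℂ) • nA - cA • (1 : Matrix α α ℂ) := by
    rw [ELA]; abel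
  have e3 : S.a * S.PA B KQ - S.PA B KQ * S.a =
      (lamA : ℂ) • (S.a * KA - KA * S.a) - ((μ * S.hA ^ 2 : ℝ) : ℂ) • S.a := by
    rw [e2]
    have : ((μ * S.hA ^ 2 : ℝ) : ℂ) • S.a = ((μ * S.hA ^ 2 : ℝ) : ℂ) • (S.a * nA - nA * S.a) := by
      rw [hnA]
    rw [this]
    simp only [Matrix.sub_mul, Matrix.mul_sub, Matrix.smul_mul, Matrix.mul_smul, Matrix.one_mul,
      Matrix.mul_one]
    module
  have hl : (lamA : ℂ) * bA = (S.hA : ℂ) ^ 2 * (bC + μ) := by
    have := congrArg (fun x : ℝ => (x : ℂ)) hlA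
    rw [hβ] at this
    push_cast at this
    exact this
  refine ⟨-((bC : ℂ) * ((S.hB : ℂ) * (B * S.b).trace) - (bC : ℂ) * m) -
    ((lamA / S.hA : ℝ) : ℂ) * bA * (A * S.a).trace, ?_⟩
  rw [e1, S.PA_sub, S.PA_add, S.PA_neg, S.PA_smul, S.PA_smul, S.PA_comm, e3, S.PA_c htB, S.PA_one,
    htB]
  unfold gg cen
  simp only [Matrix.sub_mul, Matrix.mul_sub, Matrix.smul_mul, Matrix.mul_smul, Matrix.one_mul,
    Matrix.mul_one]
  push_cast
  match_scalars
  · field_simp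
  · field_simp
  · field_simp
    linear_combination (-1 : ℂ) * hl
  · ring
  · ring
  · ring

theorem el_B (S : BS α β γ δ) (hB0 : S.hB ≠ 0) {A : Matrix α α ℂ}
    {B : Matrix β β ℂ} (htA : A.trace = 1) {bB bC β' μ lamB : ℝ}
    {KB nB : Matrix β β ℂ} {KQ : Matrix γ γ ℂ} (hβ : β' = bC + μ) (hlB : lamB * bB = S.hB ^ 2 * β')
    (hnB : S.b * nB - nB * S.b = S.b) (cB m : ℂ)
    (ELB : (lamB : ℂ) • KB = S.PB A KQ + ((μ * S.hB ^ 2 : ℝ) : ℂ) • nB + cB • (1 : Matrix β β ℂ)) :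
    ∃ z : ℂ, S.PB A (gg bC KQ (S.c - m • (1 : Matrix γ γ ℂ))) =
      ((lamB / S.hB : ℝ) : ℂ) • gg bB KB (cen B S.b) - S.DB A KQ - z • (1 : Matrix β β ℂ) :=
  el_A S.swap hB0 htA hβ hlB hnB cB m ELB

/-- **(GAP)** -/
theorem gap (S : BS α β γ δ) (hA0 : S.hA ≠ 0) (hB0 : S.hB ≠ 0) {A : Matrix α α ℂ}
    {B : Matrix β β ℂ} (htA : A.trace = 1) (htB : B.trace = 1) (hAh : Aᴴ = A) (hBh : Bᴴ = B)
    {NA NB NC bA bB bC β' μ lamA lamB ε : ℝ}
    (hNC : NC = S.hA ^ 2 * NA + S.hB ^ 2 * NB) (hbC : 0 < bC)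
    {KA nA : Matrix α α ℂ} {KB nB : Matrix β β ℂ} {KQ : Matrix γ γ ℂ}
    (hβ : β' = bC + μ) (hlA : lamA * bA = S.hA ^ 2 * β') (hlB : lamB * bB = S.hB ^ 2 * β')
    (hnA : S.a * nA - nA * S.a = S.a) (hnB : S.b * nB - nB * S.b = S.b) (cA cB : ℂ)
    (ELA : (lamA : ℂ) • KA = S.PA B KQ + ((μ * S.hA ^ 2 : ℝ) : ℂ) • nA + cA • (1 : Matrix α α ℂ))
    (ELB : (lamB : ℂ) • KB = S.PB A KQ + ((μ * S.hB ^ 2 : ℝ) : ℂ) • nB + cB • (1 : Matrix β β ℂ))
    (FA : HForm NA bA KA A) (FB : HForm NB bB KB B)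
    {Q : Matrix γ γ ℂ} (hQ : Q = S.out A B + (ε : ℂ) • (1 : Matrix γ γ ℂ))
    (FQ : HForm NC bC KQ Q) (D0 : ℝ)
    (OPI : FA.H (cen A (S.PA B (gg bC KQ (cen (S.out A B) S.c))))
          (cen A (S.PA B (gg bC KQ (cen (S.out A B) S.c))))
        + FB.H (cen B (S.PB A (gg bC KQ (cen (S.out A B) S.c))))
          (cen B (S.PB A (gg bC KQ (cen (S.out A B) S.c))))
        + μ / bC * D0 ≤
      β' / bC * FQ.H (gg bC KQ (cen (S.out A B) S.c)) (gg bC KQ (cen (S.out A B) S.c))) :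
    μ / bC * D0 ≤ β' * (ε * rp (gg bC KQ (cen (S.out A B) S.c)) (cen (S.out A B) S.c)
      - (S.hA ^ 2 * NA * ((A * S.DA B (gg bC KQ (cen (S.out A B) S.c))ᴴ).trace).re
        + S.hB ^ 2 * NB * ((B * S.DB A (gg bC KQ (cen (S.out A B) S.c))ᴴ).trace).re)
      + (S.hA * rp (S.DA B KQ) (ww NA A (cen A S.a))
        + S.hB * rp (S.DB A KQ) (ww NB B (cen B S.b)))) := by
  set C := S.out A B with hC
  set Y := gg bC KQ (cen C S.c) with hY
  obtain ⟨zA, hzA⟩ := el_A S hA0 (A := A) htB hβ hlA hnA cA (C * S.c).trace ELA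
  obtain ⟨zB, hzB⟩ := el_B S hB0 (B := B) htA hβ hlB hnB cB (C * S.c).trace ELB
  have hYc : gg bC KQ (S.c - (C * S.c).trace • (1 : Matrix γ γ ℂ)) = Y := rfl
  rw [hYc] at hzA hzB
  have h1 := one_input FA htA S.a (cen A (S.PA B Y)) (S.DA B KQ) (lamA / S.hA)
    (zA + (A * S.PA B Y).trace) (by
      conv_lhs => rw [cen]
      nth_rewrite 1 [hzA]
      module)
  have h2 := one_input FB htB S.b (cen B (S.PB A Y)) (S.DB A KQ) (lamB / S.hB)
    (zB + (B * S.PB A Y).trace) (by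
      conv_lhs => rw [cen]
      nth_rewrite 1 [hzB]
      module)
  have hsA : lamA / S.hA * bA = S.hA * β' := by
    rw [div_mul_eq_mul_div, hlA]; field_simp
  have hsB : lamB / S.hB * bB = S.hB * β' := by
    rw [div_mul_eq_mul_div, hlB]; field_simp
  have r1 : rp (cen A (S.PA B Y)) (ww NA A (cen A S.a)) = rp (S.PA B Y) (ww NA A (cen A S.a)) :=
    rp_sub_smul_one htA _ _
  have r2 : rp (cen B (S.PB A Y)) (ww NB B (cen B S.b)) = rp (S.PB A Y) (ww NB B (cen B S.b)) :=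
    rp_sub_smul_one htB _ _
  rw [hsA, r1] at h1
  rw [hsB, r2] at h2
  have h3 := congrArg Complex.re (pairing S hA0 hB0 htA htB hNC Yᴴ)
  rw [← hC] at h3
  have h4 : rp (S.PA B Y) (ww NA A (cen A S.a)) =
      ((S.PA B Yᴴ * ww NA A (cen A S.a)).trace).re := by
    rw [rp, S.PA_conjTranspose hBh]
  have h5 : rp (S.PB A Y) (ww NB B (cen B S.b)) =
      ((S.PB A Yᴴ * ww NB B (cen B S.b)).trace).re := by
    rw [rp, S.PB_conjTranspose hAh]
  have h6 : S.hA * rp (S.PA B Y) (ww NA A (cen A S.a)) + S.hB * rp (S.PB A Y) (ww NB B (cen B S.b)) =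
      rp Y (ww NC C (cen C S.c)) + (S.hA ^ 2 * NA * ((A * S.DA B Yᴴ).trace).re
        + S.hB ^ 2 * NB * ((B * S.DB A Yᴴ).trace).re) := by
    rw [h4, h5, rp]
    have c1 : ∀ (x : ℝ) (w : ℂ), ((x : ℂ) * w).re = x * w.re := fun x w => Complex.re_ofReal_mul x w
    have c2 : ∀ (x y : ℝ) (w : ℂ), ((x : ℂ) ^ 2 * (y : ℂ) * w).re = x ^ 2 * y * w.re := by
      intro x y w
      rw [← Complex.ofReal_pow, ← Complex.ofReal_mul, c1]
    rw [Complex.add_re, Complex.add_re, Complex.add_re, c1, c1, c2, c2] at h3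
    exact h3
  have h7 : FQ.H Y Y = bC * (rp Y (ww NC C (cen C S.c)) + ε * rp Y (cen C S.c)) := by
    have := FQ.key Y (cen C S.c)
    rw [← hY] at this
    rw [this]
    congr 1
    have e1 : ww NC Q (cen C S.c) =
        ww NC C (cen C S.c) + (ε : ℂ) • cen C S.c := by
      rw [hQ]
      unfold ww
      simp only [Matrix.add_mul, Matrix.mul_add, Matrix.smul_mul, Matrix.mul_smul, Matrix.one_mul,
        Matrix.mul_one]
      module
    rw [e1]
    unfold rp
    rw [Matrix.mul_add, trace_add, Complex.add_re, Matrix.mul_smul, trace_smul, smul_eq_mul,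
      Complex.re_ofReal_mul]
  rw [h7] at OPI
  have h8 : β' / bC * (bC * (rp Y (ww NC C (cen C S.c)) + ε * rp Y (cen C S.c))) =
      β' * (rp Y (ww NC C (cen C S.c)) + ε * rp Y (cen C S.c)) := by
    field_simp
  rw [h8] at OPI
  have h9 : S.hA * β' * (rp (S.PA B Y) (ww NA A (cen A S.a)) - rp (S.DA B KQ) (ww NA A (cen A S.a)))
      + S.hB * β' * (rp (S.PB A Y) (ww NB B (cen B S.b)) - rp (S.DB A KQ) (ww NB B (cen B S.b))) =
      β' * (rp Y (ww NC C (cen C S.c)) + (S.hA ^ 2 * NA * ((A * S.DA B Yᴴ).trace).re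
        + S.hB ^ 2 * NB * ((B * S.DB A Yᴴ).trace).re)
        - (S.hA * rp (S.DA B KQ) (ww NA A (cen A S.a))
        + S.hB * rp (S.DB A KQ) (ww NB B (cen B S.b)))) := by
    rw [← h6]; ring
  linarith

/-- **(GAP)** in the form with `ErrA`, `ErrB` (convention of helper136). -/
theorem gap' (S : BS α β γ δ) (hA0 : S.hA ≠ 0) (hB0 : S.hB ≠ 0) {A : Matrix α α ℂ}
    {B : Matrix β β ℂ} (htA : A.trace = 1) (htB : B.trace = 1) (hAh : Aᴴ = A) (hBh : Bᴴ = B)
    {NA NB NC bA bB bC β' μ lamA lamB ε : ℝ}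
    (hNC : NC = S.hA ^ 2 * NA + S.hB ^ 2 * NB) (hbC : 0 < bC)
    {KA nA : Matrix α α ℂ} {KB nB : Matrix β β ℂ} {KQ : Matrix γ γ ℂ}
    (hβ : β' = bC + μ) (hlA : lamA * bA = S.hA ^ 2 * β') (hlB : lamB * bB = S.hB ^ 2 * β')
    (hnA : S.a * nA - nA * S.a = S.a) (hnB : S.b * nB - nB * S.b = S.b) (cA cB : ℂ)
    (ELA : (lamA : ℂ) • KA = S.PA B KQ + ((μ * S.hA ^ 2 : ℝ) : ℂ) • nA + cA • (1 : Matrix α α ℂ))
    (ELB : (lamB : ℂ) • KB = S.PB A KQ + ((μ * S.hB ^ 2 : ℝ) : ℂ) • nB + cB • (1 : Matrix β β ℂ))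
    (FA : HForm NA bA KA A) (FB : HForm NB bB KB B)
    {Q : Matrix γ γ ℂ} (hQ : Q = S.out A B + (ε : ℂ) • (1 : Matrix γ γ ℂ))
    (FQ : HForm NC bC KQ Q) (D0 : ℝ)
    (OPI : FA.H (cen A (S.PA B (gg bC KQ (cen (S.out A B) S.c))))
          (cen A (S.PA B (gg bC KQ (cen (S.out A B) S.c))))
        + FB.H (cen B (S.PB A (gg bC KQ (cen (S.out A B) S.c))))
          (cen B (S.PB A (gg bC KQ (cen (S.out A B) S.c))))
        + μ / bC * D0 ≤
      β' / bC * FQ.H (gg bC KQ (cen (S.out A B) S.c)) (gg bC KQ (cen (S.out A B) S.c))) :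
    μ / bC * D0 ≤ β' * (ε * rp (gg bC KQ (cen (S.out A B) S.c)) (cen (S.out A B) S.c)
      - (S.hA * NA * ((A * S.ErrA B (gg bC KQ (cen (S.out A B) S.c))ᴴ).trace).re
        + S.hB * NB * ((B * S.ErrB A (gg bC KQ (cen (S.out A B) S.c))ᴴ).trace).re)
      + (rp (S.ErrA B KQ) (ww NA A (cen A S.a)) + rp (S.ErrB A KQ) (ww NB B (cen B S.b)))) := by
  have h := gap S hA0 hB0 htA htB hAh hBh hNC hbC hβ hlA hlB hnA hnB cA cB ELA ELB FA FB hQ FQ D0 OPI
  have eA : ∀ Y, S.ErrA B Y = (S.hA : ℂ) • S.DA B Y := fun Y => S.ErrA_eq hA0 B Y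
  have eB : ∀ Y, S.ErrB A Y = (S.hB : ℂ) • S.DB A Y := fun Y => S.swap.ErrA_eq hB0 A Y
  rw [eA, eA, eB, eB, rp_smul, rp_smul, Matrix.mul_smul, trace_smul, smul_eq_mul, Matrix.mul_smul,
    trace_smul, smul_eq_mul, Complex.re_ofReal_mul, Complex.re_ofReal_mul]
  refine h.trans (le_of_eq ?_)
  ring

/-- **Means**: `μ hA² Tr A a = Tr A Err_A(K_Q)` -/
theorem mean_A (S : BS α β γ δ) {A : Matrix α α ℂ} {B : Matrix β β ℂ} {μ lamA : ℝ}
    {KA nA : Matrix α α ℂ} {KQ : Matrix γ γ ℂ} (hnA : S.a * nA - nA * S.a = S.a) (cA : ℂ)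
    (ELA : (lamA : ℂ) • KA = S.PA B KQ + ((μ * S.hA ^ 2 : ℝ) : ℂ) • nA + cA • (1 : Matrix α α ℂ))
    (hcomA : A * KA = KA * A) (hcomC : S.out A B * KQ = KQ * S.out A B) :
    ((μ * S.hA ^ 2 : ℝ) : ℂ) * (A * S.a).trace = (A * S.ErrA B KQ).trace := by
  have h1 : (A * (S.a * KA - KA * S.a)).trace = 0 := by
    rw [Matrix.mul_sub, trace_sub, ← Matrix.mul_assoc A KA, hcomA, ← Matrix.mul_assoc A S.a,
      Matrix.trace_mul_comm (A * S.a), ← Matrix.mul_assoc KA, sub_eq_zero]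
  have h2 : (A * S.PA B (S.c * KQ - KQ * S.c)).trace = 0 := by
    rw [S.trace_A_PA, Matrix.mul_sub, trace_sub, ← Matrix.mul_assoc _ KQ, hcomC,
      ← Matrix.mul_assoc _ S.c, Matrix.trace_mul_comm (S.out A B * S.c), ← Matrix.mul_assoc KQ,
      sub_eq_zero]
  have e2 : S.PA B KQ = (lamA : ℂ) • KA - ((μ * S.hA ^ 2 : ℝ) : ℂ) • nA - cA • (1 : Matrix α α ℂ) := by
    rw [ELA]; abel
  have e3 : S.a * S.PA B KQ - S.PA B KQ * S.a =
      (lamA : ℂ) • (S.a * KA - KA * S.a) - ((μ * S.hA ^ 2 : ℝ) : ℂ) • S.a := by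
    rw [e2]
    have : ((μ * S.hA ^ 2 : ℝ) : ℂ) • S.a = ((μ * S.hA ^ 2 : ℝ) : ℂ) • (S.a * nA - nA * S.a) := by
      rw [hnA]
    rw [this]
    simp only [Matrix.sub_mul, Matrix.mul_sub, Matrix.smul_mul, Matrix.mul_smul, Matrix.one_mul,
      Matrix.mul_one]
    module
  have h3 := S.cov_A B KQ
  rw [e3] at h3
  have h4 := congrArg (fun M => (A * M).trace) h3
  simp only [Matrix.mul_sub, Matrix.mul_smul, trace_sub, trace_smul, smul_eq_mul] at h4
  rw [Matrix.mul_sub, trace_sub] at h1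
  linear_combination (-1 : ℂ) * h4 + (lamA : ℂ) * h1 - (S.hA : ℂ) * h2


/-! ### The form from spectral data -/

/-- The positive form with weights `h i j ≥ 0` in the eigenbasis `U`, where
`X = U diag p Uᴴ`, `K = U diag κ Uᴴ` and
`h i j (κ i - κ j + b) = b ((N+1) p j - N p i)`. -/
def HForm.ofSpec {N b : ℝ} {K X U : Matrix α α ℂ} (hU : Uᴴ * U = 1) (p κ : α → ℝ)
    (hX : X = U * diagonal (fun i => (p i : ℂ)) * Uᴴ)
    (hK : K = U * diagonal (fun i => (κ i : ℂ)) * Uᴴ) (h : α → α → ℝ) (h0 : ∀ i j, 0 ≤ h i j)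
    (hkey : ∀ i j, h i j * (κ i - κ j + b) = b * ((N + 1) * p j - N * p i)) : HForm N b K X where
  H Y Z := ∑ i, ∑ j, h i j * (star ((Uᴴ * Y * U) i j) * (Uᴴ * Z * U) i j).re
  sq Y Z s := by
    have : ∑ i, ∑ j, h i j * (star ((Uᴴ * Y * U) i j) * (Uᴴ * Y * U) i j).re
        - 2 * s * ∑ i, ∑ j, h i j * (star ((Uᴴ * Y * U) i j) * (Uᴴ * Z * U) i j).re
        + s ^ 2 * ∑ i, ∑ j, h i j * (star ((Uᴴ * Z * U) i j) * (Uᴴ * Z * U) i j).re
        = ∑ i, ∑ j, h i j * (((Uᴴ * Y * U) i j).re - s * ((Uᴴ * Z * U) i j).re) ^ 2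
          + ∑ i, ∑ j, h i j * (((Uᴴ * Y * U) i j).im - s * ((Uᴴ * Z * U) i j).im) ^ 2 := by
      simp only [Finset.mul_sum, ← Finset.sum_add_distrib, ← Finset.sum_sub_distrib]
      refine Finset.sum_congr rfl fun i _ => Finset.sum_congr rfl fun j _ => ?_
      simp only [RCLike.star_def, Complex.mul_re, Complex.conj_re, Complex.conj_im]
      ring
    rw [this]
    refine add_nonneg ?_ ?_ <;>
    exact Finset.sum_nonneg fun i _ => Finset.sum_nonneg fun j _ => mul_nonneg (h0 i j) (sq_nonneg _)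
  key Y y := by
    have hU' : U * Uᴴ = 1 := mul_eq_one_comm.1 hU
    set y' := Uᴴ * y * U with hy'
    set Y' := Uᴴ * Y * U with hY'
    have e1 : Uᴴ * gg b K y * U = Matrix.of fun i j => ((κ i - κ j + b : ℝ) : ℂ) * y' i j := by
      have a1 : Uᴴ * (K * y) * U = diagonal (fun i => (κ i : ℂ)) * y' := by
        rw [hK, hy']
        calc Uᴴ * (U * diagonal (fun i => (κ i : ℂ)) * Uᴴ * y) * U
            = (Uᴴ * U) * diagonal (fun i => (κ i : ℂ)) * (Uᴴ * y * U) := by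
              simp only [Matrix.mul_assoc]
          _ = _ := by rw [hU, Matrix.one_mul]
      have a2 : Uᴴ * (y * K) * U = y' * diagonal (fun i => (κ i : ℂ)) := by
        rw [hK, hy']
        calc Uᴴ * (y * (U * diagonal (fun i => (κ i : ℂ)) * Uᴴ)) * U
            = (Uᴴ * y * U) * diagonal (fun i => (κ i : ℂ)) * (Uᴴ * U) := by
              simp only [Matrix.mul_assoc]
          _ = _ := by rw [hU, Matrix.mul_one]
      have a3 : Uᴴ * gg b K y * U =
          Uᴴ * (K * y) * U - Uᴴ * (y * K) * U + (b : ℂ) • (Uᴴ * y * U) := by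
        unfold gg
        simp only [Matrix.mul_add, Matrix.mul_sub, Matrix.add_mul, Matrix.sub_mul,
          Matrix.mul_smul, Matrix.smul_mul]
      rw [a3, a1, a2, ← hy']
      ext i j
      simp only [Matrix.add_apply, Matrix.sub_apply, Matrix.smul_apply, diagonal_mul, mul_diagonal,
        Matrix.of_apply, smul_eq_mul]
      push_cast
      ring
    have e2 : Uᴴ * ww N X y * U = Matrix.of fun i j => (((N + 1) * p j - N * p i : ℝ) : ℂ) * y' i j := by
      have a1 : Uᴴ * (X * y) * U = diagonal (fun i => (p i : ℂ)) * y' := by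
        rw [hX, hy']
        calc Uᴴ * (U * diagonal (fun i => (p i : ℂ)) * Uᴴ * y) * U
            = (Uᴴ * U) * diagonal (fun i => (p i : ℂ)) * (Uᴴ * y * U) := by
              simp only [Matrix.mul_assoc]
          _ = _ := by rw [hU, Matrix.one_mul]
      have a2 : Uᴴ * (y * X) * U = y' * diagonal (fun i => (p i : ℂ)) := by
        rw [hX, hy']
        calc Uᴴ * (y * (U * diagonal (fun i => (p i : ℂ)) * Uᴴ)) * U
            = (Uᴴ * y * U) * diagonal (fun i => (p i : ℂ)) * (Uᴴ * U) := by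
              simp only [Matrix.mul_assoc]
          _ = _ := by rw [hU, Matrix.mul_one]
      have a3 : Uᴴ * ww N X y * U =
          ((N : ℂ) + 1) • (Uᴴ * (y * X) * U) - (N : ℂ) • (Uᴴ * (X * y) * U) := by
        unfold ww
        simp only [Matrix.mul_sub, Matrix.sub_mul, Matrix.mul_smul, Matrix.smul_mul]
      rw [a3, a1, a2]
      ext i j
      simp only [Matrix.sub_apply, Matrix.smul_apply, diagonal_mul, mul_diagonal,
        Matrix.of_apply, smul_eq_mul]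
      push_cast
      ring
    have e3 : ∀ Z : Matrix α α ℂ, rp Y Z = ∑ i, ∑ j, (star (Y' i j) * (Uᴴ * Z * U) i j).re := by
      intro Z
      have b1 : (Yᴴ * Z).trace = (Y'ᴴ * (Uᴴ * Z * U)).trace := by
        rw [hY', conjTranspose_mul, conjTranspose_mul, conjTranspose_conjTranspose]
        have : Uᴴ * (Yᴴ * U) * (Uᴴ * Z * U) = Uᴴ * (Yᴴ * (U * Uᴴ) * Z * U) := by
          simp only [Matrix.mul_assoc]
        have h2 : (Uᴴ * (Yᴴ * (U * Uᴴ) * Z * U)).trace = (Yᴴ * Z * (U * Uᴴ)).trace := by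
          rw [hU', Matrix.mul_one, Matrix.mul_one, Matrix.trace_mul_comm, Matrix.mul_assoc, hU',
            Matrix.mul_one]
        rw [this, h2, hU', Matrix.mul_one]
      rw [rp, b1, Matrix.trace, Complex.re_sum]
      simp only [Matrix.diag_apply, Matrix.mul_apply (M := Y'ᴴ), conjTranspose_apply,
        Complex.re_sum]
      rw [Finset.sum_comm]
    rw [e3, Finset.mul_sum]
    refine Finset.sum_congr rfl fun i _ => ?_
    rw [Finset.mul_sum]
    refine Finset.sum_congr rfl fun j _ => ?_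
    rw [e1, e2, Matrix.of_apply, Matrix.of_apply]
    have c1 : ∀ (x : ℝ) (v w : ℂ), (v * ((x : ℂ) * w)).re = x * (v * w).re := by
      intro x v w
      rw [show v * ((x : ℂ) * w) = (x : ℂ) * (v * w) by ring, Complex.re_ofReal_mul]
    rw [c1, c1]
    have := hkey i j
    rw [← mul_assoc, this]
    ring

end

end Crest.Agent.R331.FGap633
end

-- ▼ part R331/FGapInst_633

/-!
Row 331 (EPnI), finite-matrix track, leaf FGAP (helper633): `FDefs136.FGAP` by name, from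
`FW`, `FMINpos`, `FMINel`, `FOPI`.
-/

set_option autoImplicit false
set_option linter.unusedSectionVars false

namespace Crest.Agent.R331.FGapInst633

open Matrix Crest.Quantum Crest.Agent.R331.FDefs136
open Crest.Agent.R331.FGap633 (HForm ww gg rp)
open scoped Kronecker ComplexOrder BigOperators

noncomputable section

/-! ### scalars -/

theorem bN_pos {N : ℝ} (hN : 0 < N) : 0 < bN N := by
  unfold bN
  apply Real.log_pos
  have : 0 < 1 / N := by positivity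
  linarith

theorem u_of_ne {t : ℝ} (h : t ≠ 0) : u t = t / (Real.exp t - 1) := FOpiDefs712.u_of_ne h

theorem u_bN {N : ℝ} (hN : 0 < N) : u (bN N) = bN N * N := by
  have hb := bN_pos hN
  rw [u_of_ne hb.ne']
  have h1 : Real.exp (bN N) - 1 = 1 / N := by
    rw [bN, Real.exp_log (by positivity)]; ring
  rw [h1]
  field_simp

theorem H_mul (b t : ℝ) : H b t * (b - t) = b * u t - t * u b := FOpiDefs712.H_mul t

theorem H_nonneg {b : ℝ} (hb : 0 < b) (t : ℝ) : 0 ≤ H b t := by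
  have hub : 0 < u b := FOpiDefs712.u_pos b
  have hut : 0 < u t := FOpiDefs712.u_pos t
  unfold H
  split_ifs with h
  · exact mul_nonneg hub.le (FOpiDefs712.u_pos (-b)).le
  · have hdiff : 0 < t → b * u t - t * u b =
        b * t * (1 / (Real.exp t - 1) - 1 / (Real.exp b - 1)) := by
      intro ht
      rw [u_of_ne hb.ne', u_of_ne ht.ne']
      ring
    rcases lt_or_gt_of_ne h with h1 | h1
    · refine div_nonneg ?_ (by linarith)
      rcases le_or_gt t 0 with h2 | h2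
      · have : 0 ≤ b * u t := by positivity
        have : t * u b ≤ 0 := mul_nonpos_of_nonpos_of_nonneg h2 hub.le
        linarith
      · rw [hdiff h2]
        have e1 : 0 < Real.exp t - 1 := by linarith [Real.add_one_le_exp t]
        have e2 : Real.exp t ≤ Real.exp b := Real.exp_le_exp.2 h1.le
        have e3 : 1 / (Real.exp b - 1) ≤ 1 / (Real.exp t - 1) :=
          one_div_le_one_div_of_le e1 (by linarith)
        exact mul_nonneg (by positivity) (by linarith)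
    · have h2 : 0 < t := hb.trans h1
      refine div_nonneg_of_nonpos ?_ (by linarith)
      rw [hdiff h2]
      have e1 : 0 < Real.exp b - 1 := by linarith [Real.add_one_le_exp b]
      have e2 : Real.exp b ≤ Real.exp t := Real.exp_le_exp.2 h1.le
      have e3 : 1 / (Real.exp t - 1) ≤ 1 / (Real.exp b - 1) :=
        one_div_le_one_div_of_le e1 (by linarith)
      exact mul_nonpos_of_nonneg_of_nonpos (by positivity) (by linarith)

theorem LM_eq {x y : ℝ} (hx : 0 < x) (hy : 0 < y) :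
    LM x y = Duh839.LMe (Real.log x) (Real.log y) := by
  unfold LM Duh839.LMe
  by_cases h : x = y
  · subst h; simp [Real.exp_log hx]
  · rw [if_neg h, if_neg (fun h' => h (Real.log_injOn_pos hx hy h')), Real.exp_log hx,
      Real.exp_log hy]

theorem LM_nonneg {x y : ℝ} (hx : 0 < x) (hy : 0 < y) : 0 ≤ LM x y := by
  rw [LM_eq hx hy]; exact (Duh839.LMe_pos _ _).le

theorem u_mul_LM {x y : ℝ} (hx : 0 < x) (hy : 0 < y) :
    u (Real.log x - Real.log y) * LM x y = y := by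
  rw [LM_eq hx hy, FOpiDefs712.u_mul_LMe, Real.exp_log hy]

theorem log_mul_LM {x y : ℝ} (hx : 0 < x) (hy : 0 < y) :
    (Real.log x - Real.log y) * LM x y = x - y := by
  unfold LM
  by_cases h : x = y
  · subst h; simp
  · have h1 : Real.log x - Real.log y ≠ 0 :=
      sub_ne_zero.2 (fun h' => h (Real.log_injOn_pos hx hy h'))
    rw [if_neg h]
    field_simp

/-! ### spectral data -/

section spec
variable {ι : Type*} [Fintype ι] [DecidableEq ι]

theorem eU {X : Matrix ι ι ℂ} (h : X.IsHermitian) :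
    (h.eigenvectorUnitary : Matrix ι ι ℂ)ᴴ * (h.eigenvectorUnitary : Matrix ι ι ℂ) = 1 := by
  have := (Matrix.mem_unitaryGroup_iff').1 h.eigenvectorUnitary.2
  rwa [Matrix.star_eq_conjTranspose] at this

theorem eX {X : Matrix ι ι ℂ} (h : X.IsHermitian) :
    X = (h.eigenvectorUnitary : Matrix ι ι ℂ) * diagonal (fun i => ((h.eigenvalues i : ℝ) : ℂ)) *
      (h.eigenvectorUnitary : Matrix ι ι ℂ)ᴴ := by
  conv_lhs => rw [h.spectral_theorem]
  rw [Unitary.conjStarAlgAut_apply, Matrix.star_eq_conjTranspose]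
  rfl

theorem eK {X : Matrix ι ι ℂ} (h : X.IsHermitian) :
    KL X = (h.eigenvectorUnitary : Matrix ι ι ℂ) *
      diagonal (fun i => ((-Real.log (h.eigenvalues i) : ℝ) : ℂ)) *
      (h.eigenvectorUnitary : Matrix ι ι ℂ)ᴴ := by
  rw [KL, mlog, dif_pos h, ← Matrix.neg_mul, ← Matrix.mul_neg, Matrix.diagonal_neg]
  congr 3
  ext i
  push_cast
  rfl

/-- the `H`-form of a positive definite matrix -/
def hform {N : ℝ} (hN : 0 < N) {X : Matrix ι ι ℂ} (hX : X.PosDef) : HForm N (bN N) (KL X) X :=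
  HForm.ofSpec (eU hX.1) hX.1.eigenvalues (fun i => -Real.log (hX.1.eigenvalues i)) (eX hX.1)
    (eK hX.1)
    (fun i j => H (bN N) (Real.log (hX.1.eigenvalues i) - Real.log (hX.1.eigenvalues j)) *
      LM (hX.1.eigenvalues i) (hX.1.eigenvalues j))
    (fun i j => mul_nonneg (H_nonneg (bN_pos hN) _)
      (LM_nonneg (hX.eigenvalues_pos i) (hX.eigenvalues_pos j)))
    (fun i j => by
      have hi := hX.eigenvalues_pos i
      have hj := hX.eigenvalues_pos j
      have h1 := H_mul (bN N) (Real.log (hX.1.eigenvalues i) - Real.log (hX.1.eigenvalues j))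
      have h2 := u_mul_LM hi hj
      have h3 := log_mul_LM hi hj
      have h4 := u_bN hN
      linear_combination (LM (hX.1.eigenvalues i) (hX.1.eigenvalues j)) * h1 + bN N * h2
        - u (bN N) * h3 - (hX.1.eigenvalues i - hX.1.eigenvalues j) * h4)

theorem hform_H {N : ℝ} (hN : 0 < N) {X : Matrix ι ι ℂ} (hX : X.PosDef) (Y : Matrix ι ι ℂ) :
    (hform hN hX).H Y Y = formH (bN N) X Y := by
  have h : X.IsHermitian := hX.1
  rw [formH, qf, dif_pos h]
  show ∑ i, ∑ j, _ = ∑ i, ∑ j, _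
  refine Finset.sum_congr rfl fun i _ => Finset.sum_congr rfl fun j _ => ?_
  congr 1
  rw [eb, RCLike.star_def, mul_comm, Complex.mul_conj, Complex.ofReal_re, Complex.normSq_eq_norm_sq]

end spec

/-! ### boxes -/

theorem ann_comm_num {n K : ℕ} (j : Fin n) :
    ann n K j * num n K - num n K * ann n K j = ann n K j := by
  ext k l
  simp only [Matrix.sub_apply, num, Matrix.mul_diagonal, Matrix.diagonal_mul, ann, Matrix.of_apply]
  split_ifs with h
  · have h1 : (∑ i, (l i : ℕ)) = (∑ i, (k i : ℕ)) + 1 := by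
      rw [Finset.sum_congr rfl (fun i _ => h i), Finset.sum_add_distrib]
      simp
    rw [h1]
    push_cast
    ring
  · simp

section inst
variable {η : ℝ} {n K : ℕ} {j : Fin n}
  {S : FCov76.BS (Bx n K) (Bx n K) (Bx n (2 * K)) (Bx n (2 * K))}

theorem PA_inst (hS : IsBox (η := η) j S) (B : Matrix (Bx n K) (Bx n K) ℂ)
    (Y : Matrix (Bx n (2 * K)) (Bx n (2 * K)) ℂ) : S.PA B Y = PA η B Y := by
  rw [FCov76.BS.PA, FCov76.BS.heis, hS.ι, PA, heis]

theorem PB_inst (hS : IsBox (η := η) j S) (A : Matrix (Bx n K) (Bx n K) ℂ)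
    (Y : Matrix (Bx n (2 * K)) (Bx n (2 * K)) ℂ) : S.PB A Y = PB η A Y := by
  have h : S.swap.ι = (bsW η n K).submatrix id Prod.swap := by
    rw [← hS.ι]; rfl
  rw [FCov76.BS.PB, FCov76.BS.PA, FCov76.BS.heis, h, PB]

theorem out_inst (hS : IsBox (η := η) j S) (A B : Matrix (Bx n K) (Bx n K) ℂ) :
    S.out A B = outC η A B := by
  rw [FCov76.BS.out, FCov76.BS.Phi, hS.ι, outC]

theorem ErrA_inst (hS : IsBox (η := η) j S) (B : Matrix (Bx n K) (Bx n K) ℂ)
    (Y : Matrix (Bx n (2 * K)) (Bx n (2 * K)) ℂ) : S.ErrA B Y = ErrA η j B Y := by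
  have h := S.cov_A B Y
  rw [ErrA, ← hS.hA, ← hS.a, ← hS.c, ← PA_inst hS, ← PA_inst hS, h]
  abel

theorem ErrB_inst (hS : IsBox (η := η) j S) (A : Matrix (Bx n K) (Bx n K) ℂ)
    (Y : Matrix (Bx n (2 * K)) (Bx n (2 * K)) ℂ) : S.ErrB A Y = ErrB η j A Y := by
  have h := S.cov_B A Y
  rw [ErrB, ← hS.hB, ← hS.b, ← hS.c, ← PB_inst hS, ← PB_inst hS, h]
  abel

theorem ErrA_sub_smul_one (S : FCov76.BS (Bx n K) (Bx n K) (Bx n (2 * K)) (Bx n (2 * K)))
    (B : Matrix (Bx n K) (Bx n K) ℂ)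
    (Y : Matrix (Bx n (2 * K)) (Bx n (2 * K)) ℂ) (z : ℂ) :
    S.ErrA B (Y - z • (1 : Matrix _ _ ℂ)) = S.ErrA B Y := by
  have h1 := S.cov_A B Y
  have h2 := S.cov_A B (Y - z • (1 : Matrix _ _ ℂ))
  have h3 : S.c * (Y - z • (1 : Matrix _ _ ℂ)) - (Y - z • (1 : Matrix _ _ ℂ)) * S.c =
      S.c * Y - Y * S.c := by
    simp only [Matrix.mul_sub, Matrix.sub_mul, Matrix.mul_smul, Matrix.smul_mul, Matrix.mul_one,
      Matrix.one_mul]
    abel
  have h4 : S.a * S.PA B (Y - z • (1 : Matrix _ _ ℂ)) - S.PA B (Y - z • (1 : Matrix _ _ ℂ)) * S.a =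
      S.a * S.PA B Y - S.PA B Y * S.a := by
    rw [S.PA_sub, S.PA_smul, S.PA_one]
    simp only [Matrix.mul_sub, Matrix.sub_mul, Matrix.mul_smul, Matrix.smul_mul, Matrix.mul_one,
      Matrix.one_mul]
    abel
  rw [h3, h4, h1] at h2
  exact (sub_right_injective h2).symm

end inst

/-- **LEAF FGAP** -/
theorem fgap (hW : FW) (hpos : FMINpos) (hEL : FMINel) (hOPI : FOPI) : FGAP := by
  intro p n K ε j hε A B hmin
  obtain ⟨S, hS⟩ := hW p.η n K j p.η_pos p.η_lt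
  obtain ⟨hAp, hBp⟩ := hpos p n K ε hε A B hmin
  obtain ⟨⟨rA, hELA⟩, ⟨rB, hELB⟩⟩ := hEL p n K ε hε A B hmin
  have h1η : 0 < 1 - p.η := by linarith [p.η_lt]
  have hhA : S.hA ^ 2 = p.η := by rw [hS.hA, Real.sq_sqrt p.η_pos.le]
  have hhB : S.hB ^ 2 = 1 - p.η := by rw [hS.hB, Real.sq_sqrt h1η.le]
  have hA0 : S.hA ≠ 0 := by rw [hS.hA]; exact (Real.sqrt_pos.2 p.η_pos).ne'
  have hB0 : S.hB ≠ 0 := by rw [hS.hB]; exact (Real.sqrt_pos.2 h1η).ne'
  have hNC0 : 0 < p.NC := by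
    have := p.NA_pos; have := p.NB_pos; have := p.η_pos
    unfold Par.NC; positivity
  have hbA : 0 < p.bA := bN_pos p.NA_pos
  have hbB : 0 < p.bB := bN_pos p.NB_pos
  have hbC : 0 < p.bC := bN_pos hNC0
  have hQdef : outQ p.η ε A B = S.out A B + (ε : ℂ) • (1 : Matrix _ _ ℂ) := by
    rw [out_inst hS, outQ]
  have hQp : (outQ p.η ε A B).PosDef := by
    rw [hQdef, add_comm]
    refine Matrix.PosDef.add_posSemidef ?_ (S.out_posSemidef hmin.dA.1 hmin.dB.1)
    exact Matrix.PosDef.one.smul (by exact_mod_cast hε)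
  have hc : FGap633.cen (S.out A B) S.c =
      ann n (2 * K) j - mC p.η j A B • (1 : Matrix _ _ ℂ) := by
    rw [FGap633.cen, mC, hS.c, out_inst hS]
  have hGc : gg p.bC (KL (outQ p.η ε A B)) (FGap633.cen (S.out A B) S.c) = GQc p ε j A B := by
    rw [hc, GQc, GQ, GG, gg]
    simp only [Matrix.mul_sub, Matrix.sub_mul, Matrix.mul_smul, Matrix.smul_mul, Matrix.mul_one,
      Matrix.one_mul, smul_sub, smul_smul]
    abel
  have hOPI' := hOPI p n K ε hε A B hmin (GQc p ε j A B)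
  have key := FGap633.gap' S hA0 hB0 (A := A) (B := B) hmin.dA.2 hmin.dB.2 hmin.dA.1.1 hmin.dB.1.1
    (NA := p.NA) (NB := p.NB) (NC := p.NC) (bA := p.bA) (bB := p.bB) (bC := p.bC) (β' := p.β)
    (μ := p.μ) (lamA := p.lamA) (lamB := p.lamB) (ε := ε)
    (by rw [hhA, hhB]; rfl) hbC (KA := KL A) (nA := num n K) (KB := KL B) (nB := num n K)
    (KQ := KL (outQ p.η ε A B)) rfl
    (by rw [hhA, Par.lamA]; field_simp) (by rw [hhB, Par.lamB]; field_simp)
    (by rw [hS.a]; exact ann_comm_num j) (by rw [hS.b]; exact ann_comm_num j) rA rB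
    (by rw [hELA, hhA, PA_inst hS]) (by rw [hELB, hhB, PB_inst hS])
    (hform p.NA_pos hAp) (hform p.NB_pos hBp) hQdef (hform hNC0 hQp)
    (formD p.bC (outQ p.η ε A B) (GQc p ε j A B))
    (by
      rw [hGc, PA_inst hS, PB_inst hS, hform_H, hform_H, hform_H]
      exact hOPI')
  refine key.trans (le_of_eq ?_)
  have hE1 : S.ErrA B (GQc p ε j A B)ᴴ = ErrA p.η j B (GQ p ε j A B)ᴴ := by
    rw [GQc, conjTranspose_sub, conjTranspose_smul, conjTranspose_one, ErrA_sub_smul_one,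
      ErrA_inst hS]
  have hE2 : S.ErrB A (GQc p ε j A B)ᴴ = ErrB p.η j A (GQ p ε j A B)ᴴ := by
    rw [GQc, conjTranspose_sub, conjTranspose_smul, conjTranspose_one, FCov76.BS.ErrB,
      ErrA_sub_smul_one, ← FCov76.BS.ErrB, ErrB_inst hS]
  have hw : ∀ (N : ℝ) (X : Matrix (Bx n K) (Bx n K) ℂ),
      ww N X (FGap633.cen X (ann n K j)) = om N (mX j X) X (ann n K j) := by
    intro N X
    rw [ww, om, FGap633.cen, mX]
    push_cast
    rfl
  rw [hGc, hc, hE1, hE2, ErrA_inst hS, ErrB_inst hS, hS.a, hS.b, hw, hw, gapErr, rp, rp, rp, hS.hA,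
    hS.hB, Par.hA, Par.hB]
  ring

end

end Crest.Agent.R331.FGapInst633
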