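import Mathlib
import Crest.Agent.R331.Fin8_628
import Crest.Agent.R331.FDefs_136
import Crest.Agent.R331.FinPhi_280

-- ▼ part R331/FEmb_628
section

/-! # Finite track, leaf FLIM (helper628), part 1: embedding of a box into a larger box -/

set_option autoImplicit false
set_option linter.unusedSectionVars false

noncomputable section

namespace Crest.Agent.R331.FLim_628

open Crest.Quantum Crest.MathPhysics.Bosonic Matrix Finset Filter Topology
open Crest.Agent.R331.Gibbs158 Crest.Agent.R331.Fin8_628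
open scoped ComplexOrder

section entropy

variable {d e : Type*} [Fintype d] [DecidableEq d] [Fintype e] [DecidableEq e]

/-- entropy through the roots of the characteristic polynomial -/
lemma vn_roots {A : Matrix d d ℂ} (h : A.IsHermitian) :
    vnEntropy A = (A.charpoly.roots.map (fun z : ℂ => Real.negMulLog z.re)).sum := by
  rw [vn_eq h, h.roots_charpoly_eq_eigenvalues, Multiset.map_map]
  rfl

/-- entropy of a matrix given in diagonalised form -/
lemma vn_of_diag {A : Matrix d d ℂ} (U : Matrix d d ℂ) (hU : star U * U = 1) (f : d → ℝ)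
    (hA : A = U * diagonal (fun i => (f i : ℂ)) * star U) :
    vnEntropy A = ∑ i, Real.negMulLog (f i) := by
  have hH : A.IsHermitian := by
    rw [hA, Matrix.IsHermitian, Matrix.conjTranspose_mul, Matrix.conjTranspose_mul]
    rw [← Matrix.star_eq_conjTranspose, ← Matrix.star_eq_conjTranspose, star_star,
      Matrix.star_eq_conjTranspose, Matrix.diagonal_conjTranspose, Matrix.mul_assoc]
    congr 2
    congr 1
    funext i
    simp
  have hchar : A.charpoly = ∏ i, (Polynomial.X - Polynomial.C ((f i : ℂ))) := by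
    rw [hA, Matrix.charpoly_mul_comm, ← Matrix.mul_assoc, hU, Matrix.one_mul,
      Matrix.charpoly_diagonal]
  have h2 : (∏ i, (Polynomial.X - Polynomial.C ((f i : ℂ)))).roots
      = Finset.univ.val.map (fun i => (f i : ℂ)) := by
    rw [← Polynomial.roots_multiset_prod_X_sub_C (Finset.univ.val.map (fun i => (f i : ℂ))),
      Multiset.map_map]
    rfl
  rw [vn_roots hH, hchar, h2, Multiset.map_map]
  rfl

/-- entropy is invariant under isometric embedding -/
lemma vn_isometry {A : Matrix d d ℂ} (hA : A.IsHermitian) (V : Matrix e d ℂ) (hV : Vᴴ * V = 1) :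
    vnEntropy (V * A * Vᴴ) = vnEntropy A := by
  have hH : (V * A * Vᴴ).IsHermitian := by
    rw [Matrix.IsHermitian, Matrix.conjTranspose_mul, Matrix.conjTranspose_mul,
      Matrix.conjTranspose_conjTranspose, hA.eq, Matrix.mul_assoc]
  have h := Matrix.charpoly_mul_comm' (V * A) Vᴴ
  rw [← Matrix.mul_assoc, hV, Matrix.one_mul] at h
  have hc : (Polynomial.X ^ (Fintype.card d) * (V * A * Vᴴ).charpoly).roots
      = (Polynomial.X ^ (Fintype.card e) * A.charpoly).roots := by
    rw [h]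
  have hX : ∀ m : ℕ, (Polynomial.X ^ m : Polynomial ℂ) ≠ 0 := fun m => pow_ne_zero _ Polynomial.X_ne_zero
  rw [Polynomial.roots_mul (mul_ne_zero (hX _) (Matrix.charpoly_monic _).ne_zero),
    Polynomial.roots_mul (mul_ne_zero (hX _) (Matrix.charpoly_monic _).ne_zero)] at hc
  have h2 := congrArg (fun s : Multiset ℂ => (s.map (fun z : ℂ => Real.negMulLog z.re)).sum) hc
  simp only [Multiset.map_add, Multiset.sum_add, Polynomial.roots_X_pow, Multiset.map_nsmul,
    Multiset.map_singleton, Complex.zero_re, Real.negMulLog_zero, Multiset.sum_nsmul,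
    Multiset.sum_singleton, smul_zero, zero_add] at h2
  rw [vn_roots hH, vn_roots hA]
  exact h2

/-- `S(C + ε) = ∑ η(λ_i + ε)` -/
lemma vn_add_smul {C : Matrix d d ℂ} (hC : C.IsHermitian) (ε : ℝ) :
    vnEntropy (C + (ε : ℂ) • (1 : Matrix d d ℂ)) = ∑ i, Real.negMulLog (hC.eigenvalues i + ε) := by
  have hU : star (hC.eigenvectorUnitary : Matrix d d ℂ) * (hC.eigenvectorUnitary : Matrix d d ℂ) = 1 :=
    Unitary.coe_star_mul_self _
  have hU' : (hC.eigenvectorUnitary : Matrix d d ℂ) * star (hC.eigenvectorUnitary : Matrix d d ℂ) = 1 :=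
    Unitary.coe_mul_star_self _
  refine vn_of_diag (hC.eigenvectorUnitary : Matrix d d ℂ) hU _ ?_
  have hs : C = (hC.eigenvectorUnitary : Matrix d d ℂ) *
      diagonal (fun j => (hC.eigenvalues j : ℂ)) *
      star (hC.eigenvectorUnitary : Matrix d d ℂ) := by
    conv_lhs => rw [hC.spectral_theorem]
    rw [Unitary.conjStarAlgAut_apply]
    rfl
  have hd : diagonal (fun i => ((hC.eigenvalues i + ε : ℝ) : ℂ))
      = diagonal (fun i => (hC.eigenvalues i : ℂ)) + (ε : ℂ) • (1 : Matrix d d ℂ) := by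
    rw [← Matrix.diagonal_one, ← Matrix.diagonal_smul, Matrix.diagonal_add]
    congr 1
    funext i
    simp
  rw [hd, Matrix.mul_add, Matrix.add_mul, ← hs, Matrix.mul_smul, Matrix.smul_mul, Matrix.mul_one, hU']

lemma negMulLog_add_le {x y : ℝ} (hx : 0 ≤ x) (hy : 0 ≤ y) :
    Real.negMulLog (x + y) ≤ Real.negMulLog x + Real.negMulLog y := by
  rcases hx.eq_or_lt with rfl | hx
  · simp
  rcases hy.eq_or_lt with rfl | hy
  · simp
  have h1 : Real.log x ≤ Real.log (x + y) := Real.log_le_log hx (by linarith)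
  have h2 : Real.log y ≤ Real.log (x + y) := Real.log_le_log hy (by linarith)
  unfold Real.negMulLog
  nlinarith

/-- (FL2) -/
lemma vn_add_smul_le {C : Matrix d d ℂ} (hC : C.PosSemidef) {ε : ℝ} (hε : 0 ≤ ε) :
    vnEntropy (C + (ε : ℂ) • (1 : Matrix d d ℂ))
      ≤ vnEntropy C + Fintype.card d * Real.negMulLog ε := by
  rw [vn_add_smul hC.1, vn_eq hC.1]
  calc ∑ i, Real.negMulLog (hC.1.eigenvalues i + ε)
      ≤ ∑ i, (Real.negMulLog (hC.1.eigenvalues i) + Real.negMulLog ε) :=
        Finset.sum_le_sum fun i _ => negMulLog_add_le (hC.eigenvalues_nonneg i) hε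
    _ = _ := by
        rw [Finset.sum_add_distrib, Finset.sum_const, nsmul_eq_mul, Finset.card_univ]

/-- lower bound: `S(C) - card * ε ≤ S(C + ε)` -/
lemma le_vn_add_smul {C : Matrix d d ℂ} (hC : IsDensity C) {ε : ℝ} (hε : 0 < ε) :
    vnEntropy C - Fintype.card d * ε * (1 + ε)
      ≤ vnEntropy (C + (ε : ℂ) • (1 : Matrix d d ℂ)) := by
  rw [vn_add_smul hC.1.1, vn_eq hC.1.1]
  have key : ∀ i, Real.negMulLog (hC.1.1.eigenvalues i) - ε * (1 + ε)
      ≤ Real.negMulLog (hC.1.1.eigenvalues i + ε) := by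
    intro i
    have h0 := eig_nonneg hC i
    have h1 := eig_le_one hC i
    set t := hC.1.1.eigenvalues i
    -- -(t+ε) log (t+ε) ≥ -t log t - ε(1+ε)
    have hpos : 0 < t + ε := by linarith
    have e1 : Real.negMulLog (t + ε) = -t * Real.log (t + ε) - ε * Real.log (t + ε) := by
      unfold Real.negMulLog; ring
    have h2 : Real.log (t + ε) ≤ t + ε - 1 := Real.log_le_sub_one_of_pos hpos
    have h3 : ε * Real.log (t + ε) ≤ ε * ε := mul_le_mul_of_nonneg_left (by linarith) hε.le
    have h4 : Real.negMulLog t ≤ -t * Real.log (t + ε) + ε := by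
      have := negMulLog_le h0 hpos
      have e2 : -Real.log (t + ε) * t + (t + ε) - t = -t * Real.log (t + ε) + ε := by ring
      linarith
    rw [e1]
    nlinarith
  calc ∑ i, Real.negMulLog (hC.1.1.eigenvalues i) - Fintype.card d * ε * (1 + ε)
      = ∑ i, (Real.negMulLog (hC.1.1.eigenvalues i) - ε * (1 + ε)) := by
        rw [Finset.sum_sub_distrib, Finset.sum_const, nsmul_eq_mul, Finset.card_univ, mul_assoc]
    _ ≤ _ := Finset.sum_le_sum fun i _ => key i

end entropy

/-! ### embedding a box -/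

section embed

variable {n K0 K : ℕ}

/-- zero extension of a matrix on the box `K0` to the box `K` -/
def up (K : ℕ) (A : Matrix (Bx n K0) (Bx n K0) ℂ) : Matrix (Bx n K) (Bx n K) ℂ :=
  Matrix.of fun k l => ext A (occ k) (occ l)

lemma boxF_sub (h : K0 ≤ K) : boxF n K0 ⊆ boxF n K := boxF_mono h

lemma ext_up (h : K0 ≤ K) (A : Matrix (Bx n K0) (Bx n K0) ℂ) (k l : Occ n) :
    ext (up K A) k l = ext A k l := by
  by_cases hk : k ∈ boxF n K
  · by_cases hl : l ∈ boxF n K
    · rw [ext_of_mem _ hk hl]; rfl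
    · rw [ext_right _ hl, ext_right A (fun h' => hl (boxF_sub h h'))]
  · rw [ext_left _ hk, ext_left A (fun h' => hk (boxF_sub h h'))]

/-- inclusion matrix -/
def incl (n K0 K : ℕ) : Matrix (Bx n K) (Bx n K0) ℂ :=
  Matrix.of fun k i => if occ k = occ i then 1 else 0

lemma incl_isometry (h : K0 ≤ K) : (incl n K0 K)ᴴ * incl n K0 K = 1 := by
  ext i j
  rw [Matrix.mul_apply, Matrix.one_apply]
  have hi : occ i ∈ boxF n K := boxF_sub h (occ_mem i)
  rw [Finset.sum_eq_single (toBx (occ i) hi)]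
  · by_cases hij : i = j
    · subst hij; simp [Matrix.conjTranspose_apply, incl]
    · have : occ i ≠ occ j := fun h' => hij (occ_injective h')
      simp [Matrix.conjTranspose_apply, incl, hij, this]
  · intro k _ hk
    have : occ k ≠ occ i := fun h' => hk (occ_injective (by rw [h']; rfl))
    simp [Matrix.conjTranspose_apply, incl, this]
  · intro h'; exact absurd (Finset.mem_univ _) h'

lemma up_eq (A : Matrix (Bx n K0) (Bx n K0) ℂ) :
    up K A = incl n K0 K * A * (incl n K0 K)ᴴ := by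
  ext k l
  rw [Matrix.mul_apply]
  simp only [Matrix.mul_apply, incl, Matrix.of_apply, Matrix.conjTranspose_apply, up]
  by_cases hk : occ k ∈ boxF n K0
  · by_cases hl : occ l ∈ boxF n K0
    · rw [ext_of_mem A hk hl, Finset.sum_eq_single (toBx (occ l) hl)]
      · rw [Finset.sum_eq_single (toBx (occ k) hk)]
        · simp
        · intro i _ hi
          have : occ k ≠ occ i := fun h' => hi (occ_injective (by rw [← h']; rfl))
          simp [this]
        · intro h'; exact absurd (Finset.mem_univ _) h'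
      · intro i _ hi
        have : occ l ≠ occ i := fun h' => hi (occ_injective (by rw [← h']; rfl))
        simp [this]
      · intro h'; exact absurd (Finset.mem_univ _) h'
    · rw [ext_right A hl]
      symm
      refine Finset.sum_eq_zero fun i _ => ?_
      have : occ l ≠ occ i := fun h' => hl (h' ▸ occ_mem i)
      simp [this]
  · rw [ext_left A hk]
    symm
    refine Finset.sum_eq_zero fun i _ => ?_
    have : ∀ j : Bx n K0, occ k ≠ occ j := fun j h' => hk (h' ▸ occ_mem j)
    simp [this]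

lemma up_isDensity (h : K0 ≤ K) {A : Matrix (Bx n K0) (Bx n K0) ℂ} (hA : IsDensity A) :
    IsDensity (up K A) := by
  rw [up_eq]
  refine ⟨hA.1.mul_mul_conjTranspose_same _, ?_⟩
  rw [Matrix.trace_mul_cycle, incl_isometry h, Matrix.one_mul, hA.2]

lemma vn_up (h : K0 ≤ K) {A : Matrix (Bx n K0) (Bx n K0) ℂ} (hA : A.IsHermitian) :
    vnEntropy (up K A) = vnEntropy A := by
  rw [up_eq]
  exact vn_isometry hA _ (incl_isometry h)

lemma en_up (h : K0 ≤ K) (A : Matrix (Bx n K0) (Bx n K0) ℂ) : en (up K A) = en A := by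
  rw [← sum_tot_dg, ← sum_tot_dg]
  have h1 : ∀ k, dg (up K A) k = dg A k := fun k => by rw [dg, dg, ext_up h]
  simp only [h1]
  symm
  refine Finset.sum_subset (boxF_sub h) fun k _ hk => ?_
  rw [dg_zero hk, mul_zero]

lemma bsOutput_eq (η : ℝ) (A B : Matrix (Bx n K) (Bx n K) ℂ) (p p' : Bx n (2 * K)) :
    bsOutput η A B p p' = ∑ q ∈ boxF n (2 * K), ∑ k ∈ boxF n K, ∑ l ∈ boxF n K,
      ∑ k' ∈ boxF n K, ∑ l' ∈ boxF n K,
        (ampOcc η k l (occ p) q : ℂ) * ext A k k' * ext B l l' * (ampOcc η k' l' (occ p') q : ℂ) := by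
  simp only [sum_boxF, ext_occ]
  rfl

lemma ampOcc_zero {η : ℝ} {k l p q : Occ n} (h : ∃ j, p j + q j ≠ k j + l j) :
    ampOcc η k l p q = 0 := by
  obtain ⟨j, hj⟩ := h
  unfold ampOcc
  refine Finset.prod_eq_zero (Finset.mem_univ j) ?_
  unfold bsAmp
  rw [if_neg hj]

lemma bsOutput_up (η : ℝ) (h : K0 ≤ K) (A B : Matrix (Bx n K0) (Bx n K0) ℂ) :
    bsOutput η (up K A) (up K B) = up (2 * K) (bsOutput η A B) := by
  ext p p'
  rw [bsOutput_eq]
  simp only [ext_up h]
  have hred : ∀ (f : Occ n → ℂ), (∀ k, k ∉ boxF n K0 → f k = 0) →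
      ∑ k ∈ boxF n K, f k = ∑ k ∈ boxF n K0, f k := by
    intro f hf
    symm
    exact Finset.sum_subset (boxF_sub h) fun k _ hk => hf k hk
  have h1 : ∀ q : Occ n, (∑ k ∈ boxF n K, ∑ l ∈ boxF n K, ∑ k' ∈ boxF n K, ∑ l' ∈ boxF n K,
        (ampOcc η k l (occ p) q : ℂ) * ext A k k' * ext B l l' * (ampOcc η k' l' (occ p') q : ℂ))
      = ∑ k ∈ boxF n K0, ∑ l ∈ boxF n K0, ∑ k' ∈ boxF n K0, ∑ l' ∈ boxF n K0,
        (ampOcc η k l (occ p) q : ℂ) * ext A k k' * ext B l l' * (ampOcc η k' l' (occ p') q : ℂ) := by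
    intro q
    rw [hred _ (fun k hk => Finset.sum_eq_zero fun l _ => Finset.sum_eq_zero fun k' _ =>
      Finset.sum_eq_zero fun l' _ => by rw [ext_left A hk]; ring)]
    refine Finset.sum_congr rfl fun k _ => ?_
    rw [hred _ (fun l hl => Finset.sum_eq_zero fun k' _ =>
      Finset.sum_eq_zero fun l' _ => by rw [ext_left B hl]; ring)]
    refine Finset.sum_congr rfl fun l _ => ?_
    rw [hred _ (fun k' hk' => Finset.sum_eq_zero fun l' _ => by rw [ext_right A hk']; ring)]
    refine Finset.sum_congr rfl fun k' _ => ?_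
    rw [hred _ (fun l' hl' => by rw [ext_right B hl']; ring)]
  simp only [h1]
  have hz : ∀ (r : Occ n) (q : Occ n), (r ∉ boxF n (2 * K0) ∨ q ∉ boxF n (2 * K0)) →
      ∀ k ∈ boxF n K0, ∀ l ∈ boxF n K0, ampOcc η k l r q = 0 := by
    intro r q hrq k hk l hl
    rw [mem_boxF] at hk hl
    apply ampOcc_zero
    rcases hrq with hr | hr
    · rw [mem_boxF] at hr; push Not at hr
      obtain ⟨j, hj⟩ := hr
      exact ⟨j, by have := hk j; have := hl j; omega⟩
    · rw [mem_boxF] at hr; push Not at hr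
      obtain ⟨j, hj⟩ := hr
      exact ⟨j, by have := hk j; have := hl j; omega⟩
  have h2 : (∑ q ∈ boxF n (2 * K), ∑ k ∈ boxF n K0, ∑ l ∈ boxF n K0, ∑ k' ∈ boxF n K0,
        ∑ l' ∈ boxF n K0,
        (ampOcc η k l (occ p) q : ℂ) * ext A k k' * ext B l l' * (ampOcc η k' l' (occ p') q : ℂ))
      = ∑ q ∈ boxF n (2 * K0), ∑ k ∈ boxF n K0, ∑ l ∈ boxF n K0, ∑ k' ∈ boxF n K0,
        ∑ l' ∈ boxF n K0,
        (ampOcc η k l (occ p) q : ℂ) * ext A k k' * ext B l l' * (ampOcc η k' l' (occ p') q : ℂ) := by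
    symm
    refine Finset.sum_subset (boxF_sub (by omega)) fun q _ hq => ?_
    refine Finset.sum_eq_zero fun k hk => Finset.sum_eq_zero fun l hl => Finset.sum_eq_zero
      fun k' _ => Finset.sum_eq_zero fun l' _ => ?_
    rw [hz _ q (Or.inr hq) k hk l hl]; simp
  rw [h2]
  simp only [up, Matrix.of_apply]
  by_cases hp : occ p ∈ boxF n (2 * K0)
  · by_cases hp' : occ p' ∈ boxF n (2 * K0)
    · rw [ext_of_mem _ hp hp', bsOutput_eq]
      rfl
    · rw [ext_right _ hp']
      refine Finset.sum_eq_zero fun q _ => Finset.sum_eq_zero fun k _ => Finset.sum_eq_zero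
        fun l _ => Finset.sum_eq_zero fun k' hk' => Finset.sum_eq_zero fun l' hl' => ?_
      rw [hz _ q (Or.inl hp') k' hk' l' hl']; simp
  · rw [ext_left _ hp]
    refine Finset.sum_eq_zero fun q _ => Finset.sum_eq_zero fun k hk => Finset.sum_eq_zero
        fun l hl => Finset.sum_eq_zero fun k' _ => Finset.sum_eq_zero fun l' _ => ?_
    rw [hz _ q (Or.inl hp) k hk l hl]; simp

end embed

end Crest.Agent.R331.FLim_628
end
end

-- ▼ part R331/FLim_628

/-! # Finite track, leaf FLIM (helper628), part 2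

* `outC_eq_bsOutput`, `outC_isDensity`, `En_eq_en`;
* FL3: a uniform asymptotic lower bound of `F` gives the finite main theorem (`K → ∞`, `μ → 0`).
-/

set_option autoImplicit false
set_option linter.unusedSectionVars false

noncomputable section

namespace Crest.Agent.R331.FLim_628

open Crest.Quantum Crest.MathPhysics.Bosonic Matrix Finset Filter Topology
open Crest.Agent.R331.Gibbs158 Crest.Agent.R331.Fin8_628
open scoped ComplexOrder Kronecker

section basic

variable {n K : ℕ}

lemma sum4_comm {ι : Type*} [Fintype ι] (f : ι → ι → ι → ι → ℂ) :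
    ∑ k', ∑ l', ∑ k, ∑ l, f k l k' l' = ∑ k, ∑ l, ∑ k', ∑ l', f k l k' l' := by
  calc ∑ k', ∑ l', ∑ k, ∑ l, f k l k' l'
      = ∑ k', ∑ k, ∑ l', ∑ l, f k l k' l' :=
        Finset.sum_congr rfl fun k' _ => Finset.sum_comm
    _ = ∑ k, ∑ k', ∑ l', ∑ l, f k l k' l' := Finset.sum_comm
    _ = ∑ k, ∑ k', ∑ l, ∑ l', f k l k' l' :=
        Finset.sum_congr rfl fun k _ => Finset.sum_congr rfl fun k' _ => Finset.sum_comm
    _ = ∑ k, ∑ l, ∑ k', ∑ l', f k l k' l' :=
        Finset.sum_congr rfl fun k _ => Finset.sum_comm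

lemma outC_eq_bsOutput (η : ℝ) (A B : Matrix (Bx n K) (Bx n K) ℂ) :
    FDefs136.outC η A B = bsOutput η A B := by
  ext p p'
  simp only [FDefs136.outC, FCov76.ptR, Matrix.mul_apply, FDefs136.bsW, Matrix.of_apply,
    Matrix.conjTranspose_apply, bsOutput, Fintype.sum_prod_type, Matrix.kroneckerMap_apply]
  refine Finset.sum_congr rfl fun q _ => ?_
  -- swap the order of summation
  calc ∑ k', ∑ l', (∑ k, ∑ l, (bsAmpN η k l p q : ℂ) * (A k k' * B l l')) *
        star (bsAmpN η k' l' p' q : ℂ)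
      = ∑ k', ∑ l', ∑ k, ∑ l, (bsAmpN η k l p q : ℂ) * A k k' * B l l' *
          (bsAmpN η k' l' p' q : ℂ) := by
        refine Finset.sum_congr rfl fun k' _ => Finset.sum_congr rfl fun l' _ => ?_
        rw [Finset.sum_mul]
        refine Finset.sum_congr rfl fun k _ => ?_
        rw [Finset.sum_mul]
        refine Finset.sum_congr rfl fun l _ => ?_
        rw [Complex.star_def, Complex.conj_ofReal]
        ring
    _ = ∑ k, ∑ l, ∑ k', ∑ l', (bsAmpN η k l p q : ℂ) * A k k' * B l l' *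
          (bsAmpN η k' l' p' q : ℂ) := by
        exact sum4_comm _

lemma En_eq_en (A : Matrix (Bx n K) (Bx n K) ℂ) : FDefs136.En A = en A := by
  simp only [FDefs136.En, FDefs136.num, Matrix.trace, Matrix.diag_apply, Matrix.mul_diagonal, en,
    Complex.re_sum]
  refine Finset.sum_congr rfl fun k _ => ?_
  rw [mul_comm, ← Complex.ofReal_natCast, Complex.re_ofReal_mul]
  rfl

lemma outC_psd (η : ℝ) {A B : Matrix (Bx n K) (Bx n K) ℂ} (hA : A.PosSemidef)
    (hB : B.PosSemidef) : (FDefs136.outC η A B).PosSemidef :=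
  FinPhi280.tr2_posSemidef ((hA.kronecker hB).mul_mul_conjTranspose_same (FDefs136.bsW η n K))

end basic

/-! ### scalars -/

/-- the regularisation parameter `ε_K = (K+1)^{-(n+4)}` -/
def epsK (n K : ℕ) : ℝ := 1 / ((K : ℝ) + 1) ^ (n + 4)

lemma epsK_pos (n K : ℕ) : 0 < epsK n K := by unfold epsK; positivity

lemma log_epsK (n K : ℕ) : -Real.log (epsK n K) = ((n : ℝ) + 4) * Real.log ((K : ℝ) + 1) := by
  unfold epsK
  rw [one_div, Real.log_inv, neg_neg, Real.log_pow]
  push_cast; ring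

lemma card_bound (n K : ℕ) : (Fintype.card (Bx n (2 * K)) : ℝ) ≤ 2 ^ n * ((K : ℝ) + 1) ^ n := by
  simp only [Bx, Fintype.card_pi, Fintype.card_fin, Finset.prod_const, Finset.card_univ]
  push_cast
  rw [← mul_pow]
  exact pow_le_pow_left₀ (by positivity) (by linarith) n

lemma reg_tendsto (n : ℕ) :
    Tendsto (fun K : ℕ => (Fintype.card (Bx n (2 * K)) : ℝ) * Real.negMulLog (epsK n K)) atTop
      (𝓝 0) := by
  have hb : Tendsto (fun K : ℕ => 2 ^ n * ((n : ℝ) + 4) * (1 / ((K : ℝ) + 1))) atTop (𝓝 0) := by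
    have := (tendsto_one_div_add_atTop_nhds_zero_nat (𝕜 := ℝ)).const_mul (2 ^ n * ((n : ℝ) + 4))
    rwa [mul_zero] at this
  have hnn : ∀ K : ℕ, 0 ≤ Real.negMulLog (epsK n K) := by
    intro K
    refine Real.negMulLog_nonneg (epsK_pos n K).le ?_
    unfold epsK
    rw [div_le_one (by positivity)]
    exact one_le_pow₀ (by have : (0:ℝ) ≤ K := Nat.cast_nonneg K; linarith)
  refine squeeze_zero (fun K => mul_nonneg (by positivity) (hnn K)) (fun K => ?_) hb
  have hK : (0:ℝ) ≤ K := Nat.cast_nonneg K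
  have h1 : Real.negMulLog (epsK n K) = epsK n K * (((n : ℝ) + 4) * Real.log ((K : ℝ) + 1)) := by
    rw [← log_epsK]; unfold Real.negMulLog; ring
  have h2 : Real.log ((K : ℝ) + 1) ≤ (K : ℝ) + 1 := by
    have := Real.log_le_sub_one_of_pos (show (0:ℝ) < (K:ℝ) + 1 by positivity)
    linarith
  have h3 : Real.negMulLog (epsK n K) ≤ epsK n K * (((n : ℝ) + 4) * ((K : ℝ) + 1)) := by
    rw [h1]
    exact mul_le_mul_of_nonneg_left (mul_le_mul_of_nonneg_left h2 (by positivity)) (epsK_pos n K).le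
  calc (Fintype.card (Bx n (2 * K)) : ℝ) * Real.negMulLog (epsK n K)
      ≤ (2 ^ n * ((K : ℝ) + 1) ^ n) * (epsK n K * (((n : ℝ) + 4) * ((K : ℝ) + 1))) :=
        mul_le_mul (card_bound n K) h3 (hnn K) (by positivity)
    _ = 2 ^ n * ((n : ℝ) + 4) * (1 / ((K : ℝ) + 1) ^ 3) := by
        unfold epsK
        rw [pow_add]
        have : ((K:ℝ) + 1) ≠ 0 := by positivity
        field_simp
    _ ≤ 2 ^ n * ((n : ℝ) + 4) * (1 / ((K : ℝ) + 1)) := by
        refine mul_le_mul_of_nonneg_left ?_ (by positivity)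
        refine one_div_le_one_div_of_le (by positivity) ?_
        calc ((K : ℝ) + 1) = ((K : ℝ) + 1) ^ 1 := (pow_one _).symm
          _ ≤ ((K : ℝ) + 1) ^ 3 := pow_le_pow_right₀ (by linarith) (by norm_num)

/-! ### FL3 -/

open FDefs136 (Par)

/-- the thermal value of the functional -/
def Vlow (p : Par) (n : ℕ) : ℝ :=
  n * (Real.log (p.NC + 1) - p.lamA * Real.log (p.NA + 1) - p.lamB * Real.log (p.NB + 1))

/-- output of FL4, input of FL3 -/
def FLIMhyp : Prop := ∀ (p : Par) (n : ℕ) (δ : ℝ), 0 < δ → ∀ᶠ K : ℕ in atTop,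
  ∀ A B : Matrix (Bx n K) (Bx n K) ℂ, IsDensity A → IsDensity B →
    Vlow p n - δ ≤ FDefs136.F p (epsK n K) A B

/-- FIN MAIN: the linearised inequality for states supported on a box -/
def FINMAIN : Prop := ∀ (n K : ℕ) (η NA NB : ℝ), 0 < η → η < 1 → 0 < NA → 0 < NB →
  ∀ A B : Matrix (Bx n K) (Bx n K) ℂ, IsDensity A → IsDensity B →
    n * gBose (η * NA + (1 - η) * NB)
      + η * bN (η * NA + (1 - η) * NB) / bN NA * (vnEntropy A - n * gBose NA)
      + (1 - η) * bN (η * NA + (1 - η) * NB) / bN NB * (vnEntropy B - n * gBose NB)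
      ≤ vnEntropy (bsOutput η A B)

lemma NC_pos (p : Par) : 0 < p.NC := by
  unfold FDefs136.Par.NC
  have h1 := mul_pos p.η_pos p.NA_pos
  have h2 := mul_pos (sub_pos.2 p.η_lt) p.NB_pos
  linarith

/-- passing to the limit `K → ∞` at fixed inputs -/
lemma limit_K (h : FLIMhyp) (p : Par) {n K0 : ℕ} {A B : Matrix (Bx n K0) (Bx n K0) ℂ}
    (hA : IsDensity A) (hB : IsDensity B) :
    Vlow p n ≤ vnEntropy (bsOutput p.η A B) - p.lamA * vnEntropy A - p.lamB * vnEntropy B
      + p.μ * (p.η * en A + (1 - p.η) * en B) := by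
  refine le_of_forall_pos_le_add fun δ hδ => ?_
  have h1 := h p n (δ / 2) (by positivity)
  have h2 : ∀ᶠ K : ℕ in atTop,
      (Fintype.card (Bx n (2 * K)) : ℝ) * Real.negMulLog (epsK n K) < δ / 2 :=
    (reg_tendsto n).eventually_lt_const (by positivity)
  obtain ⟨K, ⟨hK1, hK2⟩, hK⟩ := ((h1.and h2).and (eventually_ge_atTop K0)).exists
  have h3 := hK1 (up K A) (up K B) (up_isDensity hK hA) (up_isDensity hK hB)
  unfold FDefs136.F at h3
  rw [En_eq_en, En_eq_en, en_up hK, en_up hK, vn_up hK hA.1.1, vn_up hK hB.1.1] at h3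
  have hpsd : (bsOutput p.η A B).PosSemidef := by
    rw [← outC_eq_bsOutput]; exact outC_psd p.η hA.1 hB.1
  have h4 : vnEntropy (FDefs136.outQ p.η (epsK n K) (up K A) (up K B))
      ≤ vnEntropy (bsOutput p.η A B)
        + (Fintype.card (Bx n (2 * K)) : ℝ) * Real.negMulLog (epsK n K) := by
    unfold FDefs136.outQ
    refine (vn_add_smul_le (outC_psd p.η (up_isDensity hK hA).1 (up_isDensity hK hB).1)
      (epsK_pos n K).le).trans ?_
    rw [outC_eq_bsOutput, bsOutput_up p.η hK, vn_up (by omega) hpsd.1]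
  linarith

theorem finmain_of_hyp (h : FLIMhyp) : FINMAIN := by
  intro n K η NA NB h0 h1 hNA hNB A B hA hB
  set NC := η * NA + (1 - η) * NB with hNC
  have hNCpos : 0 < NC := by
    have h1' := mul_pos h0 hNA
    have h2' := mul_pos (sub_pos.2 h1) hNB
    linarith
  have hbA := bN_pos hNA
  have hbB := bN_pos hNB
  have hbC := bN_pos hNCpos
  -- everything is affine in μ
  set X0 : ℝ := vnEntropy (bsOutput η A B) - η * bN NC / bN NA * vnEntropy A
    - (1 - η) * bN NC / bN NB * vnEntropy B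
    - n * (Real.log (NC + 1) - η * bN NC / bN NA * Real.log (NA + 1)
      - (1 - η) * bN NC / bN NB * Real.log (NB + 1)) with hX0
  set X1 : ℝ := -(η / bN NA) * vnEntropy A - ((1 - η) / bN NB) * vnEntropy B
    + (η * en A + (1 - η) * en B)
    + n * (η / bN NA * Real.log (NA + 1) + (1 - η) / bN NB * Real.log (NB + 1)) with hX1
  have key : ∀ μ : ℝ, 0 < μ → 0 ≤ X0 + X1 * μ := by
    intro μ hμ
    have h2 := limit_K h (Par.mk η NA NB μ h0 h1 hNA hNB hμ) hA hB
    simp only [Vlow, FDefs136.Par.NC, FDefs136.Par.lamA, FDefs136.Par.lamB, FDefs136.Par.β,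
      FDefs136.Par.bA, FDefs136.Par.bB, FDefs136.Par.bC] at h2
    have e : ∀ N, FDefs136.bN N = bN N := fun N => rfl
    simp only [e, ← hNC] at h2
    have e2 : X0 + X1 * μ = (vnEntropy (bsOutput η A B)
        - η * (bN NC + μ) / bN NA * vnEntropy A - (1 - η) * (bN NC + μ) / bN NB * vnEntropy B
        + μ * (η * en A + (1 - η) * en B))
        - n * (Real.log (NC + 1) - η * (bN NC + μ) / bN NA * Real.log (NA + 1)
          - (1 - η) * (bN NC + μ) / bN NB * Real.log (NB + 1)) := by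
      rw [hX0, hX1]; ring
    rw [e2]; linarith
  have hX0' : 0 ≤ X0 := by
    have hl : Tendsto (fun μ : ℝ => X0 + X1 * μ) (𝓝[>] 0) (𝓝 X0) := by
      have : Tendsto (fun μ : ℝ => X0 + X1 * μ) (𝓝 0) (𝓝 (X0 + X1 * 0)) :=
        (tendsto_const_nhds).add (tendsto_id.const_mul X1)
      rw [mul_zero, add_zero] at this
      exact this.mono_left nhdsWithin_le_nhds
    exact ge_of_tendsto hl (eventually_nhdsWithin_of_forall fun μ hμ => key μ hμ)
  rw [hX0] at hX0'
  rw [gBose_eq hNCpos, gBose_eq hNA, gBose_eq hNB]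
  have hA' : η * bN NC / bN NA * (bN NA * NA) = η * NA * bN NC := by field_simp
  have hB' : (1 - η) * bN NC / bN NB * (bN NB * NB) = (1 - η) * NB * bN NC := by field_simp
  have e3 : n * (Real.log (NC + 1) + bN NC * NC)
      + η * bN NC / bN NA * (vnEntropy A - n * (Real.log (NA + 1) + bN NA * NA))
      + (1 - η) * bN NC / bN NB * (vnEntropy B - n * (Real.log (NB + 1) + bN NB * NB))
      = η * bN NC / bN NA * vnEntropy A + (1 - η) * bN NC / bN NB * vnEntropy B
        + n * (Real.log (NC + 1) - η * bN NC / bN NA * Real.log (NA + 1)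
          - (1 - η) * bN NC / bN NB * Real.log (NB + 1))
        + n * (bN NC * NC - η * bN NC / bN NA * (bN NA * NA)
          - (1 - η) * bN NC / bN NB * (bN NB * NB)) := by ring
  rw [e3, hA', hB']
  have e4 : bN NC * NC - η * NA * bN NC - (1 - η) * NB * bN NC = 0 := by rw [hNC]; ring
  rw [e4]
  linarith

end Crest.Agent.R331.FLim_628
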