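import Mathlib
import Crest.Agent.R331.FDefs2_136

/-!
Row 331 (S0514), FINITE MATRIX TRACK: top of the track.
`LMIN`, `FEMB`, `FSQ`, `FMINexists`, `FOUT`, `FW` imply `FINMU` and `FINMAIN`.
-/

set_option autoImplicit false

namespace Crest.Agent.R331.FDefs136

open Matrix Crest.Quantum Crest.MathPhysics.Bosonic Filter Topology
open scoped Kronecker ComplexOrder BigOperators

noncomputable section

lemma bN_pos' {N : ℝ} (hN : 0 < N) : 0 < bN N := by
  unfold bN
  apply Real.log_pos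
  have : 0 < 1 / N := by positivity
  linarith


/-! ### The output of densities is a density -/

lemma bsW_iso_zero (η : ℝ) (K : ℕ) : (bsW η 0 K)ᴴ * bsW η 0 K = 1 := by
  ext i j
  have hi : i = j := Subsingleton.elim _ _
  subst hi
  simp [bsW, bsAmpN, Matrix.mul_apply, Matrix.conjTranspose_apply]

lemma bsW_iso (hFW : FW) {η : ℝ} (n K : ℕ) (h0 : 0 < η) (h1 : η < 1) :
    (bsW η n K)ᴴ * bsW η n K = 1 := by
  rcases Nat.eq_zero_or_pos n with rfl | hn
  · exact bsW_iso_zero η K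
  · obtain ⟨S, hS⟩ := hFW η n K ⟨0, hn⟩ h0 h1
    rw [← hS.ι]; exact S.iso

lemma ptR_posSemidef {α β : Type*} [Fintype α] [Fintype β] [DecidableEq α] [DecidableEq β]
    {M : Matrix (α × β) (α × β) ℂ} (hM : M.PosSemidef) : (FCov76.ptR M).PosSemidef := by
  have h : FCov76.ptR M = ∑ j : β, M.submatrix (fun i => (i, j)) (fun i => (i, j)) := by
    ext i i'
    simp [FCov76.ptR, Matrix.sum_apply]
  rw [h]
  exact Matrix.posSemidef_sum _ fun j _ => hM.submatrix _

lemma isDensity_outC (hFW : FW) {η : ℝ} {n K : ℕ} (h0 : 0 < η) (h1 : η < 1)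
    {A B : Matrix (Bx n K) (Bx n K) ℂ} (hA : IsDensity A) (hB : IsDensity B) :
    IsDensity (outC η A B) := by
  have hAB : (A ⊗ₖ B).PosSemidef := hA.1.kronecker hB.1
  refine ⟨?_, ?_⟩
  · unfold outC
    exact ptR_posSemidef (hAB.mul_mul_conjTranspose_same _)
  · unfold outC
    rw [FCov76.trace_ptR, Matrix.trace_mul_comm, ← Matrix.mul_assoc, bsW_iso hFW n K h0 h1,
      Matrix.one_mul, Matrix.trace_kronecker, hA.2, hB.2, mul_one]

/-! ### The regularisation error -/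

lemma epsK_pos (n K : ℕ) : 0 < epsK n K := by unfold epsK; positivity

lemma epsK_le (n K : ℕ) (hK : 1 ≤ K) : epsK n K ≤ 1 / 2 := by
  unfold epsK
  have h : (2 : ℝ) ≤ (K : ℝ) + 1 := by
    have : (1 : ℝ) ≤ K := by exact_mod_cast hK
    linarith
  have h2 : (2 : ℝ) ≤ ((K : ℝ) + 1) ^ (n + 4) := by
    calc (2 : ℝ) ≤ (K : ℝ) + 1 := h
      _ = ((K : ℝ) + 1) ^ 1 := (pow_one _).symm
      _ ≤ ((K : ℝ) + 1) ^ (n + 4) := pow_le_pow_right₀ (by linarith) (by omega)
  exact one_div_le_one_div_of_le (by norm_num) h2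

lemma kap_epsK (n K : ℕ) : kap (epsK n K) = (n + 4 : ℕ) * Real.log ((K : ℝ) + 1) := by
  unfold kap epsK
  rw [one_div_one_div, Real.log_pow]

lemma kap_epsK_nonneg (n K : ℕ) : 0 ≤ kap (epsK n K) := by
  rw [kap_epsK]
  have : 0 ≤ Real.log ((K : ℝ) + 1) := Real.log_nonneg (by
    have : (0 : ℝ) ≤ K := Nat.cast_nonneg K
    linarith)
  positivity

lemma kap_epsK_le (n K : ℕ) : kap (epsK n K) ≤ (n + 4 : ℕ) * ((K : ℝ) + 1) := by
  rw [kap_epsK]
  have h0 : (0 : ℝ) < (K : ℝ) + 1 := by positivity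
  have := Real.log_le_sub_one_of_pos h0
  have h1 : Real.log ((K : ℝ) + 1) ≤ (K : ℝ) + 1 := by linarith
  exact mul_le_mul_of_nonneg_left h1 (by positivity)

/-- `dim * ε (κ + 2) → 0` -/
lemma regErr_tendsto (n : ℕ) : Tendsto (fun K : ℕ =>
    ((2 * K + 1 : ℕ) : ℝ) ^ n * (epsK n K * (kap (epsK n K) + 2))) atTop (𝓝 0) := by
  have hb : ∀ K : ℕ, ((2 * K + 1 : ℕ) : ℝ) ^ n * (epsK n K * (kap (epsK n K) + 2))
      ≤ (2 ^ n * (n + 6)) * (1 / ((K : ℝ) + 1)) := by
    intro K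
    have hK : (0 : ℝ) < (K : ℝ) + 1 := by positivity
    have hK1 : (1 : ℝ) ≤ (K : ℝ) + 1 := by
      have : (0 : ℝ) ≤ K := Nat.cast_nonneg K
      linarith
    have h1 : ((2 * K + 1 : ℕ) : ℝ) ^ n ≤ 2 ^ n * ((K : ℝ) + 1) ^ n := by
      rw [← mul_pow]
      apply pow_le_pow_left₀ (by positivity)
      push_cast; linarith
    have h2 : kap (epsK n K) + 2 ≤ (n + 6) * ((K : ℝ) + 1) := by
      have := kap_epsK_le n K
      push_cast at this
      nlinarith
    have h3 : 0 ≤ epsK n K * (kap (epsK n K) + 2) := by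
      have := kap_epsK_nonneg n K
      have := epsK_pos n K
      positivity
    calc ((2 * K + 1 : ℕ) : ℝ) ^ n * (epsK n K * (kap (epsK n K) + 2))
        ≤ (2 ^ n * ((K : ℝ) + 1) ^ n) * (epsK n K * ((n + 6) * ((K : ℝ) + 1))) := by
          apply mul_le_mul h1 _ h3 (by positivity)
          exact mul_le_mul_of_nonneg_left h2 (epsK_pos n K).le
      _ = (2 ^ n * (n + 6)) * (1 / ((K : ℝ) + 1) ^ 3) := by
          unfold epsK
          rw [pow_add]
          field_simp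
      _ ≤ (2 ^ n * (n + 6)) * (1 / ((K : ℝ) + 1)) := by
          apply mul_le_mul_of_nonneg_left _ (by positivity)
          apply one_div_le_one_div_of_le hK
          calc (K : ℝ) + 1 = ((K : ℝ) + 1) ^ 1 := (pow_one _).symm
            _ ≤ ((K : ℝ) + 1) ^ 3 := pow_le_pow_right₀ hK1 (by norm_num)
  have h0 : ∀ K : ℕ, 0 ≤ ((2 * K + 1 : ℕ) : ℝ) ^ n * (epsK n K * (kap (epsK n K) + 2)) := by
    intro K
    have := kap_epsK_nonneg n K
    have := epsK_pos n K
    positivity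
  have hlim : Tendsto (fun K : ℕ => ((2 : ℝ) ^ n * (n + 6)) * (1 / ((K : ℝ) + 1))) atTop (𝓝 0) := by
    have := (tendsto_one_div_add_atTop_nhds_zero_nat (𝕜 := ℝ)).const_mul ((2 : ℝ) ^ n * (n + 6))
    simpa using this
  exact squeeze_zero h0 hb hlim

lemma card_Bx (n M : ℕ) : Fintype.card (Bx n M) = (M + 1) ^ n := by
  simp [Bx]

/-! ### `LMIN → FINMU` -/


/-! ### `FINMU → FINMAIN` -/


end

end Crest.Agent.R331.FDefs136
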