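import Mathlib
import Crest.Prelude.Def_FockState
import Crest.Agent.R331.Scal_587
import Crest.Agent.R331.BSIso_375

-- ▼ part R331/Wrap_587
section

/-! Final wrapper for row 331: the tangent-plane inequality implies S0514. -/

set_option autoImplicit false
open Crest.MathPhysics.Bosonic Real Set Filter Topology
open Crest.Agent.R331.Scal587

namespace Crest.Agent.R331.Wrap587

/-! ### Trivial beam splitters -/

lemma bsAmp_one (k l p q : ℕ) : bsAmp 1 k l p q = if k = p ∧ l = q then 1 else 0 := by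
  unfold bsAmp
  by_cases hpq : p + q = k + l
  · rw [if_pos hpq]
    by_cases hkp : k = p
    · subst hkp
      have hl : q = l := by omega
      subst hl
      rw [if_pos ⟨rfl, rfl⟩, Finset.sum_eq_single k]
      · simp [Nat.factorial_ne_zero]
      · intro i hi hik
        have hi' : i < k := lt_of_le_of_ne (by simpa [Nat.lt_succ_iff] using hi) hik
        have : k - i ≠ 0 := by omega
        simp [this]
      · intro h; simp at h
    · rw [if_neg (by tauto)]
      have : ∑ i ∈ Finset.range (k + 1), (if i ≤ p ∧ p - i ≤ l then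
          (Nat.choose k i * Nat.choose l (p - i) : ℕ) *
            (Real.sqrt 1 ^ i * (-Real.sqrt (1 - 1)) ^ (k - i) *
              Real.sqrt (1 - 1) ^ (p - i) * Real.sqrt 1 ^ (l - (p - i)))
        else (0 : ℝ)) = 0 := by
        apply Finset.sum_eq_zero
        intro i hi
        split_ifs with h
        · by_cases h1 : k - i = 0
          · have hik : i = k := by
              have := Finset.mem_range.1 hi
              omega
            have h2 : p - i ≠ 0 := by omega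
            simp [h2]
          · simp [h1]
        · rfl
      rw [this, mul_zero]
  · rw [if_neg hpq, if_neg]
    rintro ⟨h1, h2⟩; omega

lemma bsAmp_zero (k l p q : ℕ) : bsAmp 0 k l p q = if k = q ∧ l = p then (-1) ^ k else 0 := by
  unfold bsAmp
  by_cases hpq : p + q = k + l
  · rw [if_pos hpq]
    by_cases hlp : l = p
    · subst hlp
      have hl : q = k := by omega
      subst hl
      rw [if_pos ⟨rfl, rfl⟩, Finset.sum_eq_single 0]
      · have h1 : ((Nat.factorial q * Nat.factorial l : ℕ) : ℝ) ≠ 0 := by positivity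
        have h2 : ((Nat.factorial l * Nat.factorial q : ℕ) : ℝ) =
            ((Nat.factorial q * Nat.factorial l : ℕ) : ℝ) := by rw [Nat.mul_comm]
        simp only [h2, div_self h1]
        simp
      · intro i hi hik
        simp [hik]
      · intro h; simp at h
    · rw [if_neg (by tauto)]
      have : ∑ i ∈ Finset.range (k + 1), (if i ≤ p ∧ p - i ≤ l then
          (Nat.choose k i * Nat.choose l (p - i) : ℕ) *
            (Real.sqrt 0 ^ i * (-Real.sqrt (1 - 0)) ^ (k - i) *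
              Real.sqrt (1 - 0) ^ (p - i) * Real.sqrt 0 ^ (l - (p - i)))
        else (0 : ℝ)) = 0 := by
        apply Finset.sum_eq_zero
        intro i hi
        split_ifs with h
        · by_cases h1 : i = 0
          · subst h1
            have h2 : l - p ≠ 0 := by omega
            simp [h2]
          · simp [h1]
        · rfl
      rw [this, mul_zero]
  · rw [if_neg hpq, if_neg]
    rintro ⟨h1, h2⟩; omega

lemma ampOcc_one {n : ℕ} (a a' k e : Occ n) :
    ampOcc 1 a a' k e = if a = k ∧ a' = e then 1 else 0 := by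
  unfold ampOcc
  simp_rw [bsAmp_one]
  by_cases h : a = k ∧ a' = e
  · obtain ⟨rfl, rfl⟩ := h
    simp
  · rw [if_neg h]
    have : ∃ j, ¬ (a j = k j ∧ a' j = e j) := by
      by_contra hcon
      push Not at hcon
      exact h ⟨funext fun j => (hcon j).1, funext fun j => (hcon j).2⟩
    obtain ⟨j, hj⟩ := this
    exact Finset.prod_eq_zero (Finset.mem_univ j) (if_neg hj)

lemma ampOcc_zero {n : ℕ} (a a' k e : Occ n) :
    ampOcc 0 a a' k e = if a = e ∧ a' = k then (-1) ^ (∑ j, e j) else 0 := by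
  unfold ampOcc
  simp_rw [bsAmp_zero]
  by_cases h : a = e ∧ a' = k
  · obtain ⟨rfl, rfl⟩ := h
    simp [Finset.prod_pow_eq_pow_sum]
  · rw [if_neg h]
    have : ∃ j, ¬ (a j = e j ∧ a' j = k j) := by
      by_contra hcon
      push Not at hcon
      exact h ⟨funext fun j => (hcon j).1, funext fun j => (hcon j).2⟩
    obtain ⟨j, hj⟩ := this
    exact Finset.prod_eq_zero (Finset.mem_univ j) (if_neg hj)

/-- the splitting of `k + e` with first part `k` -/
def splL {n : ℕ} (k e : Occ n) : Splitting (k + e) := fun j => ⟨k j, by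
  simp only [Pi.add_apply]; omega⟩

/-- the splitting of `k + e` with first part `e` -/
def splR {n : ℕ} (k e : Occ n) : Splitting (k + e) := fun j => ⟨e j, by
  simp only [Pi.add_apply]; omega⟩

lemma splL_fst {n : ℕ} (k e : Occ n) : (splL k e).fst = k := rfl
lemma splL_snd {n : ℕ} (k e : Occ n) : (splL k e).snd = e := by
  funext j; simp [Splitting.snd, splL]
lemma splR_fst {n : ℕ} (k e : Occ n) : (splR k e).fst = e := rfl
lemma splR_snd {n : ℕ} (k e : Occ n) : (splR k e).snd = k := by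
  funext j; simp [Splitting.snd, splR]

lemma spl_ext {n : ℕ} {m : Occ n} {a b : Splitting m} (h : a.fst = b.fst) : a = b := by
  funext j
  apply Fin.ext
  exact congrFun h j

lemma outBlock_one {n : ℕ} (ρA ρB : FockState n) (k l e : Occ n) :
    outBlock 1 ρA ρB k l e = entry ρA.op k l * entry ρB.op e e := by
  unfold outBlock
  rw [Finset.sum_eq_single (splL k e), Finset.sum_eq_single (splL l e)]
  · simp [ampOcc_one, splL_fst, splL_snd]
  · intro b _ hb
    have : ¬ (b.fst = l ∧ b.snd = e) := fun h => hb (spl_ext (by rw [h.1, splL_fst]))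
    simp [ampOcc_one, this]
  · intro h; exact absurd (Finset.mem_univ _) h
  · intro a _ ha
    apply Finset.sum_eq_zero
    intro b _
    have : ¬ (a.fst = k ∧ a.snd = e) := fun h => ha (spl_ext (by rw [h.1, splL_fst]))
    simp [ampOcc_one, this]
  · intro h; exact absurd (Finset.mem_univ _) h

lemma outBlock_zero {n : ℕ} (ρA ρB : FockState n) (k l e : Occ n) :
    outBlock 0 ρA ρB k l e = entry ρB.op k l * entry ρA.op e e := by
  unfold outBlock
  rw [Finset.sum_eq_single (splR k e), Finset.sum_eq_single (splR l e)]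
  · have h : ((-1 : ℂ) ^ (∑ j, e j)) * ((-1 : ℂ) ^ (∑ j, e j)) = 1 := by
      rw [← mul_pow]; simp
    simp only [ampOcc_zero, splR_fst, splR_snd, and_self, if_true]
    push_cast
    calc (-1 : ℂ) ^ (∑ j, e j) * entry ρA.op e e * entry ρB.op k l * (-1) ^ (∑ j, e j)
        = ((-1 : ℂ) ^ (∑ j, e j) * (-1) ^ (∑ j, e j)) * (entry ρA.op e e * entry ρB.op k l) := by
          ring
      _ = _ := by rw [h]; ring
  · intro b _ hb
    have : ¬ (b.fst = e ∧ b.snd = l) := fun h => hb (spl_ext (by rw [h.1, splR_fst]))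
    simp [ampOcc_zero, this]
  · intro h; exact absurd (Finset.mem_univ _) h
  · intro a _ ha
    apply Finset.sum_eq_zero
    intro b _
    have : ¬ (a.fst = e ∧ a.snd = k) := fun h => ha (spl_ext (by rw [h.1, splR_fst]))
    simp [ampOcc_zero, this]
  · intro h; exact absurd (Finset.mem_univ _) h

/-- the diagonal entries of a state are real -/
lemma entry_diag_eq {n : ℕ} (ρ : FockState n) (k : Occ n) :
    entry ρ.op k k = ((entry ρ.op k k).re : ℂ) := by
  have h := ρ.pos.inner_nonneg_right (ket k)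
  have him : (entry ρ.op k k).im = 0 := by
    have := (Complex.le_def.1 h).2
    simpa [entry] using this.symm
  apply Complex.ext <;> simp [him]

lemma hasSum_diag {n : ℕ} (ρ : FockState n) : HasSum (fun k : Occ n => entry ρ.op k k) 1 := by
  have h := Complex.hasSum_ofReal.2 ρ.traceOne
  simp only [Complex.ofReal_one] at h
  convert h using 2 with k
  exact entry_diag_eq ρ k

lemma output_one {n : ℕ} (ρA ρB : FockState n) : IsBeamSplitterOutput 1 ρA ρB ρA := by
  intro k l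
  simp_rw [outBlock_one]
  simpa using (hasSum_diag ρB).mul_left (entry ρA.op k l)

lemma output_zero {n : ℕ} (ρA ρB : FockState n) : IsBeamSplitterOutput 0 ρA ρB ρB := by
  intro k l
  simp_rw [outBlock_zero]
  simpa using (hasSum_diag ρA).mul_left (entry ρB.op k l)

/-! ### The wrapper -/

/-- existence of the output and of its entropy -/
def OutExists : Prop :=
  ∀ (n : ℕ), 1 ≤ n → ∀ (η : ℝ), η ∈ Ioo (0 : ℝ) 1 → ∀ ρA ρB : FockState n,
    FiniteEnergy ρA → FiniteEnergy ρB →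
    ∃ ρC : FockState n, IsBeamSplitterOutput η ρA ρB ρC ∧ ∃ sC : ℝ, HasEntropy ρC sC

/-- the tangent-plane inequality for all finite-energy states -/
def LIN : Prop :=
  ∀ (n : ℕ), 1 ≤ n → ∀ (η : ℝ), η ∈ Ioo (0 : ℝ) 1 → ∀ ρA ρB ρC : FockState n,
    FiniteEnergy ρA → FiniteEnergy ρB → IsBeamSplitterOutput η ρA ρB ρC →
    ∀ sA sB sC : ℝ, HasEntropy ρA sA → HasEntropy ρB sB → HasEntropy ρC sC →
    ∀ NA NB : ℝ, 0 < NA → 0 < NB →
      n * gBose (η * NA + (1 - η) * NB)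
        + lam η 0 (η * NA + (1 - η) * NB) NA * (sA - n * gBose NA)
        + lam (1 - η) 0 (η * NA + (1 - η) * NB) NB * (sB - n * gBose NB) ≤ sC

lemma final_real {η : ℝ} (hη : η ∈ Ioo (0 : ℝ) 1) {m tA tB sC : ℝ} (hm : 0 ≤ m) (htA : 0 ≤ tA)
    (htB : 0 ≤ tB)
    (h : ∀ NA NB : ℝ, 0 < NA → 0 < NB →
      m * gBose (η * NA + (1 - η) * NB)
        + lam η 0 (η * NA + (1 - η) * NB) NA * (m * gBose tA - m * gBose NA)
        + lam (1 - η) 0 (η * NA + (1 - η) * NB) NB * (m * gBose tB - m * gBose NB) ≤ sC) :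
    m * gBose (η * tA + (1 - η) * tB) ≤ sC := by
  obtain ⟨h0, h1⟩ := hη
  -- pass to the limit `N_X = t_X + x`, `x → 0+`
  have hlow : ∀ x : ℝ, 0 < x →
      m * gBose (η * (tA + x) + (1 - η) * (tB + x)) - m * |gBose tA - gBose (tA + x)|
        - m * |gBose tB - gBose (tB + x)| ≤ sC := by
    intro x hx
    have hA : 0 < tA + x := by linarith
    have hB : 0 < tB + x := by linarith
    have hη1 : 0 < 1 - η := by linarith
    have hpA : 0 < η * (tA + x) := mul_pos h0 hA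
    have hpB : 0 < (1 - η) * (tB + x) := mul_pos hη1 hB
    have hC : 0 < η * (tA + x) + (1 - η) * (tB + x) := by linarith
    have hl1 := lam_le_one h0.le h1.le hA hC (by linarith)
    have hl2 := lam_le_one hη1.le (by linarith : 1 - η ≤ 1) hB hC (by linarith)
    have hn1 := lam_nonneg h0.le (le_refl (0 : ℝ)) hC hA
    have hn2 := lam_nonneg hη1.le (le_refl (0 : ℝ)) hC hB
    have key := h (tA + x) (tB + x) hA hB
    have e1 : -(m * |gBose tA - gBose (tA + x)|) ≤
        lam η 0 (η * (tA + x) + (1 - η) * (tB + x)) (tA + x) *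
          (m * gBose tA - m * gBose (tA + x)) := by
      rw [← mul_sub]
      have : -|gBose tA - gBose (tA + x)| ≤
          lam η 0 (η * (tA + x) + (1 - η) * (tB + x)) (tA + x) * (gBose tA - gBose (tA + x)) := by
        have habs : |lam η 0 (η * (tA + x) + (1 - η) * (tB + x)) (tA + x) *
            (gBose tA - gBose (tA + x))| ≤ |gBose tA - gBose (tA + x)| := by
          rw [abs_mul, abs_of_nonneg hn1]
          exact mul_le_of_le_one_left (abs_nonneg _) hl1
        exact (abs_le.1 habs).1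
      nlinarith
    have e2 : -(m * |gBose tB - gBose (tB + x)|) ≤
        lam (1 - η) 0 (η * (tA + x) + (1 - η) * (tB + x)) (tB + x) *
          (m * gBose tB - m * gBose (tB + x)) := by
      rw [← mul_sub]
      have : -|gBose tB - gBose (tB + x)| ≤
          lam (1 - η) 0 (η * (tA + x) + (1 - η) * (tB + x)) (tB + x) *
            (gBose tB - gBose (tB + x)) := by
        have habs : |lam (1 - η) 0 (η * (tA + x) + (1 - η) * (tB + x)) (tB + x) *
            (gBose tB - gBose (tB + x))| ≤ |gBose tB - gBose (tB + x)| := by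
          rw [abs_mul, abs_of_nonneg hn2]
          exact mul_le_of_le_one_left (abs_nonneg _) hl2
        exact (abs_le.1 habs).1
      nlinarith
    linarith
  have hcont : Continuous (fun x : ℝ =>
      m * gBose (η * (tA + x) + (1 - η) * (tB + x)) - m * |gBose tA - gBose (tA + x)|
        - m * |gBose tB - gBose (tB + x)|) := by
    have hg := continuous_gBose
    fun_prop
  have hlim := (hcont.tendsto 0).mono_left (nhdsWithin_le_nhds (s := Ioi (0 : ℝ)))
  simp only [add_zero, sub_self, abs_zero, mul_zero, sub_zero] at hlim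
  apply le_of_tendsto hlim
  filter_upwards [self_mem_nhdsWithin] with x hx
  exact hlow x hx

theorem wrap (hout : OutExists) (hlin : LIN) (n : ℕ) (hn : 1 ≤ n) (η : ℝ)
    (hη : η ∈ Set.Icc (0 : ℝ) 1) (ρA ρB : FockState n) (hA : FiniteEnergy ρA) (hB : FiniteEnergy ρB)
    (sA sB : ℝ) (hsA : HasEntropy ρA sA) (hsB : HasEntropy ρB sB) (tA tB : ℝ) (htA : 0 ≤ tA)
    (htB : 0 ≤ tB) (hgA : gBose tA = sA / n) (hgB : gBose tB = sB / n) :
    ∃ ρC : FockState n, IsBeamSplitterOutput η ρA ρB ρC ∧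
      ∃ sC : ℝ, HasEntropy ρC sC ∧ gBose (η * tA + (1 - η) * tB) ≤ sC / n := by
  have hn0 : (0 : ℝ) < n := by exact_mod_cast hn
  rcases hη.1.eq_or_lt with h0 | h0
  · subst h0
    exact ⟨ρB, output_zero ρA ρB, sB, hsB, by simpa using hgB.le⟩
  rcases hη.2.eq_or_lt with h1 | h1
  · subst h1
    exact ⟨ρA, output_one ρA ρB, sA, hsA, by simpa using hgA.le⟩
  obtain ⟨ρC, hC, sC, hsC⟩ := hout n hn η ⟨h0, h1⟩ ρA ρB hA hB
  refine ⟨ρC, hC, sC, hsC, ?_⟩
  rw [le_div_iff₀ hn0, mul_comm]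
  have eA : sA = n * gBose tA := by rw [hgA]; field_simp
  have eB : sB = n * gBose tB := by rw [hgB]; field_simp
  apply final_real ⟨h0, h1⟩ hn0.le htA htB
  intro NA NB hNA hNB
  have := hlin n hn η ⟨h0, h1⟩ ρA ρB ρC hA hB hC sA sB sC hsA hsB hsC NA NB hNA hNB
  rw [eA, eB] at this
  exact this

end Crest.Agent.R331.Wrap587
end

-- ▼ part R331/Cpt1_682
section

set_option autoImplicit false
set_option linter.unusedSectionVars false
set_option linter.deprecated false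
set_option linter.unusedSimpArgs false
set_option linter.style.haveILetI false

noncomputable section

namespace Crest.Agent.R331.CPT682

open scoped InnerProductSpace ENNReal Topology NNReal
open Filter

variable {H : Type*} [NormedAddCommGroup H] [InnerProductSpace ℂ H] [CompleteSpace H]
variable {ι : Type*}

/-- matrix entries of a bounded operator -/
def ent (b : HilbertBasis ι ℂ H) (T : H →L[ℂ] H) (i j : ι) : ℂ := ⟪b i, T (b j)⟫_ℂ

lemma ent_sub (b : HilbertBasis ι ℂ H) (T S : H →L[ℂ] H) (i j : ι) :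
    ent b (T - S) i j = ent b T i j - ent b S i j := by
  simp [ent, inner_sub_right]

lemma ent_add (b : HilbertBasis ι ℂ H) (T S : H →L[ℂ] H) (i j : ι) :
    ent b (T + S) i j = ent b T i j + ent b S i j := by
  simp [ent, inner_add_right]

lemma ent_smul (b : HilbertBasis ι ℂ H) (c : ℂ) (T : H →L[ℂ] H) (i j : ι) :
    ent b (c • T) i j = c * ent b T i j := by
  simp [ent, inner_smul_right]


lemma hasSum_norm_sq (b : HilbertBasis ι ℂ H) (x : H) :
    HasSum (fun i => ‖⟪b i, x⟫_ℂ‖ ^ 2) (‖x‖ ^ 2) := by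
  have h := b.hasSum_inner_mul_inner x x
  have h2 := h.mapL Complex.reCLM
  have e : (Complex.reCLM ⟪x, x⟫_ℂ : ℝ) = ‖x‖ ^ 2 := by
    rw [inner_self_eq_norm_sq_to_K]
    norm_cast
  rw [e] at h2
  refine h2.congr_fun ?_ |> id
  intro i
  show ‖⟪b i, x⟫_ℂ‖ ^ 2 = Complex.reCLM (⟪x, b i⟫_ℂ * ⟪b i, x⟫_ℂ)
  rw [← inner_conj_symm x (b i), mul_comm, Complex.mul_conj]
  simp [Complex.normSq_eq_norm_sq, ← Complex.ofReal_pow]

lemma tsum_enorm_sq (b : HilbertBasis ι ℂ H) (x : H) :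
    ∑' i, ‖⟪b i, x⟫_ℂ‖ₑ ^ 2 = ‖x‖ₑ ^ 2 := by
  have h := hasSum_norm_sq b x
  have h1 : ∀ i, ‖⟪b i, x⟫_ℂ‖ₑ ^ 2 = ENNReal.ofReal (‖⟪b i, x⟫_ℂ‖ ^ 2) := by
    intro i
    rw [← ofReal_norm_eq_enorm, ENNReal.ofReal_pow (norm_nonneg _)]
  simp_rw [h1]
  rw [← ENNReal.ofReal_tsum_of_nonneg (fun i => by positivity) h.summable, h.tsum_eq,
    ENNReal.ofReal_pow (norm_nonneg _), ofReal_norm_eq_enorm]

lemma ext_ent (b : HilbertBasis ι ℂ H) {T S : H →L[ℂ] H}
    (h : ∀ i j, ent b T i j = ent b S i j) : T = S := by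
  have h1 : ∀ j, T (b j) = S (b j) := by
    intro j
    apply b.repr.injective
    ext i
    rw [b.repr_apply_apply, b.repr_apply_apply]
    exact h i j
  have h2 : Dense ((Submodule.span ℂ (Set.range b) : Submodule ℂ H) : Set H) :=
    Submodule.dense_iff_topologicalClosure_eq_top.2 b.dense_span
  refine ContinuousLinearMap.ext_on h2 ?_
  rintro x ⟨j, rfl⟩
  exact h1 j

/-- squared Hilbert–Schmidt norm -/
def HS (b : HilbertBasis ι ℂ H) (T : H →L[ℂ] H) : ℝ≥0∞ := ∑' i, ∑' j, ‖ent b T i j‖ₑ ^ 2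

lemma enorm_apply_sq_le (b : HilbertBasis ι ℂ H) (T : H →L[ℂ] H) (x : H) :
    ‖T x‖ₑ ^ 2 ≤ HS b T * ‖x‖ₑ ^ 2 := by
  rw [← tsum_enorm_sq b (T x), HS, ← ENNReal.tsum_mul_right]
  refine ENNReal.tsum_le_tsum fun i => ?_
  have h1 : ⟪b i, T x⟫_ℂ = ⟪(ContinuousLinearMap.adjoint T) (b i), x⟫_ℂ := by
    rw [ContinuousLinearMap.adjoint_inner_left]
  have h2 : ‖⟪b i, T x⟫_ℂ‖ₑ ≤ ‖(ContinuousLinearMap.adjoint T) (b i)‖ₑ * ‖x‖ₑ := by
    rw [h1, ← ofReal_norm_eq_enorm, ← ofReal_norm_eq_enorm, ← ofReal_norm_eq_enorm,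
      ← ENNReal.ofReal_mul (norm_nonneg _)]
    exact ENNReal.ofReal_le_ofReal (norm_inner_le_norm _ _)
  calc ‖⟪b i, T x⟫_ℂ‖ₑ ^ 2 ≤ (‖(ContinuousLinearMap.adjoint T) (b i)‖ₑ * ‖x‖ₑ) ^ 2 := by gcongr
    _ = ‖(ContinuousLinearMap.adjoint T) (b i)‖ₑ ^ 2 * ‖x‖ₑ ^ 2 := mul_pow _ _ _
    _ = (∑' j, ‖ent b T i j‖ₑ ^ 2) * ‖x‖ₑ ^ 2 := by
      rw [← tsum_enorm_sq b ((ContinuousLinearMap.adjoint T) (b i))]
      congr 2
      funext j
      congr 1
      rw [← ofReal_norm_eq_enorm, ← ofReal_norm_eq_enorm, ContinuousLinearMap.adjoint_inner_right,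
        norm_inner_symm]
      rfl

theorem enorm_sq_le_HS (b : HilbertBasis ι ℂ H) (T : H →L[ℂ] H) : ‖T‖ₑ ^ 2 ≤ HS b T := by
  by_cases htop : HS b T = ⊤
  · rw [htop]; exact le_top
  have key : ‖T‖ ≤ Real.sqrt (HS b T).toReal := by
    refine ContinuousLinearMap.opNorm_le_bound _ (Real.sqrt_nonneg _) fun x => ?_
    have h := enorm_apply_sq_le b T x
    have h' : ‖T x‖ ^ 2 ≤ (HS b T).toReal * ‖x‖ ^ 2 := by
      rw [← ENNReal.ofReal_toReal htop, ← ofReal_norm_eq_enorm, ← ofReal_norm_eq_enorm,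
        ← ENNReal.ofReal_pow (norm_nonneg _), ← ENNReal.ofReal_pow (norm_nonneg _),
        ← ENNReal.ofReal_mul ENNReal.toReal_nonneg] at h
      exact (ENNReal.ofReal_le_ofReal_iff (by positivity)).1 h
    rw [← Real.sqrt_sq (norm_nonneg (T x))]
    refine (Real.sqrt_le_sqrt h').trans ?_
    rw [Real.sqrt_mul ENNReal.toReal_nonneg, Real.sqrt_sq (norm_nonneg _)]
  rw [← ofReal_norm_eq_enorm, ← ENNReal.ofReal_pow (norm_nonneg _),
    ← ENNReal.ofReal_toReal htop]
  refine ENNReal.ofReal_le_ofReal ?_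
  calc ‖T‖ ^ 2 ≤ (Real.sqrt (HS b T).toReal) ^ 2 := by gcongr
    _ = (HS b T).toReal := Real.sq_sqrt ENNReal.toReal_nonneg

/-- the pre-inner product `⟪x, T y⟫` of a positive operator -/
@[reducible] def coreOf (T : H →L[ℂ] H) (hT : T.IsPositive) : PreInnerProductSpace.Core ℂ H where
  inner x y := ⟪x, T y⟫_ℂ
  conj_inner_symm x y := by
    show (starRingEnd ℂ) ⟪y, T x⟫_ℂ = ⟪x, T y⟫_ℂ
    rw [inner_conj_symm]
    exact hT.inner_left_eq_inner_right x y
  re_inner_nonneg x := by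
    exact hT.re_inner_nonneg_right x
  add_left x y z := by
    show ⟪x + y, T z⟫_ℂ = _
    rw [inner_add_left]
  smul_left x y r := by
    show ⟪r • x, T y⟫_ℂ = _
    rw [inner_smul_left]

lemma inner_sq_le (T : H →L[ℂ] H) (hT : T.IsPositive) (x y : H) :
    ‖⟪x, T y⟫_ℂ‖ ^ 2 ≤ (⟪x, T x⟫_ℂ).re * (⟪y, T y⟫_ℂ).re := by
  letI c := coreOf T hT
  have h := @InnerProductSpace.Core.inner_mul_inner_self_le ℂ H _ _ _ c x y
  have h2 : ‖⟪y, T x⟫_ℂ‖ = ‖⟪x, T y⟫_ℂ‖ := by
    rw [← hT.inner_left_eq_inner_right x y, norm_inner_symm]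
  have h3 : ‖⟪x, T y⟫_ℂ‖ * ‖⟪y, T x⟫_ℂ‖ ≤ (⟪x, T x⟫_ℂ).re * (⟪y, T y⟫_ℂ).re := h
  rw [h2] at h3
  rw [sq]; exact h3

lemma ent_sq_le (b : HilbertBasis ι ℂ H) {T : H →L[ℂ] H} (hT : T.IsPositive) (i j : ι) :
    ‖ent b T i j‖ ^ 2 ≤ (ent b T i i).re * (ent b T j j).re :=
  inner_sq_le T hT (b i) (b j)

lemma ent_diag_nonneg (b : HilbertBasis ι ℂ H) {T : H →L[ℂ] H} (hT : T.IsPositive) (i : ι) :
    0 ≤ (ent b T i i).re := hT.re_inner_nonneg_right (b i)

/-- density operators: positive with trace one -/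
structure TS (b : HilbertBasis ι ℂ H) (T : H →L[ℂ] H) : Prop where
  pos : T.IsPositive
  tr : HasSum (fun i => (ent b T i i).re) 1



/-- diagonal as `ENNReal` weights -/
def dg (b : HilbertBasis ι ℂ H) (T : H →L[ℂ] H) (i : ι) : ℝ≥0∞ := ENNReal.ofReal (ent b T i i).re

lemma TS.tsum_dg {b : HilbertBasis ι ℂ H} {T : H →L[ℂ] H} (h : TS b T) : ∑' i, dg b T i = 1 := by
  unfold dg
  rw [← ENNReal.ofReal_tsum_of_nonneg (fun i => ent_diag_nonneg b h.pos i) h.tr.summable,
    h.tr.tsum_eq, ENNReal.ofReal_one]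

lemma TS.enorm_ent_sq_le {b : HilbertBasis ι ℂ H} {T : H →L[ℂ] H} (h : TS b T) (i j : ι) :
    ‖ent b T i j‖ₑ ^ 2 ≤ dg b T i * dg b T j := by
  unfold dg
  rw [← ofReal_norm_eq_enorm, ← ENNReal.ofReal_pow (norm_nonneg _),
    ← ENNReal.ofReal_mul (ent_diag_nonneg b h.pos i)]
  exact ENNReal.ofReal_le_ofReal (ent_sq_le b h.pos i j)

/-- energy -/
def En (b : HilbertBasis ι ℂ H) (w : ι → ℝ≥0) (T : H →L[ℂ] H) : ℝ≥0∞ :=
  ∑' i, (w i : ℝ≥0∞) * dg b T i


lemma enorm_sub_sq_le (x y : ℂ) : ‖x - y‖ₑ ^ 2 ≤ 2 * ‖x‖ₑ ^ 2 + 2 * ‖y‖ₑ ^ 2 := by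
  have h : ‖x - y‖ ^ 2 ≤ 2 * ‖x‖ ^ 2 + 2 * ‖y‖ ^ 2 := by
    have h1 : ‖x - y‖ ≤ ‖x‖ + ‖y‖ := norm_sub_le x y
    have h2 : ‖x - y‖ ^ 2 ≤ (‖x‖ + ‖y‖) ^ 2 := by gcongr
    nlinarith [sq_nonneg (‖x‖ - ‖y‖)]
  have h2 : (2 : ℝ≥0∞) = ENNReal.ofReal 2 := by simp
  rw [← ofReal_norm_eq_enorm, ← ofReal_norm_eq_enorm, ← ofReal_norm_eq_enorm,
    ← ENNReal.ofReal_pow (norm_nonneg _), ← ENNReal.ofReal_pow (norm_nonneg _),
    ← ENNReal.ofReal_pow (norm_nonneg _), h2, ← ENNReal.ofReal_mul zero_le_two,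
    ← ENNReal.ofReal_mul zero_le_two, ← ENNReal.ofReal_add (by positivity) (by positivity)]
  exact ENNReal.ofReal_le_ofReal h

open Classical in
/-- tail of the diagonal outside `F` -/
def tl (b : HilbertBasis ι ℂ H) (F : Finset ι) (T : H →L[ℂ] H) (i : ι) : ℝ≥0∞ :=
  if i ∈ F then 0 else dg b T i

open Classical in
lemma HS_sub_le {b : HilbertBasis ι ℂ H} {T S : H →L[ℂ] H} (hT : TS b T) (hS : TS b S)
    (F : Finset ι) (m : ℝ≥0∞) (hTm : ∑' i, tl b F T i ≤ m) (hSm : ∑' i, tl b F S i ≤ m) :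
    HS b (T - S) ≤ (∑ i ∈ F, ∑ j ∈ F, ‖ent b T i j - ent b S i j‖ₑ ^ 2) + 8 * m := by
  have hpt : ∀ i j, ‖ent b (T - S) i j‖ₑ ^ 2 ≤
      (if i ∈ F then (if j ∈ F then ‖ent b T i j - ent b S i j‖ₑ ^ 2 else 0) else 0) +
      ((2 * (tl b F T i * dg b T j) + 2 * (dg b T i * tl b F T j)) +
      (2 * (tl b F S i * dg b S j) + 2 * (dg b S i * tl b F S j))) := by
    intro i j
    rw [ent_sub]
    by_cases hi : i ∈ F
    · by_cases hj : j ∈ F
      · simp [hi, hj]
      · simp only [hi, hj, if_true, if_false, zero_add, tl, zero_mul, mul_zero]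
        refine (enorm_sub_sq_le _ _).trans ?_
        gcongr
        · exact hT.enorm_ent_sq_le i j
        · exact hS.enorm_ent_sq_le i j
    · simp only [hi, if_false, zero_add, tl]
      refine (enorm_sub_sq_le _ _).trans ?_
      gcongr
      · exact le_trans (mul_le_mul_right (hT.enorm_ent_sq_le i j) 2) le_self_add
      · exact le_trans (mul_le_mul_right (hS.enorm_ent_sq_le i j) 2) le_self_add
  unfold HS
  refine (ENNReal.tsum_le_tsum fun i => ENNReal.tsum_le_tsum fun j => hpt i j).trans ?_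
  have h1 : ∀ (u v : ι → ℝ≥0∞), ∑' i, ∑' j, 2 * (u i * v j) = 2 * ((∑' i, u i) * (∑' j, v j)) := by
    intro u v
    rw [← ENNReal.tsum_mul_right, ← ENNReal.tsum_mul_left]
    refine tsum_congr fun i => ?_
    rw [ENNReal.tsum_mul_left, ENNReal.tsum_mul_left]
  simp_rw [ENNReal.tsum_add, h1, hT.tsum_dg, hS.tsum_dg, mul_one, one_mul]
  have h2 : ∑' i, ∑' j, (if i ∈ F then (if j ∈ F then ‖ent b T i j - ent b S i j‖ₑ ^ 2 else 0)
      else 0) = ∑ i ∈ F, ∑ j ∈ F, ‖ent b T i j - ent b S i j‖ₑ ^ 2 := by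
    rw [tsum_eq_sum (s := F)]
    · refine Finset.sum_congr rfl fun i hi => ?_
      rw [tsum_eq_sum (s := F)]
      · refine Finset.sum_congr rfl fun j hj => ?_
        simp [hi, hj]
      · intro j hj
        simp [hj]
    · intro i hi
      simp [hi]
  rw [h2]
  gcongr
  calc 2 * ∑' i, tl b F T i + 2 * ∑' i, tl b F T i + (2 * ∑' i, tl b F S i + 2 * ∑' i, tl b F S i)
      ≤ 2 * m + 2 * m + (2 * m + 2 * m) := by gcongr
    _ = 8 * m := by ring

open Classical in
lemma tl_le (b : HilbertBasis ι ℂ H) (w : ι → ℝ≥0) (T : H →L[ℂ] H) {K : ℝ≥0} (hK : 0 < K)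
    (F : Finset ι) (hF : ∀ i, w i ≤ K → i ∈ F) :
    ∑' i, tl b F T i ≤ En b w T / K := by
  rw [ENNReal.le_div_iff_mul_le (Or.inl (by exact_mod_cast hK.ne')) (Or.inl ENNReal.coe_ne_top),
    ← ENNReal.tsum_mul_right]
  unfold En
  refine ENNReal.tsum_le_tsum fun i => ?_
  unfold tl
  split_ifs with hi
  · simp
  · rw [mul_comm]
    gcongr
    by_contra hcon
    exact hi (hF i (not_le.1 (fun h => hcon h)).le)


lemma tendsto_ent {b : HilbertBasis ι ℂ H} {T : ℕ → H →L[ℂ] H} {S : H →L[ℂ] H}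
    (h : Tendsto T atTop (𝓝 S)) (i j : ι) :
    Tendsto (fun k => ent b (T k) i j) atTop (𝓝 (ent b S i j)) := by
  have h1 : Tendsto (fun k => T k (b j)) atTop (𝓝 (S (b j))) :=
    ((ContinuousLinearMap.apply ℂ H (b j)).continuous.tendsto S).comp h
  exact tendsto_const_nhds.inner h1

lemma tendsto_dg {b : HilbertBasis ι ℂ H} {T : ℕ → H →L[ℂ] H} {S : H →L[ℂ] H}
    (h : ∀ i j, Tendsto (fun k => ent b (T k) i j) atTop (𝓝 (ent b S i j))) (i : ι) :
    Tendsto (fun k => dg b (T k) i) atTop (𝓝 (dg b S i)) :=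
  (ENNReal.continuous_ofReal.tendsto _).comp ((Complex.continuous_re.tendsto _).comp (h i i))

/-- lower semicontinuity of the energy -/
lemma En_le_of_tendsto {b : HilbertBasis ι ℂ H} {w : ι → ℝ≥0} {T : ℕ → H →L[ℂ] H}
    {S : H →L[ℂ] H} {E : ℝ≥0∞}
    (h : ∀ i j, Tendsto (fun k => ent b (T k) i j) atTop (𝓝 (ent b S i j)))
    (hE : ∀ k, En b w (T k) ≤ E) : En b w S ≤ E := by
  unfold En
  rw [ENNReal.tsum_eq_iSup_sum]
  refine iSup_le fun F => ?_
  have ht : Tendsto (fun k => ∑ i ∈ F, (w i : ℝ≥0∞) * dg b (T k) i) atTop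
      (𝓝 (∑ i ∈ F, (w i : ℝ≥0∞) * dg b S i)) := by
    refine tendsto_finsetSum _ fun i _ => ?_
    exact ENNReal.Tendsto.const_mul (tendsto_dg h i) (Or.inr ENNReal.coe_ne_top)
  refine le_of_tendsto' ht fun k => ?_
  exact (ENNReal.sum_le_tsum F).trans (hE k)



open Classical in
/-- entrywise convergence + bounded energies: the sequence is Cauchy in operator norm -/
theorem cauchySeq_of_ent {b : HilbertBasis ι ℂ H} {w : ι → ℝ≥0}
    (hw : ∀ K : ℝ≥0, {i | w i ≤ K}.Finite) {T : ℕ → H →L[ℂ] H} {E : ℝ≥0∞} (hE : E ≠ ⊤)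
    (hT : ∀ k, TS b (T k)) (hTE : ∀ k, En b w (T k) ≤ E) {t : ι → ι → ℂ}
    (h : ∀ i j, Tendsto (fun k => ent b (T k) i j) atTop (𝓝 (t i j))) : CauchySeq T := by
  have hHS : ∀ δ : ℝ≥0∞, 0 < δ → ∀ᶠ p : ℕ × ℕ in atTop, HS b (T p.1 - T p.2) ≤ δ := by
    intro δ hδ
    have hδ2 : (0 : ℝ≥0∞) < δ / 2 := ENNReal.half_pos hδ.ne'
    -- choose `K` with `8 * (E / K) ≤ δ / 2`
    have hlim : Tendsto (fun K : ℕ => 8 * (E / (K : ℝ≥0∞))) atTop (𝓝 0) := by
      have h3 := ENNReal.Tendsto.const_div (a := E) ENNReal.tendsto_nat_nhds_top (Or.inr hE)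
      have h4 := ENNReal.Tendsto.const_mul (a := 8) h3 (Or.inr (by simp))
      simpa using h4
    obtain ⟨K, hK0, hK⟩ := ((eventually_gt_atTop 0).and (hlim.eventually_le_const hδ2)).exists
    have hK0' : (0 : ℝ≥0) < (K : ℝ≥0) := by exact_mod_cast hK0
    set F : Finset ι := (hw (K : ℝ≥0)).toFinset with hF
    have hFm : ∀ i, w i ≤ (K : ℝ≥0) → i ∈ F := by intro i hi; rw [hF]; simpa using hi
    have htail : ∀ k, ∑' i, tl b F (T k) i ≤ E / ((K : ℝ≥0) : ℝ≥0∞) := fun k =>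
      (tl_le b w (T k) hK0' F hFm).trans (by gcongr; exact hTE k)
    have hblock : Tendsto (fun p : ℕ × ℕ => ∑ i ∈ F, ∑ j ∈ F,
        ‖ent b (T p.1) i j - ent b (T p.2) i j‖ₑ ^ 2) atTop (𝓝 0) := by
      have h0 : (0 : ℝ≥0∞) = ∑ i ∈ F, ∑ j ∈ F, ‖t i j - t i j‖ₑ ^ 2 := by simp
      rw [h0]
      refine tendsto_finsetSum _ fun i _ => tendsto_finsetSum _ fun j _ => ?_
      rw [← prod_atTop_atTop_eq]
      have h1 : Tendsto (fun p : ℕ × ℕ => ent b (T p.1) i j) (atTop ×ˢ atTop) (𝓝 (t i j)) :=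
        (h i j).comp tendsto_fst
      have h2 : Tendsto (fun p : ℕ × ℕ => ent b (T p.2) i j) (atTop ×ˢ atTop) (𝓝 (t i j)) :=
        (h i j).comp tendsto_snd
      exact ENNReal.Tendsto.pow (h1.sub h2).enorm
    filter_upwards [hblock.eventually_le_const hδ2] with p hp
    refine (HS_sub_le (hT p.1) (hT p.2) F _ (htail p.1) (htail p.2)).trans ?_
    calc _ ≤ δ / 2 + δ / 2 := add_le_add hp (by simpa using hK)
      _ = δ := ENNReal.add_halves δ
  rw [cauchySeq_iff_tendsto_dist_atTop_0, Metric.tendsto_nhds]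
  intro ε hε
  have hε2 : (0 : ℝ≥0∞) < ENNReal.ofReal ((ε / 2) ^ 2) := ENNReal.ofReal_pos.2 (by positivity)
  filter_upwards [hHS _ hε2] with p hp
  have h1 := (enorm_sq_le_HS b (T p.1 - T p.2)).trans hp
  rw [← ofReal_norm_eq_enorm, ← ENNReal.ofReal_pow (norm_nonneg _),
    ENNReal.ofReal_le_ofReal_iff (by positivity)] at h1
  have h2 : ‖T p.1 - T p.2‖ ≤ ε / 2 :=
    (pow_le_pow_iff_left₀ (norm_nonneg _) (by positivity) two_ne_zero).1 h1
  rw [Real.dist_eq, dist_eq_norm, sub_zero, abs_of_nonneg (norm_nonneg _)]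
  linarith

/-- entrywise convergence to the entries of `S` + bounded energies gives norm convergence -/
theorem tendsto_of_ent {b : HilbertBasis ι ℂ H} {w : ι → ℝ≥0}
    (hw : ∀ K : ℝ≥0, {i | w i ≤ K}.Finite) {T : ℕ → H →L[ℂ] H} {E : ℝ≥0∞} (hE : E ≠ ⊤)
    (hT : ∀ k, TS b (T k)) (hTE : ∀ k, En b w (T k) ≤ E) {S : H →L[ℂ] H}
    (h : ∀ i j, Tendsto (fun k => ent b (T k) i j) atTop (𝓝 (ent b S i j))) :
    Tendsto T atTop (𝓝 S) := by
  obtain ⟨S', hS'⟩ := cauchySeq_tendsto_of_complete (cauchySeq_of_ent hw hE hT hTE h)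
  have heq : S' = S := by
    apply ext_ent b
    intro i j
    exact tendsto_nhds_unique (tendsto_ent (b := b) hS' i j) (h i j)
  rw [← heq]; exact hS'


end Crest.Agent.R331.CPT682
end
end

-- ▼ part R331/Cpt2_682
section

set_option autoImplicit false
set_option linter.unusedSectionVars false
set_option linter.deprecated false
set_option linter.unusedSimpArgs false
set_option linter.style.haveILetI false

noncomputable section

namespace Crest.Agent.R331.CPT682

open scoped InnerProductSpace ENNReal Topology NNReal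
open Filter

variable {H : Type*} [NormedAddCommGroup H] [InnerProductSpace ℂ H] [CompleteSpace H]
variable {ι : Type*}

/-! ### spectrum of a density operator -/

lemma TS.norm_le_one {b : HilbertBasis ι ℂ H} {T : H →L[ℂ] H} (h : TS b T) : ‖T‖ ≤ 1 := by
  have h1 : HS b T ≤ 1 := by
    unfold HS
    calc ∑' i, ∑' j, ‖ent b T i j‖ₑ ^ 2 ≤ ∑' i, ∑' j, dg b T i * dg b T j :=
          ENNReal.tsum_le_tsum fun i => ENNReal.tsum_le_tsum fun j => h.enorm_ent_sq_le i j
      _ = 1 := by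
          simp_rw [ENNReal.tsum_mul_left, ENNReal.tsum_mul_right, h.tsum_dg, mul_one]
  have h2 := (enorm_sq_le_HS b T).trans h1
  rw [← ofReal_norm_eq_enorm, ← ENNReal.ofReal_pow (norm_nonneg _), ← ENNReal.ofReal_one,
    ENNReal.ofReal_le_ofReal_iff zero_le_one] at h2
  nlinarith [norm_nonneg T]

lemma TS.nonneg {b : HilbertBasis ι ℂ H} {T : H →L[ℂ] H} (h : TS b T) : 0 ≤ T :=
  (ContinuousLinearMap.nonneg_iff_isPositive T).2 h.pos

lemma TS.isSelfAdjoint {b : HilbertBasis ι ℂ H} {T : H →L[ℂ] H} (h : TS b T) : IsSelfAdjoint T :=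
  h.pos.isSelfAdjoint

lemma TS.spectrum_subset {b : HilbertBasis ι ℂ H} {T : H →L[ℂ] H} (h : TS b T) :
    spectrum ℝ T ⊆ Set.Icc 0 1 := by
  intro x hx
  refine ⟨spectrum_nonneg_of_nonneg h.nonneg hx, ?_⟩
  have h1 : T ≤ algebraMap ℝ (H →L[ℂ] H) 1 := by
    rw [map_one]
    exact (CStarAlgebra.norm_le_one_iff_of_nonneg T h.nonneg).1 h.norm_le_one
  exact (le_algebraMap_iff_spectrum_le (a := T) (ha := h.isSelfAdjoint)).1 h1 x hx

/-- the entropy operator `-T log T` -/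
def Sop (T : H →L[ℂ] H) : H →L[ℂ] H := cfc Real.negMulLog T

lemma tangent (c x : ℝ) (hx : 0 ≤ x) : Real.negMulLog x ≤ c * x + Real.exp (-c - 1) := by
  rcases hx.eq_or_lt with rfl | hx
  · simp [Real.exp_nonneg]
  have h1 : Real.log (Real.exp (-c - 1) / x) ≤ Real.exp (-c - 1) / x - 1 :=
    Real.log_le_sub_one_of_pos (by positivity)
  rw [Real.log_div (Real.exp_pos _).ne' hx.ne', Real.log_exp] at h1
  have h2 := mul_le_mul_of_nonneg_left h1 hx.le
  have h3 : x * (Real.exp (-c - 1) / x - 1) = Real.exp (-c - 1) - x := by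
    field_simp
  rw [h3] at h2
  unfold Real.negMulLog
  nlinarith

lemma re_ent_mono (b : HilbertBasis ι ℂ H) {T S : H →L[ℂ] H} (h : T ≤ S) (i : ι) :
    (ent b T i i).re ≤ (ent b S i i).re := by
  have h1 : (S - T).IsPositive := (ContinuousLinearMap.nonneg_iff_isPositive _).1 (sub_nonneg.2 h)
  have h2 := ent_diag_nonneg b h1 i
  rw [ent_sub] at h2
  simpa using h2

lemma ent_one (b : HilbertBasis ι ℂ H) (i : ι) : ent b (1 : H →L[ℂ] H) i i = 1 := by
  unfold ent
  have := b.orthonormal.1 i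
  rw [ContinuousLinearMap.one_apply, inner_self_eq_norm_sq_to_K, this]
  simp

lemma Sop_diag_nonneg {b : HilbertBasis ι ℂ H} {T : H →L[ℂ] H} (h : TS b T) (i : ι) :
    0 ≤ (ent b (Sop T) i i).re := by
  have h1 : 0 ≤ Sop T := cfc_nonneg fun x hx => by
    have := h.spectrum_subset hx
    exact Real.negMulLog_nonneg this.1 this.2
  exact ent_diag_nonneg b ((ContinuousLinearMap.nonneg_iff_isPositive _).1 h1) i

lemma Sop_diag_le {b : HilbertBasis ι ℂ H} {T : H →L[ℂ] H} (h : TS b T) (c : ℝ) (i : ι) :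
    (ent b (Sop T) i i).re ≤ c * (ent b T i i).re + Real.exp (-c - 1) := by
  have h1 : Sop T ≤ cfc (fun x : ℝ => c * x + Real.exp (-c - 1)) T := by
    refine cfc_mono (fun x hx => tangent c x (h.spectrum_subset hx).1) ?_ ?_
    · exact Real.continuous_negMulLog.continuousOn
    · fun_prop
  have h2 : cfc (fun x : ℝ => c * x + Real.exp (-c - 1)) T =
      (c : ℂ) • T + ((Real.exp (-c - 1) : ℝ) : ℂ) • (1 : H →L[ℂ] H) := by
    rw [cfc_add_const _ _ _ (by fun_prop) h.isSelfAdjoint, cfc_const_mul_id c T h.isSelfAdjoint]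
    congr 1
  have h3 := re_ent_mono b h1 i
  rw [h2, ent_add, ent_smul, ent_smul, ent_one, Complex.add_re, Complex.re_ofReal_mul,
    Complex.re_ofReal_mul, Complex.one_re, mul_one] at h3
  exact h3

/-- entropy as an extended nonnegative number -/
def SE (b : HilbertBasis ι ℂ H) (T : H →L[ℂ] H) : ℝ≥0∞ :=
  ∑' i, ENNReal.ofReal (ent b (Sop T) i i).re

/-- Gibbs type weights -/
def gw (w : ι → ℝ≥0) (δ : ℝ≥0) (i : ι) : ℝ≥0∞ := ENNReal.ofReal (Real.exp (-(δ * w i : ℝ) - 1))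

lemma ofReal_Sop_le {b : HilbertBasis ι ℂ H} {T : H →L[ℂ] H} (h : TS b T) (w : ι → ℝ≥0) (δ : ℝ≥0)
    (i : ι) : ENNReal.ofReal (ent b (Sop T) i i).re ≤ δ * (w i * dg b T i) + gw w δ i := by
  unfold gw dg
  refine (ENNReal.ofReal_le_ofReal (Sop_diag_le h (δ * w i : ℝ) i)).trans ?_
  rw [ENNReal.ofReal_add (mul_nonneg (by positivity) (ent_diag_nonneg b h.pos i))
    (Real.exp_nonneg _), ENNReal.ofReal_mul (by positivity), ENNReal.ofReal_mul (by positivity),
    ENNReal.ofReal_coe_nnreal, ENNReal.ofReal_coe_nnreal, mul_assoc]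

open Classical in
lemma tail_le {b : HilbertBasis ι ℂ H} {T : H →L[ℂ] H} (h : TS b T) (w : ι → ℝ≥0) (δ : ℝ≥0)
    (F : Finset ι) :
    ∑' i : {i // i ∉ F}, ENNReal.ofReal (ent b (Sop T) i i).re ≤
      δ * En b w T + ∑' i : {i // i ∉ F}, gw w δ i := by
  refine (ENNReal.tsum_le_tsum fun i : {i // i ∉ F} => ofReal_Sop_le h w δ i).trans ?_
  rw [ENNReal.tsum_add]
  gcongr
  rw [ENNReal.tsum_mul_left]
  gcongr
  exact ENNReal.tsum_comp_le_tsum_of_injective Subtype.val_injective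
    (fun i => (w i : ℝ≥0∞) * dg b T i)

lemma SE_le {b : HilbertBasis ι ℂ H} {T : H →L[ℂ] H} (h : TS b T) (w : ι → ℝ≥0) (δ : ℝ≥0) :
    SE b T ≤ δ * En b w T + ∑' i, gw w δ i := by
  unfold SE
  refine (ENNReal.tsum_le_tsum fun i => ofReal_Sop_le h w δ i).trans ?_
  rw [ENNReal.tsum_add, ENNReal.tsum_mul_left]
  rfl

lemma tendsto_Sop {b : HilbertBasis ι ℂ H} {T : ℕ → H →L[ℂ] H} {S : H →L[ℂ] H}
    (hT : ∀ k, TS b (T k)) (hS : TS b S) (h : Tendsto T atTop (𝓝 S)) :
    Tendsto (fun k => Sop (T k)) atTop (𝓝 (Sop S)) := by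
  unfold Sop
  exact Filter.Tendsto.cfc (s := Set.Icc (0 : ℝ) 1) isCompact_Icc Real.negMulLog h
    (Eventually.of_forall fun k => (hT k).spectrum_subset)
    (Eventually.of_forall fun k => (hT k).isSelfAdjoint) hS.spectrum_subset hS.isSelfAdjoint
    Real.continuous_negMulLog.continuousOn

open Classical in
/-- CONTINUITY OF THE ENTROPY on energy-bounded norm-convergent sequences of states. -/
theorem tendsto_SE {b : HilbertBasis ι ℂ H} {w : ι → ℝ≥0}
    (hw : ∀ δ : ℝ≥0, 0 < δ → ∑' i, gw w δ i ≠ ⊤) {T : ℕ → H →L[ℂ] H} {S : H →L[ℂ] H}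
    {E : ℝ≥0∞} (hE : E ≠ ⊤) (hT : ∀ k, TS b (T k)) (hS : TS b S) (hTE : ∀ k, En b w (T k) ≤ E)
    (hSE : En b w S ≤ E) (h : Tendsto T atTop (𝓝 S)) :
    Tendsto (fun k => SE b (T k)) atTop (𝓝 (SE b S)) := by
  have hfin : ∀ {R : H →L[ℂ] H}, TS b R → En b w R ≤ E → SE b R ≠ ⊤ := by
    intro R hR hRE
    refine ne_top_of_le_ne_top ?_ (SE_le hR w 1)
    exact ENNReal.add_ne_top.2 ⟨ENNReal.mul_ne_top ENNReal.coe_ne_top
      (ne_top_of_le_ne_top hE hRE), hw 1 one_pos⟩
  have hSop := tendsto_Sop hT hS h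
  rw [ENNReal.tendsto_nhds (hfin hS hSE)]
  intro ε hε
  -- reduce to finite `ε`
  wlog hεt : ε ≠ ⊤ generalizing ε
  · have hε' : ε = ⊤ := not_not.1 hεt
    refine Eventually.of_forall fun k => ?_
    rw [hε']
    simp
  have hε4 : (0 : ℝ≥0∞) < ε / 2 / 2 := ENNReal.half_pos (ENNReal.half_pos hε.ne').ne'
  -- choose `δ` with `δ * E ≤ ε / 2 / 2`
  obtain ⟨δ, hδ0, hδ⟩ : ∃ δ : ℝ≥0, 0 < δ ∧ (δ : ℝ≥0∞) * E ≤ ε / 2 / 2 := by
    have hlim : Tendsto (fun m : ℕ => (((1 : ℝ≥0) / (m + 1) : ℝ≥0) : ℝ≥0∞) * E) atTop (𝓝 0) := by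
      have h1 : Tendsto (fun m : ℕ => (((1 : ℝ≥0) / (m + 1) : ℝ≥0) : ℝ≥0∞)) atTop (𝓝 0) := by
        rw [← ENNReal.coe_zero, ENNReal.tendsto_coe]
        exact tendsto_one_div_add_atTop_nhds_zero_nat
      have h2 := ENNReal.Tendsto.mul_const h1 (Or.inr hE)
      simpa using h2
    obtain ⟨m, hm⟩ := (hlim.eventually_le_const hε4).exists
    exact ⟨(1 : ℝ≥0) / (m + 1), by positivity, hm⟩
  -- choose `F` with small Gibbs tail
  obtain ⟨F, hF⟩ : ∃ F : Finset ι, ∑' i : {i // i ∉ F}, gw w δ i ≤ ε / 2 / 2 :=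
    ((ENNReal.tendsto_tsum_compl_atTop_zero (hw δ hδ0)).eventually_le_const hε4).exists
  have htail : ∀ {R : H →L[ℂ] H}, TS b R → En b w R ≤ E →
      ∑' i : {i // i ∉ F}, ENNReal.ofReal (ent b (Sop R) i i).re ≤ ε / 2 := by
    intro R hR hRE
    refine (tail_le hR w δ F).trans ?_
    calc (δ : ℝ≥0∞) * En b w R + ∑' i : {i // i ∉ F}, gw w δ i ≤ ε / 2 / 2 + ε / 2 / 2 := by
          refine add_le_add ?_ hF
          exact (mul_le_mul_right hRE _).trans hδ
      _ = ε / 2 := ENNReal.add_halves _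
  have hsplit : ∀ R : H →L[ℂ] H, SE b R = ∑ i ∈ F, ENNReal.ofReal (ent b (Sop R) i i).re +
      ∑' i : {i // i ∉ F}, ENNReal.ofReal (ent b (Sop R) i i).re := by
    intro R
    unfold SE
    exact (ENNReal.sum_add_tsum_compl (s := F) (f := fun i => ENNReal.ofReal (ent b (Sop R) i i).re)).symm
  have hblock : Tendsto (fun k => ∑ i ∈ F, ENNReal.ofReal (ent b (Sop (T k)) i i).re) atTop
      (𝓝 (∑ i ∈ F, ENNReal.ofReal (ent b (Sop S) i i).re)) := by
    refine tendsto_finsetSum _ fun i _ => ?_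
    exact (ENNReal.continuous_ofReal.tendsto _).comp
      ((Complex.continuous_re.tendsto _).comp (tendsto_ent hSop i i))
  have hblockfin : (∑ i ∈ F, ENNReal.ofReal (ent b (Sop S) i i).re) ≠ ⊤ :=
    ENNReal.sum_ne_top.2 fun i _ => ENNReal.ofReal_ne_top
  have hb := (ENNReal.tendsto_nhds hblockfin).1 hblock (ε / 2) (ENNReal.half_pos hε.ne')
  filter_upwards [hb] with k hk
  rw [Set.mem_Icc] at hk ⊢
  have h1 := htail (hT k) (hTE k)
  have h2 := htail hS hSE
  constructor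
  · rw [tsub_le_iff_right]
    calc SE b S = _ := hsplit S
      _ ≤ (∑ i ∈ F, ENNReal.ofReal (ent b (Sop (T k)) i i).re + ε / 2) + ε / 2 := by
          refine add_le_add ?_ h2
          exact tsub_le_iff_right.1 hk.1
      _ = ∑ i ∈ F, ENNReal.ofReal (ent b (Sop (T k)) i i).re + ε := by
          rw [add_assoc, ENNReal.add_halves]
      _ ≤ SE b (T k) + ε := by
          gcongr
          rw [hsplit (T k)]
          exact le_self_add
  · calc SE b (T k) = _ := hsplit (T k)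
      _ ≤ (∑ i ∈ F, ENNReal.ofReal (ent b (Sop S) i i).re + ε / 2) + ε / 2 :=
          add_le_add hk.2 h1
      _ = ∑ i ∈ F, ENNReal.ofReal (ent b (Sop S) i i).re + ε := by
          rw [add_assoc, ENNReal.add_halves]
      _ ≤ SE b S + ε := by
          gcongr
          rw [hsplit S]
          exact le_self_add

/-! ### real valued entropy -/

/-- the entropy of `T` is `s` -/
def HasS (b : HilbertBasis ι ℂ H) (T : H →L[ℂ] H) (s : ℝ) : Prop :=
  HasSum (fun i => (ent b (Sop T) i i).re) s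

lemma HasS.ofReal_eq {b : HilbertBasis ι ℂ H} {T : H →L[ℂ] H} {s : ℝ} (h : TS b T)
    (hs : HasS b T s) : SE b T = ENNReal.ofReal s := by
  unfold SE
  rw [← ENNReal.ofReal_tsum_of_nonneg (fun i => Sop_diag_nonneg h i) hs.summable, hs.tsum_eq]

lemma HasS.nonneg {b : HilbertBasis ι ℂ H} {T : H →L[ℂ] H} {s : ℝ} (h : TS b T)
    (hs : HasS b T s) : 0 ≤ s := HasSum.nonneg (fun i => Sop_diag_nonneg h i) hs

lemma hasS_of_ne_top {b : HilbertBasis ι ℂ H} {T : H →L[ℂ] H} (h : TS b T) (hfin : SE b T ≠ ⊤) :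
    HasS b T (SE b T).toReal := by
  unfold HasS
  have h1 := ENNReal.hasSum_toReal (f := fun i => ENNReal.ofReal (ent b (Sop T) i i).re) hfin
  have e : (∑' i, (ENNReal.ofReal (ent b (Sop T) i i).re).toReal) = (SE b T).toReal := by
    unfold SE
    rw [← ENNReal.tsum_toReal_eq (f := fun i => ENNReal.ofReal (ent b (Sop T) i i).re)
      (fun i => ENNReal.ofReal_ne_top)]
  have e2 : (fun i => (ent b (Sop T) i i).re) =
      fun i => (ENNReal.ofReal (ent b (Sop T) i i).re).toReal := by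
    funext i
    rw [ENNReal.toReal_ofReal (Sop_diag_nonneg h i)]
  rw [e2, ← e]
  exact h1

/-- finite energy gives finite entropy -/
lemma SE_ne_top {b : HilbertBasis ι ℂ H} {w : ι → ℝ≥0}
    (hw : ∑' i, gw w 1 i ≠ ⊤) {T : H →L[ℂ] H} (hT : TS b T) (hE : En b w T ≠ ⊤) :
    SE b T ≠ ⊤ :=
  ne_top_of_le_ne_top (ENNReal.add_ne_top.2 ⟨ENNReal.mul_ne_top ENNReal.coe_ne_top hE, hw⟩)
    (SE_le hT w 1)

/-- entropy continuity, real form -/
theorem tendsto_entropy {b : HilbertBasis ι ℂ H} {w : ι → ℝ≥0}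
    (hw : ∀ δ : ℝ≥0, 0 < δ → ∑' i, gw w δ i ≠ ⊤) {T : ℕ → H →L[ℂ] H} {S : H →L[ℂ] H}
    {E : ℝ≥0∞} (hE : E ≠ ⊤) (hT : ∀ k, TS b (T k)) (hS : TS b S) (hTE : ∀ k, En b w (T k) ≤ E)
    (hSE : En b w S ≤ E) (h : Tendsto T atTop (𝓝 S)) {s : ℕ → ℝ} {σ : ℝ}
    (hs : ∀ k, HasS b (T k) (s k)) (hσ : HasS b S σ) : Tendsto s atTop (𝓝 σ) := by
  have h1 := tendsto_SE hw hE hT hS hTE hSE h
  have h2 : SE b S ≠ ⊤ := by rw [hσ.ofReal_eq hS]; exact ENNReal.ofReal_ne_top
  have h3 := (ENNReal.tendsto_toReal h2).comp h1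
  rw [hσ.ofReal_eq hS, ENNReal.toReal_ofReal (hσ.nonneg hS)] at h3
  refine h3.congr fun k => ?_
  show (SE b (T k)).toReal = s k
  rw [(hs k).ofReal_eq (hT k), ENNReal.toReal_ofReal ((hs k).nonneg (hT k))]

end Crest.Agent.R331.CPT682
end
end

-- ▼ part R331/Cpt3_682
section

set_option autoImplicit false
set_option linter.unusedSectionVars false
set_option linter.deprecated false
set_option linter.unusedSimpArgs false
set_option linter.style.haveILetI false

noncomputable section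

namespace Crest.Agent.R331.CPT682

open scoped InnerProductSpace ENNReal Topology NNReal
open Filter Crest.MathPhysics.Bosonic

variable {n : ℕ}

/-- the number basis as a Hilbert basis -/
def kb (n : ℕ) : HilbertBasis (Occ n) ℂ (Fock n) :=
  HilbertBasis.ofRepr (LinearIsometryEquiv.refl ℂ (Fock n))

lemma kb_apply (k : Occ n) : kb n k = ket k := by
  have h := (kb n).repr_symm_single k
  rw [← h]
  rfl

lemma entry_eq_ent (T : Fock n →L[ℂ] Fock n) (k l : Occ n) : entry T k l = ent (kb n) T k l := by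
  unfold entry ent
  rw [kb_apply, kb_apply]

lemma TS_op (ρ : FockState n) : TS (kb n) ρ.op := by
  refine ⟨ρ.pos, ?_⟩
  have h := ρ.traceOne
  simp_rw [entry_eq_ent] at h
  exact h

/-- a density operator as a `FockState` -/
def mkState (T : Fock n →L[ℂ] Fock n) (h : TS (kb n) T) : FockState n where
  op := T
  pos := h.pos
  traceOne := by
    simp_rw [entry_eq_ent]
    exact h.tr

/-- total photon number -/
def tw (n : ℕ) (k : Occ n) : ℝ≥0 := ((∑ j, k j : ℕ) : ℝ≥0)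

lemma tw_coe (k : Occ n) : ((tw n k : ℝ≥0) : ℝ) = ((∑ j, k j : ℕ) : ℝ) := by
  simp [tw]

lemma finite_tw (K : ℝ≥0) : {k : Occ n | tw n k ≤ K}.Finite := by
  refine (Set.finite_Iic (fun _ : Fin n => ⌊K⌋₊)).subset ?_
  intro k hk
  rw [Set.mem_Iic]
  intro j
  rw [Set.mem_setOf_eq, tw] at hk
  refine Nat.le_floor ?_
  refine le_trans ?_ hk
  exact_mod_cast Finset.single_le_sum (f := fun j => k j) (fun _ _ => Nat.zero_le _) (Finset.mem_univ j)

lemma gw_tw (δ : ℝ≥0) (k : Occ n) :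
    gw (tw n) δ k = ENNReal.ofReal (Real.exp (-1)) * ∏ j, ENNReal.ofReal (Real.exp (-(δ : ℝ)) ^ (k j)) := by
  unfold gw
  rw [tw_coe, ← ENNReal.ofReal_prod_of_nonneg (fun _ _ => by positivity),
    ← ENNReal.ofReal_mul (Real.exp_nonneg _)]
  congr 1
  simp_rw [← Real.exp_nat_mul]
  rw [← Real.exp_sum, ← Real.exp_add]
  congr 1
  push_cast
  rw [Finset.mul_sum, ← Finset.sum_neg_distrib]
  rw [add_comm, sub_eq_add_neg]
  congr 1
  refine Finset.sum_congr rfl fun j _ => ?_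
  ring

lemma tsum_prod_le {f : ℕ → ℝ≥0∞} :
    ∑' k : Occ n, ∏ j, f (k j) ≤ (∑' m, f m) ^ n := by
  classical
  rw [ENNReal.tsum_eq_iSup_sum]
  refine iSup_le fun F => ?_
  obtain ⟨M, hM⟩ : ∃ M : ℕ, ∀ k ∈ F, ∀ j, k j < M := by
    refine ⟨(F.sup fun k => Finset.univ.sup fun j => k j) + 1, fun k hk j => ?_⟩
    refine Nat.lt_succ_of_le ?_
    exact (Finset.le_sup (f := fun j => k j) (Finset.mem_univ j)).trans
      (Finset.le_sup (f := fun k : Occ n => Finset.univ.sup fun j => k j) hk)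
  calc ∑ k ∈ F, ∏ j, f (k j) ≤ ∑ k ∈ Fintype.piFinset (fun _ : Fin n => Finset.range M), ∏ j, f (k j) := by
        refine Finset.sum_le_sum_of_subset ?_
        intro k hk
        rw [Fintype.mem_piFinset]
        intro j
        exact Finset.mem_range.2 (hM k hk j)
    _ = ∏ _j : Fin n, ∑ m ∈ Finset.range M, f m := by
        rw [Finset.prod_univ_sum]
    _ ≤ ∏ _j : Fin n, ∑' m, f m := by
        refine Finset.prod_le_prod' fun j _ => ENNReal.sum_le_tsum _
    _ = (∑' m, f m) ^ n := by simp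

lemma gw_tw_summable (δ : ℝ≥0) (hδ : 0 < δ) : ∑' k, gw (tw n) δ k ≠ ⊤ := by
  simp_rw [gw_tw]
  rw [ENNReal.tsum_mul_left]
  refine ENNReal.mul_ne_top ENNReal.ofReal_ne_top ?_
  refine ne_top_of_le_ne_top ?_
    (tsum_prod_le (f := fun m => ENNReal.ofReal (Real.exp (-(δ : ℝ)) ^ m)))
  refine ENNReal.pow_ne_top ?_
  have h1 : Summable (fun m : ℕ => Real.exp (-(δ : ℝ)) ^ m) := by
    refine summable_geometric_of_lt_one (Real.exp_nonneg _) ?_
    rw [Real.exp_lt_one_iff]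
    have : (0 : ℝ) < δ := by exact_mod_cast hδ
    linarith
  rw [← ENNReal.ofReal_tsum_of_nonneg (fun m => by positivity) h1]
  exact ENNReal.ofReal_ne_top

lemma finiteEnergy_iff (ρ : FockState n) : FiniteEnergy ρ ↔ En (kb n) (tw n) ρ.op ≠ ⊤ := by
  unfold FiniteEnergy En
  have h0 : ∀ k, 0 ≤ ((∑ j, k j : ℕ) : ℝ) * (entry ρ.op k k).re := fun k =>
    mul_nonneg (Nat.cast_nonneg _) (by rw [entry_eq_ent]; exact ent_diag_nonneg _ ρ.pos k)
  have h1 : ∀ k : Occ n, (tw n k : ℝ≥0∞) * dg (kb n) ρ.op k =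
      ENNReal.ofReal (((∑ j, k j : ℕ) : ℝ) * (entry ρ.op k k).re) := by
    intro k
    rw [ENNReal.ofReal_mul (Nat.cast_nonneg _), entry_eq_ent]
    unfold dg
    rw [← tw_coe, ENNReal.ofReal_coe_nnreal]
  simp_rw [h1]
  refine ⟨fun h => h.tsum_ofReal_ne_top, fun h => ?_⟩
  have h2 := (ENNReal.hasSum_toReal h).summable
  refine h2.congr fun k => ?_
  rw [ENNReal.toReal_ofReal (h0 k)]

lemma cfc_frozen {T : Fock n →L[ℂ] Fock n} (hT : IsSelfAdjoint T) :
    cfc (fun z : ℂ => (-(z.re * Real.log z.re) : ℂ)) T = Sop T := by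
  unfold Sop
  rw [cfc_real_eq_complex Real.negMulLog hT]
  congr 1
  funext z
  unfold Real.negMulLog
  push_cast
  ring

lemma hasEntropy_iff (ρ : FockState n) (s : ℝ) : HasEntropy ρ s ↔ HasS (kb n) ρ.op s := by
  unfold HasEntropy HasS
  rw [cfc_frozen ρ.pos.isSelfAdjoint]
  simp_rw [entry_eq_ent]

/-- every finite energy state has an entropy -/
theorem exists_hasEntropy {ρ : FockState n} (hρ : FiniteEnergy ρ) : ∃ s : ℝ, HasEntropy ρ s := by
  refine ⟨(SE (kb n) ρ.op).toReal, ?_⟩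
  rw [hasEntropy_iff]
  exact hasS_of_ne_top (TS_op ρ) (SE_ne_top (gw_tw_summable 1 one_pos) (TS_op ρ)
    ((finiteEnergy_iff ρ).1 hρ))



/-- the mean photon number as an extended nonnegative number -/
def Eph (ρ : FockState n) : ℝ≥0∞ := En (kb n) (tw n) ρ.op

lemma Eph_eq (ρ : FockState n) : Eph ρ =
    ∑' k : Occ n, ENNReal.ofReal (((∑ j, k j : ℕ) : ℝ) * (entry ρ.op k k).re) := by
  unfold Eph En
  refine tsum_congr fun k => ?_
  rw [ENNReal.ofReal_mul (Nat.cast_nonneg _), entry_eq_ent]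
  unfold dg
  rw [← tw_coe, ENNReal.ofReal_coe_nnreal]

lemma finiteEnergy_iff' (ρ : FockState n) : FiniteEnergy ρ ↔ Eph ρ ≠ ⊤ := finiteEnergy_iff ρ

/-- entrywise convergence with bounded energy is norm convergence -/
theorem norm_tendsto_of_entry {ρ : ℕ → FockState n} {σ : FockState n} {E : ℝ≥0∞} (hE : E ≠ ⊤)
    (hρ : ∀ k, Eph (ρ k) ≤ E)
    (h : ∀ i j, Tendsto (fun k => entry (ρ k).op i j) atTop (𝓝 (entry σ.op i j))) :
    Tendsto (fun k => (ρ k).op) atTop (𝓝 σ.op) := by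
  simp_rw [entry_eq_ent] at h
  exact tendsto_of_ent finite_tw hE (fun k => TS_op (ρ k)) hρ h

/-- CONTINUITY OF THE ENTROPY: entrywise convergence with bounded energy. -/
theorem entropy_tendsto {ρ : ℕ → FockState n} {σ : FockState n} {E : ℝ≥0∞} (hE : E ≠ ⊤)
    (hρ : ∀ k, Eph (ρ k) ≤ E)
    (h : ∀ i j, Tendsto (fun k => entry (ρ k).op i j) atTop (𝓝 (entry σ.op i j)))
    {s : ℕ → ℝ} {t : ℝ} (hs : ∀ k, HasEntropy (ρ k) (s k)) (ht : HasEntropy σ t) :
    Tendsto s atTop (𝓝 t) := by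
  have hn := norm_tendsto_of_entry hE hρ h
  simp_rw [entry_eq_ent] at h
  exact tendsto_entropy (w := tw n) gw_tw_summable hE (fun k => TS_op (ρ k)) (TS_op σ) hρ
    (En_le_of_tendsto h hρ) hn (fun k => (hasEntropy_iff _ _).1 (hs k)) ((hasEntropy_iff _ _).1 ht)



end Crest.Agent.R331.CPT682
end
end

-- ▼ part R331/Fext_682
section

set_option autoImplicit false
set_option linter.unusedSectionVars false
set_option linter.deprecated false
set_option linter.unusedSimpArgs false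
set_option linter.style.haveILetI false

noncomputable section

namespace Crest.Agent.R331.Fext682

open scoped InnerProductSpace ENNReal Topology NNReal
open Filter Crest.MathPhysics.Bosonic Crest.Agent.R331.CPT682

section generic

variable {H : Type*} [NormedAddCommGroup H] [InnerProductSpace ℂ H] [CompleteSpace H]
variable {ι : Type*}

/-- the projection onto the span of finitely many basis vectors -/
def PF (b : HilbertBasis ι ℂ H) (F : Finset ι) : H →L[ℂ] H :=
  ∑ i ∈ F, (innerSL ℂ (b i)).smulRight (b i)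

lemma PF_apply (b : HilbertBasis ι ℂ H) (F : Finset ι) (x : H) :
    PF b F x = ∑ i ∈ F, ⟪b i, x⟫_ℂ • b i := by
  unfold PF
  simp [ContinuousLinearMap.sum_apply]

open Classical in
lemma PF_basis (b : HilbertBasis ι ℂ H) (F : Finset ι) (i : ι) :
    PF b F (b i) = if i ∈ F then b i else 0 := by
  rw [PF_apply]
  have h : ∀ j, ⟪b j, b i⟫_ℂ = if j = i then 1 else 0 := fun j =>
    orthonormal_iff_ite.1 b.orthonormal j i
  simp_rw [h]
  simp

lemma PF_symm (b : HilbertBasis ι ℂ H) (F : Finset ι) (x y : H) :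
    ⟪PF b F x, y⟫_ℂ = ⟪x, PF b F y⟫_ℂ := by
  rw [PF_apply, PF_apply, sum_inner, inner_sum]
  refine Finset.sum_congr rfl fun i _ => ?_
  rw [inner_smul_left, inner_smul_right, inner_conj_symm]
  ring

lemma PF_adjoint (b : HilbertBasis ι ℂ H) (F : Finset ι) :
    ContinuousLinearMap.adjoint (PF b F) = PF b F := by
  symm
  rw [ContinuousLinearMap.eq_adjoint_iff]
  intro x y
  exact PF_symm b F x y

/-- compression -/
def cmp (b : HilbertBasis ι ℂ H) (F : Finset ι) (T : H →L[ℂ] H) : H →L[ℂ] H :=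
  (PF b F) ∘L T ∘L (PF b F)

lemma cmp_pos (b : HilbertBasis ι ℂ H) (F : Finset ι) {T : H →L[ℂ] H} (hT : T.IsPositive) :
    (cmp b F T).IsPositive := by
  have h := hT.conj_adjoint (PF b F)
  rw [PF_adjoint] at h
  exact h

open Classical in
lemma ent_cmp (b : HilbertBasis ι ℂ H) (F : Finset ι) (T : H →L[ℂ] H) (i j : ι) :
    ent b (cmp b F T) i j = if i ∈ F ∧ j ∈ F then ent b T i j else 0 := by
  unfold ent cmp
  rw [ContinuousLinearMap.comp_apply, ContinuousLinearMap.comp_apply, ← PF_symm, PF_basis, PF_basis]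
  by_cases hi : i ∈ F <;> by_cases hj : j ∈ F <;> simp [hi, hj]

/-- mass in `F` -/
def mass (b : HilbertBasis ι ℂ H) (F : Finset ι) (T : H →L[ℂ] H) : ℝ := ∑ i ∈ F, (ent b T i i).re

/-- normalised compression -/
def trn (b : HilbertBasis ι ℂ H) (F : Finset ι) (T : H →L[ℂ] H) : H →L[ℂ] H :=
  (((mass b F T)⁻¹ : ℝ) : ℂ) • cmp b F T

open Classical in
lemma ent_trn (b : HilbertBasis ι ℂ H) (F : Finset ι) (T : H →L[ℂ] H) (i j : ι) :
    ent b (trn b F T) i j = if i ∈ F ∧ j ∈ F then (((mass b F T)⁻¹ : ℝ) : ℂ) * ent b T i j else 0 := by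
  unfold trn
  rw [ent_smul, ent_cmp]
  split_ifs <;> simp

open Classical in
lemma re_ent_trn (b : HilbertBasis ι ℂ H) (F : Finset ι) (T : H →L[ℂ] H) (i : ι) :
    (ent b (trn b F T) i i).re = if i ∈ F then (mass b F T)⁻¹ * (ent b T i i).re else 0 := by
  rw [ent_trn]
  by_cases hi : i ∈ F
  · simp only [hi, and_self, if_true, Complex.re_ofReal_mul]
  · simp [hi]

open scoped ComplexOrder in
lemma TS_trn {b : HilbertBasis ι ℂ H} {F : Finset ι} {T : H →L[ℂ] H} (hT : TS b T)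
    (hp : 0 < mass b F T) : TS b (trn b F T) := by
  classical
  refine ⟨?_, ?_⟩
  · unfold trn
    refine (cmp_pos b F hT.pos).smul_of_nonneg ?_
    have : (0 : ℝ) ≤ (mass b F T)⁻¹ := (inv_pos.2 hp).le
    exact_mod_cast this
  · simp_rw [re_ent_trn]
    have h : ∑ i ∈ F, (if i ∈ F then (mass b F T)⁻¹ * (ent b T i i).re else 0) = 1 := by
      rw [Finset.sum_congr rfl (fun i hi => if_pos hi), ← Finset.mul_sum]
      exact inv_mul_cancel₀ hp.ne'
    rw [← h]
    exact hasSum_sum_of_ne_finset_zero (fun i hi => if_neg hi)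

lemma En_trn_le {b : HilbertBasis ι ℂ H} {F : Finset ι} {T : H →L[ℂ] H} (hT : TS b T)
    (w : ι → ℝ≥0) (hp : 1 / 2 ≤ mass b F T) : En b w (trn b F T) ≤ 2 * En b w T := by
  classical
  unfold En
  rw [← ENNReal.tsum_mul_left]
  refine ENNReal.tsum_le_tsum fun i => ?_
  rw [mul_left_comm]
  gcongr
  unfold dg
  rw [show (2 : ℝ≥0∞) = ENNReal.ofReal 2 by simp, ← ENNReal.ofReal_mul zero_le_two, re_ent_trn]
  refine ENNReal.ofReal_le_ofReal ?_
  have h0 := ent_diag_nonneg b hT.pos i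
  split_ifs
  · refine mul_le_mul_of_nonneg_right ?_ h0
    rw [inv_le_comm₀ (by linarith) (by norm_num)]
    linarith
  · positivity

end generic

variable {n : ℕ}

/-- the box `k_j ≤ M` -/
def box (n M : ℕ) : Finset (Occ n) := Fintype.piFinset fun _ => Finset.range (M + 1)

lemma mem_box {M : ℕ} {k : Occ n} : k ∈ box n M ↔ ∀ j, k j ≤ M := by
  unfold box
  rw [Fintype.mem_piFinset]
  simp [Nat.lt_succ_iff]

lemma box_mono {M M' : ℕ} (h : M ≤ M') : box n M ⊆ box n M' := by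
  intro k hk
  rw [mem_box] at hk ⊢
  exact fun j => (hk j).trans h

lemma tendsto_box : Tendsto (box n) atTop atTop := by
  refine tendsto_atTop_finset_of_monotone (fun M M' h => box_mono h) fun k => ?_
  refine ⟨Finset.univ.sup k, ?_⟩
  rw [mem_box]
  exact fun j => Finset.le_sup (Finset.mem_univ j)

/-- all matrix entries outside the box `k_j ≤ M` vanish -/
def BoxSupp (M : ℕ) (ρ : FockState n) : Prop :=
  ∀ k l : Occ n, ¬ ((∀ j, k j ≤ M) ∧ (∀ j, l j ≤ M)) → entry ρ.op k l = 0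

/-- the box truncation -/
def truncState (M : ℕ) (ρ : FockState n) (h : 0 < mass (kb n) (box n M) ρ.op) : FockState n :=
  mkState (trn (kb n) (box n M) ρ.op) (TS_trn (TS_op ρ) h)

lemma boxSupp_trunc (M : ℕ) (ρ : FockState n) (h : 0 < mass (kb n) (box n M) ρ.op) :
    BoxSupp M (truncState M ρ h) := by
  classical
  intro k l hkl
  show entry (trn (kb n) (box n M) ρ.op) k l = 0
  rw [entry_eq_ent, ent_trn]
  refine if_neg ?_
  rw [mem_box, mem_box]
  exact hkl

lemma tendsto_mass (ρ : FockState n) :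
    Tendsto (fun M => mass (kb n) (box n M) ρ.op) atTop (𝓝 1) :=
  (TS_op ρ).tr.comp tendsto_box

/-- every finite energy state is the limit of box supported states, with bounded energies -/
theorem exists_trunc (ρ : FockState n) :
    ∃ σ : ℕ → FockState n, (∀ m, ∃ M, BoxSupp M (σ m)) ∧ (∀ m, Eph (σ m) ≤ 2 * Eph ρ) ∧
      ∀ k l, Tendsto (fun m => entry (σ m).op k l) atTop (𝓝 (entry ρ.op k l)) := by
  classical
  have hm := tendsto_mass ρ
  obtain ⟨M₀, hM₀⟩ := (hm.eventually (lt_mem_nhds (show (1 / 2 : ℝ) < 1 by norm_num))).exists_forall_of_atTop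
  have hp : ∀ m, 1 / 2 < mass (kb n) (box n (M₀ + m)) ρ.op := fun m => hM₀ _ (Nat.le_add_right _ _)
  refine ⟨fun m => truncState (M₀ + m) ρ (by linarith [hp m]), fun m => ⟨M₀ + m, boxSupp_trunc _ _ _⟩,
    fun m => En_trn_le (TS_op ρ) (tw n) (hp m).le, fun k l => ?_⟩
  have hm2 : Tendsto (fun m => mass (kb n) (box n (M₀ + m)) ρ.op) atTop (𝓝 1) := by
    have := hm.comp (tendsto_add_atTop_nat M₀)
    refine this.congr fun m => ?_
    simp [Function.comp, Nat.add_comm]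
  have hm3 : Tendsto (fun m => (((mass (kb n) (box n (M₀ + m)) ρ.op)⁻¹ : ℝ) : ℂ) * ent (kb n) ρ.op k l)
      atTop (𝓝 (ent (kb n) ρ.op k l)) := by
    have h1 : Tendsto (fun m => (((mass (kb n) (box n (M₀ + m)) ρ.op)⁻¹ : ℝ) : ℂ)) atTop (𝓝 1) := by
      have h2 := hm2.inv₀ one_ne_zero
      rw [inv_one] at h2
      exact_mod_cast (Complex.continuous_ofReal.tendsto _).comp h2
    simpa using h1.mul_const (ent (kb n) ρ.op k l)
  rw [entry_eq_ent]
  refine hm3.congr' ?_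
  filter_upwards [eventually_ge_atTop (Finset.univ.sup k + Finset.univ.sup l)] with m hmm
  show _ = entry (trn (kb n) (box n (M₀ + m)) ρ.op) k l
  rw [entry_eq_ent, ent_trn, if_pos]
  rw [mem_box, mem_box]
  refine ⟨fun j => ?_, fun j => ?_⟩
  · have := Finset.le_sup (f := k) (Finset.mem_univ j)
    omega
  · have := Finset.le_sup (f := l) (Finset.mem_univ j)
    omega

end Crest.Agent.R331.Fext682
end
end

-- ▼ part R331/Fext2_682

set_option autoImplicit false
set_option linter.unusedSectionVars false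
set_option linter.deprecated false

noncomputable section

namespace Crest.Agent.R331.Fext682

open scoped InnerProductSpace ENNReal Topology NNReal
open Filter Crest.MathPhysics.Bosonic Crest.Agent.R331.CPT682
open Crest.Agent.R331.Scal587

/-- energy bound for the output of the beam splitter -/
def OutEnergy : Prop :=
  ∀ (n : ℕ) (η : ℝ), η ∈ Set.Ioo (0 : ℝ) 1 → ∀ A B C : FockState n,
    IsBeamSplitterOutput η A B C → Eph C ≤ Eph A + Eph B

/-- continuity of the output of the beam splitter on energy-bounded sequences -/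
def OutCont : Prop :=
  ∀ (n : ℕ) (η : ℝ), η ∈ Set.Ioo (0 : ℝ) 1 → ∀ (A B C : ℕ → FockState n) (A' B' C' : FockState n),
    (∀ m, IsBeamSplitterOutput η (A m) (B m) (C m)) → IsBeamSplitterOutput η A' B' C' →
    ∀ E : ℝ≥0∞, E ≠ ⊤ → (∀ m, Eph (A m) ≤ E) → (∀ m, Eph (B m) ≤ E) →
    (∀ k l, Tendsto (fun m => entry (A m).op k l) atTop (𝓝 (entry A'.op k l))) →
    (∀ k l, Tendsto (fun m => entry (B m).op k l) atTop (𝓝 (entry B'.op k l))) →
    ∀ k l, Tendsto (fun m => entry (C m).op k l) atTop (𝓝 (entry C'.op k l))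

/-- the tangent-plane inequality for box supported states -/
def LINbox : Prop :=
  ∀ (n : ℕ), 1 ≤ n → ∀ (η : ℝ), η ∈ Set.Ioo (0 : ℝ) 1 → ∀ (M : ℕ) (ρA ρB ρC : FockState n),
    BoxSupp M ρA → BoxSupp M ρB → IsBeamSplitterOutput η ρA ρB ρC →
    ∀ sA sB sC : ℝ, HasEntropy ρA sA → HasEntropy ρB sB → HasEntropy ρC sC →
    ∀ NA NB : ℝ, 0 < NA → 0 < NB →
      n * gBose (η * NA + (1 - η) * NB)
        + lam η 0 (η * NA + (1 - η) * NB) NA * (sA - n * gBose NA)
        + lam (1 - η) 0 (η * NA + (1 - η) * NB) NB * (sB - n * gBose NB) ≤ sC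

lemma BoxSupp.mono {n M M' : ℕ} (h : M ≤ M') {ρ : FockState n} (hρ : BoxSupp M ρ) : BoxSupp M' ρ := by
  intro k l hkl
  refine hρ k l fun hc => hkl ⟨fun j => (hc.1 j).trans h, fun j => (hc.2 j).trans h⟩

theorem lin_of_box (hE : OutEnergy) (hC : OutCont) (hbox : LINbox) : Wrap587.LIN := by
  intro n hn η hη ρA ρB ρC hA hB hout sA sB sC hsA hsB hsC NA NB hNA hNB
  have hη' : η ∈ Set.Icc (0 : ℝ) 1 := ⟨hη.1.le, hη.2.le⟩
  rw [finiteEnergy_iff'] at hA hB
  obtain ⟨σA, hσA, hEA, hlA⟩ := exists_trunc ρA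
  obtain ⟨σB, hσB, hEB, hlB⟩ := exists_trunc ρB
  have hex : ∀ m, ∃ C, IsBeamSplitterOutput η (σA m) (σB m) C := fun m =>
    BS375.exists_output hη' (σA m) (σB m)
  choose σC hσC using hex
  have h2A : 2 * Eph ρA ≠ ⊤ := ENNReal.mul_ne_top (by simp) hA
  have h2B : 2 * Eph ρB ≠ ⊤ := ENNReal.mul_ne_top (by simp) hB
  set E : ℝ≥0∞ := 2 * Eph ρA + 2 * Eph ρB with hEdef
  have hEtop : E ≠ ⊤ := ENNReal.add_ne_top.2 ⟨h2A, h2B⟩
  have hEA' : ∀ m, Eph (σA m) ≤ E := fun m => (hEA m).trans le_self_add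
  have hEB' : ∀ m, Eph (σB m) ≤ E := fun m => (hEB m).trans le_add_self
  have hEC : ∀ m, Eph (σC m) ≤ E := fun m =>
    (hE n η hη _ _ _ (hσC m)).trans (add_le_add (hEA m) (hEB m))
  have hlC := hC n η hη σA σB σC ρA ρB ρC hσC hout E hEtop hEA' hEB' hlA hlB
  have hfin : ∀ {σ : FockState n}, Eph σ ≤ E → ∃ s, HasEntropy σ s := fun {σ} h =>
    exists_hasEntropy ((finiteEnergy_iff' σ).2 (ne_top_of_le_ne_top hEtop h))
  choose tA htA using fun m => hfin (hEA' m)
  choose tB htB using fun m => hfin (hEB' m)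
  choose tC htC using fun m => hfin (hEC m)
  have lA : Tendsto tA atTop (𝓝 sA) := entropy_tendsto hEtop hEA' hlA htA hsA
  have lB : Tendsto tB atTop (𝓝 sB) := entropy_tendsto hEtop hEB' hlB htB hsB
  have lC : Tendsto tC atTop (𝓝 sC) := entropy_tendsto hEtop hEC hlC htC hsC
  have hineq : ∀ m, n * gBose (η * NA + (1 - η) * NB)
        + lam η 0 (η * NA + (1 - η) * NB) NA * (tA m - n * gBose NA)
        + lam (1 - η) 0 (η * NA + (1 - η) * NB) NB * (tB m - n * gBose NB) ≤ tC m := by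
    intro m
    obtain ⟨MA, hMA⟩ := hσA m
    obtain ⟨MB, hMB⟩ := hσB m
    exact hbox n hn η hη (max MA MB) (σA m) (σB m) (σC m) (hMA.mono (le_max_left _ _))
      (hMB.mono (le_max_right _ _)) (hσC m) _ _ _ (htA m) (htB m) (htC m) NA NB hNA hNB
  have hlim : Tendsto (fun m => n * gBose (η * NA + (1 - η) * NB)
        + lam η 0 (η * NA + (1 - η) * NB) NA * (tA m - n * gBose NA)
        + lam (1 - η) 0 (η * NA + (1 - η) * NB) NB * (tB m - n * gBose NB)) atTop
      (𝓝 (n * gBose (η * NA + (1 - η) * NB)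
        + lam η 0 (η * NA + (1 - η) * NB) NA * (sA - n * gBose NA)
        + lam (1 - η) 0 (η * NA + (1 - η) * NB) NB * (sB - n * gBose NB))) := by
    refine (tendsto_const_nhds.add ((lA.sub_const _).const_mul _)).add ((lB.sub_const _).const_mul _)
  exact le_of_tendsto_of_tendsto' hlim lC hineq

theorem outExists (hE : OutEnergy) : Wrap587.OutExists := by
  intro n _ η hη ρA ρB hA hB
  have hη' : η ∈ Set.Icc (0 : ℝ) 1 := ⟨hη.1.le, hη.2.le⟩
  obtain ⟨C, hC⟩ := BS375.exists_output hη' ρA ρB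
  refine ⟨C, hC, exists_hasEntropy ((finiteEnergy_iff' C).2 ?_)⟩
  exact ne_top_of_le_ne_top
    (ENNReal.add_ne_top.2 ⟨(finiteEnergy_iff' _).1 hA, (finiteEnergy_iff' _).1 hB⟩)
    (hE n η hη _ _ _ hC)

end Crest.Agent.R331.Fext682
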