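import Crest.Agent.R331.Out_118
import Crest.Agent.R331.BSn_375
import Mathlib
import Crest.Prelude.Def_FockState
import Crest.Agent.R331.Fext2_682
import Crest.Agent.R331.FLim_628
import Crest.Agent.R331.FDefs2_136
import Crest.Agent.R331.FTop_136

-- ▼ part R331/Out2_118
section

/-!
R331 / [OUT] part 2, helper118.  Photon-number conservation, energies of the output, continuity of
the output.
-/

set_option autoImplicit false

open scoped InnerProductSpace ComplexConjugate ENNReal NNReal Topology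
open Crest.MathPhysics.Bosonic InnerProductSpace Filter

namespace Crest.Agent.R331.Out118

noncomputable section

variable {n : ℕ}

/-! ### the beam splitter isometry -/

/-- 375's unitary packaged as a `BSIso`. -/
def bsIso {η : ℝ} (hη : η ∈ Set.Icc (0 : ℝ) 1) : BSIso n η where
  U := (BS375.bsU hη.1 hη.2).toLinearIsometry
  apply := fun f k e => BS375.bsU_apply hη.1 hη.2 f (k, e)

/-! ### pairs as splittings -/

theorem fst_add_snd {s : Occ n} (a : Splitting s) : a.fst + a.snd = s := BS375.fst_add_snd a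

/-- pairs of occupations are splittings of their sum -/
def pairEquiv (n : ℕ) : (Σ s : Occ n, Splitting s) ≃ Occ n × Occ n :=
  Equiv.ofBijective (fun x => (x.2.fst, x.2.snd)) (by
    constructor
    · rintro ⟨s, a⟩ ⟨t, b⟩ h
      simp only [Prod.mk.injEq] at h
      have hst : s = t := by
        rw [← fst_add_snd a, ← fst_add_snd b, h.1, h.2]
      subst hst
      have := BS375.splitting_fst_injective h.1
      rw [this]
    · rintro ⟨k, e⟩
      refine ⟨⟨k + e, BS375.splitOf k e _ rfl⟩, ?_⟩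
      simp)

@[simp] theorem pairEquiv_apply (x : Σ s : Occ n, Splitting s) :
    pairEquiv n x = (x.2.fst, x.2.snd) := rfl

/-- total weight of `f` on the pairs with sum `s` -/
def tot (f : L2 (Occ n × Occ n)) (s : Occ n) : ℝ := ∑ a : Splitting s, ‖f (a.fst, a.snd)‖ ^ 2

theorem hasSum_tot (f : L2 (Occ n × Occ n)) : HasSum (tot f) (‖f‖ ^ 2) := by
  have h1 := (pairEquiv n).hasSum_iff.mpr (hasSum_normSq f)
  exact h1.sigma (fun s => hasSum_fintype _)

/-- the restriction of `f` to the pairs with sum `s` -/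
def resTot (f : L2 (Occ n × Occ n)) (s : Occ n) : L2 (Occ n × Occ n) :=
  mk2 (fun p => if p.1 + p.2 = s then f p else 0) (by
    refine Summable.of_nonneg_of_le (fun _ => by positivity) (fun p => ?_) (summable_normSq f)
    split_ifs with h
    · exact le_rfl
    · simp)

theorem resTot_apply (f : L2 (Occ n × Occ n)) (s : Occ n) (p : Occ n × Occ n) :
    resTot f s p = if p.1 + p.2 = s then f p else 0 := rfl

theorem normSq_resTot (f : L2 (Occ n × Occ n)) (s : Occ n) : ‖resTot f s‖ ^ 2 = tot f s := by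
  have h := hasSum_tot (resTot f s)
  have h2 : HasSum (tot (resTot f s)) (tot f s) := by
    have h3 : tot (resTot f s) = fun t => if t = s then tot f s else 0 := by
      funext t
      unfold tot
      by_cases hts : t = s
      · subst hts
        simp only [resTot_apply, fst_add_snd, if_true]
      · simp only [resTot_apply, fst_add_snd, if_neg hts]
        simp
    rw [h3]
    exact hasSum_ite_eq s (tot f s)
  exact h.unique h2

namespace BSIso

variable {η : ℝ} (V : BSIso n η)

theorem U_resTot (f : L2 (Occ n × Occ n)) (s : Occ n) :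
    V.U (resTot f s) = resTot (V.U f) s := by
  apply lp.ext
  funext p
  obtain ⟨k, e⟩ := p
  rw [V.apply, resTot_apply, V.apply]
  simp only [resTot_apply, fst_add_snd]
  by_cases h : k + e = s
  · simp only [h, if_true]
  · simp only [h, if_false, mul_zero, Finset.sum_const_zero]

/-- conservation of the photon numbers of each mode pair -/
theorem tot_U (f : L2 (Occ n × Occ n)) : tot (V.U f) = tot f := by
  funext s
  rw [← normSq_resTot, ← normSq_resTot, ← V.U_resTot, LinearIsometry.norm_map]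

end BSIso

/-! ### extended nonnegative sums -/

theorem enorm_sq_eq (z : ℂ) : ‖z‖ₑ ^ 2 = ENNReal.ofReal (‖z‖ ^ 2) := by
  rw [ENNReal.ofReal_pow (norm_nonneg _), ofReal_norm]

theorem tsum_weight_tot (f : L2 (Occ n × Occ n)) (w : Occ n → ℝ≥0∞) :
    ∑' p : Occ n × Occ n, w (p.1 + p.2) * ‖f p‖ₑ ^ 2 =
      ∑' s : Occ n, w s * ENNReal.ofReal (tot f s) := by
  rw [← (pairEquiv n).tsum_eq, ENNReal.tsum_sigma']
  refine tsum_congr (fun s => ?_)
  rw [tsum_fintype]
  unfold tot
  rw [ENNReal.ofReal_sum_of_nonneg (fun _ _ => by positivity), Finset.mul_sum]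
  refine Finset.sum_congr rfl (fun a _ => ?_)
  rw [pairEquiv_apply]
  simp only [fst_add_snd]
  rw [enorm_sq_eq]

theorem BSIso.tsum_weight_U {η : ℝ} (V : BSIso n η) (f : L2 (Occ n × Occ n)) (w : Occ n → ℝ≥0∞) :
    ∑' p : Occ n × Occ n, w (p.1 + p.2) * ‖V.U f p‖ₑ ^ 2 =
      ∑' p : Occ n × Occ n, w (p.1 + p.2) * ‖f p‖ₑ ^ 2 := by
  rw [tsum_weight_tot, tsum_weight_tot, V.tot_U]

/-! ### the diagonal of a state -/

/-- the diagonal entries as extended nonnegative numbers -/
def dia (A : FockState n) (k : Occ n) : ℝ≥0∞ := ENNReal.ofReal (entry A.op k k).re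

theorem entry_diag_nonneg (A : FockState n) (k : Occ n) : 0 ≤ (entry A.op k k).re := by
  rw [← normSq_sq A.pos]
  positivity


theorem tsum_dia (A : FockState n) : ∑' k, dia A k = 1 := by
  unfold dia
  rw [← ENNReal.ofReal_tsum_of_nonneg (entry_diag_nonneg A) A.traceOne.summable,
    A.traceOne.tsum_eq, ENNReal.ofReal_one]

theorem dia_eq_of_ens {J : Type} {φ : J → Fock n} (hφ : HasSum (fun j => ‖φ j‖ ^ 2) 1)
    (k : Occ n) : dia (ensState φ hφ) k = ∑' j, ‖φ j k‖ₑ ^ 2 := by
  have h := Complex.hasSum_re (hasSum_entry_ensOp hφ.summable k k)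
  have h4 : (fun j => (φ j k * conj (φ j k)).re) = fun j => ‖φ j k‖ ^ 2 := by
    funext j
    rw [Complex.mul_conj, Complex.ofReal_re, Complex.normSq_eq_norm_sq]
  rw [h4] at h
  unfold dia
  change ENNReal.ofReal (entry (ensOp φ) k k).re = _
  rw [← h.tsum_eq, ENNReal.ofReal_tsum_of_nonneg (fun _ => by positivity) h.summable]
  simp only [enorm_sq_eq]

theorem dia_eq_sq (A : FockState n) (k : Occ n) : dia A k = ∑' m, ‖sq A.op m k‖ₑ ^ 2 := by
  have h := Complex.hasSum_re (hasSum_entry_sq A k k)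
  have h4 : (fun m => (sq A.op m k * conj (sq A.op m k)).re) = fun m => ‖sq A.op m k‖ ^ 2 := by
    funext j
    rw [Complex.mul_conj, Complex.ofReal_re, Complex.normSq_eq_norm_sq]
  rw [h4] at h
  unfold dia
  rw [← h.tsum_eq, ENNReal.ofReal_tsum_of_nonneg (fun _ => by positivity) h.summable]
  simp only [enorm_sq_eq]


/-! ### joint output distribution and weights -/

/-- the joint distribution of the two output modes -/
def BSIso.joint {η : ℝ} (V : BSIso n η) (A B : FockState n) (p : Occ n × Occ n) : ℝ≥0∞ :=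
  ∑' q : Occ n × Occ n, ‖V.U (tens (sq A.op q.1) (sq B.op q.2)) p‖ₑ ^ 2

theorem BSIso.tsum_joint_weight {η : ℝ} (V : BSIso n η) (A B : FockState n) (w : Occ n → ℝ≥0∞) :
    ∑' p : Occ n × Occ n, w (p.1 + p.2) * V.joint A B p =
      ∑' p : Occ n × Occ n, w (p.1 + p.2) * (dia A p.1 * dia B p.2) := by
  unfold BSIso.joint
  simp only [← ENNReal.tsum_mul_left]
  rw [ENNReal.tsum_comm]
  have h1 : ∀ q : Occ n × Occ n,
      (∑' p : Occ n × Occ n, w (p.1 + p.2) *
        ‖V.U (tens (sq A.op q.1) (sq B.op q.2)) p‖ₑ ^ 2) =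
      ∑' p : Occ n × Occ n, w (p.1 + p.2) * ((‖sq A.op q.1 p.1‖ₑ ^ 2) * ‖sq B.op q.2 p.2‖ₑ ^ 2) := by
    intro q
    rw [V.tsum_weight_U]
    refine tsum_congr (fun p => ?_)
    rw [tens_apply, enorm_mul, mul_pow]
  simp only [h1]
  rw [ENNReal.tsum_comm]
  refine tsum_congr (fun p => ?_)
  rw [ENNReal.tsum_mul_left]
  congr 1
  have h2 := ENNReal.tsum_prod (f := fun a b => (‖sq A.op a p.1‖ₑ ^ 2) * ‖sq B.op b p.2‖ₑ ^ 2)
  refine h2.trans ?_
  simp only [ENNReal.tsum_mul_left]
  rw [ENNReal.tsum_mul_right, ← dia_eq_sq, ← dia_eq_sq]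

theorem BSIso.dia_out {η : ℝ} (V : BSIso n η) (A B : FockState n) (k : Occ n) :
    dia (V.out A B) k = ∑' e : Occ n, V.joint A B (k, e) := by
  unfold BSIso.out
  rw [dia_eq_of_ens (V.hasSum_chi A B)]
  rw [ENNReal.tsum_prod', ENNReal.tsum_comm]
  rfl

/-- the mean photon number as an extended nonnegative number -/
def energy (A : FockState n) : ℝ≥0∞ := ∑' k : Occ n, ((∑ j, k j : ℕ) : ℝ≥0∞) * dia A k




/-- weights of the output are dominated by weights of the inputs -/
theorem BSIso.tsum_dia_out_le {η : ℝ} (V : BSIso n η) (A B : FockState n) (u w : Occ n → ℝ≥0∞)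
    (huw : ∀ k e, u k ≤ w (k + e)) :
    ∑' k, u k * dia (V.out A B) k ≤ ∑' p : Occ n × Occ n, w (p.1 + p.2) * (dia A p.1 * dia B p.2) := by
  rw [← V.tsum_joint_weight A B w]
  simp only [V.dia_out, ← ENNReal.tsum_mul_left]
  rw [ENNReal.tsum_prod (f := fun k e => w (k + e) * V.joint A B (k, e))]
  exact ENNReal.tsum_le_tsum (fun k => ENNReal.tsum_le_tsum (fun e => mul_le_mul_left (huw k e) _))

theorem tsum_pair_energy (A B : FockState n) :
    ∑' p : Occ n × Occ n, ((∑ j, (p.1 + p.2) j : ℕ) : ℝ≥0∞) * (dia A p.1 * dia B p.2) =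
      energy A + energy B := by
  have h : ∀ p : Occ n × Occ n, ((∑ j, (p.1 + p.2) j : ℕ) : ℝ≥0∞) * (dia A p.1 * dia B p.2) =
      (((∑ j, p.1 j : ℕ) : ℝ≥0∞) * dia A p.1) * dia B p.2 +
        dia A p.1 * (((∑ j, p.2 j : ℕ) : ℝ≥0∞) * dia B p.2) := by
    intro p
    simp only [Pi.add_apply, Finset.sum_add_distrib]
    push_cast
    ring
  simp only [h]
  rw [ENNReal.tsum_add, ENNReal.tsum_prod (f := fun a b =>
      (((∑ j, a j : ℕ) : ℝ≥0∞) * dia A a) * dia B b),
    ENNReal.tsum_prod (f := fun a b => dia A a * (((∑ j, b j : ℕ) : ℝ≥0∞) * dia B b))]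
  simp only [ENNReal.tsum_mul_left, ENNReal.tsum_mul_right, tsum_dia, one_mul, mul_one]
  rfl

theorem BSIso.energy_out_le {η : ℝ} (V : BSIso n η) (A B : FockState n) :
    energy (V.out A B) ≤ energy A + energy B := by
  rw [← tsum_pair_energy]
  refine V.tsum_dia_out_le A B (fun k => ((∑ j, k j : ℕ) : ℝ≥0∞))
    (fun s => ((∑ j, s j : ℕ) : ℝ≥0∞)) (fun k e => ?_)
  exact_mod_cast Finset.sum_le_sum (fun j _ => Nat.le_add_right _ _)



/-! ### tails and continuity of the output -/

theorem ennreal_mul_le (a b : ℝ≥0∞) : a * b ≤ a ^ 2 + b ^ 2 := by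
  rcases le_total a b with h | h
  · calc a * b ≤ b * b := by gcongr
      _ = b ^ 2 := (pow_two b).symm
      _ ≤ a ^ 2 + b ^ 2 := le_add_self
  · calc a * b ≤ a * a := by gcongr
      _ = a ^ 2 := (pow_two a).symm
      _ ≤ a ^ 2 + b ^ 2 := le_self_add

theorem BSIso.enorm_outBlock_le {η : ℝ} (V : BSIso n η) (A B : FockState n) (k l e : Occ n) :
    ‖outBlock η A B k l e‖ₑ ≤ V.joint A B (k, e) + V.joint A B (l, e) := by
  unfold BSIso.joint
  rw [← ENNReal.tsum_add]
  refine (V.hasSum_fiber A B k l e).enorm_le_of_bounded ENNReal.summable.hasSum (fun p => ?_)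
  rw [enorm_mul]
  have h1 : ‖conj (V.chi A B (p, e) l)‖ₑ = ‖V.chi A B (p, e) l‖ₑ := by
    rw [enorm_eq_iff_norm_eq, RCLike.norm_conj]
  rw [h1]
  exact ennreal_mul_le _ _

theorem BSIso.tail_joint_le {η : ℝ} (V : BSIso n η) (A B : FockState n) (k : Occ n) (R : ℕ)
    (F : Finset (Occ n)) (hF : ∀ e, e ∉ F → R ≤ ∑ j, e j) :
    (R : ℝ≥0∞) * ∑' e, (if e ∈ F then 0 else V.joint A B (k, e)) ≤ energy A + energy B := by
  rw [← tsum_pair_energy, ← V.tsum_joint_weight A B (fun s => ((∑ j, s j : ℕ) : ℝ≥0∞))]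
  rw [← ENNReal.tsum_mul_left]
  have h1 : ∀ e, (R : ℝ≥0∞) * (if e ∈ F then 0 else V.joint A B (k, e)) ≤
      ((∑ j, (k + e) j : ℕ) : ℝ≥0∞) * V.joint A B (k, e) := by
    intro e
    split_ifs with h
    · simp
    · refine mul_le_mul_left ?_ _
      have h2 := hF e h
      have h3 : R ≤ ∑ j, (k + e) j :=
        h2.trans (Finset.sum_le_sum (fun j _ => Nat.le_add_left _ _))
      exact_mod_cast h3
  refine (ENNReal.tsum_le_tsum h1).trans ?_
  have h4 := ENNReal.tsum_prod
    (f := fun k e => ((∑ j, (k + e) j : ℕ) : ℝ≥0∞) * V.joint A B (k, e))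
  rw [h4]
  exact ENNReal.le_tsum (f := fun k => ∑' e, ((∑ j, (k + e) j : ℕ) : ℝ≥0∞) * V.joint A B (k, e)) k

theorem BSIso.tail_entry_le {η : ℝ} (V : BSIso n η) (A B : FockState n) (k l : Occ n) (R : ℕ)
    (F : Finset (Occ n)) (hF : ∀ e, e ∉ F → R ≤ ∑ j, e j) :
    (R : ℝ≥0∞) * ‖entry (V.out A B).op k l - ∑ e ∈ F, outBlock η A B k l e‖ₑ ≤
      2 * (energy A + energy B) := by
  have h1 : HasSum (fun e => if e ∈ F then 0 else outBlock η A B k l e)
      (entry (V.out A B).op k l - ∑ e ∈ F, outBlock η A B k l e) := by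
    have h2 := V.isOutput_out A B k l
    have h3 : HasSum (fun e => if e ∈ F then outBlock η A B k l e else 0)
        (∑ e ∈ F, outBlock η A B k l e) := by
      have h4 : HasSum (fun e => if e ∈ F then outBlock η A B k l e else 0)
          (∑ e ∈ F, if e ∈ F then outBlock η A B k l e else 0) :=
        hasSum_sum_of_ne_finset_zero (fun e he => by simp [he])
      rwa [Finset.sum_congr rfl (fun e he => by rw [if_pos he])] at h4
    have h5 := h2.sub h3
    have h6 : (fun e => if e ∈ F then 0 else outBlock η A B k l e) =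
        fun e => outBlock η A B k l e - (if e ∈ F then outBlock η A B k l e else 0) := by
      funext e
      split_ifs <;> simp
    rw [h6]
    exact h5
  have h2 : ∀ e, ‖(if e ∈ F then 0 else outBlock η A B k l e)‖ₑ ≤
      (if e ∈ F then 0 else V.joint A B (k, e)) + (if e ∈ F then 0 else V.joint A B (l, e)) := by
    intro e
    split_ifs with h
    · simp
    · exact V.enorm_outBlock_le A B k l e
  have h3 := h1.enorm_le_of_bounded ENNReal.summable.hasSum h2
  rw [ENNReal.tsum_add] at h3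
  calc (R : ℝ≥0∞) * ‖entry (V.out A B).op k l - ∑ e ∈ F, outBlock η A B k l e‖ₑ
      ≤ (R : ℝ≥0∞) * (∑' e, (if e ∈ F then 0 else V.joint A B (k, e)) +
          ∑' e, (if e ∈ F then 0 else V.joint A B (l, e))) := by gcongr
    _ = (R : ℝ≥0∞) * ∑' e, (if e ∈ F then 0 else V.joint A B (k, e)) +
          (R : ℝ≥0∞) * ∑' e, (if e ∈ F then 0 else V.joint A B (l, e)) := mul_add _ _ _
    _ ≤ (energy A + energy B) + (energy A + energy B) :=
        add_le_add (V.tail_joint_le A B k R F hF) (V.tail_joint_le A B l R F hF)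
    _ = 2 * (energy A + energy B) := by ring

/-- the box of occupations below `R` -/
def boxF (n R : ℕ) : Finset (Occ n) := Fintype.piFinset (fun _ : Fin n => Finset.range R)

theorem mem_boxF {R : ℕ} {e : Occ n} : e ∈ boxF n R ↔ ∀ j, e j < R := by
  simp [boxF]

theorem le_of_notMem_boxF {R : ℕ} {e : Occ n} (h : e ∉ boxF n R) : R ≤ ∑ j, e j := by
  rw [mem_boxF] at h
  push Not at h
  obtain ⟨j, hj⟩ := h
  exact hj.trans (Finset.single_le_sum (f := fun j => e j) (fun _ _ => Nat.zero_le _)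
    (Finset.mem_univ j))

theorem tendsto_outBlock {η : ℝ} {ι : Type*} {L : Filter ι} {A' B' : ι → FockState n}
    {A B : FockState n}
    (hA : ∀ k l, Tendsto (fun i => entry (A' i).op k l) L (𝓝 (entry A.op k l)))
    (hB : ∀ k l, Tendsto (fun i => entry (B' i).op k l) L (𝓝 (entry B.op k l)))
    (k l e : Occ n) :
    Tendsto (fun i => outBlock η (A' i) (B' i) k l e) L (𝓝 (outBlock η A B k l e)) := by
  unfold outBlock
  refine tendsto_finsetSum _ (fun a _ => tendsto_finsetSum _ (fun b _ => ?_))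
  exact ((tendsto_const_nhds.mul (hA _ _)).mul (hB _ _)).mul tendsto_const_nhds

/-- continuity of the output, under a uniform energy bound -/
theorem BSIso.tendsto_entry_out {η : ℝ} (V : BSIso n η) {ι : Type*} {L : Filter ι}
    {A' B' : ι → FockState n} {A B : FockState n} {E : ℝ≥0∞} (hE : E ≠ ⊤)
    (hA : ∀ k l, Tendsto (fun i => entry (A' i).op k l) L (𝓝 (entry A.op k l)))
    (hB : ∀ k l, Tendsto (fun i => entry (B' i).op k l) L (𝓝 (entry B.op k l)))
    (hEn : ∀ᶠ i in L, energy (A' i) + energy (B' i) ≤ E) (k l : Occ n) :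
    Tendsto (fun i => entry (V.out (A' i) (B' i)).op k l) L (𝓝 (entry (V.out A B).op k l)) := by
  rw [Metric.tendsto_nhds]
  intro ε hε
  -- a large box for the limit
  have hlim := V.isOutput_out A B k l
  have h1 : ∀ᶠ F : Finset (Occ n) in atTop,
      dist (∑ e ∈ F, outBlock η A B k l e) (entry (V.out A B).op k l) < ε / 3 :=
    hlim.eventually (Metric.ball_mem_nhds _ (by positivity))
  obtain ⟨F0, hF0⟩ := eventually_atTop.mp h1
  -- a large cut-off for the tails
  obtain ⟨R, hR⟩ : ∃ R : ℕ, 2 * E.toReal / (ε / 3) < R := exists_nat_gt _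
  set F := F0 ∪ boxF n R with hFdef
  have hFout : ∀ e, e ∉ F → R ≤ ∑ j, e j := by
    intro e he
    exact le_of_notMem_boxF (fun h => he (Finset.mem_union_right _ h))
  have hRpos : (0 : ℝ) < R := lt_of_le_of_lt (by positivity) hR
  have h2 : Tendsto (fun i => ∑ e ∈ F, outBlock η (A' i) (B' i) k l e) L
      (𝓝 (∑ e ∈ F, outBlock η A B k l e)) :=
    tendsto_finsetSum _ (fun e _ => tendsto_outBlock hA hB k l e)
  have h3 := (Metric.tendsto_nhds.mp h2) (ε / 3) (by positivity)
  filter_upwards [h3, hEn] with i hi hEi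
  have h4 : dist (entry (V.out (A' i) (B' i)).op k l)
      (∑ e ∈ F, outBlock η (A' i) (B' i) k l e) < ε / 3 := by
    have h5 := V.tail_entry_le (A' i) (B' i) k l R F hFout
    have h6 : (R : ℝ≥0∞) * ‖entry (V.out (A' i) (B' i)).op k l -
        ∑ e ∈ F, outBlock η (A' i) (B' i) k l e‖ₑ ≤ 2 * E := h5.trans (by gcongr)
    have h7 := ENNReal.toReal_mono (ENNReal.mul_ne_top (by norm_num) hE) h6
    rw [ENNReal.toReal_mul, ENNReal.toReal_mul, ENNReal.toReal_natCast, toReal_enorm] at h7
    rw [dist_eq_norm]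
    have h8 : (2 : ℝ≥0∞).toReal = 2 := by norm_num
    rw [h8] at h7
    rw [div_lt_iff₀ (by positivity)] at hR
    nlinarith
  calc dist (entry (V.out (A' i) (B' i)).op k l) (entry (V.out A B).op k l)
      ≤ dist (entry (V.out (A' i) (B' i)).op k l) (∑ e ∈ F, outBlock η (A' i) (B' i) k l e) +
        dist (∑ e ∈ F, outBlock η (A' i) (B' i) k l e) (∑ e ∈ F, outBlock η A B k l e) +
        dist (∑ e ∈ F, outBlock η A B k l e) (entry (V.out A B).op k l) := dist_triangle4 _ _ _ _
    _ < ε / 3 + ε / 3 + ε / 3 := by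
        have h9 := hF0 F Finset.subset_union_left
        linarith
    _ = ε := by ring


/-! ### statements without the isometry -/

section noV

variable {η : ℝ}


theorem energy_output_le (hη : η ∈ Set.Icc (0 : ℝ) 1) {A B C : FockState n}
    (h : IsBeamSplitterOutput η A B C) : energy C ≤ energy A + energy B := by
  rw [(bsIso hη).isOutput_iff.mp h]
  exact (bsIso hη).energy_out_le A B


theorem tendsto_entry_output (hη : η ∈ Set.Icc (0 : ℝ) 1) {ι : Type*} {L : Filter ι}
    {A' B' C' : ι → FockState n} {A B C : FockState n} {E : ℝ≥0∞} (hE : E ≠ ⊤)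
    (hC' : ∀ i, IsBeamSplitterOutput η (A' i) (B' i) (C' i))
    (hC : IsBeamSplitterOutput η A B C)
    (hA : ∀ k l, Tendsto (fun i => entry (A' i).op k l) L (𝓝 (entry A.op k l)))
    (hB : ∀ k l, Tendsto (fun i => entry (B' i).op k l) L (𝓝 (entry B.op k l)))
    (hEn : ∀ᶠ i in L, energy (A' i) + energy (B' i) ≤ E) (k l : Occ n) :
    Tendsto (fun i => entry (C' i).op k l) L (𝓝 (entry C.op k l)) := by
  have h1 : C' = fun i => (bsIso hη).out (A' i) (B' i) :=
    funext fun i => (bsIso hη).isOutput_iff.mp (hC' i)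
  rw [h1, (bsIso hη).isOutput_iff.mp hC]
  exact (bsIso hη).tendsto_entry_out hE hA hB hEn k l

end noV

/-! ### general ensembles -/

section generalEns

variable {η : ℝ} (V : BSIso n η) {J K : Type} {φ : J → Fock n} {ψ : K → Fock n}



namespace BSIso






end BSIso

end generalEns

/-! ### truncations -/

section trunc

variable (A : FockState n) (F : Finset (Occ n))

/-- the mass of `A` on `F` -/
def massF : ℝ := ∑ k ∈ F, (entry A.op k k).re

/-- restriction of a vector to `F` -/
def resF (F : Finset (Occ n)) (f : Fock n) : Fock n :=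
  mk2 (fun k => if k ∈ F then f k else 0) (by
    refine Summable.of_nonneg_of_le (fun _ => by positivity) (fun p => ?_) (summable_normSq f)
    split_ifs with h
    · exact le_rfl
    · simp)

theorem resF_apply (f : Fock n) (k : Occ n) : resF F f k = if k ∈ F then f k else 0 := rfl

theorem normSq_resF (f : Fock n) : ‖resF F f‖ ^ 2 = ∑ k ∈ F, ‖f k‖ ^ 2 := by
  have h1 := hasSum_normSq (resF F f)
  have h2 : HasSum (fun k => ‖resF F f k‖ ^ 2) (∑ k ∈ F, ‖resF F f k‖ ^ 2) :=
    hasSum_sum_of_ne_finset_zero (fun k hk => by simp [resF_apply, hk])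
  rw [h1.unique h2]
  refine Finset.sum_congr rfl (fun k hk => ?_)
  rw [resF_apply, if_pos hk]

theorem hasSum_truncVec (hF : 0 < massF A F) :
    HasSum (fun m => ‖((Real.sqrt (massF A F))⁻¹ : ℂ) • resF F (sq A.op m)‖ ^ 2) 1 := by
  have h1 : ∀ m, ‖((Real.sqrt (massF A F))⁻¹ : ℂ) • resF F (sq A.op m)‖ ^ 2 =
      (massF A F)⁻¹ * ∑ k ∈ F, ‖sq A.op m k‖ ^ 2 := by
    intro m
    rw [norm_smul, mul_pow, normSq_resF, norm_inv, Complex.norm_real, Real.norm_eq_abs,
      abs_of_nonneg (Real.sqrt_nonneg _), inv_pow, Real.sq_sqrt hF.le]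
  simp only [h1]
  have h2 : HasSum (fun m => ∑ k ∈ F, ‖sq A.op m k‖ ^ 2) (massF A F) := by
    unfold massF
    refine hasSum_sum (fun k _ => ?_)
    have h := Complex.hasSum_re (hasSum_entry_sq A k k)
    have h4 : (fun m => (sq A.op m k * conj (sq A.op m k)).re) = fun m => ‖sq A.op m k‖ ^ 2 := by
      funext j
      rw [Complex.mul_conj, Complex.ofReal_re, Complex.normSq_eq_norm_sq]
    rwa [h4] at h
  have h3 := h2.mul_left (massF A F)⁻¹
  rwa [inv_mul_cancel₀ hF.ne'] at h3

/-- the truncation of a state to a finite set of occupations, normalised -/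
def trunc (hF : 0 < massF A F) : FockState n := ensState _ (hasSum_truncVec A F hF)













end trunc

end

end Crest.Agent.R331.Out118
end

-- ▼ part R331/Main_944
section

set_option autoImplicit false

noncomputable section

namespace Crest.Agent.R331.Main944

open scoped ENNReal Topology
open Filter Crest.MathPhysics.Bosonic Crest.Agent.R331.Fext682 Crest.Agent.R331.CPT682

theorem Eph_eq_energy {n : ℕ} (ρ : FockState n) : Eph ρ = Out118.energy ρ := by
  rw [Eph_eq]
  unfold Out118.energy Out118.dia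
  refine tsum_congr fun k => ?_
  rw [ENNReal.ofReal_mul (by positivity), ENNReal.ofReal_natCast]

theorem outEnergy : OutEnergy := by
  intro n η hη A B C hC
  simp only [Eph_eq_energy]
  exact Out118.energy_output_le ⟨hη.1.le, hη.2.le⟩ hC

theorem outCont : OutCont := by
  intro n η hη A B C A' B' C' hC hC' E hE hA hB hlA hlB k l
  have hE2 : E + E ≠ ⊤ := ENNReal.add_ne_top.2 ⟨hE, hE⟩
  refine Out118.tendsto_entry_output (L := atTop) ⟨hη.1.le, hη.2.le⟩ hE2 hC hC' hlA hlB
    (Eventually.of_forall fun m => ?_) k l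
  rw [← Eph_eq_energy, ← Eph_eq_energy]
  exact add_le_add (hA m) (hB m)

/-- The final glue: the tangent-plane inequality for box supported states implies S0514. -/
theorem result_of_LINbox (hbox : LINbox) (n : ℕ) (hn : 1 ≤ n) (η : ℝ)
    (hη : η ∈ Set.Icc (0 : ℝ) 1) (ρA ρB : FockState n) (hA : FiniteEnergy ρA) (hB : FiniteEnergy ρB)
    (sA sB : ℝ) (hsA : HasEntropy ρA sA) (hsB : HasEntropy ρB sB) (tA tB : ℝ) (htA : 0 ≤ tA)
    (htB : 0 ≤ tB) (hgA : gBose tA = sA / n) (hgB : gBose tB = sB / n) :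
    ∃ ρC : FockState n, IsBeamSplitterOutput η ρA ρB ρC ∧
      ∃ sC : ℝ, HasEntropy ρC sC ∧ gBose (η * tA + (1 - η) * tB) ≤ sC / n :=
  Wrap587.wrap (outExists outEnergy) (lin_of_box outEnergy outCont hbox) n hn η hη ρA ρB hA hB
    sA sB hsA hsB tA tB htA htB hgA hgB

end Crest.Agent.R331.Main944
end
end

-- ▼ part R331/FTop_628
section

/-! # Finite track: leaves FOUT, FSQ, FVAL, FEMB, FINMU, FINMAIN by name (helper628) -/

set_option autoImplicit false
set_option linter.unusedSectionVars false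

noncomputable section

namespace Crest.Agent.R331.FTop_628

open Crest.Quantum Crest.MathPhysics.Bosonic Matrix Finset Filter Topology
open Crest.Agent.R331.Gibbs158 Crest.Agent.R331.Fin8_628 Crest.Agent.R331.FLim_628
open scoped ComplexOrder Kronecker


lemma kap_eq (ε : ℝ) : FDefs136.kap ε = -Real.log ε := by
  unfold FDefs136.kap; rw [one_div, Real.log_inv]

theorem fsq : FDefs136.FSQ := by
  intro ι _ _ C ε hε hε2 hC
  have h1 := vn_add_smul_le hC.1 hε.le
  have h2 := le_vn_add_smul hC hε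
  have hk : 0 ≤ FDefs136.kap ε := by
    rw [kap_eq]
    have := Real.log_nonpos hε.le (by linarith)
    linarith
  have e1 : Real.negMulLog ε = ε * FDefs136.kap ε := by
    rw [kap_eq]; unfold Real.negMulLog; ring
  have hc : (0:ℝ) ≤ Fintype.card ι := Nat.cast_nonneg _
  rw [abs_le]
  constructor
  · have h3 : (Fintype.card ι : ℝ) * ε * (1 + ε) ≤ Fintype.card ι * (ε * (FDefs136.kap ε + 2)) := by
      rw [mul_assoc]
      refine mul_le_mul_of_nonneg_left (mul_le_mul_of_nonneg_left ?_ hε.le) hc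
      linarith
    linarith
  · have h3 : (Fintype.card ι : ℝ) * Real.negMulLog ε
        ≤ Fintype.card ι * (ε * (FDefs136.kap ε + 2)) := by
      rw [e1]
      refine mul_le_mul_of_nonneg_left (mul_le_mul_of_nonneg_left ?_ hε.le) hc
      linarith
    linarith

lemma ent_eq_ext {n M : ℕ} (X : Matrix (Bx n M) (Bx n M) ℂ) (k l : Occ n) :
    FDefs136.ent X k l = Fin8_628.ext X k l := by
  unfold FDefs136.ent Fin8_628.ext
  by_cases h : k ∈ boxF n M ∧ l ∈ boxF n M
  · have h' : (∀ i, k i < M + 1) ∧ (∀ i, l i < M + 1) := by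
      rw [mem_boxF, mem_boxF] at h
      exact ⟨fun i => Nat.lt_succ_iff.2 (h.1 i), fun i => Nat.lt_succ_iff.2 (h.2 i)⟩
    rw [dif_pos h, dif_pos h']
    rfl
  · have h' : ¬ ((∀ i, k i < M + 1) ∧ (∀ i, l i < M + 1)) := by
      intro hc
      apply h
      rw [mem_boxF, mem_boxF]
      exact ⟨fun i => Nat.lt_succ_iff.1 (hc.1 i), fun i => Nat.lt_succ_iff.1 (hc.2 i)⟩
    rw [dif_neg h, dif_neg h']

lemma update_succ {n : ℕ} (k : Occ n) (j : Fin n) :
    Function.update k j (k j + 1) = k + uni j := by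
  funext i
  by_cases h : i = j
  · subst h; simp [uni_same]
  · simp [Function.update_of_ne h, uni_ne h]

lemma update_pred {n : ℕ} (k : Occ n) (j : Fin n) :
    Function.update k j (k j - 1) = k - uni j := by
  funext i
  by_cases h : i = j
  · subst h; simp [uni_same]
  · simp [Function.update_of_ne h, uni_ne h]

lemma trace_num_eq {n K : ℕ} (A : Matrix (Bx n K) (Bx n K) ℂ) :
    (A * FDefs136.num n K).trace.re = en A := En_eq_en A

theorem fval : FDefs136.FVAL := by
  intro n N E0 hN M ρ hM hρ hE hrec δ hδ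
  refine entropy_liminf M ρ hM hρ (E := E0) (fun K => ?_) hN ?_ hδ
  · rw [← trace_num_eq]; exact hE K
  · intro j i l
    refine (hrec j i l).congr fun K => ?_
    rw [ent_eq_ext, ent_eq_ext, update_succ, update_pred]
    have e : qN N = N / (N + 1) := rfl
    rw [e]
    push_cast
    ring





/-- `FLIMhyp` from the minimisers -/
theorem flimhyp_of (hmin : FDefs136.FMINexists) (hl : FDefs136.LMIN) : FLIMhyp := by
  intro p n δ hδ
  obtain ⟨K0, hK0⟩ := hl p n δ hδ
  filter_upwards [eventually_ge_atTop K0] with K hK A B hA hB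
  obtain ⟨A', B', hm⟩ := hmin p n K (epsK n K) (epsK_pos n K)
  exact (hK0 K hK A' B' hm).trans (hm.le A B hA hB)


theorem finmain (hmin : FDefs136.FMINexists) (hl : FDefs136.LMIN) : FDefs136.FINMAIN := by
  intro η NA NB n K0 h0 h1 hNA hNB A0 B0 hA hB
  exact finmain_of_hyp (flimhyp_of hmin hl) n K0 η NA NB h0 h1 hNA hNB A0 B0 hA hB

end Crest.Agent.R331.FTop_628
end
end

-- ▼ part R331/FLMin_628

/-! # Finite track: LMIN from LENC, LREC, LGAP, LENERGY, FVALUE, FENSUM (helper628) -/

set_option autoImplicit false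
set_option linter.unusedSectionVars false

noncomputable section

namespace Crest.Agent.R331.FTop_628

open Crest.Quantum Crest.MathPhysics.Bosonic Matrix Finset Filter Topology
open Crest.Agent.R331.Gibbs158 Crest.Agent.R331.Fin8_628 Crest.Agent.R331.FLim_628
open scoped ComplexOrder Kronecker

/-- the lower bound along one sequence of minimisers -/
theorem lmin_seq (hFW : FDefs136.FW) (hEn : FDefs136.LENERGY) (hGap : FDefs136.LGAP)
    (hEnC : FDefs136.LENC) (hRec : FDefs136.LREC) (hVal : FDefs136.FVALUE)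
    (hSum : FDefs136.FENSUM) (p : FDefs136.Par) (n : ℕ)
    (A B : ∀ K : ℕ, Matrix (Bx n K) (Bx n K) ℂ)
    (hm : ∀ K, FDefs136.IsMin p (epsK n K) (A K) (B K)) {δ : ℝ} (hδ : 0 < δ) :
    ∀ᶠ K : ℕ in atTop, FDefs136.thVal p n - δ ≤ FDefs136.F p (epsK n K) (A K) (B K) := by
  have hNC := NC_pos p
  have hbC : 0 < p.bC := bN_pos hNC
  set c : ℝ := 1 + p.bC + 2 * p.bC * n with hc
  have hcpos : 0 < c := by positivity
  set d : ℝ := min 1 (δ / (2 * c)) with hd
  have hdpos : 0 < d := lt_min one_pos (by positivity)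
  have hd1 : d ≤ 1 := min_le_left _ _
  have hd2 : d * c ≤ δ / 2 := by
    have : d ≤ δ / (2 * c) := min_le_right _ _
    calc d * c ≤ δ / (2 * c) * c := mul_le_mul_of_nonneg_right this hcpos.le
      _ = δ / 2 := by field_simp
  -- entropy of the outputs
  obtain ⟨E0, hE0⟩ := hEn p n
  have hM : Tendsto (fun K : ℕ => 2 * K) atTop atTop :=
    tendsto_atTop_mono (fun K => by simp only [id]; omega) tendsto_id
  have hdens : ∀ K, IsDensity (FDefs136.outC p.η (A K) (B K)) := fun K =>
    FDefs136.isDensity_outC hFW p.η_pos p.η_lt (hm K).dA (hm K).dB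
  have hS := fval n p.NC E0 hNC (fun K => 2 * K) (fun K => FDefs136.outC p.η (A K) (B K)) hM hdens
    (fun K => (hE0 K (A K) (B K) (hm K)).2.2) (by
      intro j k l
      rw [Metric.tendsto_atTop]
      intro ε hε
      obtain ⟨K0, hK0⟩ := hRec p n j k l (ε / 2) (by positivity)
      refine ⟨K0, fun K hK => ?_⟩
      rw [dist_zero_right]
      exact lt_of_le_of_lt (hK0 K hK (A K) (B K) (hm K)) (by linarith)) d hdpos
  obtain ⟨K1, hK1⟩ := hEnC p n d hdpos
  have hG : ∀ᶠ K : ℕ in atTop, ∀ j : Fin n, ‖FDefs136.mX j (A K)‖ ≤ d ∧ ‖FDefs136.mX j (B K)‖ ≤ d := by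
    rw [Filter.eventually_all]
    intro j
    obtain ⟨K2, hK2⟩ := hGap p n j d hdpos
    filter_upwards [eventually_ge_atTop K2] with K hK
    exact (hK2 K hK (A K) (B K) (hm K)).2
  have hreg : ∀ᶠ K : ℕ in atTop, (Fintype.card (Bx n (2 * K)) : ℝ) *
      (epsK n K * (FDefs136.kap (epsK n K) + 2)) < δ / 2 := by
    have := (FDefs136.regErr_tendsto n).eventually_lt_const (show (0:ℝ) < δ / 2 by positivity)
    filter_upwards [this] with K hK
    have e : (Fintype.card (Bx n (2 * K)) : ℝ) = ((2 * K + 1 : ℕ) : ℝ) ^ n := by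
      have := FDefs136.card_Bx n (2 * K)
      rw [show Fintype.card (Bx n (2 * K)) = (2 * K + 1) ^ n from this]
      push_cast; ring
    rw [e]; exact hK
  filter_upwards [hS, eventually_ge_atTop K1, hG, hreg, eventually_ge_atTop 1]
    with K h1 h2 h3 h4 hKone
  have h5 := hVal p n K (epsK n K) (epsK_pos n K) (A K) (B K) (hm K).dA (hm K).dB
  have h6 := hSum p.η n K p.η_pos p.η_lt (A K) (B K) (hm K).dA (hm K).dB
  have h7 := hK1 K h2 (A K) (B K) (hm K)
  have h8 := (abs_le.1 (fsq (Bx n (2 * K)) (FDefs136.outC p.η (A K) (B K)) (epsK n K)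
    (epsK_pos n K) (FDefs136.epsK_le n K hKone) (hdens K))).1
  -- the mean term
  have h9 : |∑ j, ((starRingEnd ℂ) (FDefs136.mX j (A K)) * FDefs136.mX j (B K)).re| ≤ n * d := by
    calc |∑ j, ((starRingEnd ℂ) (FDefs136.mX j (A K)) * FDefs136.mX j (B K)).re|
        ≤ ∑ j : Fin n, |((starRingEnd ℂ) (FDefs136.mX j (A K)) * FDefs136.mX j (B K)).re| :=
          Finset.abs_sum_le_sum_abs _ _
      _ ≤ ∑ _j : Fin n, d := by
          refine Finset.sum_le_sum fun j _ => ?_
          refine (Complex.abs_re_le_norm _).trans ?_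
          rw [norm_mul, RCLike.norm_conj]
          calc ‖FDefs136.mX j (A K)‖ * ‖FDefs136.mX j (B K)‖ ≤ 1 * d :=
                mul_le_mul ((h3 j).1.trans hd1) (h3 j).2 (norm_nonneg _) zero_le_one
            _ = d := one_mul d
      _ = n * d := by simp
  have hs0 : 0 ≤ Real.sqrt p.η * Real.sqrt (1 - p.η) := by positivity
  have hs1 : Real.sqrt p.η * Real.sqrt (1 - p.η) ≤ 1 := by
    have e1 : Real.sqrt p.η ≤ 1 := Real.sqrt_le_one.2 p.η_lt.le
    have e2 : Real.sqrt (1 - p.η) ≤ 1 := Real.sqrt_le_one.2 (by linarith [p.η_pos])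
    exact mul_le_one₀ e1 (Real.sqrt_nonneg _) e2
  set S := ∑ j, ((starRingEnd ℂ) (FDefs136.mX j (A K)) * FDefs136.mX j (B K)).re with hS'
  have h10 : -(2 * (n * d)) ≤ 2 * Real.sqrt p.η * Real.sqrt (1 - p.η) * S := by
    have h11 := (abs_le.1 h9).1
    have h12 : |Real.sqrt p.η * Real.sqrt (1 - p.η) * S| ≤ 1 * (n * d) := by
      rw [abs_mul, abs_of_nonneg hs0]
      exact mul_le_mul hs1 h9 (abs_nonneg _) zero_le_one
    have h13 := (abs_le.1 h12).1
    nlinarith
  have hEE : p.η * FDefs136.En (A K) + (1 - p.η) * FDefs136.En (B K)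
      ≤ n * p.NC + d + 2 * (n * d) := by
    linarith
  have hEE' := mul_le_mul_of_nonneg_left hEE hbC.le
  have hg : (n : ℝ) * gBose p.NC = n * Real.log (p.NC + 1) + p.bC * (n * p.NC) := by
    rw [gBose_eq hNC]
    have : bN p.NC = p.bC := rfl
    rw [this]; ring
  unfold FDefs136.thVal
  have hQ : FDefs136.outQ p.η (epsK n K) (A K) (B K)
      = FDefs136.outC p.η (A K) (B K) + (epsK n K : ℂ) • (1 : Matrix _ _ ℂ) := rfl
  rw [hQ] at h5
  have hcd : d * c = d + p.bC * d + p.bC * (2 * (n * d)) := by rw [hc]; ring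
  have hexp : p.bC * (n * p.NC + d + 2 * (n * d))
      = p.bC * (n * p.NC) + p.bC * d + p.bC * (2 * (n * d)) := by ring
  linarith

theorem lmin_of (hmin : FDefs136.FMINexists) (hFW : FDefs136.FW) (hEn : FDefs136.LENERGY)
    (hGap : FDefs136.LGAP) (hEnC : FDefs136.LENC) (hRec : FDefs136.LREC)
    (hVal : FDefs136.FVALUE) (hSum : FDefs136.FENSUM) : FDefs136.LMIN := by
  intro p n δ hδ
  choose A B hm using fun K : ℕ => hmin p n K (epsK n K) (epsK_pos n K)
  have h := lmin_seq hFW hEn hGap hEnC hRec hVal hSum p n A B hm hδ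
  obtain ⟨K0, hK0⟩ := eventually_atTop.1 h
  refine ⟨K0, fun K hK A' B' hm' => (hK0 K hK).trans ?_⟩
  exact (hm K).le A' B' hm'.dA hm'.dB

/-- **FIN MAIN** from the leaves -/
theorem finmain_of_leaves (hmin : FDefs136.FMINexists) (hFW : FDefs136.FW)
    (hEn : FDefs136.LENERGY) (hGap : FDefs136.LGAP) (hEnC : FDefs136.LENC)
    (hRec : FDefs136.LREC) (hVal : FDefs136.FVALUE) (hSum : FDefs136.FENSUM) :
    FDefs136.FINMAIN :=
  finmain hmin (lmin_of hmin hFW hEn hGap hEnC hRec hVal hSum)

end Crest.Agent.R331.FTop_628
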