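import Mathlib

-- ▼ part R331/Fin3_839
section

set_option autoImplicit false

/-!
FIN-3 (row 331): entropy of density matrices: trace form, continuity, existence of minimisers,
number-basis Gibbs bound.
-/

open Matrix Filter Topology
open scoped ComplexOrder

namespace Crest.Agent.R331.Fin3_839

variable {ι : Type*} [Fintype ι] [DecidableEq ι]

/-- von Neumann entropy of a Hermitian matrix (0 if not Hermitian) -/
noncomputable def Sm (ρ : Matrix ι ι ℂ) : ℝ :=
  open Classical in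
  if h : ρ.IsHermitian then ∑ i, Real.negMulLog (h.eigenvalues i) else 0

theorem Sm_eq {ρ : Matrix ι ι ℂ} (h : ρ.IsHermitian) :
    Sm ρ = ∑ i, Real.negMulLog (h.eigenvalues i) := by
  unfold Sm; rw [dif_pos h]

/-- density matrices -/
def Dens (ι : Type*) [Fintype ι] : Set (Matrix ι ι ℂ) :=
  {ρ | ρ.PosSemidef ∧ ρ.trace = 1}

section spectral




theorem sum_eig {ρ : Matrix ι ι ℂ} (h : ρ.IsHermitian) :
    ((∑ i, h.eigenvalues i : ℝ) : ℂ) = ρ.trace := by
  rw [h.trace_eq_sum_eigenvalues]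
  push_cast
  rfl

theorem dens_sum_eig {ρ : Matrix ι ι ℂ} (h : ρ ∈ Dens ι) : ∑ i, h.1.1.eigenvalues i = 1 := by
  have h1 := (sum_eig h.1.1).trans h.2
  exact_mod_cast h1

theorem dens_eig_nonneg {ρ : Matrix ι ι ℂ} (h : ρ ∈ Dens ι) (i : ι) : 0 ≤ h.1.1.eigenvalues i :=
  h.1.eigenvalues_nonneg i

theorem dens_eig_le_one {ρ : Matrix ι ι ℂ} (h : ρ ∈ Dens ι) (i : ι) : h.1.1.eigenvalues i ≤ 1 := by
  rw [← dens_sum_eig h]
  exact Finset.single_le_sum (f := fun i => h.1.1.eigenvalues i) (fun i _ => dens_eig_nonneg h i)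
    (Finset.mem_univ i)

end spectral

section entropy_bounds







end entropy_bounds

section compactness







end compactness

end Crest.Agent.R331.Fin3_839
end

-- ▼ part R331/Fin3b_839

set_option autoImplicit false

/-!
FIN-3b (row 331): number-basis Gibbs bound for density matrices.
-/

open Matrix Filter Topology
open scoped ComplexOrder

namespace Crest.Agent.R331.Fin3_839

variable {ι : Type*} [Fintype ι] [DecidableEq ι]

/-- `x log x - x log q - x + q ≥ 0` -/
theorem klein_scalar (x q : ℝ) (hx : 0 ≤ x) (hq : 0 < q) :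
    0 ≤ -Real.negMulLog x - x * Real.log q - x + q := by
  rcases hx.eq_or_lt with h | h
  · subst h; simp [hq.le]
  · have h1 : Real.log (q / x) ≤ q / x - 1 := Real.log_le_sub_one_of_pos (div_pos hq h)
    rw [Real.log_div hq.ne' h.ne'] at h1
    have h2 := mul_le_mul_of_nonneg_left h1 h.le
    have h3 : x * (q / x - 1) = q - x := by field_simp
    rw [h3] at h2
    rw [Real.negMulLog]
    linarith

/-- diagonal entries through the spectral decomposition -/
theorem diag_eq {ρ : Matrix ι ι ℂ} (h : ρ.IsHermitian) (k : ι) :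
    (ρ k k).re = ∑ i, Complex.normSq ((h.eigenvectorUnitary : Matrix ι ι ℂ) k i) * h.eigenvalues i := by
  have hs := h.spectral_theorem
  rw [Unitary.conjStarAlgAut_apply] at hs
  have e1 : ρ k k = ∑ i, (h.eigenvectorUnitary : Matrix ι ι ℂ) k i * (h.eigenvalues i : ℂ) *
      star ((h.eigenvectorUnitary : Matrix ι ι ℂ) k i) := by
    conv_lhs => rw [hs]
    rw [Matrix.mul_apply]
    refine Finset.sum_congr rfl fun i _ => ?_
    rw [Matrix.mul_diagonal, Matrix.star_apply]
    rfl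
  rw [e1, Complex.re_sum]
  refine Finset.sum_congr rfl fun i _ => ?_
  have : (h.eigenvectorUnitary : Matrix ι ι ℂ) k i * (h.eigenvalues i : ℂ) *
      star ((h.eigenvectorUnitary : Matrix ι ι ℂ) k i) =
      ((Complex.normSq ((h.eigenvectorUnitary : Matrix ι ι ℂ) k i) * h.eigenvalues i : ℝ) : ℂ) := by
    rw [mul_right_comm, Complex.star_def, Complex.mul_conj]
    push_cast; rfl
  rw [this, Complex.ofReal_re]

theorem unitary_row (U : Matrix.unitaryGroup ι ℂ) (k : ι) :
    ∑ i, Complex.normSq ((U : Matrix ι ι ℂ) k i) = 1 := by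
  have h0 : (U : Matrix ι ι ℂ) * star (U : Matrix ι ι ℂ) = 1 := Unitary.mul_star_self_of_mem U.2
  have h : ((U : Matrix ι ι ℂ) * star (U : Matrix ι ι ℂ)) k k = (1 : Matrix ι ι ℂ) k k := by rw [h0]
  rw [Matrix.mul_apply, Matrix.one_apply_eq] at h
  have h2 : ((∑ i, Complex.normSq ((U : Matrix ι ι ℂ) k i) : ℝ) : ℂ) = 1 := by
    rw [← h]
    push_cast
    refine Finset.sum_congr rfl fun i _ => ?_
    rw [Matrix.star_apply, Complex.star_def, Complex.mul_conj]
  exact_mod_cast h2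

theorem unitary_col (U : Matrix.unitaryGroup ι ℂ) (i : ι) :
    ∑ k, Complex.normSq ((U : Matrix ι ι ℂ) k i) = 1 := by
  have h0 : star (U : Matrix ι ι ℂ) * (U : Matrix ι ι ℂ) = 1 := Unitary.star_mul_self_of_mem U.2
  have h : (star (U : Matrix ι ι ℂ) * (U : Matrix ι ι ℂ)) i i = (1 : Matrix ι ι ℂ) i i := by rw [h0]
  rw [Matrix.mul_apply, Matrix.one_apply_eq] at h
  have h2 : ((∑ k, Complex.normSq ((U : Matrix ι ι ℂ) k i) : ℝ) : ℂ) = 1 := by
    rw [← h]
    push_cast
    refine Finset.sum_congr rfl fun k _ => ?_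
    rw [Matrix.star_apply, Complex.star_def, mul_comm, Complex.mul_conj]
  exact_mod_cast h2

theorem dens_diag_nonneg {ρ : Matrix ι ι ℂ} (h : ρ ∈ Dens ι) (k : ι) : 0 ≤ (ρ k k).re := by
  rw [diag_eq h.1.1]
  exact Finset.sum_nonneg fun i _ => mul_nonneg (Complex.normSq_nonneg _) (dens_eig_nonneg h i)

omit [DecidableEq ι] in
theorem dens_diag_sum {ρ : Matrix ι ι ℂ} (h : ρ ∈ Dens ι) : ∑ k, (ρ k k).re = 1 := by
  have := congrArg Complex.re h.2
  rw [Matrix.trace, Complex.re_sum] at this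
  simpa using this

/-- **Gibbs bound in the number basis**, subnormalised weights. -/
theorem gibbs_q {ρ : Matrix ι ι ℂ} (h : ρ ∈ Dens ι) (q : ι → ℝ) (hq : ∀ k, 0 < q k)
    (hq1 : ∑ k, q k ≤ 1) : Sm ρ ≤ -∑ k, (ρ k k).re * Real.log (q k) := by
  set p := h.1.1.eigenvalues with hp
  set U := h.1.1.eigenvectorUnitary with hU
  have hnn : 0 ≤ ∑ k, ∑ i, Complex.normSq ((U : Matrix ι ι ℂ) k i) *
      (-Real.negMulLog (p i) - p i * Real.log (q k) - p i + q k) :=
    Finset.sum_nonneg fun k _ => Finset.sum_nonneg fun i _ =>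
      mul_nonneg (Complex.normSq_nonneg _) (klein_scalar _ _ (dens_eig_nonneg h i) (hq k))
  have e0 : ∀ k i, Complex.normSq ((U : Matrix ι ι ℂ) k i) *
      (-Real.negMulLog (p i) - p i * Real.log (q k) - p i + q k) =
      -(Complex.normSq ((U : Matrix ι ι ℂ) k i) * Real.negMulLog (p i)) -
      (Complex.normSq ((U : Matrix ι ι ℂ) k i) * p i) * Real.log (q k) -
      Complex.normSq ((U : Matrix ι ι ℂ) k i) * p i +
      Complex.normSq ((U : Matrix ι ι ℂ) k i) * q k := fun k i => by ring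
  simp_rw [e0, Finset.sum_add_distrib, Finset.sum_sub_distrib, Finset.sum_neg_distrib] at hnn
  have e1 : ∑ k, ∑ i, Complex.normSq ((U : Matrix ι ι ℂ) k i) * Real.negMulLog (p i) = Sm ρ := by
    rw [Sm_eq h.1.1, Finset.sum_comm]
    refine Finset.sum_congr rfl fun i _ => ?_
    rw [← Finset.sum_mul, unitary_col, one_mul]
  have e2 : ∑ k, ∑ i, (Complex.normSq ((U : Matrix ι ι ℂ) k i) * p i) * Real.log (q k) =
      ∑ k, (ρ k k).re * Real.log (q k) := by
    refine Finset.sum_congr rfl fun k _ => ?_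
    rw [← Finset.sum_mul, diag_eq h.1.1]
  have e3 : ∑ k, ∑ i, Complex.normSq ((U : Matrix ι ι ℂ) k i) * p i = 1 := by
    rw [← dens_diag_sum h]
    refine Finset.sum_congr rfl fun k _ => ?_
    rw [diag_eq h.1.1]
  have e4 : ∑ k, ∑ i, Complex.normSq ((U : Matrix ι ι ℂ) k i) * q k = ∑ k, q k := by
    refine Finset.sum_congr rfl fun k _ => ?_
    rw [← Finset.sum_mul, unitary_row, one_mul]
  rw [e1, e2, e3, e4] at hnn
  linarith

/-- **Gibbs bound**: `S(ρ) ≤ ⟨w⟩ + log ∑ e^{-w}`. -/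
theorem gibbs_w [Nonempty ι] {ρ : Matrix ι ι ℂ} (h : ρ ∈ Dens ι) (w : ι → ℝ) :
    Sm ρ ≤ (∑ k, (ρ k k).re * w k) + Real.log (∑ k, Real.exp (-w k)) := by
  set Z := ∑ k, Real.exp (-w k) with hZ
  have hZpos : 0 < Z := Finset.sum_pos (fun k _ => Real.exp_pos _) Finset.univ_nonempty
  have h1 := gibbs_q h (fun k => Real.exp (-w k) / Z) (fun k => div_pos (Real.exp_pos _) hZpos)
    (by rw [← Finset.sum_div, ← hZ, div_self hZpos.ne'])
  refine h1.trans (le_of_eq ?_)
  have e1 : ∀ k, (ρ k k).re * Real.log (Real.exp (-w k) / Z) =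
      -((ρ k k).re * w k) - (ρ k k).re * Real.log Z := fun k => by
    rw [Real.log_div (Real.exp_pos _).ne' hZpos.ne', Real.log_exp]; ring
  simp_rw [e1]
  rw [Finset.sum_sub_distrib, Finset.sum_neg_distrib, ← Finset.sum_mul, dens_diag_sum h]
  ring


/-! ### boxes -/

/-- total photon number of a box index -/
def tot {n K : ℕ} (k : Fin n → Fin (K + 1)) : ℕ := ∑ j, (k j : ℕ)

theorem sum_exp_box (n K : ℕ) (δ : ℝ) (hδ : 0 < δ) :
    ∑ k : Fin n → Fin (K + 1), Real.exp (-(δ * tot k)) ≤ (1 / (1 - Real.exp (-δ))) ^ n := by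
  have h1 : ∀ k : Fin n → Fin (K + 1), Real.exp (-(δ * tot k)) =
      ∏ j, Real.exp (-δ) ^ (k j : ℕ) := by
    intro k
    rw [Finset.prod_pow_eq_pow_sum, ← Real.exp_nat_mul]
    congr 1
    unfold tot
    push_cast
    ring
  simp_rw [h1]
  have h2 : (∑ k : Fin n → Fin (K + 1), ∏ j, Real.exp (-δ) ^ (k j : ℕ)) =
      ∏ _j : Fin n, ∑ m : Fin (K + 1), Real.exp (-δ) ^ (m : ℕ) := by
    rw [Finset.prod_univ_sum]
    simp [Fintype.piFinset_univ]
  rw [h2, Finset.prod_const, Finset.card_univ, Fintype.card_fin]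
  refine pow_le_pow_left₀ (Finset.sum_nonneg fun m _ => by positivity) ?_ n
  rw [Fin.sum_univ_eq_sum_range (fun m => Real.exp (-δ) ^ m)]
  have hlt : Real.exp (-δ) < 1 := by rw [Real.exp_lt_one_iff]; linarith
  have := (hasSum_geometric_of_lt_one (Real.exp_pos (-δ)).le hlt)
  rw [one_div]
  exact sum_le_hasSum _ (fun m _ => by positivity) this

/-- **energy bound of the entropy on boxes**, uniform in the cut-off. -/
theorem Sm_box_le {n K : ℕ} {ρ : Matrix (Fin n → Fin (K + 1)) (Fin n → Fin (K + 1)) ℂ}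
    (h : ρ ∈ Dens (Fin n → Fin (K + 1))) (δ : ℝ) (hδ : 0 < δ) :
    Sm ρ ≤ δ * (∑ k, (ρ k k).re * tot k) - n * Real.log (1 - Real.exp (-δ)) := by
  have h1 := gibbs_w h (fun k => δ * tot k)
  have hlt : Real.exp (-δ) < 1 := by rw [Real.exp_lt_one_iff]; linarith
  have hpos : 0 < 1 - Real.exp (-δ) := by linarith
  have h2 : Real.log (∑ k : Fin n → Fin (K + 1), Real.exp (-(δ * tot k))) ≤
      - n * Real.log (1 - Real.exp (-δ)) := by
    have h3 := Real.log_le_log (Finset.sum_pos (fun k _ => Real.exp_pos _) Finset.univ_nonempty)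
      (sum_exp_box n K δ hδ)
    refine h3.trans (le_of_eq ?_)
    rw [Real.log_pow, one_div, Real.log_inv]
    ring
  have e1 : (∑ k, (ρ k k).re * (δ * tot k)) = δ * ∑ k, (ρ k k).re * tot k := by
    rw [Finset.mul_sum]
    exact Finset.sum_congr rfl fun k _ => by ring
  rw [e1] at h1
  linarith

end Crest.Agent.R331.Fin3_839
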