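import Crest.Agent.R331.FinPhi_280
import Crest.Agent.R331.FCov_76
import Crest.Prelude.Def_Bosonic

/-!
# [FPHI] dictionary (helper280, row 331)

* `FCov_76.BS` data: `S.PA`, `S.PB`, `S.out` are `FinPhi_280`'s `PA`, `PB`, `Phi` of `S.ι`, hence
  positivity, ANOVA for `R` and `L`, Kadison for the `BS` structure;
* `Q = C + e•1` versions (architecture #13990);
* the frozen `bsOutput` is `Phi` of the amplitude matrix.
-/

set_option autoImplicit false
set_option linter.unusedSectionVars false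
set_option linter.unusedSimpArgs false
set_option linter.unusedDecidableInType false

open Matrix
open scoped Kronecker ComplexOrder

namespace Crest.Agent.R331.FinPhi280

section Q

variable {K : Type*} [Fintype K] [DecidableEq K]

omit [DecidableEq K] in
lemma trace_conj_mul_self_nonneg (Y : Matrix K K ℂ) : 0 ≤ (trace (Yᴴ * Y)).re := by
  classical
  have h := Rq_nonneg (X := (1 : Matrix K K ℂ)) PosSemidef.one Y
  simpa [Rq] using h

/-- `R_{C+e} = R_C + e |Y|²` -/
lemma Rq_add_eps (C Y : Matrix K K ℂ) (e : ℝ) :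
    Rq (C + (e : ℂ) • (1 : Matrix K K ℂ)) Y = Rq C Y + e * (trace (Yᴴ * Y)).re := by
  rw [Rq_add_left, Rq_smul_left]
  simp [Rq]


lemma Rq_le_add_eps (C Y : Matrix K K ℂ) {e : ℝ} (he : 0 ≤ e) :
    Rq C Y ≤ Rq (C + (e : ℂ) • (1 : Matrix K K ℂ)) Y := by
  rw [Rq_add_eps]
  have := mul_nonneg he (trace_conj_mul_self_nonneg Y)
  linarith

lemma Lq_le_add_eps (C Y : Matrix K K ℂ) {e : ℝ} (he : 0 ≤ e) :
    Lq C Y ≤ Lq (C + (e : ℂ) • (1 : Matrix K K ℂ)) Y := by
  rw [Lq_eq_Rq, Lq_eq_Rq]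
  exact Rq_le_add_eps C Yᴴ he

variable {I J L : Type*} [Fintype I] [Fintype J] [Fintype L] [DecidableEq I] [DecidableEq J]
  [DecidableEq L] {W : Matrix (K × L) (I × J) ℂ}

/-- ANOVA for `R` against `Q = C + e`, any centring `z` on the right. -/
theorem anova_R_eps (hW : Wᴴ * W = 1) {A : Matrix I I ℂ} {B : Matrix J J ℂ} (hA : A.PosSemidef)
    (hB : B.PosSemidef) (tA : trace A = 1) (tB : trace B = 1) (Y : Matrix K K ℂ) (z : ℂ) {e : ℝ}
    (he : 0 ≤ e) :
    Rq A (PA W B Y - (trace (Phi W A B * Y)) • (1 : Matrix I I ℂ))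
      + Rq B (PB W A Y - (trace (Phi W A B * Y)) • (1 : Matrix J J ℂ))
      ≤ Rq (Phi W A B + (e : ℂ) • (1 : Matrix K K ℂ)) (Y - z • (1 : Matrix K K ℂ)) := by
  have h1 := anova_R W hW hA hB tA tB Y
  have h2 := Rq_le_add_eps (Phi W A B) (Y - z • (1 : Matrix K K ℂ)) he
  have h3 := Rq_sub_mean_le (Phi_posSemidef W hA hB)
    (by rw [trace_Phi W hW, tA, tB, one_mul]) Y z
  linarith

/-- ANOVA for `L` against `Q = C + e`, any centring `z` on the right. -/
theorem anova_L_eps (hW : Wᴴ * W = 1) {A : Matrix I I ℂ} {B : Matrix J J ℂ} (hA : A.PosSemidef)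
    (hB : B.PosSemidef) (tA : trace A = 1) (tB : trace B = 1) (Y : Matrix K K ℂ) (z : ℂ) {e : ℝ}
    (he : 0 ≤ e) :
    Lq A (PA W B Y - (trace (Phi W A B * Y)) • (1 : Matrix I I ℂ))
      + Lq B (PB W A Y - (trace (Phi W A B * Y)) • (1 : Matrix J J ℂ))
      ≤ Lq (Phi W A B + (e : ℂ) • (1 : Matrix K K ℂ)) (Y - z • (1 : Matrix K K ℂ)) := by
  have h1 := anova_L W hW hA hB tA tB Y
  have h2 := Lq_le_add_eps (Phi W A B) (Y - z • (1 : Matrix K K ℂ)) he
  have h3 := Lq_sub_mean_le (Phi_posSemidef W hA hB)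
    (by rw [trace_Phi W hW, tA, tB, one_mul]) Y z
  linarith

/-- `Q = C + e` is positive definite. -/
theorem posDef_add_eps {C : Matrix K K ℂ} (hC : C.PosSemidef) {e : ℝ} (he : 0 < e) :
    (C + (e : ℂ) • (1 : Matrix K K ℂ)).PosDef := by
  have h1 : ((e : ℂ) • (1 : Matrix K K ℂ)).PosDef :=
    PosDef.one.smul (by exact_mod_cast he)
  exact PosDef.posSemidef_add hC h1

end Q

/-! ### the structure `BS` of `FCov_76` -/

section BSdict

variable {α β γ δ : Type*} [Fintype α] [Fintype β] [Fintype γ] [Fintype δ]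
  [DecidableEq α] [DecidableEq β] [DecidableEq γ] [DecidableEq δ] (S : FCov76.BS α β γ δ)




variable {S}











end BSdict

/-! ### the frozen `bsOutput` -/

section Frozen

open Crest.MathPhysics.Bosonic

variable {n K : ℕ}



end Frozen

end Crest.Agent.R331.FinPhi280
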