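import Mathlib
import Crest.Prelude.Def_Bosonic
import Crest.Prelude.Def_FockState
import Crest.Agent.R331.BSn_375

/-! # The truncated beam splitter as a finite matrix (helper87, leaf FW of row 331)

General part: input index type `α` with `f : α → Occ n`, output index type `γ` with `g : γ → Occ n`,
`IsCut f g` (injective, down-closed, `p ≤ f k + f l` implies `p ∈ range g`).
Box part (`Bx n K = Fin n → Fin (K+1)`): see `FinWBox_87`.
-/

set_option autoImplicit false
set_option linter.unusedSectionVars false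

noncomputable section

namespace Crest.Agent.R331.FinW87

open Crest.MathPhysics.Bosonic Crest.Agent.R331.BS375 Finset Matrix
open scoped Kronecker

variable {n : ℕ} {α γ : Type} [Fintype α] [Fintype γ] [DecidableEq α] [DecidableEq γ]

/-- the pair of index maps is admissible. -/
structure IsCut (f : α → Occ n) (g : γ → Occ n) : Prop where
  injS : Function.Injective f
  injT : Function.Injective g
  downS : ∀ k, ∀ l, l ≤ f k → ∃ k', f k' = l
  downT : ∀ k, ∀ l, l ≤ g k → ∃ k', g k' = l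
  dom : ∀ k l, ∀ p, p ≤ f k + f l → ∃ p', g p' = p

/-- the truncated beam splitter matrix. -/
def iota (η : ℝ) (f : α → Occ n) (g : γ → Occ n) : Matrix (γ × γ) (α × α) ℂ :=
  Matrix.of fun p x => (ampOcc η (f x.1) (f x.2) (g p.1) (g p.2) : ℂ)

open Classical in
/-- annihilation matrix of mode `j`: `a_j |l⟩ = √l_j |l - e_j⟩`. -/
def ann (f : α → Occ n) (j : Fin n) : Matrix α α ℂ :=
  Matrix.of fun k l => if f l = f k + uni j then (Real.sqrt (f l j) : ℂ) else 0

/-- number operator of mode `j`. -/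
def num (f : α → Occ n) (j : Fin n) : Matrix α α ℂ :=
  Matrix.diagonal fun k => ((f k j : ℕ) : ℂ)

open Classical in
/-- projection on the top level of mode `j`: the `k` with `f k + e_j` not in the range. -/
def top (f : α → Occ n) (j : Fin n) : Matrix α α ℂ :=
  Matrix.diagonal fun k => if ∃ k', f k' = f k + uni j then 0 else 1

@[simp] lemma iota_apply (η : ℝ) (f : α → Occ n) (g : γ → Occ n) (p : γ × γ) (x : α × α) :
    iota η f g p x = (ampOcc η (f x.1) (f x.2) (g p.1) (g p.2) : ℂ) := rfl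

lemma ann_apply (f : α → Occ n) (j : Fin n) (k l : α) [Decidable (f l = f k + uni j)] :
    ann f j k l = if f l = f k + uni j then (Real.sqrt (f l j) : ℂ) else 0 := by
  rw [ann, Matrix.of_apply]; congr

/-! ### sums over `γ × γ` supported on splittings -/

lemma le_of_add_eq {p q m : Occ n} (h : p + q = m) : p ≤ m := by
  intro j; rw [← h]; simp

lemma le_of_add_eq' {p q m : Occ n} (h : p + q = m) : q ≤ m := by
  intro j; rw [← h]; simp

lemma sum_prod_eq_splitting {g : γ → Occ n} (hg : Function.Injective g)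
    (m : Occ n) (hm : ∀ p, p ≤ m → ∃ p', g p' = p)
    (F : Occ n → Occ n → ℂ) (hF : ∀ p q, p + q ≠ m → F p q = 0) :
    ∑ x : γ × γ, F (g x.1) (g x.2) = ∑ x : Splitting m, F x.fst x.snd := by
  symm
  have h1 : ∀ x : Splitting m, g (hm _ (le_of_add_eq (fst_add_snd x))).choose = x.fst :=
    fun x => (hm _ (le_of_add_eq (fst_add_snd x))).choose_spec
  have h2 : ∀ x : Splitting m, g (hm _ (le_of_add_eq' (fst_add_snd x))).choose = x.snd :=
    fun x => (hm _ (le_of_add_eq' (fst_add_snd x))).choose_spec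
  refine Fintype.sum_of_injective
    (fun x : Splitting m => ((hm _ (le_of_add_eq (fst_add_snd x))).choose,
      (hm _ (le_of_add_eq' (fst_add_snd x))).choose)) ?_ _ _ ?_ ?_
  · intro x y h
    simp only [Prod.mk.injEq] at h
    apply splitting_fst_injective
    rw [← h1 x, ← h1 y, h.1]
  · intro z hz
    apply hF
    intro h
    apply hz
    refine ⟨splitOf (g z.1) (g z.2) m h, ?_⟩
    apply Prod.ext
    · apply hg
      show g _ = _
      rw [h1]; simp
    · apply hg
      show g _ = _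
      rw [h2]; simp
  · intro x
    show _ = F (g _) (g _)
    rw [h1, h2]

/-! ### isometry -/

theorem iota_isometry {η : ℝ} (h0 : 0 ≤ η) (h1 : η ≤ 1) {f : α → Occ n} {g : γ → Occ n}
    (hc : IsCut f g) : (iota η f g)ᴴ * iota η f g = 1 := by
  ext x y
  rw [Matrix.mul_apply]
  simp only [conjTranspose_apply, iota_apply, Complex.star_def, Complex.conj_ofReal]
  by_cases hxy : f x.1 + f x.2 = f y.1 + f y.2
  · rw [sum_prod_eq_splitting hc.injT (f x.1 + f x.2)
      (fun p hp => hc.dom _ _ p hp)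
      (fun p q => (ampOcc η (f x.1) (f x.2) p q : ℂ) * (ampOcc η (f y.1) (f y.2) p q : ℂ)) ?_]
    · have := ampOcc_row h0 h1 (f x.1 + f x.2) (f x.1) (f x.2) (f y.1) (f y.2) rfl hxy.symm
      have h2 : ((∑ z : Splitting (f x.1 + f x.2), ampOcc η (f x.1) (f x.2) z.fst z.snd *
          ampOcc η (f y.1) (f y.2) z.fst z.snd : ℝ) : ℂ) = if f x.1 = f y.1 then 1 else 0 := by
        rw [this]; split_ifs <;> simp
      push_cast at h2
      rw [h2, Matrix.one_apply]
      by_cases hx : f x.1 = f y.1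
      · rw [if_pos hx, if_pos]
        have h3 : f x.2 = f y.2 := by
          rw [hx] at hxy
          exact add_left_cancel hxy
        exact Prod.ext (hc.injS hx) (hc.injS h3)
      · rw [if_neg hx, if_neg]
        intro h; exact hx (by rw [h])
    · intro p q hpq
      rw [ampOcc_of_ne η hpq]; simp
  · rw [Matrix.one_apply, if_neg (fun h => hxy (by rw [h]))]
    apply Finset.sum_eq_zero
    intro p _
    by_cases hp : g p.1 + g p.2 = f x.1 + f x.2
    · rw [ampOcc_of_ne η (a := f y.1) (a' := f y.2) (fun h => hxy (hp.symm.trans h))]; simp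
    · rw [ampOcc_of_ne η hp]; simp

/-! ### action of the ladder matrices -/

/-- summation against a row of `ann`. -/
lemma sum_ann_row {f : α → Occ n} (hf : Function.Injective f) (j : Fin n) (k : α) (F : Occ n → ℂ)
    (hF : (¬ ∃ k', f k' = f k + uni j) → F (f k + uni j) = 0) :
    ∑ l : α, ann f j k l * F (f l) = (Real.sqrt (f k j + 1) : ℂ) * F (f k + uni j) := by
  classical
  simp only [ann_apply, ite_mul, zero_mul]
  by_cases h : ∃ k', f k' = f k + uni j
  · obtain ⟨k', hk'⟩ := h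
    rw [Finset.sum_eq_single k']
    · rw [if_pos hk', hk']; simp
    · intro l _ hl
      rw [if_neg]
      intro h2; exact hl (hf (h2.trans hk'.symm))
    · intro h2; exact absurd (Finset.mem_univ _) h2
  · rw [hF h, mul_zero]
    apply Finset.sum_eq_zero
    intro l _
    rw [if_neg]
    intro h2; exact h ⟨l, h2⟩

lemma sub_add_uni {l : Occ n} {j : Fin n} (h : 1 ≤ l j) : l = (l - uni j) + uni j := by
  funext i
  by_cases hi : i = j
  · subst hi; simp; omega
  · simp [uni, Pi.single_eq_of_ne hi]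

lemma sub_uni_le (l : Occ n) (j : Fin n) : l - uni j ≤ l := by intro i; simp

/-- summation against a column of `ann`. -/
lemma sum_ann_col {f : α → Occ n} (hf : Function.Injective f)
    (hS : ∀ k, ∀ l, l ≤ f k → ∃ k', f k' = l)
    (j : Fin n) (l : α) (F : Occ n → ℂ) :
    ∑ k : α, F (f k) * ann f j k l = (Real.sqrt (f l j) : ℂ) * F (f l - uni j) := by
  classical
  simp only [ann_apply, mul_ite, mul_zero]
  by_cases h : 1 ≤ f l j
  · obtain ⟨k', hk'⟩ := hS l _ (sub_uni_le (f l) j)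
    rw [Finset.sum_eq_single k']
    · rw [hk', if_pos (sub_add_uni h)]; ring
    · intro k _ hk
      rw [if_neg]
      intro h2
      apply hk
      apply hf
      rw [hk', h2]; simp
    · intro h2; exact absurd (Finset.mem_univ _) h2
  · have h0 : f l j = 0 := by omega
    rw [h0]
    simp only [Nat.cast_zero, Real.sqrt_zero, Complex.ofReal_zero, zero_mul]
    apply Finset.sum_eq_zero
    intro k _
    rw [if_neg]
    intro h2
    rw [h2] at h0
    simp at h0

/-- sum over `T × T` of a Kronecker row. -/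
lemma kron_left_mul_apply {m₁ k₁ k₂ o : Type*} [Fintype k₁] [Fintype k₂] [DecidableEq k₂]
    (A : Matrix m₁ k₁ ℂ) (X : Matrix (k₁ × k₂) o ℂ)
    (p : m₁ × k₂) (x : o) :
    ((A ⊗ₖ (1 : Matrix k₂ k₂ ℂ)) * X) p x = ∑ p', A p.1 p' * X (p', p.2) x := by
  rw [Matrix.mul_apply, Fintype.sum_prod_type]
  apply Finset.sum_congr rfl
  intro p' _
  rw [Finset.sum_eq_single p.2]
  · simp [Matrix.kroneckerMap_apply]
  · intro q _ hq
    simp [Matrix.kroneckerMap_apply, Matrix.one_apply_ne hq.symm]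
  · intro h; exact absurd (Finset.mem_univ _) h

lemma kron_right_mul_apply {k₁ m₂ k₂ o : Type*} [Fintype k₁] [Fintype k₂] [DecidableEq k₁]
    (B : Matrix m₂ k₂ ℂ) (X : Matrix (k₁ × k₂) o ℂ)
    (p : k₁ × m₂) (x : o) :
    (((1 : Matrix k₁ k₁ ℂ) ⊗ₖ B) * X) p x = ∑ q', B p.2 q' * X (p.1, q') x := by
  rw [Matrix.mul_apply, Fintype.sum_prod_type_right]
  apply Finset.sum_congr rfl
  intro p' _
  rw [Finset.sum_eq_single p.1]
  · simp [Matrix.kroneckerMap_apply]
  · intro q _ hq
    simp [Matrix.kroneckerMap_apply, Matrix.one_apply_ne hq.symm]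
  · intro h; exact absurd (Finset.mem_univ _) h

lemma mul_kron_left_apply {k₁ m₁ k₂ o : Type*} [Fintype k₁] [Fintype k₂] [DecidableEq k₂]
    (A : Matrix k₁ m₁ ℂ) (X : Matrix o (k₁ × k₂) ℂ)
    (p : o) (x : m₁ × k₂) :
    (X * (A ⊗ₖ (1 : Matrix k₂ k₂ ℂ))) p x = ∑ x', X p (x', x.2) * A x' x.1 := by
  rw [Matrix.mul_apply, Fintype.sum_prod_type]
  apply Finset.sum_congr rfl
  intro p' _
  rw [Finset.sum_eq_single x.2]
  · simp [Matrix.kroneckerMap_apply]
  · intro q _ hq
    simp [Matrix.kroneckerMap_apply, Matrix.one_apply_ne hq]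
  · intro h; exact absurd (Finset.mem_univ _) h

lemma mul_kron_right_apply {k₁ m₂ k₂ o : Type*} [Fintype k₁] [Fintype k₂] [DecidableEq k₁]
    (B : Matrix k₂ m₂ ℂ) (X : Matrix o (k₁ × k₂) ℂ)
    (p : o) (x : k₁ × m₂) :
    (X * ((1 : Matrix k₁ k₁ ℂ) ⊗ₖ B)) p x = ∑ y', X p (x.1, y') * B y' x.2 := by
  rw [Matrix.mul_apply, Fintype.sum_prod_type_right]
  apply Finset.sum_congr rfl
  intro p' _
  rw [Finset.sum_eq_single x.1]
  · simp [Matrix.kroneckerMap_apply]
  · intro q _ hq
    simp [Matrix.kroneckerMap_apply, Matrix.one_apply_ne hq]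
  · intro h; exact absurd (Finset.mem_univ _) h

/-! ### the four intertwinings -/

variable {f : α → Occ n} {g : γ → Occ n}

lemma amp_zero_left (η : ℝ) (hc : IsCut f g) (k l : α) (p q : Occ n) (hp : ¬ ∃ p', g p' = p) :
    ampOcc η (f k) (f l) p q = 0 := by
  apply ampOcc_of_ne
  intro h
  exact hp (hc.dom _ _ _ (le_of_add_eq h))

lemma amp_zero_right (η : ℝ) (hc : IsCut f g) (k l : α) (p q : Occ n) (hq : ¬ ∃ p', g p' = q) :
    ampOcc η (f k) (f l) p q = 0 := by
  apply ampOcc_of_ne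
  intro h
  exact hq (hc.dom _ _ _ (le_of_add_eq' h))

/-- `(c_j ⊗ 1) ι = ι (√η a_j ⊗ 1 + √(1-η) 1 ⊗ b_j)`. -/
theorem c_iota (η : ℝ) (hc : IsCut f g) (j : Fin n) :
    (ann g j ⊗ₖ (1 : Matrix γ γ ℂ)) * iota η f g
      = iota η f g * ((Real.sqrt η : ℂ) • (ann f j ⊗ₖ (1 : Matrix α α ℂ))
          + (Real.sqrt (1 - η) : ℂ) • ((1 : Matrix α α ℂ) ⊗ₖ ann f j)) := by
  ext p x
  rw [kron_left_mul_apply, Matrix.mul_add, Matrix.mul_smul, Matrix.mul_smul, Matrix.add_apply,
    Matrix.smul_apply, Matrix.smul_apply, mul_kron_left_apply, mul_kron_right_apply]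
  simp only [iota_apply]
  rw [sum_ann_row hc.injT j p.1 (fun k => (ampOcc η (f x.1) (f x.2) k (g p.2) : ℂ)) (fun h => by
      simp only [amp_zero_left η hc x.1 x.2 _ _ h, Complex.ofReal_zero]),
    sum_ann_col hc.injS hc.downS j x.1 (fun k => (ampOcc η k (f x.2) (g p.1) (g p.2) : ℂ)),
    sum_ann_col hc.injS hc.downS j x.2 (fun k => (ampOcc η (f x.1) k (g p.1) (g p.2) : ℂ))]
  have h := ampOcc_c η (f x.1) (f x.2) (g p.1) (g p.2) j
  simp only [smul_eq_mul]
  have h2 := congrArg (fun r : ℝ => (r : ℂ)) h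
  push_cast at h2
  linear_combination h2

/-- `(1 ⊗ d_j) ι = ι (-√(1-η) a_j ⊗ 1 + √η 1 ⊗ b_j)`. -/
theorem d_iota (η : ℝ) (hc : IsCut f g) (j : Fin n) :
    ((1 : Matrix γ γ ℂ) ⊗ₖ ann g j) * iota η f g
      = iota η f g * (-(Real.sqrt (1 - η) : ℂ) • (ann f j ⊗ₖ (1 : Matrix α α ℂ))
          + (Real.sqrt η : ℂ) • ((1 : Matrix α α ℂ) ⊗ₖ ann f j)) := by
  ext p x
  rw [kron_right_mul_apply, Matrix.mul_add, Matrix.mul_smul, Matrix.mul_smul, Matrix.add_apply,
    Matrix.smul_apply, Matrix.smul_apply, mul_kron_left_apply, mul_kron_right_apply]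
  simp only [iota_apply]
  rw [sum_ann_row hc.injT j p.2 (fun k => (ampOcc η (f x.1) (f x.2) (g p.1) k : ℂ)) (fun h => by
      simp only [amp_zero_right η hc x.1 x.2 _ _ h, Complex.ofReal_zero]),
    sum_ann_col hc.injS hc.downS j x.1 (fun k => (ampOcc η k (f x.2) (g p.1) (g p.2) : ℂ)),
    sum_ann_col hc.injS hc.downS j x.2 (fun k => (ampOcc η (f x.1) k (g p.1) (g p.2) : ℂ))]
  have h := ampOcc_d η (f x.1) (f x.2) (g p.1) (g p.2) j
  simp only [smul_eq_mul]
  have h2 := congrArg (fun r : ℝ => (r : ℂ)) h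
  push_cast at h2
  linear_combination h2

/-- summation against a row of `annᴴ`. -/
lemma sum_annH_row {g : γ → Occ n} (hg : Function.Injective g)
    (hT : ∀ k, ∀ l, l ≤ g k → ∃ k', g k' = l)
    (j : Fin n) (k : γ) (F : Occ n → ℂ) :
    ∑ l : γ, (ann g j)ᴴ k l * F (g l) = (Real.sqrt (g k j) : ℂ) * F (g k - uni j) := by
  classical
  rw [← sum_ann_col hg hT j k F]
  apply Finset.sum_congr rfl
  intro l _
  rw [conjTranspose_apply, ann_apply]
  split_ifs <;> simp [mul_comm]

/-- summation against a column of `annᴴ`. -/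
lemma sum_annH_col {f : α → Occ n} (hf : Function.Injective f) (j : Fin n) (l : α)
    (F : Occ n → ℂ) (h : ∃ l', f l' = f l + uni j) :
    ∑ k : α, F (f k) * (ann f j)ᴴ k l = (Real.sqrt (f l j + 1) : ℂ) * F (f l + uni j) := by
  classical
  rw [← sum_ann_row hf j l F (fun h' => absurd h h')]
  apply Finset.sum_congr rfl
  intro k _
  rw [conjTranspose_apply, ann_apply]
  split_ifs <;> simp [mul_comm]

lemma one_sub_top (f : α → Occ n) (j : Fin n)
    [DecidablePred fun k : α => ∃ k', f k' = f k + uni j] :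
    1 - top f j = Matrix.diagonal fun k : α => if ∃ k', f k' = f k + uni j then (1 : ℂ) else 0 := by
  rw [top, ← Matrix.diagonal_one, Matrix.diagonal_sub]
  congr 1
  funext k
  split_ifs <;> simp

lemma kron_diag_left {k₁ k₂ : Type*} [DecidableEq k₁] [DecidableEq k₂] (d : k₁ → ℂ) :
    (Matrix.diagonal d) ⊗ₖ (1 : Matrix k₂ k₂ ℂ) = Matrix.diagonal (fun x : k₁ × k₂ => d x.1) := by
  rw [← Matrix.diagonal_one, Matrix.diagonal_kronecker_diagonal]
  simp

lemma kron_diag_right {k₁ k₂ : Type*} [DecidableEq k₁] [DecidableEq k₂] (d : k₂ → ℂ) :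
    (1 : Matrix k₁ k₁ ℂ) ⊗ₖ (Matrix.diagonal d) = Matrix.diagonal (fun x : k₁ × k₂ => d x.2) := by
  rw [← Matrix.diagonal_one, Matrix.diagonal_kronecker_diagonal]
  simp

/-- `(√η c_j† ⊗ 1 - √(1-η) 1 ⊗ d_j†) ι ((1-Q) ⊗ 1) = ι (a_j† (1-Q) ⊗ 1)`. -/
theorem a_dag_iota (η : ℝ) (hc : IsCut f g) (j : Fin n) :
    ((Real.sqrt η : ℂ) • ((ann g j)ᴴ ⊗ₖ (1 : Matrix γ γ ℂ))
        - (Real.sqrt (1 - η) : ℂ) • ((1 : Matrix γ γ ℂ) ⊗ₖ (ann g j)ᴴ)) * iota η f g
        * ((1 - top f j) ⊗ₖ (1 : Matrix α α ℂ))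
      = iota η f g * (((ann f j)ᴴ * (1 - top f j)) ⊗ₖ (1 : Matrix α α ℂ)) := by
  classical
  have hk : ((ann f j)ᴴ * (1 - top f j)) ⊗ₖ (1 : Matrix α α ℂ)
      = ((ann f j)ᴴ ⊗ₖ (1 : Matrix α α ℂ)) * ((1 - top f j) ⊗ₖ (1 : Matrix α α ℂ)) := by
    rw [← Matrix.mul_kronecker_mul, Matrix.one_mul]
  rw [hk, ← Matrix.mul_assoc]
  rw [one_sub_top, kron_diag_left]
  ext p x
  rw [Matrix.mul_diagonal, Matrix.mul_diagonal]
  by_cases hx : ∃ k', f k' = f x.1 + uni j
  · rw [if_pos hx, mul_one, mul_one, Matrix.sub_mul,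
      Matrix.smul_mul, Matrix.smul_mul,
      Matrix.sub_apply, Matrix.smul_apply, Matrix.smul_apply, kron_left_mul_apply,
      kron_right_mul_apply, mul_kron_left_apply]
    simp only [iota_apply]
    rw [sum_annH_row hc.injT hc.downT j p.1 (fun k => (ampOcc η (f x.1) (f x.2) k (g p.2) : ℂ)),
      sum_annH_row hc.injT hc.downT j p.2 (fun k => (ampOcc η (f x.1) (f x.2) (g p.1) k : ℂ)),
      sum_annH_col hc.injS j x.1 (fun k => (ampOcc η k (f x.2) (g p.1) (g p.2) : ℂ)) hx]
    have h := ampOcc_a_dag η (f x.1) (f x.2) (g p.1) (g p.2) j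
    simp only [smul_eq_mul]
    have h2 := congrArg (fun r : ℝ => (r : ℂ)) h
    push_cast at h2
    linear_combination -h2
  · rw [if_neg hx]; simp

/-- `(√(1-η) c_j† ⊗ 1 + √η 1 ⊗ d_j†) ι (1 ⊗ (1-Q)) = ι (1 ⊗ b_j† (1-Q))`. -/
theorem b_dag_iota (η : ℝ) (hc : IsCut f g) (j : Fin n) :
    ((Real.sqrt (1 - η) : ℂ) • ((ann g j)ᴴ ⊗ₖ (1 : Matrix γ γ ℂ))
        + (Real.sqrt η : ℂ) • ((1 : Matrix γ γ ℂ) ⊗ₖ (ann g j)ᴴ)) * iota η f g
        * ((1 : Matrix α α ℂ) ⊗ₖ (1 - top f j))
      = iota η f g * ((1 : Matrix α α ℂ) ⊗ₖ ((ann f j)ᴴ * (1 - top f j))) := by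
  classical
  have hk : (1 : Matrix α α ℂ) ⊗ₖ ((ann f j)ᴴ * (1 - top f j))
      = ((1 : Matrix α α ℂ) ⊗ₖ (ann f j)ᴴ) * ((1 : Matrix α α ℂ) ⊗ₖ (1 - top f j)) := by
    rw [← Matrix.mul_kronecker_mul, Matrix.one_mul]
  rw [hk, ← Matrix.mul_assoc]
  rw [one_sub_top, kron_diag_right]
  ext p x
  rw [Matrix.mul_diagonal, Matrix.mul_diagonal]
  by_cases hx : ∃ k', f k' = f x.2 + uni j
  · rw [if_pos hx, mul_one, mul_one, Matrix.add_mul,
      Matrix.smul_mul, Matrix.smul_mul,
      Matrix.add_apply, Matrix.smul_apply, Matrix.smul_apply, kron_left_mul_apply,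
      kron_right_mul_apply, mul_kron_right_apply]
    simp only [iota_apply]
    rw [sum_annH_row hc.injT hc.downT j p.1 (fun k => (ampOcc η (f x.1) (f x.2) k (g p.2) : ℂ)),
      sum_annH_row hc.injT hc.downT j p.2 (fun k => (ampOcc η (f x.1) (f x.2) (g p.1) k : ℂ)),
      sum_annH_col hc.injS j x.2 (fun k => (ampOcc η (f x.1) k (g p.1) (g p.2) : ℂ)) hx]
    have h := ampOcc_b_dag η (f x.1) (f x.2) (g p.1) (g p.2) j
    simp only [smul_eq_mul]
    have h2 := congrArg (fun r : ℝ => (r : ℂ)) h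
    push_cast at h2
    linear_combination -h2
  · rw [if_neg hx]; simp

/-! ### ladder algebra on one index set -/

lemma annH_mul_ann (hf : Function.Injective f) (hS : ∀ k, ∀ l, l ≤ f k → ∃ k', f k' = l)
    (j : Fin n) : (ann f j)ᴴ * ann f j = num f j := by
  classical
  ext k l
  rw [Matrix.mul_apply, num, Matrix.diagonal_apply]
  have h := sum_annH_row hf hS j k (fun m => if f l = m + uni j then (Real.sqrt (f l j) : ℂ) else 0)
  have h2 : ∀ i, (ann f j)ᴴ k i * ann f j i l
      = (ann f j)ᴴ k i * (if f l = f i + uni j then (Real.sqrt (f l j) : ℂ) else 0) := by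
    intro i; rw [ann_apply]
  rw [Finset.sum_congr rfl (fun i _ => h2 i), h]
  by_cases h0 : 1 ≤ f k j
  · rw [← sub_add_uni h0]
    by_cases hkl : k = l
    · subst hkl
      rw [if_pos rfl, if_pos rfl, ← Complex.ofReal_mul, Real.mul_self_sqrt (by positivity)]
      simp
    · rw [if_neg hkl, if_neg (fun h => hkl (hf h.symm)), mul_zero]
  · have h0 : f k j = 0 := by omega
    rw [h0]; simp

lemma ann_mul_annH (hf : Function.Injective f) (j : Fin n) :
    ann f j * (ann f j)ᴴ = (num f j + 1) * (1 - top f j) := by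
  classical
  rw [one_sub_top, num, ← Matrix.diagonal_one, Matrix.diagonal_add, Matrix.diagonal_mul_diagonal]
  ext k l
  rw [Matrix.mul_apply, Matrix.diagonal_apply]
  have h2 : ∀ i, ann f j k i * (ann f j)ᴴ i l
      = ann f j k i * (if f i = f l + uni j then (Real.sqrt (f i j) : ℂ) else 0) := by
    intro i
    rw [conjTranspose_apply, ann_apply f j l i]
    split_ifs <;> simp
  rw [Finset.sum_congr rfl (fun i _ => h2 i)]
  by_cases hk : ∃ k', f k' = f k + uni j
  · rw [sum_ann_row hf j k (fun m => if m = f l + uni j then (Real.sqrt (m j) : ℂ) else 0)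
      (fun h => absurd hk h), if_pos hk]
    by_cases hkl : k = l
    · subst hkl
      rw [if_pos rfl, if_pos rfl, ← Complex.ofReal_natCast, mul_one]
      have : ((f k + uni j) j : ℕ) = f k j + 1 := by simp
      rw [this]
      push_cast
      rw [← Complex.ofReal_natCast, ← Complex.ofReal_one, ← Complex.ofReal_add,
        ← Complex.ofReal_mul, Real.mul_self_sqrt (by positivity)]
    · rw [if_neg hkl, if_neg, mul_zero]
      intro h
      exact hkl (hf (add_right_cancel h))
  · rw [if_neg hk]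
    simp only [mul_zero, ite_self]
    apply Finset.sum_eq_zero
    intro i _
    rw [ann_apply, if_neg (fun h => hk ⟨i, h⟩), zero_mul]

lemma top_mul_ann (f : α → Occ n) (j : Fin n) : top f j * ann f j = 0 := by
  classical
  ext k l
  rw [top, Matrix.diagonal_mul, ann_apply]
  by_cases hk : f l = f k + uni j
  · rw [if_pos ⟨l, hk⟩]; simp
  · rw [if_neg hk]; simp

lemma top_mul_top (f : α → Occ n) (j : Fin n) : top f j * top f j = top f j := by
  classical
  rw [top, Matrix.diagonal_mul_diagonal]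
  congr 1
  funext k
  split_ifs <;> simp

lemma top_conjTranspose (f : α → Occ n) (j : Fin n) : (top f j)ᴴ = top f j := by
  classical
  rw [top, Matrix.diagonal_conjTranspose]
  congr 1
  funext k
  simp only [Pi.star_apply]
  split_ifs <;> simp



/-- photon number conservation in each mode. -/
theorem num_iota (η : ℝ) (f : α → Occ n) (g : γ → Occ n) (j : Fin n) :
    (num g j ⊗ₖ (1 : Matrix γ γ ℂ) + (1 : Matrix γ γ ℂ) ⊗ₖ num g j) * iota η f g
      = iota η f g * (num f j ⊗ₖ (1 : Matrix α α ℂ) + (1 : Matrix α α ℂ) ⊗ₖ num f j) := by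
  rw [num, num, kron_diag_left, kron_diag_right, kron_diag_left, kron_diag_right,
    Matrix.diagonal_add, Matrix.diagonal_add]
  ext p x
  rw [Matrix.diagonal_mul, Matrix.mul_diagonal, iota_apply]
  by_cases h : g p.1 + g p.2 = f x.1 + f x.2
  · have := congrFun h j
    simp only [Pi.add_apply] at this
    have h2 : ((g p.1 j : ℕ) : ℂ) + ((g p.2 j : ℕ) : ℂ) = ((f x.1 j : ℕ) : ℂ) + ((f x.2 j : ℕ) : ℂ) := by
      exact_mod_cast this
    rw [h2]; ring
  · rw [ampOcc_of_ne η h]; simp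

end Crest.Agent.R331.FinW87
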