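import Mathlib
import Crest.Prelude.Def_FockState
import Crest.Agent.R331.Emb3_915
import Crest.Agent.R331.FDefs2_136
import Crest.Agent.R331.FLim_628
import Crest.Agent.R331.Fext2_682
import Crest.Agent.R331.FCurC_380
import Crest.Agent.R331.FinWBox_87
import Crest.Agent.R331.FCovB_76
import Crest.Agent.R331.FTop_136
import Crest.Agent.R331.FOpiDefs_712
import Crest.Agent.R331.FCur_380
import Crest.Agent.R331.FDefs_136

-- ▼ part R331/Link_915
section

/-!
R331, helper915.  Interface glue: the finite main theorem (136 / 628 / 944 forms, frozen prelude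
objects) ⟹ `Fext682.LINbox` (box supported Fock states).
-/

set_option autoImplicit false

open scoped InnerProductSpace ComplexConjugate ComplexOrder
open Crest.MathPhysics.Bosonic InnerProductSpace Crest.Quantum

namespace Crest.Agent.R331.Link915

theorem boxSupp_of_682 {n K : ℕ} {ρ : FockState n} (h : Fext682.BoxSupp K ρ) :
    Emb3.BoxSupp K ρ := by
  intro k l hkl
  by_contra hc
  exact hkl (h k l hc)


/-- the finite tangent inequality gives 682's `LINbox` -/
theorem linbox_of_linmat (h : Emb3.LINmat) : Fext682.LINbox :=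
  fun n hn η hη M ρA ρB ρC hA hB hC sA sB sC hsA hsB hsC NA NB hNA hNB =>
    Emb3.linbox_of_linmat h n hn η hη M ρA ρB ρC (boxSupp_of_682 hA) (boxSupp_of_682 hB) hC
      sA sB sC hsA hsB hsC NA NB hNA hNB

theorem lam_eq (η N N' : ℝ) :
    Scal587.lam η 0 N N' = η * Real.log (1 + 1 / N) / Real.log (1 + 1 / N') := by
  simp [Scal587.lam, Scal587.bN]

/-- 136's `FINMAIN` gives `LINmat` -/
theorem linmat_of_finmain136 (h : FDefs136.FINMAIN) : Emb3.LINmat := by
  intro n _ η hη K A B hA hB NA NB hNA hNB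
  rw [lam_eq, lam_eq]
  exact h η NA NB n K hη.1 hη.2 hNA hNB A B hA hB


theorem linbox_of_finmain136 (h : FDefs136.FINMAIN) : Fext682.LINbox :=
  linbox_of_linmat (linmat_of_finmain136 h)


/-- everything downstream of the finite main theorem, given 118's output energy and continuity -/
theorem final (hfin : FDefs136.FINMAIN) (hE : Fext682.OutEnergy) (hC : Fext682.OutCont)
    (n : ℕ) (hn : 1 ≤ n) (η : ℝ)
    (hη : η ∈ Set.Icc (0 : ℝ) 1) (ρA ρB : FockState n) (hA : FiniteEnergy ρA) (hB : FiniteEnergy ρB)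
    (sA sB : ℝ) (hsA : HasEntropy ρA sA) (hsB : HasEntropy ρB sB) (tA tB : ℝ) (htA : 0 ≤ tA)
    (htB : 0 ≤ tB) (hgA : gBose tA = sA / n) (hgB : gBose tB = sB / n) :
    ∃ ρC : FockState n, IsBeamSplitterOutput η ρA ρB ρC ∧
      ∃ sC : ℝ, HasEntropy ρC sC ∧ gBose (η * tA + (1 - η) * tB) ≤ sC / n :=
  Wrap587.wrap (Fext682.outExists hE)
    (Fext682.lin_of_box hE hC (linbox_of_finmain136 hfin)) n hn η hη ρA ρB hA hB sA sB hsA hsB
    tA tB htA htB hgA hgB

end Crest.Agent.R331.Link915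
end

-- ▼ part R331/FRec_380
section

set_option autoImplicit false
set_option linter.unusedSectionVars false

/-!
Row 331, finite track: `FCUR`, `LGAP → LREC`, `LGAP → LENERGY → LENC` (Props of `FDefs2_136`).
-/

open Matrix Finset Filter Topology
open scoped ComplexOrder

namespace Crest.Agent.R331.FCur380

open Crest.Quantum Crest.MathPhysics.Bosonic
open Crest.Agent.R331.Fin7_380 (Diag)
open Crest.Agent.R331.Fin7_380.Diag (LR)
open Crest.Agent.R331.Fin8_628 (occ boxF toBx ext tot en uni LadLim uni_same uni_ne occ_mem mem_boxF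
  occ_toBx toBx_occ)
open Crest.Agent.R331.FDefs136 (Par outC outQ GQc formD mC GG KL mlog qf eb al succIn om formR formL
  bN mX epsK IsMin En EnC ent)

variable {n K : ℕ}



/-- mean of `c_j` in the output -/
theorem mC_eq {η : ℝ} (h0 : 0 < η) (h1 : η < 1) (j : Fin n)
    {A B : Matrix (FDefs136.Bx n K) (FDefs136.Bx n K) ℂ} (hA : IsDensity A) (hB : IsDensity B) :
    mC η j A B = (Real.sqrt η : ℂ) * mX j A + (Real.sqrt (1 - η) : ℂ) * mX j B := by
  obtain ⟨S, hS⟩ := FinW87.FW_holds η n K j h0 h1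
  have h2 := S.trace_out_c hA.2 hB.2
  have h3 : S.out A B = outC η A B := by
    unfold FCov76.BS.out FCov76.BS.Phi outC
    rw [hS.ι]
  unfold mC mX
  rw [← h3, ← hS.c, h2, hS.a, hS.b, hS.hA, hS.hB]

theorem outC_density {η : ℝ} (h0 : 0 < η) (h1 : η < 1) (hn : Nonempty (Fin n))
    {A B : Matrix (FDefs136.Bx n K) (FDefs136.Bx n K) ℂ} (hA : IsDensity A) (hB : IsDensity B) :
    IsDensity (outC η A B) := by
  obtain ⟨j⟩ := hn
  obtain ⟨S, hS⟩ := FinW87.FW_holds η n K j h0 h1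
  have h3 : S.out A B = outC η A B := by
    unfold FCov76.BS.out FCov76.BS.Phi outC
    rw [hS.ι]
  refine ⟨?_, ?_⟩
  · rw [← h3]; exact S.out_posSemidef hA.1 hB.1
  · rw [← h3, S.trace_out, hA.2, hB.2, one_mul]

theorem epsK_pos' (n K : ℕ) : 0 < epsK n K := by unfold epsK; positivity

theorem epsK_mul_le (n K : ℕ) :
    epsK n K * ((2 * K : ℕ) + 1 : ℝ) ^ (n + 1) ≤ 2 ^ (n + 1) * (1 / ((K : ℝ) + 1)) := by
  have hK : (1 : ℝ) ≤ (K : ℝ) + 1 := by
    have : (0 : ℝ) ≤ (K : ℝ) := Nat.cast_nonneg _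
    linarith
  have hK0 : (0 : ℝ) < (K : ℝ) + 1 := by linarith
  have h1 : ((2 * K : ℕ) + 1 : ℝ) ^ (n + 1) ≤ (2 * ((K : ℝ) + 1)) ^ (n + 1) := by
    apply pow_le_pow_left₀ (by positivity)
    push_cast; linarith
  calc epsK n K * ((2 * K : ℕ) + 1 : ℝ) ^ (n + 1)
      ≤ epsK n K * (2 * ((K : ℝ) + 1)) ^ (n + 1) :=
        mul_le_mul_of_nonneg_left h1 (epsK_pos' n K).le
    _ = 2 ^ (n + 1) * (1 / ((K : ℝ) + 1) ^ 3) := by
        unfold epsK
        rw [mul_pow, show n + 4 = (n + 1) + 3 by ring, pow_add ((K : ℝ) + 1) (n + 1) 3]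
        field_simp
    _ ≤ 2 ^ (n + 1) * (1 / ((K : ℝ) + 1)) := by
        apply mul_le_mul_of_nonneg_left _ (by positivity)
        apply div_le_div_of_nonneg_left zero_le_one hK0
        calc (K : ℝ) + 1 = ((K : ℝ) + 1) ^ 1 := (pow_one _).symm
          _ ≤ ((K : ℝ) + 1) ^ 3 := pow_le_pow_right₀ hK (by norm_num)

theorem formD_nonneg' {κ : Type*} [Fintype κ] [DecidableEq κ] {Q : Matrix κ κ ℂ} (hQ : Q.PosDef)
    (b : ℝ) (Y : Matrix κ κ ℂ) : 0 ≤ formD b Q Y := by
  unfold formD qf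
  rw [dif_pos hQ.isHermitian]
  refine Finset.sum_nonneg fun i _ => Finset.sum_nonneg fun j _ => ?_
  have h1 := (hQ.eigenvalues_pos i).le
  have h2 := (hQ.eigenvalues_pos j).le
  positivity

/-- the limit along any sequence of minimisers -/
theorem seq_lim (hG : FDefs136.LGAP) (hE : FDefs136.LENERGY) (p : Par) (n : ℕ)
    (hn : Nonempty (Fin n)) (K : ℕ → ℕ) (hK : ∀ a, a ≤ K a)
    (A B : ∀ a, Matrix (FDefs136.Bx n (K a)) (FDefs136.Bx n (K a)) ℂ)
    (hmin : ∀ a, IsMin p (epsK n (K a)) (A a) (B a)) :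
    LadLim atTop (Gibbs158.qN p.NC)
        (fun a => ext (n := n) (m := 2 * K a) (outC p.η (A a) (B a))) ∧
      ∀ δ : ℝ, 0 < δ → ∀ᶠ a in atTop,
        en (n := n) (m := 2 * K a) (outC p.η (A a) (B a)) ≤ n * p.NC + δ := by
  have hKt : Tendsto K atTop atTop := tendsto_atTop_mono hK tendsto_id
  have hC : ∀ a, IsDensity (outC p.η (A a) (B a)) := fun a =>
    outC_density p.η_pos p.η_lt hn (hmin a).dA (hmin a).dB
  obtain ⟨E0, hE0⟩ := hE p n
  have hm : ∀ j, Tendsto (fun a => mC p.η j (A a) (B a)) atTop (𝓝 0) := by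
    intro j
    rw [Metric.tendsto_atTop]
    intro ε hε
    obtain ⟨K0, hK0⟩ := hG p n j (ε / 4) (by positivity)
    refine ⟨K0, fun a ha => ?_⟩
    obtain ⟨-, h1, h2⟩ := hK0 (K a) (ha.trans (hK a)) _ _ (hmin a)
    rw [dist_zero_right, mC_eq p.η_pos p.η_lt j (hmin a).dA (hmin a).dB]
    have s1 : Real.sqrt p.η ≤ 1 := by
      exact Real.sqrt_le_one.2 p.η_lt.le
    have s2 : Real.sqrt (1 - p.η) ≤ 1 := by
      exact Real.sqrt_le_one.2 (by linarith [p.η_pos])
    calc ‖(Real.sqrt p.η : ℂ) * mX j (A a) + (Real.sqrt (1 - p.η) : ℂ) * mX j (B a)‖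
        ≤ ‖(Real.sqrt p.η : ℂ) * mX j (A a)‖ + ‖(Real.sqrt (1 - p.η) : ℂ) * mX j (B a)‖ :=
          norm_add_le _ _
      _ ≤ 1 * (ε / 4) + 1 * (ε / 4) := by
          rw [norm_mul, norm_mul, Complex.norm_real, Complex.norm_real, Real.norm_eq_abs,
            Real.norm_eq_abs, abs_of_nonneg (Real.sqrt_nonneg _),
            abs_of_nonneg (Real.sqrt_nonneg _)]
          gcongr
      _ < ε := by linarith
  have hD : ∀ j, Tendsto (fun a => formD p.bC (outQ p.η (epsK n (K a)) (A a) (B a))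
      (GQc p (epsK n (K a)) j (A a) (B a))) atTop (𝓝 0) := by
    intro j
    rw [Metric.tendsto_atTop]
    intro ε hε
    obtain ⟨K0, hK0⟩ := hG p n j (ε / 2) (by positivity)
    refine ⟨K0, fun a ha => ?_⟩
    obtain ⟨h1, -, -⟩ := hK0 (K a) (ha.trans (hK a)) _ _ (hmin a)
    have h2 := formD_nonneg' (outQ_posDef (epsK_pos' n (K a)) (hC a).1) p.bC
      (GQc p (epsK n (K a)) j (A a) (B a))
    rw [dist_zero_right, Real.norm_eq_abs, abs_of_nonneg h2]
    linarith
  have hen : ∀ a, en (n := n) (m := 2 * K a) (outC p.η (A a) (B a)) ≤ E0 := by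
    intro a
    obtain ⟨-, -, h3⟩ := hE0 (K a) _ _ (hmin a)
    refine le_trans (le_of_eq ?_) h3
    unfold EnC en FDefs136.num
    rw [Matrix.trace, Complex.re_sum]
    refine Finset.sum_congr rfl fun k _ => ?_
    rw [Matrix.diag_apply, Matrix.mul_diagonal, mul_comm, ← Complex.ofReal_natCast,
      Complex.re_mul_ofReal]
    rfl
  have hε0 : Tendsto (fun a => epsK n (K a) * ((2 * K a : ℕ) + 1 : ℝ) ^ (n + 1)) atTop (𝓝 0) := by
    refine squeeze_zero (fun a => ?_) (fun a => epsK_mul_le n (K a)) ?_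
    · have := (epsK_pos' n (K a)).le
      positivity
    · have h1 : Tendsto (fun a => (1 : ℝ) / ((K a : ℝ) + 1)) atTop (𝓝 0) :=
        tendsto_one_div_add_atTop_nhds_zero_nat.comp hKt
      simpa using h1.const_mul ((2 : ℝ) ^ (n + 1))
  exact fcur p n hKt A B (fun a => epsK n (K a)) (fun a => epsK_pos' n (K a)) hε0 hC hm hD hen

theorem en_eq_EnC (p : Par) (A B : Matrix (FDefs136.Bx n K) (FDefs136.Bx n K) ℂ) :
    en (n := n) (m := 2 * K) (outC p.η A B) = EnC p.η A B := by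
  unfold EnC en FDefs136.num
  rw [Matrix.trace, Complex.re_sum]
  refine Finset.sum_congr rfl fun k _ => ?_
  rw [Matrix.diag_apply, Matrix.mul_diagonal, mul_comm, ← Complex.ofReal_natCast,
    Complex.re_mul_ofReal]
  rfl

/-- **LENC** -/
theorem LENC_of (hG : FDefs136.LGAP) (hE : FDefs136.LENERGY) : FDefs136.LENC := by
  intro p n δ hδ
  rcases isEmpty_or_nonempty (Fin n) with hn | hn
  · refine ⟨0, fun K _ A B _ => ?_⟩
    rw [← en_eq_EnC]
    have h0 : en (n := n) (m := 2 * K) (outC p.η A B) = 0 := by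
      unfold en tot
      refine Finset.sum_eq_zero fun k _ => ?_
      rw [Finset.univ_eq_empty, Finset.sum_empty, Nat.cast_zero, zero_mul]
    rw [h0]
    have hn0 : n = 0 := by
      by_contra h
      exact hn.false ⟨0, Nat.pos_of_ne_zero h⟩
    subst hn0
    simp [hδ.le]
  · by_contra hcon
    push Not at hcon
    choose K hK A B hmin hbad using hcon
    obtain ⟨-, h2⟩ := seq_lim hG hE p n hn K hK A B hmin
    obtain ⟨a, ha⟩ := (h2 δ hδ).exists
    have h3 := hbad a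
    rw [← en_eq_EnC] at h3
    linarith

theorem ent_eq_ext {M : ℕ} (X : Matrix (FDefs136.Bx n M) (FDefs136.Bx n M) ℂ) (k l : Fin n → ℕ) :
    ent X k l = ext (n := n) (m := M) X k l := by
  unfold ent Fin8_628.ext
  by_cases h : (∀ i, k i < M + 1) ∧ (∀ i, l i < M + 1)
  · have h' : k ∈ boxF n M ∧ l ∈ boxF n M :=
      ⟨mem_boxF.2 fun i => Nat.lt_succ_iff.1 (h.1 i), mem_boxF.2 fun i => Nat.lt_succ_iff.1 (h.2 i)⟩
    rw [dif_pos h, dif_pos h']
    rfl
  · have h' : ¬ (k ∈ boxF n M ∧ l ∈ boxF n M) := fun h' => h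
      ⟨fun i => Nat.lt_succ_iff.2 (mem_boxF.1 h'.1 i), fun i => Nat.lt_succ_iff.2 (mem_boxF.1 h'.2 i)⟩
    rw [dif_neg h, dif_neg h']

theorem update_add (k : Fin n → ℕ) (j : Fin n) :
    Function.update k j (k j + 1) = (k : Occ n) + uni j := by
  funext i
  by_cases hi : i = j
  · subst hi
    rw [Function.update_self]
    change k i + 1 = k i + uni i i
    rw [uni_same]
  · rw [Function.update_of_ne hi]
    change k i = k i + uni j i
    rw [uni_ne hi, add_zero]

theorem update_sub (k : Fin n → ℕ) (j : Fin n) :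
    Function.update k j (k j - 1) = (k : Occ n) - uni j := by
  funext i
  by_cases hi : i = j
  · subst hi
    rw [Function.update_self]
    change k i - 1 = k i - uni i i
    rw [uni_same]
  · rw [Function.update_of_ne hi]
    change k i = k i - uni j i
    rw [uni_ne hi, Nat.sub_zero]

/-- **LREC** -/
theorem LREC_of (hG : FDefs136.LGAP) (hE : FDefs136.LENERGY) : FDefs136.LREC := by
  intro p n j k l δ hδ
  have hn : Nonempty (Fin n) := ⟨j⟩
  by_contra hcon
  push Not at hcon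
  choose K hK A B hmin hbad using hcon
  obtain ⟨h1, -⟩ := seq_lim hG hE p n hn K hK A B hmin
  have h2 := h1 j k l
  rw [Metric.tendsto_atTop] at h2
  obtain ⟨a, ha⟩ := h2 δ hδ
  have h3 := ha a le_rfl
  have h4 := hbad a
  rw [dist_zero_right] at h3
  rw [ent_eq_ext, ent_eq_ext, update_add, update_sub] at h4
  refine absurd h3 (not_lt.2 (le_of_lt (lt_of_lt_of_eq h4 ?_)))
  congr 2
  unfold Gibbs158.qN
  push_cast
  ring

end Crest.Agent.R331.FCur380
end

-- ▼ part R331/LEn_380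
section

set_option autoImplicit false
set_option linter.unusedSectionVars false

/-! Row 331, finite track: `FENERGY → FENSUM → LENERGY` (Props of `FDefs2_136`). -/

open Matrix Finset Filter Topology
open scoped ComplexOrder

namespace Crest.Agent.R331.FCur380

open Crest.Quantum Crest.MathPhysics.Bosonic
open Crest.Agent.R331.FDefs136 (Par outC outQ mX epsK IsMin En EnC)

variable {n K : ℕ}

theorem En_eq_sum (A : Matrix (FDefs136.Bx n K) (FDefs136.Bx n K) ℂ) :
    En A = ∑ j, enj (n := n) (m := K) A j := by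
  rw [← en_eq]
  unfold En Fin8_628.en FDefs136.num
  rw [Matrix.trace, Complex.re_sum]
  refine Finset.sum_congr rfl fun k _ => ?_
  rw [Matrix.diag_apply, Matrix.mul_diagonal, mul_comm, ← Complex.ofReal_natCast,
    Complex.re_ofReal_mul]
  rfl

/-- `|⟨a_j⟩|² ≤ ⟨a_j† a_j⟩` -/
theorem mX_sq_le {A : Matrix (FDefs136.Bx n K) (FDefs136.Bx n K) ℂ} (hA : IsDensity A)
    (j : Fin n) : ‖mX j A‖ ^ 2 ≤ enj (n := n) (m := K) A j := by
  have h1 := FCov76.rcs hA.1 (1 : Matrix (FDefs136.Bx n K) (FDefs136.Bx n K) ℂ) (FDefs136.ann n K j)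
  rw [Matrix.conjTranspose_one, Matrix.one_mul, Matrix.one_mul, Matrix.mul_one, hA.2,
    Complex.one_re, one_mul, ann_eq, trace_annH_ann] at h1
  unfold mX
  rw [ann_eq]
  exact h1

theorem sum_mX_le {A : Matrix (FDefs136.Bx n K) (FDefs136.Bx n K) ℂ} (hA : IsDensity A) :
    ∑ j, ‖mX j A‖ ^ 2 ≤ En A := by
  rw [En_eq_sum]
  exact Finset.sum_le_sum fun j _ => mX_sq_le hA j

theorem En_nonneg {A : Matrix (FDefs136.Bx n K) (FDefs136.Bx n K) ℂ} (hA : IsDensity A) :
    0 ≤ En A := by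
  rw [En_eq_sum]
  exact Finset.sum_nonneg fun j _ => enj_nonneg hA.1 j

/-- `E_C ≤ 2 (E_A + E_B)` -/
theorem EnC_le (hS : FDefs136.FENSUM) {η : ℝ} (h0 : 0 < η) (h1 : η < 1)
    {A B : Matrix (FDefs136.Bx n K) (FDefs136.Bx n K) ℂ} (hA : IsDensity A) (hB : IsDensity B) :
    EnC η A B ≤ 2 * (En A + En B) := by
  rw [← hS η n K h0 h1 A B hA hB]
  have s1 : Real.sqrt η ≤ 1 := Real.sqrt_le_one.2 h1.le
  have s2 : Real.sqrt (1 - η) ≤ 1 := Real.sqrt_le_one.2 (by linarith)
  have s3 := Real.sqrt_nonneg η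
  have s4 := Real.sqrt_nonneg (1 - η)
  have hEA := En_nonneg hA
  have hEB := En_nonneg hB
  have h2 : |∑ j, ((starRingEnd ℂ) (mX j A) * mX j B).re| ≤ (En A + En B) / 2 := by
    refine (Finset.abs_sum_le_sum_abs _ _).trans ?_
    calc ∑ j, |((starRingEnd ℂ) (mX j A) * mX j B).re|
        ≤ ∑ j, (‖mX j A‖ ^ 2 + ‖mX j B‖ ^ 2) / 2 := by
          refine Finset.sum_le_sum fun j _ => ?_
          refine (Complex.abs_re_le_norm _).trans ?_
          rw [norm_mul, RCLike.norm_conj]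
          nlinarith [sq_nonneg (‖mX j A‖ - ‖mX j B‖)]
      _ = (∑ j, ‖mX j A‖ ^ 2 + ∑ j, ‖mX j B‖ ^ 2) / 2 := by
          rw [← Finset.sum_div, Finset.sum_add_distrib]
      _ ≤ _ := by
          have := sum_mX_le hA
          have := sum_mX_le hB
          linarith
  have h3 : 2 * Real.sqrt η * Real.sqrt (1 - η) * ∑ j, ((starRingEnd ℂ) (mX j A) * mX j B).re ≤
      2 * ((En A + En B) / 2) := by
    have h4 : Real.sqrt η * Real.sqrt (1 - η) ≤ 1 := by nlinarith
    have h5 : 0 ≤ Real.sqrt η * Real.sqrt (1 - η) := mul_nonneg s3 s4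
    have h6 := (abs_le.1 h2).2
    have h7 : 0 ≤ (En A + En B) / 2 := by linarith
    calc 2 * Real.sqrt η * Real.sqrt (1 - η) * ∑ j, ((starRingEnd ℂ) (mX j A) * mX j B).re
        = 2 * ((Real.sqrt η * Real.sqrt (1 - η)) *
          ∑ j, ((starRingEnd ℂ) (mX j A) * mX j B).re) := by ring
      _ ≤ 2 * ((Real.sqrt η * Real.sqrt (1 - η)) * ((En A + En B) / 2)) := by
          apply mul_le_mul_of_nonneg_left _ (by norm_num)
          exact mul_le_mul_of_nonneg_left h6 h5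
      _ ≤ 2 * (1 * ((En A + En B) / 2)) := by
          apply mul_le_mul_of_nonneg_left _ (by norm_num)
          exact mul_le_mul_of_nonneg_right h4 h7
      _ = _ := by ring
  nlinarith

/-- **LENERGY** -/
theorem LENERGY_of (hF : FDefs136.FENERGY) (hS : FDefs136.FENSUM) : FDefs136.LENERGY := by
  intro p n
  obtain ⟨E0, hE0⟩ := hF p n
  refine ⟨4 * |E0|, fun K A B hmin => ?_⟩
  obtain ⟨h1, h2⟩ := hE0 K (epsK n K) (epsK_pos' n K) A B hmin
  have h3 := EnC_le hS p.η_pos p.η_lt hmin.dA hmin.dB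
  have h4 := le_abs_self E0
  have h5 := abs_nonneg E0
  refine ⟨by linarith, by linarith, by linarith⟩

end Crest.Agent.R331.FCur380
end

-- ▼ part R331/FLgap_136
section

/-!
Row 331, FIN track: `FGAP → FERR → FEDGE → FENERGY → LGAP` and `FENERGY → FENSUM → LENERGY`.
-/

set_option autoImplicit false

namespace Crest.Agent.R331.FDefs136

open Matrix Crest.Quantum Crest.MathPhysics.Bosonic Filter Topology
open scoped Kronecker ComplexOrder BigOperators

noncomputable section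

/-- `y_K = (K+1)^{1/8}` -/
def yK (K : ℕ) : ℝ := ((K : ℝ) + 1) ^ ((1 : ℝ) / 8)

lemma yK_one_le (K : ℕ) : 1 ≤ yK K := by
  unfold yK
  apply Real.one_le_rpow _ (by norm_num)
  have : (0 : ℝ) ≤ K := Nat.cast_nonneg K
  linarith

lemma yK_pow (K : ℕ) : yK K ^ 8 = (K : ℝ) + 1 := by
  unfold yK
  have h : (0 : ℝ) ≤ (K : ℝ) + 1 := by positivity
  rw [← Real.rpow_natCast, ← Real.rpow_mul h]
  norm_num

lemma sqrt_yK (K : ℕ) : Real.sqrt ((K : ℝ) + 1) = yK K ^ 4 := by
  rw [← yK_pow, show yK K ^ 8 = (yK K ^ 4) ^ 2 by ring]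
  exact Real.sqrt_sq (by have := yK_one_le K; positivity)

lemma log_yK (K : ℕ) : Real.log ((K : ℝ) + 1) ≤ 8 * yK K := by
  rw [← yK_pow, Real.log_pow]
  have h := Real.log_le_sub_one_of_pos (show 0 < yK K by have := yK_one_le K; linarith)
  push_cast
  linarith

lemma yK_tendsto : Tendsto yK atTop atTop := by
  have h : Tendsto (fun x : ℝ => x ^ ((1 : ℝ) / 8)) atTop atTop :=
    tendsto_rpow_atTop (by norm_num)
  exact h.comp (tendsto_atTop_add_const_right _ _ tendsto_natCast_atTop_atTop)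

lemma yK_inv_tendsto (C : ℝ) : Tendsto (fun K => C * (1 / yK K)) atTop (𝓝 0) := by
  have h : Tendsto (fun K => (yK K)⁻¹) atTop (𝓝 0) := tendsto_inv_atTop_zero.comp yK_tendsto
  have := h.const_mul C
  simpa [one_div] using this

lemma kap_yK (n K : ℕ) : kap (epsK n K) + 1 ≤ (8 * n + 33) * yK K := by
  rw [kap_epsK]
  have h1 := log_yK K
  have h2 := yK_one_le K
  have h3 : ((n + 4 : ℕ) : ℝ) * Real.log ((K : ℝ) + 1) ≤ ((n + 4 : ℕ) : ℝ) * (8 * yK K) :=
    mul_le_mul_of_nonneg_left h1 (by positivity)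
  push_cast at h3 ⊢
  nlinarith

lemma log2_yK (K : ℕ) : Real.log (2 * K + 2) ≤ 9 * yK K := by
  have h0 : (0 : ℝ) < (K : ℝ) + 1 := by positivity
  have e : (2 * (K : ℝ) + 2) = 2 * ((K : ℝ) + 1) := by ring
  rw [e, Real.log_mul (by norm_num) h0.ne']
  have h1 := log_yK K
  have h2 := yK_one_le K
  have h3 : Real.log 2 ≤ 1 := by
    have := Real.log_le_sub_one_of_pos (show (0 : ℝ) < 2 by norm_num)
    linarith
  linarith

/-- the edge rate `s_K` -/
def sK (c : ℝ) (n K : ℕ) : ℝ := c * (kap (epsK n K) + n * Real.log (2 * K + 2) + 1) / K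

lemma sK_bound {c : ℝ} (hc : 0 < c) (n : ℕ) {K : ℕ} (hK : 1 ≤ K) :
    0 ≤ sK c n K ∧ sK c n K ≤ 2 * c * (17 * n + 33) * yK K / yK K ^ 8 := by
  have hK' : (1 : ℝ) ≤ K := by exact_mod_cast hK
  have hy := yK_one_le K
  have hk0 := kap_epsK_nonneg n K
  have hl0 : 0 ≤ Real.log (2 * (K : ℝ) + 2) := Real.log_nonneg (by linarith)
  have hn0 : (0 : ℝ) ≤ n := Nat.cast_nonneg n
  constructor
  · unfold sK; positivity
  · unfold sK
    rw [div_le_div_iff₀ (by linarith) (by positivity)]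
    have h1 : kap (epsK n K) + n * Real.log (2 * K + 2) + 1 ≤ (17 * n + 33) * yK K := by
      have a := kap_yK n K
      have b := mul_le_mul_of_nonneg_left (log2_yK K) hn0
      nlinarith
    have h2 : yK K ^ 8 ≤ 2 * K := by rw [yK_pow]; linarith
    calc c * (kap (epsK n K) + n * Real.log (2 * K + 2) + 1) * yK K ^ 8
        ≤ c * ((17 * n + 33) * yK K) * (2 * K) := by
          apply mul_le_mul (mul_le_mul_of_nonneg_left h1 hc.le) h2 (by positivity) (by positivity)
      _ = 2 * c * (17 * n + 33) * yK K * K := by ring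

/-- `(κ+1) s √(K+1) ≤ C / y` -/
lemma rate1 {c : ℝ} (hc : 0 < c) (n : ℕ) {K : ℕ} (hK : 1 ≤ K) :
    (kap (epsK n K) + 1) * (sK c n K * Real.sqrt ((K : ℝ) + 1))
      ≤ (8 * n + 33) * (2 * c * (17 * n + 33)) * (1 / yK K) := by
  have hy := yK_one_le K
  have hy0 : 0 < yK K := by linarith
  obtain ⟨hs0, hs⟩ := sK_bound hc n hK
  have hk := kap_yK n K
  have hk0 := kap_epsK_nonneg n K
  rw [sqrt_yK]
  have hn0 : (0 : ℝ) ≤ n := Nat.cast_nonneg n
  calc (kap (epsK n K) + 1) * (sK c n K * yK K ^ 4)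
      ≤ ((8 * n + 33) * yK K) * ((2 * c * (17 * n + 33) * yK K / yK K ^ 8) * yK K ^ 4) := by
        apply mul_le_mul hk _ (by positivity) (by positivity)
        exact mul_le_mul_of_nonneg_right hs (by positivity)
    _ = (8 * n + 33) * (2 * c * (17 * n + 33)) * (1 / yK K ^ 2) := by
        field_simp
    _ ≤ (8 * n + 33) * (2 * c * (17 * n + 33)) * (1 / yK K) := by
        apply mul_le_mul_of_nonneg_left _ (by positivity)
        apply one_div_le_one_div_of_le hy0
        nlinarith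

/-- `ε (κ+1) (2K+1)^{n+1} ≤ C / y` -/
lemma rate2 (n K : ℕ) :
    epsK n K * (kap (epsK n K) + 1) * ((2 * K + 1 : ℕ) : ℝ) ^ (n + 1)
      ≤ (8 * n + 33) * 2 ^ (n + 1) * (1 / yK K) := by
  have hy := yK_one_le K
  have hy0 : 0 < yK K := by linarith
  have hk := kap_yK n K
  have hk0 := kap_epsK_nonneg n K
  have hn0 : (0 : ℝ) ≤ n := Nat.cast_nonneg n
  have hK0 : (0 : ℝ) < (K : ℝ) + 1 := by positivity
  have h1 : ((2 * K + 1 : ℕ) : ℝ) ^ (n + 1) ≤ 2 ^ (n + 1) * ((K : ℝ) + 1) ^ (n + 1) := by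
    rw [← mul_pow]
    apply pow_le_pow_left₀ (by positivity)
    push_cast; linarith
  calc epsK n K * (kap (epsK n K) + 1) * ((2 * K + 1 : ℕ) : ℝ) ^ (n + 1)
      ≤ epsK n K * ((8 * n + 33) * yK K) * (2 ^ (n + 1) * ((K : ℝ) + 1) ^ (n + 1)) := by
        apply mul_le_mul _ h1 (by positivity)
        · have := epsK_pos n K; positivity
        · exact mul_le_mul_of_nonneg_left hk (epsK_pos n K).le
    _ = (8 * n + 33) * 2 ^ (n + 1) * (yK K / ((K : ℝ) + 1) ^ 3) := by
        unfold epsK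
        rw [show n + 4 = (n + 1) + 3 by ring, pow_add _ (n + 1) 3]
        field_simp
    _ ≤ (8 * n + 33) * 2 ^ (n + 1) * (1 / yK K) := by
        apply mul_le_mul_of_nonneg_left _ (by positivity)
        rw [← yK_pow, div_le_div_iff₀ (by positivity) hy0]
        have : yK K * yK K ≤ (yK K ^ 8) ^ 3 := by
          have : yK K ^ 2 ≤ yK K ^ 24 := pow_le_pow_right₀ hy (by norm_num)
          calc yK K * yK K = yK K ^ 2 := by ring
            _ ≤ yK K ^ 24 := this
            _ = (yK K ^ 8) ^ 3 := by ring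
        linarith

lemma Tp_nonneg {n K : ℕ} (j : Fin n) {A : Matrix (Bx n K) (Bx n K) ℂ} (hA : A.PosSemidef) :
    0 ≤ Tp j A := by
  unfold Tp top
  have h : (A * Matrix.diagonal fun k : Bx n K => if (k j : ℕ) = K then (1 : ℂ) else 0).trace
      = ∑ k : Bx n K, A k k * (if (k j : ℕ) = K then (1 : ℂ) else 0) := by
    simp [Matrix.trace, Matrix.mul_diagonal]
  rw [h, Complex.re_sum]
  apply Finset.sum_nonneg
  intro k _
  have hk : (0 : ℝ) ≤ (A k k).re := (Complex.le_def.1 (hA.diag_nonneg (i := k))).1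
  split_ifs
  · simpa using hk
  · simp


theorem lgap_of (hG : FGAP) (hE : FERR) (hEd : FEDGE) (hEn : FENERGY) : LGAP := by
  intro p n j δ hδ
  obtain ⟨cE, hcE, hE⟩ := hE p
  obtain ⟨cD, hcD, hEd⟩ := hEd p
  obtain ⟨E0, hEn⟩ := hEn p n
  set E1 := max E0 0 with hE1
  have hE10 : 0 ≤ E1 := le_max_right _ _
  have hbC : 0 < p.bC := by
    apply bN_pos'
    have h1 := p.η_pos; have h2 := p.η_lt; have h3 := p.NA_pos; have h4 := p.NB_pos
    unfold Par.NC
    have : 0 < 1 - p.η := by linarith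
    positivity
  have hμ := p.μ_pos
  have hβ : 0 < p.β := by unfold Par.β; linarith
  -- constants
  set C1 : ℝ := (8 * n + 33) * (2 * cD * (17 * n + 33)) with hC1
  set C2 : ℝ := (8 * n + 33) * 2 ^ (n + 1) with hC2
  have hn0 : (0 : ℝ) ≤ n := Nat.cast_nonneg n
  have hC1p : 0 ≤ C1 := by positivity
  have hC2p : 0 ≤ C2 := by positivity
  set C3 : ℝ := (p.bC / p.μ) * (p.β * (cE * (C1 * (Real.sqrt 2 * Real.sqrt (1 + E1 + E1)) + C2)))
    with hC3
  have ev1 := (yK_inv_tendsto C3).eventually (gt_mem_nhds hδ)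
  have ev2 := (yK_inv_tendsto (cD * C1)).eventually (gt_mem_nhds hδ)
  obtain ⟨K1, hK1⟩ := eventually_atTop.1 (ev1.and ev2)
  obtain ⟨K2, hK2⟩ := exists_nat_ge (2 * (E1 + E1 + 1))
  refine ⟨max K1 (max K2 1), fun K hK A B hmin => ?_⟩
  have hKK1 : K1 ≤ K := (le_max_left _ _).trans hK
  have hKK2 : K2 ≤ K := ((le_max_left _ _).trans (le_max_right _ _)).trans hK
  have hKp : 1 ≤ K := ((le_max_right _ _).trans (le_max_right _ _)).trans hK
  obtain ⟨hr1, hr2⟩ := hK1 K hKK1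
  have hε := epsK_pos n K
  have hε2 := epsK_le n K hKp
  obtain ⟨hEA, hEB⟩ := hEn K (epsK n K) hε A B hmin
  have hEA' : En A ≤ E1 := hEA.trans (le_max_left _ _)
  have hEB' : En B ≤ E1 := hEB.trans (le_max_left _ _)
  have hcond : 2 * (En A + En B + 1) ≤ K := by
    have : (K2 : ℝ) ≤ K := by exact_mod_cast hKK2
    linarith
  obtain ⟨hTA, hTB, hmA, hmB⟩ := hEd n K j (epsK n K) hε hε2 A B hmin hcond
  obtain ⟨hs0, hs⟩ := sK_bound hcD n hKp
  have hTA' : Tp j A ≤ sK cD n K ^ 2 := hTA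
  have hTB' : Tp j B ≤ sK cD n K ^ 2 := hTB
  have hTA0 := Tp_nonneg j hmin.dA.1
  have hTB0 := Tp_nonneg j hmin.dB.1
  have hK0 : (0 : ℝ) ≤ (K : ℝ) + 1 := by positivity
  have hk0 := kap_epsK_nonneg n K
  have hr := rate1 hcD n hKp
  have hrr := rate2 n K
  have hy0 : 0 < 1 / yK K := by
    have := yK_one_le K
    positivity
  refine ⟨?_, ?_, ?_⟩
  · -- the slack
    have h1 := hG p n K (epsK n K) j hε A B hmin
    have h2 := hE n K j (epsK n K) hε hε2 A B hmin.dA hmin.dB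
    have h3 : Real.sqrt ((K + 1) * (Tp j A + Tp j B))
        ≤ sK cD n K * Real.sqrt ((K : ℝ) + 1) * Real.sqrt 2 := by
      apply Real.sqrt_le_iff.2
      refine ⟨by positivity, ?_⟩
      rw [mul_pow, mul_pow, Real.sq_sqrt hK0, Real.sq_sqrt (by norm_num : (0 : ℝ) ≤ 2)]
      have : Tp j A + Tp j B ≤ 2 * sK cD n K ^ 2 := by linarith
      calc ((K : ℝ) + 1) * (Tp j A + Tp j B) ≤ ((K : ℝ) + 1) * (2 * sK cD n K ^ 2) :=
            mul_le_mul_of_nonneg_left this hK0
        _ = sK cD n K ^ 2 * ((K : ℝ) + 1) * 2 := by ring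
    have h4 : Real.sqrt (1 + En A + En B) ≤ Real.sqrt (1 + E1 + E1) :=
      Real.sqrt_le_sqrt (by linarith)
    have h5 : (kap (epsK n K) + 1) * Real.sqrt ((K + 1) * (Tp j A + Tp j B))
          * Real.sqrt (1 + En A + En B)
        ≤ C1 * (Real.sqrt 2 * Real.sqrt (1 + E1 + E1)) * (1 / yK K) := by
      calc (kap (epsK n K) + 1) * Real.sqrt ((K + 1) * (Tp j A + Tp j B))
            * Real.sqrt (1 + En A + En B)
          ≤ (kap (epsK n K) + 1) * (sK cD n K * Real.sqrt ((K : ℝ) + 1) * Real.sqrt 2)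
            * Real.sqrt (1 + E1 + E1) := by
            apply mul_le_mul _ h4 (Real.sqrt_nonneg _) (by positivity)
            exact mul_le_mul_of_nonneg_left h3 (by linarith)
        _ = ((kap (epsK n K) + 1) * (sK cD n K * Real.sqrt ((K : ℝ) + 1)))
            * (Real.sqrt 2 * Real.sqrt (1 + E1 + E1)) := by ring
        _ ≤ (C1 * (1 / yK K)) * (Real.sqrt 2 * Real.sqrt (1 + E1 + E1)) := by
            apply mul_le_mul_of_nonneg_right hr (by positivity)
        _ = C1 * (Real.sqrt 2 * Real.sqrt (1 + E1 + E1)) * (1 / yK K) := by ring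
    have h6 : gapErr p (epsK n K) j A B
        ≤ cE * (C1 * (Real.sqrt 2 * Real.sqrt (1 + E1 + E1)) + C2) * (1 / yK K) := by
      refine h2.trans ?_
      calc cE * ((kap (epsK n K) + 1) * Real.sqrt ((K + 1) * (Tp j A + Tp j B))
              * Real.sqrt (1 + En A + En B)
            + epsK n K * (kap (epsK n K) + 1) * ((2 * K + 1 : ℕ) : ℝ) ^ (n + 1))
          ≤ cE * (C1 * (Real.sqrt 2 * Real.sqrt (1 + E1 + E1)) * (1 / yK K)
            + C2 * (1 / yK K)) := by
            apply mul_le_mul_of_nonneg_left _ hcE.le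
            exact add_le_add h5 hrr
        _ = _ := by ring
    have h7 : formD p.bC (outQ p.η (epsK n K) A B) (GQc p (epsK n K) j A B)
        ≤ C3 * (1 / yK K) := by
      have h8 := h1.trans (mul_le_mul_of_nonneg_left h6 hβ.le)
      have h9 := mul_le_mul_of_nonneg_left h8 (show 0 ≤ p.bC / p.μ by positivity)
      have e1 : p.bC / p.μ * (p.μ / p.bC * formD p.bC (outQ p.η (epsK n K) A B)
          (GQc p (epsK n K) j A B)) = formD p.bC (outQ p.η (epsK n K) A B)
          (GQc p (epsK n K) j A B) := by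
        field_simp
      rw [e1] at h9
      refine h9.trans (le_of_eq ?_)
      rw [hC3]; ring
    exact h7.trans hr1.le
  · have h3 : Real.sqrt ((K + 1) * Tp j A) ≤ sK cD n K * Real.sqrt ((K : ℝ) + 1) := by
      apply Real.sqrt_le_iff.2
      refine ⟨by positivity, ?_⟩
      rw [mul_pow, Real.sq_sqrt hK0]
      calc ((K : ℝ) + 1) * Tp j A ≤ ((K : ℝ) + 1) * sK cD n K ^ 2 :=
            mul_le_mul_of_nonneg_left hTA' hK0
        _ = sK cD n K ^ 2 * ((K : ℝ) + 1) := by ring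
    calc ‖mX j A‖ ≤ cD * kap (epsK n K) * Real.sqrt ((K + 1) * Tp j A) := hmA
      _ ≤ cD * (kap (epsK n K) + 1) * (sK cD n K * Real.sqrt ((K : ℝ) + 1)) := by
          apply mul_le_mul _ h3 (Real.sqrt_nonneg _) (by positivity)
          exact mul_le_mul_of_nonneg_left (by linarith) hcD.le
      _ = cD * ((kap (epsK n K) + 1) * (sK cD n K * Real.sqrt ((K : ℝ) + 1))) := by ring
      _ ≤ cD * (C1 * (1 / yK K)) := mul_le_mul_of_nonneg_left hr hcD.le
      _ = cD * C1 * (1 / yK K) := by ring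
      _ ≤ δ := hr2.le
  · have h3 : Real.sqrt ((K + 1) * Tp j B) ≤ sK cD n K * Real.sqrt ((K : ℝ) + 1) := by
      apply Real.sqrt_le_iff.2
      refine ⟨by positivity, ?_⟩
      rw [mul_pow, Real.sq_sqrt hK0]
      calc ((K : ℝ) + 1) * Tp j B ≤ ((K : ℝ) + 1) * sK cD n K ^ 2 :=
            mul_le_mul_of_nonneg_left hTB' hK0
        _ = sK cD n K ^ 2 * ((K : ℝ) + 1) := by ring
    calc ‖mX j B‖ ≤ cD * kap (epsK n K) * Real.sqrt ((K + 1) * Tp j B) := hmB
      _ ≤ cD * (kap (epsK n K) + 1) * (sK cD n K * Real.sqrt ((K : ℝ) + 1)) := by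
          apply mul_le_mul _ h3 (Real.sqrt_nonneg _) (by positivity)
          exact mul_le_mul_of_nonneg_left (by linarith) hcD.le
      _ = cD * ((kap (epsK n K) + 1) * (sK cD n K * Real.sqrt ((K : ℝ) + 1))) := by ring
      _ ≤ cD * (C1 * (1 / yK K)) := mul_le_mul_of_nonneg_left hr hcD.le
      _ = cD * C1 * (1 / yK K) := by ring
      _ ≤ δ := hr2.le

end

end Crest.Agent.R331.FDefs136
end

-- ▼ part R331/Phi_712
section

/-! # Row 331 (EPnI): superadditivity of the Dirichlet means `Φ(β; x)` along a linear map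
(elementary replacement of the Pick-function argument; recursion of helper776).

Everything is diagonal: `g i c` (resp. `h i s`) are four positive weights on a finite index set, `T`
is an arbitrary linear map.  If `T` is contractive for the four weighted norms, it is contractive for
the weights `Φ β (g · c)`. -/

set_option autoImplicit false

open Finset Filter Topology

namespace Crest.Agent.R331.Phi712

/-- `β + e_i` -/
def inc (β : Fin 4 → ℕ) (i : Fin 4) : Fin 4 → ℕ := Function.update β i (β i + 1)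

/-- `|β|` -/
def tot (β : Fin 4 → ℕ) : ℕ := ∑ i, β i

lemma tot_inc (β : Fin 4 → ℕ) (i : Fin 4) : tot (inc β i) = tot β + 1 := by
  unfold tot inc
  rw [Finset.sum_update_of_mem (mem_univ i)]
  have h := Finset.add_sum_erase univ β (mem_univ i)
  rw [← Finset.sdiff_singleton_eq_erase] at h
  omega

lemma one_le_inc {β : Fin 4 → ℕ} (h : ∀ i, 1 ≤ β i) (j : Fin 4) : ∀ i, 1 ≤ inc β j i := by
  intro i
  unfold inc
  by_cases hij : i = j
  · subst hij; simp
  · rw [Function.update_of_ne hij]; exact h i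

lemma four_le_tot {β : Fin 4 → ℕ} (h : ∀ i, 1 ≤ β i) : 4 ≤ tot β := by
  unfold tot
  calc 4 = ∑ _i : Fin 4, 1 := by simp
    _ ≤ _ := Finset.sum_le_sum fun i _ => h i

/-- the scalar facts on the Dirichlet means -/
structure PhiFacts (Φ : (Fin 4 → ℕ) → (Fin 4 → ℝ) → ℝ) : Prop where
  pos : ∀ β x, (∀ i, 1 ≤ β i) → (∀ i, 0 < x i) → 0 < Φ β x
  recu : ∀ β x, (∀ i, 1 ≤ β i) → (∀ i, 0 < x i) →
    ((tot β : ℝ) - 2) * Φ β x =
      ∑ i, (β i : ℝ) * (x i * Φ (inc β i) x / (x i + Φ (inc β i) x))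
  lower : ∀ β x m, (∀ i, 1 ≤ β i) → 0 < m → (∀ i, m ≤ x i) → m ≤ ((tot β : ℝ) - 2) * Φ β x
  upper : ∀ β x M, (∀ i, 1 ≤ β i) → (∀ i, 0 < x i) → (∀ i, x i ≤ M) →
    ((tot β : ℝ) - 2) * Φ β x ≤ M

/-- parallel sum inequality -/
lemma par {x y : ℝ} (hx : 0 < x) (hy : 0 < y) (a b : ℂ) :
    x * y / (x + y) * ‖a + b‖ ^ 2 ≤ x * ‖a‖ ^ 2 + y * ‖b‖ ^ 2 := by
  have h1 : ‖a + b‖ ≤ ‖a‖ + ‖b‖ := norm_add_le _ _
  have h2 : ‖a + b‖ ^ 2 ≤ (‖a‖ + ‖b‖) ^ 2 := by gcongr
  have h3 : x * y / (x + y) * (‖a‖ + ‖b‖) ^ 2 ≤ x * ‖a‖ ^ 2 + y * ‖b‖ ^ 2 := by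
    rw [div_mul_eq_mul_div, div_le_iff₀ (by positivity)]
    nlinarith [sq_nonneg (x * ‖a‖ - y * ‖b‖)]
  exact le_trans (by gcongr) h3

lemma prod_tendsto {c : ℝ} (hc0 : 0 < c) (hc1 : c ≤ 1) {N : ℕ} (hN : 1 ≤ N) :
    Tendsto (fun n => ∏ j ∈ range n, (1 - c / ((N + j : ℕ) : ℝ))) atTop (𝓝 0) := by
  have hNr : (1 : ℝ) ≤ N := by exact_mod_cast hN
  have h1 : ∀ j : ℕ, c / ((N + j : ℕ) : ℝ) ≤ 1 := by
    intro j
    rw [div_le_one (by positivity)]
    push_cast
    have : (0 : ℝ) ≤ j := Nat.cast_nonneg j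
    linarith
  have h2 : ∀ n, ∏ j ∈ range n, (1 - c / ((N + j : ℕ) : ℝ)) ≤
      Real.exp (-(c / N * ∑ j ∈ range n, 1 / ((j : ℝ) + 1))) := by
    intro n
    calc ∏ j ∈ range n, (1 - c / ((N + j : ℕ) : ℝ))
        ≤ ∏ j ∈ range n, Real.exp (-(c / N * (1 / ((j : ℝ) + 1)))) := by
          refine Finset.prod_le_prod (fun j _ => by linarith [h1 j]) fun j _ => ?_
          refine le_trans ?_ (Real.add_one_le_exp _)
          have h3 : c / N * (1 / ((j : ℝ) + 1)) ≤ c / ((N + j : ℕ) : ℝ) := by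
            rw [div_mul_div_comm, mul_one]
            have : (0 : ℝ) ≤ j := Nat.cast_nonneg j
            push_cast
            gcongr
            nlinarith
          linarith
      _ = _ := by
          rw [← Real.exp_sum, Finset.sum_neg_distrib, ← Finset.mul_sum]
  have h4 : Tendsto (fun n => Real.exp (-(c / N * ∑ j ∈ range n, 1 / ((j : ℝ) + 1)))) atTop
      (𝓝 0) := by
    refine Real.tendsto_exp_neg_atTop_nhds_zero.comp ?_
    exact Real.tendsto_sum_range_one_div_nat_succ_atTop.const_mul_atTop (by positivity)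
  exact tendsto_of_tendsto_of_tendsto_of_le_of_le tendsto_const_nhds h4
    (fun n => Finset.prod_nonneg fun j _ => by linarith [h1 j]) h2

section main

variable {Φ : (Fin 4 → ℕ) → (Fin 4 → ℝ) → ℝ} (hΦ : PhiFacts Φ)
variable {ι τ : Type*} [Fintype ι] [Fintype τ] (T : (ι → ℂ) →ₗ[ℂ] (τ → ℂ))
variable {g : Fin 4 → ι → ℝ} {h : Fin 4 → τ → ℝ} {m M : ℝ}

include hΦ in
/-- one step of the recursion -/
lemma step (hm : 0 < m) (hgm : ∀ i c, m ≤ g i c) (hgM : ∀ i c, g i c ≤ M)
    (hhm : ∀ i s, 0 < h i s)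
    (hT : ∀ i z, ∑ s, h i s * ‖T z s‖ ^ 2 ≤ ∑ c, g i c * ‖z c‖ ^ 2)
    {β : Fin 4 → ℕ} (hβ : ∀ i, 1 ≤ β i) {K : ℝ} (hK : 1 ≤ K)
    (hP : ∀ i z, ∑ s, Φ (inc β i) (fun j => h j s) * ‖T z s‖ ^ 2 ≤
      K * ∑ c, Φ (inc β i) (fun j => g j c) * ‖z c‖ ^ 2) (z : ι → ℂ) :
    ∑ s, Φ β (fun j => h j s) * ‖T z s‖ ^ 2 ≤
      (1 + (K - 1) * (1 - m / (M + m) / (tot β : ℝ))) *
        ∑ c, Φ β (fun j => g j c) * ‖z c‖ ^ 2 := by
  classical
  have htot : (4 : ℝ) ≤ tot β := by exact_mod_cast four_le_tot hβ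
  have hg0 : ∀ i c, 0 < g i c := fun i c => hm.trans_le (hgm i c)
  set G : Fin 4 → ι → ℝ := fun i c => Φ (inc β i) (fun j => g j c) with hG
  set H : Fin 4 → τ → ℝ := fun i s => Φ (inc β i) (fun j => h j s) with hH
  have hG0 : ∀ i c, 0 < G i c := fun i c => hΦ.pos _ _ (one_le_inc hβ i) fun j => hg0 j c
  have hH0 : ∀ i s, 0 < H i s := fun i s => hΦ.pos _ _ (one_le_inc hβ i) fun j => hhm j s
  set θ : Fin 4 → ι → ℝ := fun i c => g i c / (g i c + G i c) with hθ
  set ρ : ℝ := 1 - m / (M + m) / (tot β : ℝ) with hρ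
  have hθρ : ∀ i c, θ i c ≤ ρ := by
    intro i c
    have h1 : m ≤ ((tot β : ℝ) - 1) * G i c := by
      have := hΦ.lower (inc β i) (fun j => g j c) m (one_le_inc hβ i) hm (fun j => hgm j c)
      rw [tot_inc] at this
      push_cast at this
      have e : (tot β : ℝ) + 1 - 2 = tot β - 1 := by ring
      rwa [e] at this
    have hgc := hg0 i c
    have hGc := hG0 i c
    have hMm : 0 < M + m := by linarith [hgM i c]
    show g i c / (g i c + G i c) ≤ 1 - m / (M + m) / (tot β : ℝ)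
    have e1 : g i c / (g i c + G i c) = 1 - G i c / (g i c + G i c) := by
      field_simp; ring
    rw [e1]
    have e2 : m / (M + m) / (tot β : ℝ) ≤ G i c / (g i c + G i c) := by
      rw [div_div, div_le_div_iff₀ (by positivity) (by positivity)]
      have h3 := hgM i c
      nlinarith [mul_pos hm hGc, mul_pos hm hgc]
    linarith
  have hscal : ∀ i c, g i c * (1 - θ i c) ^ 2 + K * (G i c * (θ i c) ^ 2) ≤
      (1 + (K - 1) * ρ) * (g i c * G i c / (g i c + G i c)) := by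
    intro i c
    have hgc := hg0 i c
    have hGc := hG0 i c
    have e1 : g i c * (1 - θ i c) ^ 2 + K * (G i c * (θ i c) ^ 2) =
        (1 + (K - 1) * θ i c) * (g i c * G i c / (g i c + G i c)) := by
      simp only [hθ]
      field_simp
      ring
    rw [e1]
    have h2 : 0 ≤ g i c * G i c / (g i c + G i c) := by positivity
    have h3 := hθρ i c
    have h4 : 0 ≤ K - 1 := by linarith
    gcongr
  have hrecg : ∀ c, ((tot β : ℝ) - 2) * Φ β (fun j => g j c) =
      ∑ i, (β i : ℝ) * (g i c * G i c / (g i c + G i c)) := fun c =>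
    hΦ.recu β _ hβ fun j => hg0 j c
  have hrech : ∀ s, ((tot β : ℝ) - 2) * Φ β (fun j => h j s) =
      ∑ i, (β i : ℝ) * (h i s * H i s / (h i s + H i s)) := fun s =>
    hΦ.recu β _ hβ fun j => hhm j s
  have htot2 : 0 < (tot β : ℝ) - 2 := by linarith
  refine le_of_mul_le_mul_left ?_ htot2
  calc ((tot β : ℝ) - 2) * ∑ s, Φ β (fun j => h j s) * ‖T z s‖ ^ 2
      = ∑ s, ∑ i, (β i : ℝ) * (h i s * H i s / (h i s + H i s)) * ‖T z s‖ ^ 2 := by
        rw [Finset.mul_sum]
        refine Finset.sum_congr rfl fun s _ => ?_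
        rw [← mul_assoc, hrech, Finset.sum_mul]
    _ = ∑ i, (β i : ℝ) * ∑ s, (h i s * H i s / (h i s + H i s)) * ‖T z s‖ ^ 2 := by
        rw [Finset.sum_comm]
        refine Finset.sum_congr rfl fun i _ => ?_
        rw [Finset.mul_sum]
        exact Finset.sum_congr rfl fun s _ => by ring
    _ ≤ ∑ i, (β i : ℝ) * ∑ c, ((1 + (K - 1) * ρ) * (g i c * G i c / (g i c + G i c))) *
          ‖z c‖ ^ 2 := by
        refine Finset.sum_le_sum fun i _ => mul_le_mul_of_nonneg_left ?_ (Nat.cast_nonneg _)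
        set z1 : ι → ℂ := fun c => ((1 - θ i c : ℝ) : ℂ) * z c with hz1
        set z2 : ι → ℂ := fun c => ((θ i c : ℝ) : ℂ) * z c with hz2
        have hz : z = z1 + z2 := by
          funext c
          simp only [hz1, hz2, Pi.add_apply]
          push_cast; ring
        have hn1 : ∀ c, ‖z1 c‖ ^ 2 = (1 - θ i c) ^ 2 * ‖z c‖ ^ 2 := by
          intro c
          simp only [hz1]
          rw [norm_mul, mul_pow, Complex.norm_real, Real.norm_eq_abs, sq_abs]
        have hn2 : ∀ c, ‖z2 c‖ ^ 2 = (θ i c) ^ 2 * ‖z c‖ ^ 2 := by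
          intro c
          simp only [hz2]
          rw [norm_mul, mul_pow, Complex.norm_real, Real.norm_eq_abs, sq_abs]
        calc ∑ s, (h i s * H i s / (h i s + H i s)) * ‖T z s‖ ^ 2
            ≤ ∑ s, (h i s * ‖T z1 s‖ ^ 2 + H i s * ‖T z2 s‖ ^ 2) := by
              refine Finset.sum_le_sum fun s _ => ?_
              have e : T z s = T z1 s + T z2 s := by
                conv_lhs => rw [hz]
                rw [map_add]; rfl
              rw [e]
              exact par (hhm i s) (hH0 i s) _ _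
          _ = ∑ s, h i s * ‖T z1 s‖ ^ 2 + ∑ s, H i s * ‖T z2 s‖ ^ 2 := Finset.sum_add_distrib
          _ ≤ ∑ c, g i c * ‖z1 c‖ ^ 2 + K * ∑ c, G i c * ‖z2 c‖ ^ 2 :=
              add_le_add (hT i z1) (hP i z2)
          _ = ∑ c, (g i c * (1 - θ i c) ^ 2 + K * (G i c * (θ i c) ^ 2)) * ‖z c‖ ^ 2 := by
              rw [Finset.mul_sum, ← Finset.sum_add_distrib]
              refine Finset.sum_congr rfl fun c _ => ?_
              rw [hn1, hn2]; ring
          _ ≤ _ := Finset.sum_le_sum fun c _ =>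
              mul_le_mul_of_nonneg_right (hscal i c) (by positivity)
    _ = (1 + (K - 1) * ρ) * ∑ c, (∑ i, (β i : ℝ) * (g i c * G i c / (g i c + G i c))) *
          ‖z c‖ ^ 2 := by
        rw [Finset.mul_sum]
        simp only [Finset.sum_mul, Finset.mul_sum]
        rw [Finset.sum_comm]
        refine Finset.sum_congr rfl fun c _ => Finset.sum_congr rfl fun i _ => by ring
    _ = ((tot β : ℝ) - 2) * ((1 + (K - 1) * ρ) * ∑ c, Φ β (fun j => g j c) * ‖z c‖ ^ 2) := by
        rw [mul_left_comm, Finset.mul_sum (s := univ) (a := (tot β : ℝ) - 2)]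
        congr 1
        refine Finset.sum_congr rfl fun c _ => ?_
        rw [← hrecg]; ring

include hΦ in
/-- crude bound -/
lemma crude (hm : 0 < m) (hgm : ∀ i c, m ≤ g i c) (hgM : ∀ i c, g i c ≤ M)
    (hhm : ∀ i s, m ≤ h i s) (hhM : ∀ i s, h i s ≤ M) (hmM : m ≤ M)
    (hT : ∀ i z, ∑ s, h i s * ‖T z s‖ ^ 2 ≤ ∑ c, g i c * ‖z c‖ ^ 2)
    {β : Fin 4 → ℕ} (hβ : ∀ i, 1 ≤ β i) (z : ι → ℂ) :
    ∑ s, Φ β (fun j => h j s) * ‖T z s‖ ^ 2 ≤
      (M / m) ^ 2 * ∑ c, Φ β (fun j => g j c) * ‖z c‖ ^ 2 := by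
  have htot : (4 : ℝ) ≤ tot β := by exact_mod_cast four_le_tot hβ
  have htot2 : 0 < (tot β : ℝ) - 2 := by linarith
  have hM : 0 < M := hm.trans_le hmM
  refine le_of_mul_le_mul_left ?_ htot2
  calc ((tot β : ℝ) - 2) * ∑ s, Φ β (fun j => h j s) * ‖T z s‖ ^ 2
      = ∑ s, (((tot β : ℝ) - 2) * Φ β (fun j => h j s)) * ‖T z s‖ ^ 2 := by
        rw [Finset.mul_sum]; exact Finset.sum_congr rfl fun s _ => by ring
    _ ≤ ∑ s, M * ‖T z s‖ ^ 2 := Finset.sum_le_sum fun s _ =>
        mul_le_mul_of_nonneg_right (hΦ.upper β _ M hβ (fun j => hm.trans_le (hhm j s))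
          fun j => hhM j s) (by positivity)
    _ ≤ ∑ s, (M / m) * (h 0 s * ‖T z s‖ ^ 2) := by
        refine Finset.sum_le_sum fun s _ => ?_
        have h1 := hhm 0 s
        have h2 : M ≤ M / m * h 0 s := by
          rw [div_mul_eq_mul_div, le_div_iff₀ hm]; gcongr
        calc M * ‖T z s‖ ^ 2 ≤ (M / m * h 0 s) * ‖T z s‖ ^ 2 := by gcongr
          _ = _ := by ring
    _ = (M / m) * ∑ s, h 0 s * ‖T z s‖ ^ 2 := by rw [Finset.mul_sum]
    _ ≤ (M / m) * ∑ c, g 0 c * ‖z c‖ ^ 2 := by gcongr; exact hT 0 z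
    _ ≤ (M / m) * ∑ c, (M / m) * ((((tot β : ℝ) - 2) * Φ β (fun j => g j c)) * ‖z c‖ ^ 2) := by
        refine mul_le_mul_of_nonneg_left (Finset.sum_le_sum fun c _ => ?_) (by positivity)
        have h1 := hΦ.lower β (fun j => g j c) m hβ hm fun j => hgm j c
        have h2 : g 0 c ≤ (M / m) * (((tot β : ℝ) - 2) * Φ β (fun j => g j c)) := by
          refine (hgM 0 c).trans ?_
          rw [div_mul_eq_mul_div, le_div_iff₀ hm]; gcongr
        calc g 0 c * ‖z c‖ ^ 2 ≤ ((M / m) * (((tot β : ℝ) - 2) * Φ β (fun j => g j c))) *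
              ‖z c‖ ^ 2 := by gcongr
          _ = _ := by ring
    _ = ((tot β : ℝ) - 2) * ((M / m) ^ 2 * ∑ c, Φ β (fun j => g j c) * ‖z c‖ ^ 2) := by
        simp only [Finset.mul_sum]
        exact Finset.sum_congr rfl fun s _ => by ring

include hΦ in
/-- **superadditivity of the Dirichlet means.** -/
theorem phi_super (hm : 0 < m) (hgm : ∀ i c, m ≤ g i c) (hgM : ∀ i c, g i c ≤ M)
    (hhm : ∀ i s, m ≤ h i s) (hhM : ∀ i s, h i s ≤ M) (hmM : m ≤ M)
    (hT : ∀ i z, ∑ s, h i s * ‖T z s‖ ^ 2 ≤ ∑ c, g i c * ‖z c‖ ^ 2)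
    {β : Fin 4 → ℕ} (hβ : ∀ i, 1 ≤ β i) (z : ι → ℂ) :
    ∑ s, Φ β (fun j => h j s) * ‖T z s‖ ^ 2 ≤ ∑ c, Φ β (fun j => g j c) * ‖z c‖ ^ 2 := by
  have hM : 0 < M := hm.trans_le hmM
  set c0 : ℝ := m / (M + m) with hc0
  have hc0p : 0 < c0 := by positivity
  have hc01 : c0 ≤ 1 := by rw [hc0, div_le_one (by positivity)]; linarith
  set K0 : ℝ := (M / m) ^ 2 with hK0
  have hK01 : 1 ≤ K0 := by
    have : 1 ≤ M / m := by rw [le_div_iff₀ hm]; linarith
    nlinarith
  have key : ∀ n : ℕ, ∀ β : Fin 4 → ℕ, (∀ i, 1 ≤ β i) → ∀ z,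
      ∑ s, Φ β (fun j => h j s) * ‖T z s‖ ^ 2 ≤
        (1 + (K0 - 1) * ∏ j ∈ range n, (1 - c0 / ((tot β + j : ℕ) : ℝ))) *
          ∑ c, Φ β (fun j => g j c) * ‖z c‖ ^ 2 := by
    intro n
    induction n with
    | zero =>
      intro β hβ z
      have := crude hΦ T hm hgm hgM hhm hhM hmM hT hβ z
      simpa using this
    | succ n ih =>
      intro β hβ z
      have htot : (4 : ℝ) ≤ tot β := by exact_mod_cast four_le_tot hβ
      set p : ℝ := ∏ j ∈ range n, (1 - c0 / ((tot β + 1 + j : ℕ) : ℝ)) with hp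
      have hp0 : 0 ≤ p := by
        refine Finset.prod_nonneg fun j _ => ?_
        have : c0 / ((tot β + 1 + j : ℕ) : ℝ) ≤ 1 := by
          rw [div_le_one (by positivity)]
          push_cast
          have : (0 : ℝ) ≤ j := Nat.cast_nonneg j
          linarith
        linarith
      have h1 := step hΦ T (K := 1 + (K0 - 1) * p) hm hgm hgM
        (fun i s => hm.trans_le (hhm i s)) hT hβ (by nlinarith)
        (fun i z => by
          have := ih (inc β i) (one_le_inc hβ i) z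
          rwa [tot_inc] at this) z
      refine h1.trans (le_of_eq ?_)
      rw [Finset.prod_range_succ']
      have e : ∏ j ∈ range n, (1 - c0 / ((tot β + (j + 1) : ℕ) : ℝ)) = p := by
        rw [hp]
        refine Finset.prod_congr rfl fun j _ => ?_
        congr 3; omega
      rw [e]
      simp only [Nat.add_zero]
      ring
  have hlim : Tendsto (fun n => (1 + (K0 - 1) * ∏ j ∈ range n,
      (1 - c0 / ((tot β + j : ℕ) : ℝ))) * ∑ c, Φ β (fun j => g j c) * ‖z c‖ ^ 2) atTop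
      (𝓝 ((1 + (K0 - 1) * 0) * ∑ c, Φ β (fun j => g j c) * ‖z c‖ ^ 2)) := by
    have h4 := four_le_tot hβ
    exact ((((prod_tendsto hc0p hc01 (by omega : 1 ≤ tot β)).const_mul _).const_add _).mul_const _)
  have := ge_of_tendsto hlim (Eventually.of_forall fun n => key n β hβ z)
  simpa using this

end main

end Crest.Agent.R331.Phi712
end

-- ▼ part R331/FOpi_712
section

/-! # Row 331 (EPnI): finite operator inequality (OPI) with slack, from the bridge function `Z`

`u t = t / (e^t - 1)`.  Weights: `u t * M` is the `R`-weight, `u (-t) * M` the `L`-weight. -/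

set_option autoImplicit false

open Finset Filter Topology

namespace Crest.Agent.R331.FOpi712

open NetDefs835 (u)
open FOpiDefs712

/-- facts on the bridge conductance -/
structure ZFacts (Z : (Fin 4 → ℝ) → ℝ) : Prop where
  pos : ∀ x, (∀ i, 0 < x i) → 0 < Z x
  hom : ∀ (c : ℝ) x, 0 < c → (∀ i, 0 < x i) → Z (fun i => c * x i) = c * Z x
  val : ∀ b t, Z ![u b, u (-b), u t, u (-t)] * ((u b + u (-b)) - (u t + u (-t)))
    = u t * u (-t) - u b * u (-b)
  val' : ∀ b, 0 < b → Z ![u b, u (-b), u b, u (-b)] * (u b + u (-b) - 2 * (u b * u (-b)))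
    = u b * u (-b) * (u b + u (-b) - 2)
  super : ∀ {ι τ : Type} [Fintype ι] [Fintype τ] (T : (ι → ℂ) →ₗ[ℂ] (τ → ℂ))
    (g : Fin 4 → ι → ℝ) (h : Fin 4 → τ → ℝ), (∀ i c, 0 < g i c) → (∀ i s, 0 < h i s) →
    (∀ i z, ∑ s, h i s * ‖T z s‖ ^ 2 ≤ ∑ c, g i c * ‖z c‖ ^ 2) →
    ∀ z, ∑ s, Z (fun i => h i s) * ‖T z s‖ ^ 2 ≤ ∑ c, Z (fun i => g i c) * ‖z c‖ ^ 2

lemma vec_pos (b t : ℝ) : ∀ i, 0 < (![u b, u (-b), u t, u (-t)] : Fin 4 → ℝ) i := by
  intro i
  fin_cases i
  · exact u_pos b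
  · exact u_pos (-b)
  · exact u_pos t
  · exact u_pos (-t)

section

variable {Z : (Fin 4 → ℝ) → ℝ} (hZ : ZFacts Z)
include hZ

lemma mono {x y : Fin 4 → ℝ} (hx : ∀ i, 0 < x i) (hy : ∀ i, 0 < y i) (h : ∀ i, x i ≤ y i) :
    Z x ≤ Z y := by
  have h1 := hZ.super (ι := Unit) (τ := Unit) LinearMap.id (fun i _ => y i) (fun i _ => x i)
    (fun i _ => hy i) (fun i _ => hx i) (by
      intro i z
      simp only [univ_unique, sum_singleton, LinearMap.id_apply]
      gcongr
      exact h i) (fun _ => 1)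
  simpa using h1

/-- Wheatstone balance: with `W = Z (u b, u (-b), u t, u (-t))`,
`A = u b + u t`, `B = u (-b) + u (-t)`: `A B + W (A + B) = H (A + B + 4 W)`. -/
lemma wheatstone {b : ℝ} (hb : 0 < b) (t : ℝ) :
    (u b + u t) * (u (-b) + u (-t))
      + Z ![u b, u (-b), u t, u (-t)] * ((u b + u t) + (u (-b) + u (-t)))
    = H b t * ((u b + u t) + (u (-b) + u (-t)) + 4 * Z ![u b, u (-b), u t, u (-t)]) := by
  by_cases h : t = b
  · subst h
    have h1 := hZ.val' t hb
    rw [H, if_pos rfl]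
    linear_combination 2 * h1
  · have h1 := hZ.val b t
    rw [H, if_neg h]
    have hb : b - t ≠ 0 := sub_ne_zero.2 (Ne.symm h)
    rw [div_mul_eq_mul_div, eq_div_iff hb]
    have e3 : u (-t) = u t + t := u_neg_add t
    have e4 : u (-b) = u b + b := u_neg_add b
    rw [e3, e4] at h1 ⊢
    linear_combination (b + t) * h1

/-- the optimal potential in network form -/
lemma al_eq {b : ℝ} (hb : 0 < b) (t : ℝ) :
    al b t * ((u b + u t) + (u (-b) + u (-t)) + 4 * Z ![u b, u (-b), u t, u (-t)])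
      = u (-b) + u (-t) + 2 * Z ![u b, u (-b), u t, u (-t)] := by
  by_cases h : t = b
  · subst h
    have h1 := hZ.val' t hb
    rw [al, if_pos rfl, div_mul_eq_mul_div, div_eq_iff hb.ne']
    have e3 : u (-t) = u t + t := u_neg_add t
    rw [e3] at h1 ⊢
    linear_combination 2 * h1
  · have h1 := hZ.val b t
    rw [al, if_neg h]
    have hb : b - t ≠ 0 := sub_ne_zero.2 (Ne.symm h)
    rw [div_mul_eq_mul_div, div_eq_iff hb]
    have e3 : u (-t) = u t + t := u_neg_add t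
    have e4 : u (-b) = u b + b := u_neg_add b
    rw [e3, e4] at h1 ⊢
    linear_combination 2 * h1


lemma S_pos (b t : ℝ) :
    0 < (u b + u t) + (u (-b) + u (-t)) + 4 * Z ![u b, u (-b), u t, u (-t)] := by
  have hW := hZ.pos _ (vec_pos b t)
  have h1 := u_pos b
  have h2 := u_pos (-b)
  have h3 := u_pos t
  have h4 := u_pos (-t)
  positivity




/-- energy of the optimal potentials -/
lemma net_upper {b : ℝ} (hb : 0 < b) (t : ℝ) :
    (u b + u t) * al b t ^ 2 + (u (-b) + u (-t)) * (1 - al b t) ^ 2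
      + Z ![u b, u (-b), u t, u (-t)] * (2 * al b t - 1) ^ 2 = H b t := by
  have h1 := wheatstone hZ hb t
  have h2 := al_eq hZ hb t
  have hS := S_pos hZ b t
  set W := Z ![u b, u (-b), u t, u (-t)] with hW
  set A := u b + u t with hA
  set B := u (-b) + u (-t) with hB
  have e1 : al b t = (B + 2 * W) / (A + B + 4 * W) := by
    rw [eq_div_iff hS.ne', h2]
  have e2 : H b t = (A * B + W * (A + B)) / (A + B + 4 * W) := by
    rw [eq_div_iff hS.ne', ← h1]
  have hne : A + B + 4 * W ≠ 0 := hS.ne'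
  rw [e1, e2]
  have e3 : 1 - (B + 2 * W) / (A + B + 4 * W) = (A + 2 * W) / (A + B + 4 * W) := by
    rw [eq_div_iff hne, sub_mul, div_mul_cancel₀ _ hne]; ring
  have e4 : 2 * ((B + 2 * W) / (A + B + 4 * W)) - 1 = (B - A) / (A + B + 4 * W) := by
    rw [eq_div_iff hne, sub_mul, mul_assoc, div_mul_cancel₀ _ hne]; ring
  rw [e3, e4, div_pow, div_pow, div_pow, ← mul_div_assoc, ← mul_div_assoc, ← mul_div_assoc,
    ← add_div, ← add_div, div_eq_div_iff (pow_ne_zero 2 hne) hne]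
  ring

/-- lower bound for the dissipation with arbitrary potentials -/
lemma net_lower {b : ℝ} (hb : 0 < b) (t : ℝ) (a₁ a₂ : ℂ) :
    H b t * ‖a₁ + a₂‖ ^ 2 ≤ (u b + u t) * ‖a₁‖ ^ 2 + (u (-b) + u (-t)) * ‖a₂‖ ^ 2
      + Z ![u b, u (-b), u t, u (-t)] * ‖a₁ - a₂‖ ^ 2 := by
  have h := wheatstone hZ hb t
  have hW := hZ.pos _ (vec_pos b t)
  set W := Z ![u b, u (-b), u t, u (-t)] with hWdef
  have h1 := u_pos b
  have h2 := u_pos (-b)
  have h3 := u_pos t
  have h4 := u_pos (-t)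
  set A := u b + u t with hA
  set B := u (-b) + u (-t) with hB
  have hA0 : 0 < A := by positivity
  have hB0 : 0 < B := by positivity
  have hp := Phi712.par (x := A + 2 * W) (y := B + 2 * W) (by positivity) (by positivity) a₁ a₂
  have hpar : ‖a₁ - a₂‖ ^ 2 = 2 * ‖a₁‖ ^ 2 + 2 * ‖a₂‖ ^ 2 - ‖a₁ + a₂‖ ^ 2 := by
    have := parallelogram_law_with_norm ℝ a₁ a₂
    linarith
  have hH : H b t = (A + 2 * W) * (B + 2 * W) / (A + 2 * W + (B + 2 * W)) - W := by
    have h6 : 0 < A + 2 * W + (B + 2 * W) := by positivity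
    rw [eq_sub_iff_add_eq, eq_div_iff h6.ne']
    linear_combination -h
  rw [hH, hpar, sub_mul]
  linarith

end

/-- the slack coefficient `u(t) al² + u(-t) (1-al)²` -/
noncomputable def slack (b t : ℝ) : ℝ := u t * al b t ^ 2 + u (-t) * (1 - al b t) ^ 2

/-- **Operator inequality with slack**, finite index sets, arbitrary positive weights. -/
theorem opi {Z : (Fin 4 → ℝ) → ℝ} (hZ : ZFacts Z) {σ τ : Type} [Fintype σ] [Fintype τ]
    (T : (σ → ℂ) →ₗ[ℂ] (τ → ℂ)) {mC kC : σ → ℝ} {m k bs : τ → ℝ} {β r : ℝ}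
    (hβ : 0 < β) (hbs : ∀ s, 0 < bs s) (hr : 1 ≤ r) (hmC : ∀ c, 0 < mC c) (hm : ∀ s, 0 < m s)
    (h0 : ∀ z, ∑ s, m s * u (bs s) * ‖T z s‖ ^ 2 ≤ r * ∑ c, mC c * u β * ‖z c‖ ^ 2)
    (h1 : ∀ z, ∑ s, m s * u (-bs s) * ‖T z s‖ ^ 2 ≤ r * ∑ c, mC c * u (-β) * ‖z c‖ ^ 2)
    (h2 : ∀ z, ∑ s, m s * u (k s) * ‖T z s‖ ^ 2 ≤ ∑ c, mC c * u (kC c) * ‖z c‖ ^ 2)
    (h3 : ∀ z, ∑ s, m s * u (-k s) * ‖T z s‖ ^ 2 ≤ ∑ c, mC c * u (-kC c) * ‖z c‖ ^ 2)
    (z : σ → ℂ) :
    ∑ s, m s * H (bs s) (k s) * ‖T z s‖ ^ 2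
      + (r - 1) * ∑ c, mC c * slack β (kC c) * ‖z c‖ ^ 2
      ≤ r * ∑ c, mC c * H β (kC c) * ‖z c‖ ^ 2 := by
  have hr0 : 0 < r := by linarith
  -- the bridge form
  have hW : ∀ y : σ → ℂ, ∑ s, m s * Z ![u (bs s), u (-bs s), u (k s), u (-k s)] * ‖T y s‖ ^ 2
      ≤ r * ∑ c, mC c * Z ![u β, u (-β), u (kC c), u (-kC c)] * ‖y c‖ ^ 2 := by
    intro y
    have key := hZ.super T
      (fun i c => (![r * (mC c * u β), r * (mC c * u (-β)), mC c * u (kC c), mC c * u (-kC c)] :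
        Fin 4 → ℝ) i)
      (fun i s => m s * (![u (bs s), u (-bs s), u (k s), u (-k s)] : Fin 4 → ℝ) i)
      (by
        intro i c
        have e1 := u_pos β
        have e2 := u_pos (-β)
        have e3 := u_pos (kC c)
        have e4 := u_pos (-kC c)
        have e5 := hmC c
        fin_cases i <;> simp <;> positivity)
      (by
        intro i s
        exact mul_pos (hm s) (vec_pos _ _ i))
      (by
        intro i z
        fin_cases i
        · simpa [Finset.mul_sum, mul_assoc] using h0 z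
        · simpa [Finset.mul_sum, mul_assoc] using h1 z
        · simpa using h2 z
        · simpa using h3 z) y
    have lhs : ∑ s, m s * Z ![u (bs s), u (-bs s), u (k s), u (-k s)] * ‖T y s‖ ^ 2
        = ∑ s, Z (fun i => m s * (![u (bs s), u (-bs s), u (k s), u (-k s)] : Fin 4 → ℝ) i)
          * ‖T y s‖ ^ 2 := by
      refine Finset.sum_congr rfl fun s _ => ?_
      rw [hZ.hom (m s) ![u (bs s), u (-bs s), u (k s), u (-k s)] (hm s) (vec_pos _ _)]
    have rhs : ∑ c, Z (fun i => (![r * (mC c * u β), r * (mC c * u (-β)), mC c * u (kC c),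
          mC c * u (-kC c)] : Fin 4 → ℝ) i) * ‖y c‖ ^ 2
        ≤ r * ∑ c, mC c * Z ![u β, u (-β), u (kC c), u (-kC c)] * ‖y c‖ ^ 2 := by
      rw [Finset.mul_sum]
      refine Finset.sum_le_sum fun c _ => ?_
      have hrw : r * (mC c * Z ![u β, u (-β), u (kC c), u (-kC c)] * ‖y c‖ ^ 2)
          = r * mC c * Z ![u β, u (-β), u (kC c), u (-kC c)] * ‖y c‖ ^ 2 := by ring
      rw [hrw]
      refine mul_le_mul_of_nonneg_right ?_ (sq_nonneg _)
      have e1 := u_pos β
      have e2 := u_pos (-β)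
      have e3 := u_pos (kC c)
      have e4 := u_pos (-kC c)
      have e5 := hmC c
      have hh := hZ.hom (r * mC c) ![u β, u (-β), u (kC c), u (-kC c)] (mul_pos hr0 e5)
        (vec_pos _ _)
      rw [← hh]
      have hp1 : ∀ i, 0 < (![r * (mC c * u β), r * (mC c * u (-β)), mC c * u (kC c),
          mC c * u (-kC c)] : Fin 4 → ℝ) i := by
        intro i
        fin_cases i <;> simp <;> positivity
      have hp2 : ∀ i, 0 < r * mC c * (![u β, u (-β), u (kC c), u (-kC c)] : Fin 4 → ℝ) i :=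
        fun i => mul_pos (mul_pos hr0 e5) (vec_pos _ _ i)
      refine mono hZ hp1 hp2 ?_
      · intro i
        have e6 : mC c * u (kC c) ≤ r * mC c * u (kC c) := by
          have := mul_pos e5 e3; nlinarith
        have e7 : mC c * u (-kC c) ≤ r * mC c * u (-kC c) := by
          have := mul_pos e5 e4; nlinarith
        fin_cases i
        · simp [mul_assoc]
        · simp [mul_assoc]
        · simpa using e6
        · simpa using e7
    rw [lhs]
    exact key.trans rhs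
  -- potentials
  set z₁ : σ → ℂ := fun c => ((al β (kC c) : ℝ) : ℂ) * z c with hz₁
  set z₂ : σ → ℂ := fun c => ((1 - al β (kC c) : ℝ) : ℂ) * z c with hz₂
  have hz : z = z₁ + z₂ := by
    funext c
    simp only [hz₁, hz₂, Pi.add_apply]
    push_cast
    ring
  have hT : ∀ s, T z s = T z₁ s + T z₂ s := by
    intro s
    rw [hz, map_add, Pi.add_apply]
  have hT' : ∀ s, T (z₁ - z₂) s = T z₁ s - T z₂ s := by
    intro s
    rw [map_sub, Pi.sub_apply]
  have n1 : ∀ c, ‖z₁ c‖ ^ 2 = al β (kC c) ^ 2 * ‖z c‖ ^ 2 := by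
    intro c
    simp only [hz₁]
    rw [norm_mul, Complex.norm_real, Real.norm_eq_abs, mul_pow, sq_abs]
  have n2 : ∀ c, ‖z₂ c‖ ^ 2 = (1 - al β (kC c)) ^ 2 * ‖z c‖ ^ 2 := by
    intro c
    simp only [hz₂]
    rw [norm_mul, Complex.norm_real, Real.norm_eq_abs, mul_pow, sq_abs]
  have n3 : ∀ c, ‖(z₁ - z₂) c‖ ^ 2 = (2 * al β (kC c) - 1) ^ 2 * ‖z c‖ ^ 2 := by
    intro c
    have e : (z₁ - z₂) c = ((2 * al β (kC c) - 1 : ℝ) : ℂ) * z c := by
      simp only [hz₁, hz₂, Pi.sub_apply]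
      push_cast
      ring
    rw [e, norm_mul, Complex.norm_real, Real.norm_eq_abs, mul_pow, sq_abs]
  have hlow : ∑ s, m s * H (bs s) (k s) * ‖T z s‖ ^ 2 ≤
      ∑ s, m s * u (bs s) * ‖T z₁ s‖ ^ 2 + ∑ s, m s * u (k s) * ‖T z₁ s‖ ^ 2
      + (∑ s, m s * u (-bs s) * ‖T z₂ s‖ ^ 2 + ∑ s, m s * u (-k s) * ‖T z₂ s‖ ^ 2)
      + ∑ s, m s * Z ![u (bs s), u (-bs s), u (k s), u (-k s)] * ‖T (z₁ - z₂) s‖ ^ 2 := by
    rw [← Finset.sum_add_distrib, ← Finset.sum_add_distrib, ← Finset.sum_add_distrib,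
      ← Finset.sum_add_distrib]
    refine Finset.sum_le_sum fun s _ => ?_
    have h := mul_le_mul_of_nonneg_left (net_lower hZ (hbs s) (k s) (T z₁ s) (T z₂ s)) (hm s).le
    rw [hT s, hT' s]
    linarith
  have hup : r * ∑ c, mC c * H β (kC c) * ‖z c‖ ^ 2
      = (r * ∑ c, mC c * u β * ‖z₁ c‖ ^ 2) + (∑ c, mC c * u (kC c) * ‖z₁ c‖ ^ 2)
      + ((r * ∑ c, mC c * u (-β) * ‖z₂ c‖ ^ 2) + (∑ c, mC c * u (-kC c) * ‖z₂ c‖ ^ 2))
      + (r * ∑ c, mC c * Z ![u β, u (-β), u (kC c), u (-kC c)] * ‖(z₁ - z₂) c‖ ^ 2)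
      + (r - 1) * ∑ c, mC c * slack β (kC c) * ‖z c‖ ^ 2 := by
    simp only [Finset.mul_sum, ← Finset.sum_add_distrib]
    refine Finset.sum_congr rfl fun c _ => ?_
    rw [n1, n2, n3, ← net_upper hZ hβ (kC c)]
    unfold slack
    ring
  rw [hup]
  have a0 := h0 z₁
  have a1 := h1 z₂
  have a2 := h2 z₁
  have a3 := h3 z₂
  have a4 := hW (z₁ - z₂)
  linarith

end Crest.Agent.R331.FOpi712
end

-- ▼ part R331/FOpiM_712
section

/-! # Row 331 (EPnI): matrix form of the finite operator inequality with slack -/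

set_option autoImplicit false

open Matrix Finset

namespace Crest.Agent.R331.FOpiM712

open NetDefs835 (u)
open FOpiDefs712 FOpi712
open Crest.Agent.R331.Fin7_380 (Diag wForm)
open Crest.Agent.R331.FCur380 (D0)
open Duh839 (LMe LMe_pos)

section

variable {α β γ : Type} [Fintype α] [DecidableEq α] [Fintype β] [DecidableEq β]
  [Fintype γ] [DecidableEq γ]

lemma wForm_u {κ : Type} [Fintype κ] (h : κ → ℝ) (Y : Matrix κ κ ℂ) :
    wForm h u Y = ∑ k, ∑ l, Real.exp (h l) * ‖Y k l‖ ^ 2 := by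
  unfold wForm
  refine Finset.sum_congr rfl fun k _ => Finset.sum_congr rfl fun l _ => ?_
  rw [mul_comm (LMe _ _), u_mul_LMe]

lemma wForm_u_neg {κ : Type} [Fintype κ] (h : κ → ℝ) (Y : Matrix κ κ ℂ) :
    wForm h (fun t => u (-t)) Y = ∑ k, ∑ l, Real.exp (h k) * ‖Y k l‖ ^ 2 := by
  unfold wForm
  refine Finset.sum_congr rfl fun k _ => Finset.sum_congr rfl fun l _ => ?_
  rw [mul_comm (LMe _ _), u_neg_mul_LMe]

lemma wForm_const {κ : Type} [Fintype κ] (h : κ → ℝ) (a : ℝ) (Y : Matrix κ κ ℂ) :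
    wForm h (fun _ => a) Y = a * wForm h (fun _ => 1) Y := by
  unfold wForm
  simp only [Finset.mul_sum]
  refine Finset.sum_congr rfl fun k _ => Finset.sum_congr rfl fun l _ => ?_
  ring

lemma wForm_slack {κ : Type} [Fintype κ] (h : κ → ℝ) (b : ℝ) (Y : Matrix κ κ ℂ) :
    wForm h (slack b) Y = D0 h (al b) Y := by
  unfold wForm D0 slack
  refine Finset.sum_congr rfl fun k _ => Finset.sum_congr rfl fun l _ => ?_
  have e1 := u_mul_LMe (h k) (h l)
  have e2 := u_neg_mul_LMe (h k) (h l)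
  linear_combination (al b (h k - h l) ^ 2 * ‖Y k l‖ ^ 2) * e1
    + ((1 - al b (h k - h l)) ^ 2 * ‖Y k l‖ ^ 2) * e2

lemma wForm_prod {κ : Type} [Fintype κ] (h : κ → ℝ) (w : ℝ → ℝ) (Y : Matrix κ κ ℂ) :
    wForm h w Y = ∑ p : κ × κ, LMe (h p.1) (h p.2) * w (h p.1 - h p.2) * ‖Y p.1 p.2‖ ^ 2 := by
  unfold wForm
  rw [← Finset.univ_product_univ, Finset.sum_product]

/-- the transported linear map -/
noncomputable def Tmap (UA : Matrix α α ℂ) (UB : Matrix β β ℂ) (UQ : Matrix γ γ ℂ)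
    (TA : Matrix γ γ ℂ →ₗ[ℂ] Matrix α α ℂ) (TB : Matrix γ γ ℂ →ₗ[ℂ] Matrix β β ℂ) :
    (γ × γ → ℂ) →ₗ[ℂ] ((α × α) ⊕ (β × β) → ℂ) where
  toFun z := Sum.elim
    (fun p => (UAᴴ * TA (UQ * (Matrix.of fun k l => z (k, l)) * UQᴴ) * UA) p.1 p.2)
    (fun p => (UBᴴ * TB (UQ * (Matrix.of fun k l => z (k, l)) * UQᴴ) * UB) p.1 p.2)
  map_add' z w := by
    have e : (UQ * (Matrix.of fun k l => (z + w) (k, l)) * UQᴴ)
        = (UQ * (Matrix.of fun k l => z (k, l)) * UQᴴ)
          + (UQ * (Matrix.of fun k l => w (k, l)) * UQᴴ) := by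
      rw [← Matrix.add_mul, ← Matrix.mul_add]
      congr 2
    rw [e, map_add, map_add]
    funext s
    rcases s with p | p <;> simp [Matrix.mul_add, Matrix.add_mul]
  map_smul' a z := by
    have e : (UQ * (Matrix.of fun k l => (a • z) (k, l)) * UQᴴ)
        = a • (UQ * (Matrix.of fun k l => z (k, l)) * UQᴴ) := by
      rw [← Matrix.smul_mul, ← Matrix.mul_smul]
      congr 2
    rw [e, map_smul, map_smul]
    funext s
    rcases s with p | p <;> simp

/-- entries in the eigenbasis as a vector -/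
noncomputable def vec (UQ : Matrix γ γ ℂ) (Y : Matrix γ γ ℂ) : γ × γ → ℂ :=
  fun p => (UQᴴ * Y * UQ) p.1 p.2

lemma Tmap_vec {UA : Matrix α α ℂ} {UB : Matrix β β ℂ} {Q UQ : Matrix γ γ ℂ} {hQ : γ → ℝ}
    (DQ : Diag Q UQ hQ) (TA : Matrix γ γ ℂ →ₗ[ℂ] Matrix α α ℂ)
    (TB : Matrix γ γ ℂ →ₗ[ℂ] Matrix β β ℂ) (Y : Matrix γ γ ℂ) :
    Tmap UA UB UQ TA TB (vec UQ Y) = Sum.elim (fun p => (UAᴴ * TA Y * UA) p.1 p.2)
      (fun p => (UBᴴ * TB Y * UB) p.1 p.2) := by
  have e : UQ * (Matrix.of fun k l => vec UQ Y (k, l)) * UQᴴ = Y := by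
    have e1 : (Matrix.of fun k l => vec UQ Y (k, l)) = UQᴴ * Y * UQ := by
      ext k l; rfl
    rw [e1]
    calc UQ * (UQᴴ * Y * UQ) * UQᴴ = (UQ * UQᴴ) * Y * (UQ * UQᴴ) := by
          simp only [Matrix.mul_assoc]
      _ = Y := by rw [DQ.unit']; simp
  unfold Tmap
  simp only [LinearMap.coe_mk, AddHom.coe_mk]
  rw [e]

lemma exists_vec {Q UQ : Matrix γ γ ℂ} {hQ : γ → ℝ}
    (DQ : Diag Q UQ hQ) (z : γ × γ → ℂ) : ∃ Y, vec UQ Y = z := by
  refine ⟨UQ * (Matrix.of fun k l => z (k, l)) * UQᴴ, ?_⟩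
  funext p
  unfold vec
  have e : UQᴴ * (UQ * (Matrix.of fun k l => z (k, l)) * UQᴴ) * UQ
      = Matrix.of fun k l => z (k, l) := by
    calc UQᴴ * (UQ * (Matrix.of fun k l => z (k, l)) * UQᴴ) * UQ
        = (UQᴴ * UQ) * (Matrix.of fun k l => z (k, l)) * (UQᴴ * UQ) := by
          simp only [Matrix.mul_assoc]
      _ = _ := by rw [DQ.unit]; simp
  rw [e]
  rfl

/-- **FOPI, matrix form**: operator inequality with slack. -/
theorem fopi {Z : (Fin 4 → ℝ) → ℝ} (hZ : ZFacts Z)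
    {A UA : Matrix α α ℂ} {hA : α → ℝ} {B UB : Matrix β β ℂ} {hB : β → ℝ}
    {Q UQ : Matrix γ γ ℂ} {hQ : γ → ℝ}
    (DA : Diag A UA hA) (DB : Diag B UB hB) (DQ : Diag Q UQ hQ)
    (TA : Matrix γ γ ℂ →ₗ[ℂ] Matrix α α ℂ) (TB : Matrix γ γ ℂ →ₗ[ℂ] Matrix β β ℂ)
    {bA bB bC lA lB r : ℝ} (hbA : 0 < bA) (hbB : 0 < bB) (hbC : 0 < bC) (hr : 1 ≤ r)
    (SA : ∀ Y, wForm hA (fun _ => 1) (UAᴴ * TA Y * UA)
      ≤ lA * wForm hQ (fun _ => 1) (UQᴴ * Y * UQ))
    (SB : ∀ Y, wForm hB (fun _ => 1) (UBᴴ * TB Y * UB)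
      ≤ lB * wForm hQ (fun _ => 1) (UQᴴ * Y * UQ))
    (AR : ∀ Y, (trace (A * ((TA Y)ᴴ * TA Y))).re + (trace (B * ((TB Y)ᴴ * TB Y))).re
      ≤ (trace (Q * (Yᴴ * Y))).re)
    (AL : ∀ Y, (trace (A * (TA Y * (TA Y)ᴴ))).re + (trace (B * (TB Y * (TB Y)ᴴ))).re
      ≤ (trace (Q * (Y * Yᴴ))).re)
    (hp : lA * u bA + lB * u bB ≤ r * u bC)
    (hq : lA * u (-bA) + lB * u (-bB) ≤ r * u (-bC))
    (Y : Matrix γ γ ℂ) :
    wForm hA (H bA) (UAᴴ * TA Y * UA) + wForm hB (H bB) (UBᴴ * TB Y * UB)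
      + (r - 1) * D0 hQ (al bC) (UQᴴ * Y * UQ)
      ≤ r * wForm hQ (H bC) (UQᴴ * Y * UQ) := by
  -- general evaluation of the sums
  have ev : ∀ (wA wB : ℝ → ℝ) (Y : Matrix γ γ ℂ),
      ∑ s, Sum.elim (fun p : α × α => LMe (hA p.1) (hA p.2)) (fun p : β × β =>
          LMe (hB p.1) (hB p.2)) s
        * Sum.elim (fun p : α × α => wA (hA p.1 - hA p.2)) (fun p : β × β =>
          wB (hB p.1 - hB p.2)) s
        * ‖Tmap UA UB UQ TA TB (vec UQ Y) s‖ ^ 2
      = wForm hA wA (UAᴴ * TA Y * UA) + wForm hB wB (UBᴴ * TB Y * UB) := by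
    intro wA wB Y
    rw [Tmap_vec DQ, Fintype.sum_sum_type, wForm_prod, wForm_prod]
    rfl
  have evC : ∀ (w : ℝ → ℝ) (Y : Matrix γ γ ℂ),
      ∑ c : γ × γ, LMe (hQ c.1) (hQ c.2) * w (hQ c.1 - hQ c.2) * ‖vec UQ Y c‖ ^ 2
      = wForm hQ w (UQᴴ * Y * UQ) := by
    intro w Y
    rw [wForm_prod]
    rfl
  have hposQ : ∀ Y, 0 ≤ wForm hQ (fun _ => 1) (UQᴴ * Y * UQ) := by
    intro Y
    unfold wForm
    refine Finset.sum_nonneg fun k _ => Finset.sum_nonneg fun l _ => ?_
    have := LMe_pos (hQ k) (hQ l)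
    positivity
  have key := opi hZ (Tmap UA UB UQ TA TB)
    (mC := fun c => LMe (hQ c.1) (hQ c.2)) (kC := fun c => hQ c.1 - hQ c.2)
    (m := Sum.elim (fun p : α × α => LMe (hA p.1) (hA p.2)) (fun p : β × β =>
          LMe (hB p.1) (hB p.2)))
    (k := Sum.elim (fun p : α × α => hA p.1 - hA p.2) (fun p : β × β => hB p.1 - hB p.2))
    (bs := Sum.elim (fun _ => bA) (fun _ => bB)) (β := bC) (r := r) hbC
    (by rintro (p | p) <;> assumption) hr (fun c => LMe_pos _ _)
    (by rintro (p | p) <;> exact LMe_pos _ _)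
    (by
      intro z
      obtain ⟨Y, rfl⟩ := exists_vec DQ z
      have e1 := ev (fun _ => u bA) (fun _ => u bB) Y
      have e2 := evC (fun _ => u bC) Y
      rw [wForm_const hA (u bA), wForm_const hB (u bB)] at e1
      rw [wForm_const hQ (u bC)] at e2
      rw [e2]
      refine le_trans (le_of_eq ?_) (le_trans (le_of_eq e1) ?_)
      · refine Finset.sum_congr rfl fun s _ => ?_
        rcases s with p | p <;> rfl
      · have a1 := mul_le_mul_of_nonneg_left (SA Y) (u_pos bA).le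
        have a2 := mul_le_mul_of_nonneg_left (SB Y) (u_pos bB).le
        have a3 := mul_le_mul_of_nonneg_right hp (hposQ Y)
        linarith)
    (by
      intro z
      obtain ⟨Y, rfl⟩ := exists_vec DQ z
      have e1 := ev (fun _ => u (-bA)) (fun _ => u (-bB)) Y
      have e2 := evC (fun _ => u (-bC)) Y
      rw [wForm_const hA (u (-bA)), wForm_const hB (u (-bB))] at e1
      rw [wForm_const hQ (u (-bC))] at e2
      rw [e2]
      refine le_trans (le_of_eq ?_) (le_trans (le_of_eq e1) ?_)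
      · refine Finset.sum_congr rfl fun s _ => ?_
        rcases s with p | p <;> rfl
      · have a1 := mul_le_mul_of_nonneg_left (SA Y) (u_pos (-bA)).le
        have a2 := mul_le_mul_of_nonneg_left (SB Y) (u_pos (-bB)).le
        have a3 := mul_le_mul_of_nonneg_right hq (hposQ Y)
        linarith)
    (by
      intro z
      obtain ⟨Y, rfl⟩ := exists_vec DQ z
      have e1 := ev u u Y
      have e2 := evC u Y
      rw [e2]
      refine le_trans (le_of_eq ?_) (le_trans (le_of_eq e1) ?_)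
      · refine Finset.sum_congr rfl fun s _ => ?_
        rcases s with p | p <;> rfl
      · rw [wForm_u, wForm_u, wForm_u, ← DA.trace_right, ← DB.trace_right, ← DQ.trace_right]
        exact AR Y)
    (by
      intro z
      obtain ⟨Y, rfl⟩ := exists_vec DQ z
      have e1 := ev (fun t => u (-t)) (fun t => u (-t)) Y
      have e2 := evC (fun t => u (-t)) Y
      rw [e2]
      refine le_trans (le_of_eq ?_) (le_trans (le_of_eq e1) ?_)
      · refine Finset.sum_congr rfl fun s _ => ?_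
        rcases s with p | p <;> rfl
      · rw [wForm_u_neg, wForm_u_neg, wForm_u_neg, ← DA.trace_left, ← DB.trace_left,
          ← DQ.trace_left]
        exact AL Y)
    (vec UQ Y)
  have e1 := ev (H bA) (H bB) Y
  have e2 := evC (H bC) Y
  have e3 := evC (slack bC) Y
  rw [wForm_slack] at e3
  rw [e2, e3] at key
  rw [← e1]
  refine le_trans (le_of_eq ?_) key
  congr 1
  refine Finset.sum_congr rfl fun s _ => ?_
  rcases s with p | p <;> rfl

end

end Crest.Agent.R331.FOpiM712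
end

-- ▼ part R331/Bridge_776
section

/-!
Row 331, leaf BRIDGE (helper776): the operator inequality (OPI)/(LINOP) without complex analysis.
Part 1: the class of dominated pairs of weights and its closure under parallel sums.
-/

open scoped ENNReal BigOperators
open MeasureTheory Set Filter Topology

set_option autoImplicit false

namespace Crest.Agent.R331.Bridge776

variable {σ τ : Type*}

/-- weighted energy on the input side -/
noncomputable def QX (T : (σ →₀ ℂ) →ₗ[ℂ] (τ → ℂ)) (f : τ → ℝ) (z : σ →₀ ℂ) : ℝ≥0∞ :=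
  ∑' s, ENNReal.ofReal (f s * ‖T z s‖ ^ 2)

/-- weighted energy on the output side -/
noncomputable def QC (F : σ → ℝ) (z : σ →₀ ℂ) : ℝ := ∑ s ∈ z.support, F s * ‖z s‖ ^ 2

/-- `f` on the inputs is dominated by `F` on the output. -/
def Dom (T : (σ →₀ ℂ) →ₗ[ℂ] (τ → ℂ)) (f : τ → ℝ) (F : σ → ℝ) : Prop :=
  ∀ z, QX T f z ≤ ENNReal.ofReal (QC F z)

/-- multiplication of a finitely supported vector by a real multiplier -/
noncomputable def mulF (m : σ → ℝ) (z : σ →₀ ℂ) : σ →₀ ℂ :=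
  Finsupp.onFinset z.support (fun s => (m s : ℂ) * z s) (by
    intro s hs
    rw [Finsupp.mem_support_iff]
    intro h
    exact hs (by simp [h]))

@[simp] theorem mulF_apply (m : σ → ℝ) (z : σ →₀ ℂ) (s : σ) :
    mulF m z s = (m s : ℂ) * z s := rfl

theorem mulF_add (m₁ m₂ : σ → ℝ) (z : σ →₀ ℂ) :
    mulF (fun s => m₁ s + m₂ s) z = mulF m₁ z + mulF m₂ z := by
  ext s
  simp [add_mul]

theorem mulF_one (z : σ →₀ ℂ) : mulF (fun _ => 1) z = z := by
  ext s
  simp


theorem QC_mulF (F m : σ → ℝ) (z : σ →₀ ℂ) :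
    QC F (mulF m z) = QC (fun s => F s * m s ^ 2) z := by
  classical
  unfold QC
  have h1 : (mulF m z).support ⊆ z.support := by
    intro s hs
    rw [Finsupp.mem_support_iff] at hs ⊢
    intro h
    exact hs (by simp [h])
  rw [Finset.sum_subset h1]
  · refine Finset.sum_congr rfl (fun s _ => ?_)
    simp only [mulF_apply, norm_mul, Complex.norm_real, Real.norm_eq_abs, mul_pow, sq_abs]
    ring
  · intro s _ hs
    rw [Finsupp.notMem_support_iff] at hs
    rw [hs]
    simp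

theorem QC_add (F G : σ → ℝ) (z : σ →₀ ℂ) :
    QC (fun s => F s + G s) z = QC F z + QC G z := by
  simp [QC, add_mul, Finset.sum_add_distrib]


theorem QC_const_mul (a : ℝ) (F : σ → ℝ) (z : σ →₀ ℂ) :
    QC (fun s => a * F s) z = a * QC F z := by
  simp [QC, mul_assoc, Finset.mul_sum]

theorem QC_nonneg {F : σ → ℝ} (hF : ∀ s, 0 ≤ F s) (z : σ →₀ ℂ) : 0 ≤ QC F z :=
  Finset.sum_nonneg (fun s _ => mul_nonneg (hF s) (by positivity))

theorem QC_mono {F G : σ → ℝ} (h : ∀ s, F s ≤ G s) (z : σ →₀ ℂ) : QC F z ≤ QC G z :=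
  Finset.sum_le_sum (fun s _ => mul_le_mul_of_nonneg_right (h s) (by positivity))

variable {T : (σ →₀ ℂ) →ₗ[ℂ] (τ → ℂ)}

theorem Dom.mono {f f' : τ → ℝ} {F F' : σ → ℝ} (h : Dom T f F) (hf : ∀ s, f' s ≤ f s)
    (hF : ∀ s, F s ≤ F' s) : Dom T f' F' := by
  intro z
  refine le_trans (ENNReal.tsum_le_tsum fun s => ENNReal.ofReal_le_ofReal ?_)
    (le_trans (h z) (ENNReal.ofReal_le_ofReal (QC_mono hF z)))
  exact mul_le_mul_of_nonneg_right (hf s) (by positivity)

theorem Dom.add {f₁ f₂ : τ → ℝ} {F₁ F₂ : σ → ℝ} (h₁ : Dom T f₁ F₁) (h₂ : Dom T f₂ F₂)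
    (hf₁ : ∀ s, 0 ≤ f₁ s) (hf₂ : ∀ s, 0 ≤ f₂ s)
    (hF₁ : ∀ s, 0 ≤ F₁ s) (hF₂ : ∀ s, 0 ≤ F₂ s) :
    Dom T (fun s => f₁ s + f₂ s) (fun s => F₁ s + F₂ s) := by
  intro z
  rw [QC_add, ENNReal.ofReal_add (QC_nonneg hF₁ z) (QC_nonneg hF₂ z)]
  refine le_trans (le_of_eq ?_) (add_le_add (h₁ z) (h₂ z))
  unfold QX
  rw [← ENNReal.tsum_add]
  refine tsum_congr (fun s => ?_)
  rw [add_mul, ENNReal.ofReal_add (mul_nonneg (hf₁ s) (by positivity))
    (mul_nonneg (hf₂ s) (by positivity))]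

theorem Dom.zero : Dom T (fun _ => 0) (fun _ => 0) := by
  intro z
  simp [QX]

theorem Dom.const_mul {f : τ → ℝ} {F : σ → ℝ} (h : Dom T f F) {a : ℝ} (ha : 0 ≤ a) :
    Dom T (fun s => a * f s) (fun s => a * F s) := by
  intro z
  rw [QC_const_mul, ENNReal.ofReal_mul ha]
  refine le_trans (le_of_eq ?_) (mul_le_mul_right (h z) _)
  unfold QX
  rw [← ENNReal.tsum_mul_left]
  refine tsum_congr (fun s => ?_)
  rw [mul_assoc, ENNReal.ofReal_mul ha]

theorem Dom.sum {κ : Type*} (S : Finset κ) {f : κ → τ → ℝ} {F : κ → σ → ℝ}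
    (h : ∀ i ∈ S, Dom T (f i) (F i))
    (hf : ∀ i ∈ S, ∀ s, 0 ≤ f i s) (hF : ∀ i ∈ S, ∀ s, 0 ≤ F i s) :
    Dom T (fun s => ∑ i ∈ S, f i s) (fun s => ∑ i ∈ S, F i s) := by
  classical
  induction S using Finset.induction_on with
  | empty => simpa using Dom.zero
  | insert a S ha ih =>
    have h1 := Dom.add (h a (Finset.mem_insert_self a S))
      (ih (fun i hi => h i (Finset.mem_insert_of_mem hi))
        (fun i hi => hf i (Finset.mem_insert_of_mem hi))
        (fun i hi => hF i (Finset.mem_insert_of_mem hi)))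
      (hf a (Finset.mem_insert_self a S))
      (fun s => Finset.sum_nonneg (fun i hi => hf i (Finset.mem_insert_of_mem hi) s))
      (hF a (Finset.mem_insert_self a S))
      (fun s => Finset.sum_nonneg (fun i hi => hF i (Finset.mem_insert_of_mem hi) s))
    simpa [Finset.sum_insert ha] using h1

/-- scalar parallel-sum inequality -/
theorem par_scalar {f g : ℝ} (hf : 0 < f) (hg : 0 < g) (a b : ℂ) :
    f * g / (f + g) * ‖a + b‖ ^ 2 ≤ f * ‖a‖ ^ 2 + g * ‖b‖ ^ 2 := by
  have hn : ‖a + b‖ ≤ ‖a‖ + ‖b‖ := norm_add_le a b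
  have h0 : 0 ≤ ‖a + b‖ := norm_nonneg _
  have h1 : ‖a + b‖ ^ 2 ≤ (‖a‖ + ‖b‖) ^ 2 := by gcongr
  have hfg : 0 < f + g := by positivity
  have h2 : f * g / (f + g) * ‖a + b‖ ^ 2 ≤ f * g / (f + g) * (‖a‖ + ‖b‖) ^ 2 := by
    gcongr
  refine le_trans h2 ?_
  rw [div_mul_eq_mul_div, div_le_iff₀ hfg]
  nlinarith [sq_nonneg (f * ‖a‖ - g * ‖b‖)]

theorem Dom.par {f₁ f₂ : τ → ℝ} {F₁ F₂ : σ → ℝ} (h₁ : Dom T f₁ F₁) (h₂ : Dom T f₂ F₂)
    (hf₁ : ∀ s, 0 < f₁ s) (hf₂ : ∀ s, 0 < f₂ s)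
    (hF₁ : ∀ s, 0 < F₁ s) (hF₂ : ∀ s, 0 < F₂ s) :
    Dom T (fun s => f₁ s * f₂ s / (f₁ s + f₂ s)) (fun s => F₁ s * F₂ s / (F₁ s + F₂ s)) := by
  intro z
  set m₁ : σ → ℝ := fun s => F₂ s / (F₁ s + F₂ s) with hm₁
  set m₂ : σ → ℝ := fun s => F₁ s / (F₁ s + F₂ s) with hm₂
  have hz : z = mulF m₁ z + mulF m₂ z := by
    rw [← mulF_add]
    conv_lhs => rw [← mulF_one z]
    congr 1
    funext s
    have := hF₁ s
    have := hF₂ s
    simp only [hm₁, hm₂]
    field_simp
    ring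
  have hC : QC (fun s => F₁ s * F₂ s / (F₁ s + F₂ s)) z
      = QC F₁ (mulF m₁ z) + QC F₂ (mulF m₂ z) := by
    rw [QC_mulF, QC_mulF, ← QC_add]
    congr 1
    funext s
    have h1 := hF₁ s
    have h2 := hF₂ s
    simp only [hm₁, hm₂]
    field_simp
    ring
  rw [hC, ENNReal.ofReal_add (QC_nonneg (fun s => (hF₁ s).le) _)
    (QC_nonneg (fun s => (hF₂ s).le) _)]
  refine le_trans ?_ (add_le_add (h₁ (mulF m₁ z)) (h₂ (mulF m₂ z)))
  unfold QX
  rw [← ENNReal.tsum_add]
  refine ENNReal.tsum_le_tsum (fun s => ?_)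
  rw [← ENNReal.ofReal_add (mul_nonneg (hf₁ s).le (by positivity))
    (mul_nonneg (hf₂ s).le (by positivity))]
  apply ENNReal.ofReal_le_ofReal
  have hT : T z s = T (mulF m₁ z) s + T (mulF m₂ z) s := by
    conv_lhs => rw [hz]
    rw [map_add]
    rfl
  rw [hT]
  exact par_scalar (hf₁ s) (hf₂ s) _ _


end Crest.Agent.R331.Bridge776
end

-- ▼ part R331/BridgeInt_776
section

/-!
Row 331, leaf BRIDGE (helper776), part 2: the moments `M k β x = ∫ l^k ∏ (l+x_i)^{-β_i}`,
their recursion and bounds.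
-/

open scoped BigOperators
open MeasureTheory Set Filter Topology

set_option autoImplicit false
set_option linter.unusedSectionVars false

namespace Crest.Agent.R331.Bridge776

variable {ι : Type*} [Fintype ι] [DecidableEq ι]

/-- the weight `∏ (l+x_i)^{-β_i}` -/
noncomputable def w (β : ι → ℕ) (x : ι → ℝ) (l : ℝ) : ℝ := ∏ i, ((l + x i) ^ (β i))⁻¹

/-- its moments on the half line -/
noncomputable def M (k : ℕ) (β : ι → ℕ) (x : ι → ℝ) : ℝ := ∫ l in Ioi (0:ℝ), l ^ k * w β x l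

/-- raise the `i`-th exponent by one -/
def up (β : ι → ℕ) (i : ι) : ι → ℕ := β + Pi.single i 1

theorem sum_up (β : ι → ℕ) (i : ι) : ∑ j, up β i j = ∑ j, β j + 1 := by
  simp [up, Finset.sum_add_distrib]

theorem w_pos (β : ι → ℕ) {x : ι → ℝ} (hx : ∀ i, 0 < x i) {l : ℝ} (hl : 0 ≤ l) :
    0 < w β x l := by
  unfold w
  refine Finset.prod_pos (fun i _ => ?_)
  have := hx i
  positivity

theorem w_up (β : ι → ℕ) (x : ι → ℝ) (i : ι) (l : ℝ) :
    w (up β i) x l = w β x l / (l + x i) := by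
  unfold w up
  have h1 : ∀ j, ((l + x j) ^ ((β + (Pi.single i 1 : ι → ℕ)) j))⁻¹
      = ((l + x j) ^ (β j))⁻¹ * ((l + x j) ^ ((Pi.single i 1 : ι → ℕ) j))⁻¹ := by
    intro j
    rw [Pi.add_apply, pow_add, mul_inv]
  rw [Finset.prod_congr rfl (fun j _ => h1 j), Finset.prod_mul_distrib, div_eq_mul_inv]
  congr 1
  rw [Finset.prod_eq_single i]
  · simp
  · intro j _ hj
    simp [Pi.single_eq_of_ne hj]
  · intro h
    exact absurd (Finset.mem_univ i) h

theorem hasDerivAt_factor (n : ℕ) {x l : ℝ} (h : 0 < l + x) :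
    HasDerivAt (fun l => ((l + x) ^ n)⁻¹) (-(n * (((l + x) ^ n)⁻¹ / (l + x)))) l := by
  have h0 : HasDerivAt (fun l : ℝ => l + x) 1 l := (hasDerivAt_id l).add_const x
  have h1 : HasDerivAt (fun l : ℝ => (l + x) ^ n) (n * (l + x) ^ (n - 1) * 1) l := h0.pow n
  have h2 : HasDerivAt (fun l => ((l + x) ^ n)⁻¹)
    (-(n * (l + x) ^ (n - 1) * 1) / ((l + x) ^ n) ^ 2) l := h1.inv (pow_ne_zero n h.ne')
  refine h2.congr_deriv ?_
  rcases n with _ | n
  · simp
  · simp only [Nat.add_sub_cancel, mul_one]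
    push_cast
    field_simp
    ring

theorem hasDerivAt_w (β : ι → ℕ) {x : ι → ℝ} (hx : ∀ i, 0 < x i) {l : ℝ} (hl : 0 ≤ l) :
    HasDerivAt (w β x) (-(∑ i, (β i : ℝ) * w (up β i) x l)) l := by
  have h1 : HasDerivAt (fun l => ∏ i, ((l + x i) ^ (β i))⁻¹)
      (∑ i, (∏ j ∈ Finset.univ.erase i, ((l + x j) ^ (β j))⁻¹) •
        (-((β i) * (((l + x i) ^ (β i))⁻¹ / (l + x i))))) l := by
    have := HasDerivAt.fun_finsetProd (u := Finset.univ)
      (f := fun (i : ι) (l : ℝ) => ((l + x i) ^ (β i))⁻¹)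
      (f' := fun i => (-((β i) * (((l + x i) ^ (β i))⁻¹ / (l + x i))))) (x := l)
      (fun i _ => hasDerivAt_factor (β i) (by have := hx i; positivity))
    exact this
  have h2 : (∑ i, (∏ j ∈ Finset.univ.erase i, ((l + x j) ^ (β j))⁻¹) •
        (-((β i) * (((l + x i) ^ (β i))⁻¹ / (l + x i)))))
      = -(∑ i, (β i : ℝ) * w (up β i) x l) := by
    rw [← Finset.sum_neg_distrib]
    refine Finset.sum_congr rfl (fun i _ => ?_)
    rw [w_up]
    have h3 : w β x l = (∏ j ∈ Finset.univ.erase i, ((l + x j) ^ (β j))⁻¹) *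
        ((l + x i) ^ (β i))⁻¹ := by
      unfold w
      rw [Finset.prod_erase_mul _ _ (Finset.mem_univ i)]
    rw [h3, smul_eq_mul]
    ring
  rw [h2] at h1
  exact h1

theorem continuousOn_w (β : ι → ℕ) {x : ι → ℝ} (hx : ∀ i, 0 < x i) :
    ContinuousOn (w β x) (Ici 0) :=
  fun _ hl => (hasDerivAt_w β hx hl).continuousAt.continuousWithinAt

/-- a positive lower bound of the `x i` -/
noncomputable def mn (x : ι → ℝ) : ℝ := (∑ i, (x i)⁻¹)⁻¹

theorem mn_le {x : ι → ℝ} (hx : ∀ i, 0 < x i) (i : ι) : mn x ≤ x i := by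
  unfold mn
  have h1 : (x i)⁻¹ ≤ ∑ j, (x j)⁻¹ :=
    Finset.single_le_sum (f := fun j => (x j)⁻¹) (fun j _ => (inv_pos.mpr (hx j)).le)
      (Finset.mem_univ i)
  have h2 := inv_anti₀ (inv_pos.mpr (hx i)) h1
  simpa using h2

theorem mn_pos [Nonempty ι] {x : ι → ℝ} (hx : ∀ i, 0 < x i) : 0 < mn x := by
  unfold mn
  refine inv_pos.mpr (Finset.sum_pos (fun i _ => inv_pos.mpr (hx i)) Finset.univ_nonempty)

/-- the crude pointwise bound -/
theorem bound {β : ι → ℕ} {x : ι → ℝ} {m : ℝ} (hm : 0 < m) (hmx : ∀ i, m ≤ x i) {k e : ℕ}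
    (hk : k + e ≤ ∑ i, β i) {l : ℝ} (hl : 0 ≤ l) :
    l ^ k * w β x l ≤ (m ^ (∑ i, β i - (k + e)))⁻¹ * ((l + m) ^ e)⁻¹ := by
  have h1 : w β x l ≤ ((l + m) ^ (∑ i, β i))⁻¹ := by
    unfold w
    rw [← Finset.prod_pow_eq_pow_sum, ← Finset.prod_inv_distrib]
    refine Finset.prod_le_prod (fun i _ => ?_) (fun i _ => ?_)
    · have h7 : 0 < x i := lt_of_lt_of_le hm (hmx i)
      positivity
    · apply inv_anti₀ (by positivity)
      gcongr
      exact hmx i
  have h2 : l ^ k ≤ (l + m) ^ k := by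
    gcongr
    linarith
  have h3 : 0 < l + m := by linarith
  have h4 : (l + m) ^ (∑ i, β i) = (l + m) ^ (∑ i, β i - (k + e)) * (l + m) ^ k * (l + m) ^ e := by
    rw [mul_assoc, ← pow_add, ← pow_add]
    congr 1
    omega
  have h5 : l ^ k * w β x l ≤ (l + m) ^ k * ((l + m) ^ (∑ i, β i))⁻¹ := by
    have : 0 ≤ ((l + m) ^ (∑ i, β i))⁻¹ := by positivity
    calc l ^ k * w β x l ≤ l ^ k * ((l + m) ^ (∑ i, β i))⁻¹ := by gcongr
      _ ≤ (l + m) ^ k * ((l + m) ^ (∑ i, β i))⁻¹ := by gcongr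
  refine le_trans h5 ?_
  rw [h4]
  have h6 : (l + m) ^ k * ((l + m) ^ (∑ i, β i - (k + e)) * (l + m) ^ k * (l + m) ^ e)⁻¹
      = ((l + m) ^ (∑ i, β i - (k + e)))⁻¹ * ((l + m) ^ e)⁻¹ := by
    field_simp
  rw [h6]
  gcongr
  linarith

theorem integrableOn_inv_sq {m : ℝ} (hm : 0 < m) :
    IntegrableOn (fun l : ℝ => ((l + m) ^ 2)⁻¹) (Ioi 0) := by
  have h := integrableOn_add_rpow_Ioi_of_lt (a := -2) (c := 0) (m := m) (by norm_num)
    (by linarith)
  refine h.congr_fun (fun l hl => ?_) measurableSet_Ioi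
  have hl' : (0:ℝ) < l := hl
  have : 0 < l + m := by linarith
  simp only
  rw [Real.rpow_neg this.le]
  norm_num

theorem integrableOn_lw (β : ι → ℕ) {x : ι → ℝ} (hx : ∀ i, 0 < x i) {k : ℕ}
    (hk : k + 2 ≤ ∑ i, β i) : IntegrableOn (fun l => l ^ k * w β x l) (Ioi 0) := by
  have hne : Nonempty ι := by
    by_contra h
    rw [not_nonempty_iff] at h
    simp at hk
  refine Integrable.mono' (((integrableOn_inv_sq (mn_pos hx)).const_mul
    (mn x ^ (∑ i, β i - (k + 2)))⁻¹)) ?_ ?_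
  · exact ((continuousOn_id.pow k).mul
      ((continuousOn_w β hx).mono Ioi_subset_Ici_self)).aestronglyMeasurable measurableSet_Ioi
  · refine (ae_restrict_mem measurableSet_Ioi).mono (fun l hl => ?_)
    have hl' : (0:ℝ) < l := hl
    rw [Real.norm_eq_abs, abs_of_nonneg (mul_nonneg (by positivity) (w_pos β hx hl'.le).le)]
    exact bound (mn_pos hx) (mn_le hx) hk hl'.le

theorem tendsto_lw (β : ι → ℕ) {x : ι → ℝ} (hx : ∀ i, 0 < x i) {k : ℕ}
    (hk : k + 1 ≤ ∑ i, β i) : Tendsto (fun l => l ^ k * w β x l) atTop (𝓝 0) := by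
  have hne : Nonempty ι := by
    by_contra h
    rw [not_nonempty_iff] at h
    simp at hk
  have h1 : Tendsto (fun l : ℝ => (mn x ^ (∑ i, β i - (k + 1)))⁻¹ * ((l + mn x) ^ 1)⁻¹) atTop
      (𝓝 ((mn x ^ (∑ i, β i - (k + 1)))⁻¹ * 0)) := by
    refine Tendsto.const_mul _ ?_
    simp only [pow_one]
    exact tendsto_inv_atTop_zero.comp (tendsto_atTop_add_const_right _ _ tendsto_id)
  rw [mul_zero] at h1
  refine tendsto_of_tendsto_of_tendsto_of_le_of_le' tendsto_const_nhds h1 ?_ ?_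
  · filter_upwards [eventually_ge_atTop (0:ℝ)] with l hl
    exact mul_nonneg (by positivity) (w_pos β hx hl).le
  · filter_upwards [eventually_ge_atTop (0:ℝ)] with l hl
    exact bound (mn_pos hx) (mn_le hx) hk hl

theorem M_pos (β : ι → ℕ) {x : ι → ℝ} (hx : ∀ i, 0 < x i) {k : ℕ}
    (hk : k + 2 ≤ ∑ i, β i) : 0 < M k β x := by
  unfold M
  rw [setIntegral_pos_iff_support_of_nonneg_ae _ (integrableOn_lw β hx hk)]
  · have : Ioi (0:ℝ) ⊆ (Function.support fun l => l ^ k * w β x l) ∩ Ioi 0 := by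
      intro l hl
      have hl' : (0:ℝ) < l := hl
      refine ⟨?_, hl⟩
      rw [Function.mem_support]
      exact (mul_pos (by positivity) (w_pos β hx hl'.le)).ne'
    refine lt_of_lt_of_le ?_ (measure_mono this)
    simp
  · refine (ae_restrict_mem measurableSet_Ioi).mono (fun l hl => ?_)
    have hl' : (0:ℝ) < l := hl
    exact mul_nonneg (by positivity) (w_pos β hx hl'.le).le

/-- integration by parts -/
theorem M_ibp (β : ι → ℕ) {x : ι → ℝ} (hx : ∀ i, 0 < x i) {k : ℕ}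
    (hk : k + 2 ≤ ∑ i, β i) :
    (k + 1 : ℝ) * M k β x = ∑ i, (β i : ℝ) * M (k + 1) (up β i) x := by
  have hI1 := integrableOn_lw β hx hk
  have hI2 : ∀ i, IntegrableOn (fun l => l ^ (k + 1) * w (up β i) x l) (Ioi 0) := fun i =>
    integrableOn_lw (up β i) hx (by rw [sum_up]; omega)
  have hder : ∀ l ∈ Ioi (0:ℝ), HasDerivAt (fun l => l ^ (k + 1) * w β x l)
      ((k + 1 : ℝ) * (l ^ k * w β x l) - ∑ i, (β i : ℝ) * (l ^ (k + 1) * w (up β i) x l)) l := by
    intro l hl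
    have hl' : (0:ℝ) < l := hl
    have h1 : HasDerivAt (fun l => l ^ (k + 1) * w β x l) _ l :=
      (hasDerivAt_pow (k + 1) l).mul (hasDerivAt_w β hx hl'.le)
    refine h1.congr_deriv ?_
    rw [mul_neg, Finset.mul_sum]
    simp only [Nat.add_sub_cancel]
    push_cast
    rw [sub_eq_add_neg]
    congr 1
    · ring
    · congr 1
      refine Finset.sum_congr rfl (fun i _ => ?_)
      ring
  have hint : IntegrableOn (fun l => (k + 1 : ℝ) * (l ^ k * w β x l) -
      ∑ i, (β i : ℝ) * (l ^ (k + 1) * w (up β i) x l)) (Ioi 0) := by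
    refine Integrable.sub (hI1.const_mul _) ?_
    exact integrable_finsetSum _ (fun i _ => (hI2 i).const_mul _)
  have h0 := integral_Ioi_of_hasDerivAt_of_tendsto (a := 0)
    (f := fun l => l ^ (k + 1) * w β x l) (m := 0)
    ((((continuousOn_id.pow (k+1)).mul (continuousOn_w β hx)) 0 (by simp)))
    hder hint (tendsto_lw β hx (by omega))
  rw [integral_sub (hI1.const_mul _) (integrable_finsetSum _ (fun i _ => (hI2 i).const_mul _)),
    integral_const_mul, integral_finsetSum _ (fun i _ => (hI2 i).const_mul _)] at h0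
  simp only [integral_const_mul] at h0
  have h2 : (0:ℝ) ^ (k + 1) = 0 := by simp
  simp only [h2, zero_mul, sub_zero] at h0
  unfold M
  linarith

/-- the algebraic relation -/
theorem M_alg (β : ι → ℕ) {x : ι → ℝ} (hx : ∀ i, 0 < x i) {k : ℕ}
    (hk : k + 2 ≤ ∑ i, β i) (i : ι) :
    M (k + 1) (up β i) x + x i * M k (up β i) x = M k β x := by
  unfold M
  have hI2 : IntegrableOn (fun l => l ^ (k + 1) * w (up β i) x l) (Ioi 0) :=
    integrableOn_lw (up β i) hx (by rw [sum_up]; omega)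
  have hI3 : IntegrableOn (fun l => l ^ k * w (up β i) x l) (Ioi 0) :=
    integrableOn_lw (up β i) hx (by rw [sum_up]; omega)
  rw [← integral_const_mul, ← integral_add hI2 (hI3.const_mul _)]
  refine setIntegral_congr_fun measurableSet_Ioi (fun l hl => ?_)
  have hl' : (0:ℝ) < l := hl
  have : 0 < l + x i := by have := hx i; positivity
  simp only [w_up]
  field_simp
  ring

/-- The recursion `(N-2) M₁(β) = Σ β_i x_i M₁(β+e_i)`. -/
theorem M_rec (β : ι → ℕ) {x : ι → ℝ} (hx : ∀ i, 0 < x i)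
    (hk : 3 ≤ ∑ i, β i) :
    ((∑ i, β i : ℕ) - 2 : ℝ) * M 1 β x = ∑ i, (β i : ℝ) * (x i * M 1 (up β i) x) := by
  have h1 := M_ibp β hx (k := 1) (by omega)
  have h2 : ∀ i, M 2 (up β i) x = M 1 β x - x i * M 1 (up β i) x := by
    intro i
    have := M_alg β hx (k := 1) (by omega) i
    norm_num at this
    linarith
  norm_num at h1
  simp only [h2] at h1
  have h3 : ∑ i, (β i : ℝ) * (M 1 β x - x i * M 1 (up β i) x)
      = ((∑ i, β i : ℕ) : ℝ) * M 1 β x - ∑ i, (β i : ℝ) * (x i * M 1 (up β i) x) := by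
    push_cast
    rw [Finset.sum_mul, ← Finset.sum_sub_distrib]
    refine Finset.sum_congr rfl (fun i _ => ?_)
    ring
  rw [h3] at h1
  linarith

/-- The mean `Φ(β;x)`. -/
noncomputable def Phi (β : ι → ℕ) (x : ι → ℝ) : ℝ := M 1 β x / M 0 β x

theorem Phi_pos (β : ι → ℕ) {x : ι → ℝ} (hx : ∀ i, 0 < x i)
    (hk : 3 ≤ ∑ i, β i) : 0 < Phi β x :=
  div_pos (M_pos β hx (by omega)) (M_pos β hx (by omega))

/-- parallel sum -/
theorem par_Phi (β : ι → ℕ) {x : ι → ℝ} (hx : ∀ i, 0 < x i)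
    (hk : 3 ≤ ∑ i, β i) (i : ι) :
    x i * Phi (up β i) x / (x i + Phi (up β i) x) = x i * M 1 (up β i) x / M 0 β x := by
  have h0 : 0 < M 0 (up β i) x := M_pos _ hx (by rw [sum_up]; omega)
  have h1 : 0 < M 1 (up β i) x := M_pos _ hx (by rw [sum_up]; omega)
  have h2 := M_alg β hx (k := 0) (by omega) i
  norm_num at h2
  have h3 := hx i
  rw [← h2]
  unfold Phi
  field_simp
  ring

/-- The network recursion. -/
theorem Phi_rec (β : ι → ℕ) {x : ι → ℝ} (hx : ∀ i, 0 < x i)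
    (hk : 3 ≤ ∑ i, β i) :
    ((∑ i, β i : ℕ) - 2 : ℝ) * Phi β x =
      ∑ i, (β i : ℝ) * (x i * Phi (up β i) x / (x i + Phi (up β i) x)) := by
  simp only [par_Phi β hx hk]
  unfold Phi
  have := M_rec β hx hk
  have h0 : 0 < M 0 β x := M_pos _ hx (by omega)
  rw [mul_div_assoc', this, Finset.sum_div]
  refine Finset.sum_congr rfl (fun i _ => ?_)
  ring

theorem M0_eq (β : ι → ℕ) {x : ι → ℝ} (hx : ∀ i, 0 < x i)
    (hk : 3 ≤ ∑ i, β i) : M 0 β x = ∑ i, (β i : ℝ) * M 1 (up β i) x := by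
  have := M_ibp β hx (k := 0) (by omega)
  simpa using this

theorem Phi_lower (β : ι → ℕ) {x : ι → ℝ} (hx : ∀ i, 0 < x i)
    (hk : 3 ≤ ∑ i, β i) {m : ℝ} (hm : ∀ i, m ≤ x i) :
    m ≤ ((∑ i, β i : ℕ) - 2 : ℝ) * Phi β x := by
  have h0 : 0 < M 0 β x := M_pos _ hx (by omega)
  unfold Phi
  rw [mul_div_assoc', le_div_iff₀ h0, M_rec β hx hk, M0_eq β hx hk, Finset.mul_sum]
  refine Finset.sum_le_sum (fun i _ => ?_)
  have h1 : 0 < M 1 (up β i) x := M_pos _ hx (by rw [sum_up]; omega)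
  have := hm i
  calc m * ((β i : ℝ) * M 1 (up β i) x) = (β i : ℝ) * (m * M 1 (up β i) x) := by ring
    _ ≤ (β i : ℝ) * (x i * M 1 (up β i) x) := by gcongr

theorem Phi_upper (β : ι → ℕ) {x : ι → ℝ} (hx : ∀ i, 0 < x i)
    (hk : 3 ≤ ∑ i, β i) {m : ℝ} (hm : ∀ i, x i ≤ m) :
    ((∑ i, β i : ℕ) - 2 : ℝ) * Phi β x ≤ m := by
  have h0 : 0 < M 0 β x := M_pos _ hx (by omega)
  unfold Phi
  rw [mul_div_assoc', div_le_iff₀ h0, M_rec β hx hk, M0_eq β hx hk, Finset.mul_sum]
  refine Finset.sum_le_sum (fun i _ => ?_)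
  have h1 : 0 < M 1 (up β i) x := M_pos _ hx (by rw [sum_up]; omega)
  have := hm i
  calc (β i : ℝ) * (x i * M 1 (up β i) x) ≤ (β i : ℝ) * (m * M 1 (up β i) x) := by gcongr
    _ = m * ((β i : ℝ) * M 1 (up β i) x) := by ring

end Crest.Agent.R331.Bridge776
end

-- ▼ part R331/BridgeDom_776
section

/-!
Row 331, leaf BRIDGE (helper776), part 3: `Φ(β; ·)` preserves domination.
-/

open scoped ENNReal BigOperators
open MeasureTheory Set Filter Topology

set_option autoImplicit false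
set_option linter.unusedSectionVars false

namespace Crest.Agent.R331.Bridge776

variable {ι : Type*} [Fintype ι] [DecidableEq ι]

noncomputable def tot (x : ι → ℝ) : ℝ := ∑ i, x i



noncomputable def cc (x : ι → ℝ) : ℝ := mn x / (mn x + tot x)




/-- the error factor -/
noncomputable def EE (R c : ℝ) : ℕ → ℕ → ℝ
  | 0, _ => R
  | (K + 1), N => EE R c K (N + 1) * (1 - c / (N + 1))




variable {σ τ : Type*} {T : (σ →₀ ℂ) →ₗ[ℂ] (τ → ℂ)}



end Crest.Agent.R331.Bridge776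
private theorem rz_c1a1bd4624 : type_of% @_root_.Crest.Agent.R331.Bridge776.EE.eq_def := @_root_.Crest.Agent.R331.Bridge776.EE.eq_def -- L58
private theorem rz_233045489a : type_of% @_root_.Crest.Agent.R331.Bridge776.EE.eq_1 := @_root_.Crest.Agent.R331.Bridge776.EE.eq_1 -- L58
end

-- ▼ part R331/BridgeOPI_776
section

/-!
Row 331, leaf BRIDGE (helper776), part 4: the curve `LM = 1`, the Wheatstone bridge and the
operator inequality (OPI) in its finitely supported form, with loss term.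
-/

open scoped ENNReal BigOperators
open MeasureTheory Set Filter Topology

set_option autoImplicit false

namespace Crest.Agent.R331.Bridge776

/-- `u t = t/(e^t-1)`, `u 0 = 1`. -/
noncomputable def u (t : ℝ) : ℝ := if t = 0 then 1 else t / (Real.exp t - 1)

theorem u_zero : u 0 = 1 := by simp [u]

theorem exp_sub_one_ne {t : ℝ} (ht : t ≠ 0) : Real.exp t - 1 ≠ 0 := by
  intro h
  have : Real.exp t = 1 := by linarith
  exact ht ((Real.exp_eq_one_iff t).mp this)

theorem u_pos (t : ℝ) : 0 < u t := by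
  unfold u
  split_ifs with h
  · norm_num
  · rcases lt_or_gt_of_ne h with h1 | h1
    · have : Real.exp t < 1 := by
        rw [← Real.exp_zero]
        exact Real.exp_lt_exp.mpr h1
      exact div_pos_of_neg_of_neg h1 (by linarith)
    · have : 1 < Real.exp t := Real.one_lt_exp_iff.mpr h1
      exact div_pos h1 (by linarith)

theorem u_neg_eq_exp (t : ℝ) : u (-t) = Real.exp t * u t := by
  by_cases h : t = 0
  · simp [h, u_zero]
  · have h1 := exp_sub_one_ne h
    have h3 : -t ≠ 0 := neg_ne_zero.mpr h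
    have h2 := exp_sub_one_ne h3
    have h4 : Real.exp (-t) = (Real.exp t)⁻¹ := Real.exp_neg t
    have h5 : Real.exp t ≠ 0 := (Real.exp_pos t).ne'
    unfold u
    rw [if_neg h, if_neg h3]
    rw [div_eq_iff h2, h4]
    field_simp
    ring

theorem u_neg (t : ℝ) : u (-t) = u t + t := by
  by_cases h : t = 0
  · simp [h, u_zero]
  · rw [u_neg_eq_exp]
    have h1 := exp_sub_one_ne h
    unfold u
    rw [if_neg h]
    field_simp
    ring

/-- two-variable weights -/
theorem w_two (p q l : ℝ) : w (1 : Fin 2 → ℕ) ![p, q] l = ((l + p) * (l + q))⁻¹ := by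
  simp [w, Fin.prod_univ_two]

theorem intOn_two {p q : ℝ} (hp : 0 < p) (hq : 0 < q) :
    IntegrableOn (fun l : ℝ => ((l + p) * (l + q))⁻¹) (Ioi 0) := by
  have h := integrableOn_lw (1 : Fin 2 → ℕ) (x := ![p, q]) (k := 0)
    (by intro i; fin_cases i <;> simpa) (by simp)
  simpa [w_two] using h

/-- the logarithmic mean of `u t`, `u (-t)` is one -/
theorem LM_one (t : ℝ) : ∫ l in Ioi (0:ℝ), ((l + u t) * (l + u (-t)))⁻¹ = 1 := by
  have hp := u_pos t
  have hq := u_pos (-t)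
  by_cases h : t = 0
  · subst h
    have hder : ∀ l ∈ Ioi (0:ℝ), HasDerivAt (fun l : ℝ => -(l + 1)⁻¹)
        ((l + u 0) * (l + u (-0)))⁻¹ l := by
      intro l hl
      have hl' : (0:ℝ) < l := hl
      have h0 : l + 1 ≠ 0 := by positivity
      have h1 : HasDerivAt (fun l : ℝ => (l + 1)⁻¹) (-1 / (l + 1) ^ 2) l :=
        ((hasDerivAt_id l).add_const 1).inv h0
      have h2 : HasDerivAt (fun l : ℝ => -(l + 1)⁻¹) (-(-1 / (l + 1) ^ 2)) l := h1.neg
      refine h2.congr_deriv ?_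
      simp only [neg_zero, u_zero]
      field_simp
    have hlim : Tendsto (fun l : ℝ => -(l + 1)⁻¹) atTop (𝓝 0) := by
      have : Tendsto (fun l : ℝ => (l + 1)⁻¹) atTop (𝓝 0) :=
        tendsto_inv_atTop_zero.comp (tendsto_atTop_add_const_right _ _ tendsto_id)
      simpa using this.neg
    have hc : ContinuousWithinAt (fun l : ℝ => -(l + 1)⁻¹) (Ici 0) 0 := by
      have : ContinuousAt (fun l : ℝ => -(l + 1)⁻¹) 0 := by
        refine ((continuousAt_id.add continuousAt_const).inv₀ ?_).neg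
        simp
      exact this.continuousWithinAt
    have := integral_Ioi_of_hasDerivAt_of_tendsto hc hder (intOn_two hp hq) hlim
    rw [this]
    norm_num
  · have hder : ∀ l ∈ Ioi (0:ℝ),
        HasDerivAt (fun l : ℝ => (1 / t) * (Real.log (l + u t) - Real.log (l + u (-t))))
        ((l + u t) * (l + u (-t)))⁻¹ l := by
      intro l hl
      have hl' : (0:ℝ) < l := hl
      have h1 : HasDerivAt (fun l : ℝ => Real.log (l + u t)) (1 / (l + u t)) l :=
        ((hasDerivAt_id l).add_const (u t)).log (by simp only [id]; positivity)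
      have h2 : HasDerivAt (fun l : ℝ => Real.log (l + u (-t))) (1 / (l + u (-t))) l :=
        ((hasDerivAt_id l).add_const (u (-t))).log (by simp only [id]; positivity)
      have h3 := (h1.sub h2).const_mul (1 / t)
      refine h3.congr_deriv ?_
      have h4 : l + u t ≠ 0 := by positivity
      have h5 : l + u (-t) ≠ 0 := by positivity
      have h6 := u_neg t
      rw [h6] at h5 ⊢
      field_simp
      ring
    have hlim : Tendsto (fun l : ℝ => (1 / t) * (Real.log (l + u t) - Real.log (l + u (-t))))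
        atTop (𝓝 0) := by
      have h1 : Tendsto (fun l : ℝ => (l + u t) / (l + u (-t))) atTop (𝓝 1) := by
        have h2 : Tendsto (fun l : ℝ => 1 + (u t - u (-t)) * (l + u (-t))⁻¹) atTop
            (𝓝 (1 + (u t - u (-t)) * 0)) := by
          refine Tendsto.const_add _ (Tendsto.const_mul _ ?_)
          exact tendsto_inv_atTop_zero.comp (tendsto_atTop_add_const_right _ _ tendsto_id)
        simp only [mul_zero, add_zero] at h2
        refine h2.congr' ?_
        filter_upwards [eventually_ge_atTop (0:ℝ)] with l hl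
        have : l + u (-t) ≠ 0 := by positivity
        field_simp
        ring
      have h3 : Tendsto (fun l : ℝ => Real.log ((l + u t) / (l + u (-t)))) atTop (𝓝 0) := by
        have h9 := (Real.continuousAt_log (x := 1) one_ne_zero).tendsto.comp h1
        rw [Real.log_one] at h9
        exact h9
      have h4 : Tendsto (fun l : ℝ => (1 / t) * Real.log ((l + u t) / (l + u (-t)))) atTop
          (𝓝 ((1 / t) * 0)) := h3.const_mul _
      rw [mul_zero] at h4
      refine h4.congr' ?_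
      filter_upwards [eventually_ge_atTop (0:ℝ)] with l hl
      rw [Real.log_div (by positivity) (by positivity)]
    have hc : ContinuousWithinAt
        (fun l : ℝ => (1 / t) * (Real.log (l + u t) - Real.log (l + u (-t)))) (Ici 0) 0 := by
      have : ContinuousAt
          (fun l : ℝ => (1 / t) * (Real.log (l + u t) - Real.log (l + u (-t)))) 0 := by
        refine ContinuousAt.mul continuousAt_const (ContinuousAt.sub ?_ ?_)
        · exact (continuousAt_id.add continuousAt_const).log (by simp; positivity)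
        · exact (continuousAt_id.add continuousAt_const).log (by simp; positivity)
      exact this.continuousWithinAt
    have h7 := integral_Ioi_of_hasDerivAt_of_tendsto hc hder (intOn_two hp hq) hlim
    rw [h7]
    have h8 : Real.log (u (-t)) = t + Real.log (u t) := by
      rw [u_neg_eq_exp, Real.log_mul (Real.exp_pos t).ne' hp.ne', Real.log_exp]
    simp only [zero_add, zero_sub, h8]
    field_simp
    ring

/-- the four variables -/
noncomputable def fv (b t : ℝ) : Fin 4 → ℝ := ![u b, u (-b), u t, u (-t)]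

theorem fv_pos (b t : ℝ) (i : Fin 4) : 0 < fv b t i := by
  fin_cases i <;> simp [fv, u_pos]

/-- the bridge conductance -/
noncomputable def cb (b t : ℝ) : ℝ := Phi (1 : Fin 4 → ℕ) (fv b t)


theorem w_four (b t l : ℝ) : w (1 : Fin 4 → ℕ) (fv b t) l
    = ((l + u b) * (l + u (-b)))⁻¹ * ((l + u t) * (l + u (-t)))⁻¹ := by
  simp [w, fv, Fin.prod_univ_four]
  ring

theorem int_four (b t : ℝ) (k : ℕ) (hk : k ≤ 2) :
    IntegrableOn (fun l => l ^ k * w (1 : Fin 4 → ℕ) (fv b t) l) (Ioi 0) :=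
  integrableOn_lw _ (fv_pos b t) (by simp; omega)

theorem mom_t (b t : ℝ) : M 2 (1 : Fin 4 → ℕ) (fv b t)
    + (u b + u (-b)) * M 1 (1 : Fin 4 → ℕ) (fv b t)
    + u b * u (-b) * M 0 (1 : Fin 4 → ℕ) (fv b t) = 1 := by
  rw [← LM_one t]
  unfold M
  have i2 := int_four b t 2 le_rfl
  have i1 := (int_four b t 1 (by norm_num)).const_mul (u b + u (-b))
  have i0 := (int_four b t 0 (by norm_num)).const_mul (u b * u (-b))
  have i21 : IntegrableOn (fun l => l ^ 2 * w (1 : Fin 4 → ℕ) (fv b t) l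
    + (u b + u (-b)) * (l ^ 1 * w (1 : Fin 4 → ℕ) (fv b t) l)) (Ioi 0) := i2.add i1
  rw [← integral_const_mul, ← integral_const_mul, ← integral_add i2 i1, ← integral_add i21 i0]
  refine setIntegral_congr_fun measurableSet_Ioi (fun l hl => ?_)
  have hl' : (0:ℝ) < l := hl
  have h1 : 0 < l + u b := by have := u_pos b; positivity
  have h2 : 0 < l + u (-b) := by have := u_pos (-b); positivity
  simp only [w_four]
  field_simp
  ring

theorem mom_b (b t : ℝ) : M 2 (1 : Fin 4 → ℕ) (fv b t)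
    + (u t + u (-t)) * M 1 (1 : Fin 4 → ℕ) (fv b t)
    + u t * u (-t) * M 0 (1 : Fin 4 → ℕ) (fv b t) = 1 := by
  rw [← LM_one b]
  unfold M
  have i2 := int_four b t 2 le_rfl
  have i1 := (int_four b t 1 (by norm_num)).const_mul (u t + u (-t))
  have i0 := (int_four b t 0 (by norm_num)).const_mul (u t * u (-t))
  have i21 : IntegrableOn (fun l => l ^ 2 * w (1 : Fin 4 → ℕ) (fv b t) l
    + (u t + u (-t)) * (l ^ 1 * w (1 : Fin 4 → ℕ) (fv b t) l)) (Ioi 0) := i2.add i1
  rw [← integral_const_mul, ← integral_const_mul, ← integral_add i2 i1, ← integral_add i21 i0]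
  refine setIntegral_congr_fun measurableSet_Ioi (fun l hl => ?_)
  have hl' : (0:ℝ) < l := hl
  have h1 : 0 < l + u t := by have := u_pos t; positivity
  have h2 : 0 < l + u (-t) := by have := u_pos (-t); positivity
  simp only [w_four]
  field_simp
  ring

theorem M0_four_pos (b t : ℝ) : 0 < M 0 (1 : Fin 4 → ℕ) (fv b t) :=
  M_pos _ (fv_pos b t) (by simp)

/-- `(σ_b - σ_t) c = π_t - π_b` -/
theorem cb_rel (b t : ℝ) :
    (u b + u (-b) - (u t + u (-t))) * cb b t = u t * u (-t) - u b * u (-b) := by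
  have h1 := mom_t b t
  have h2 := mom_b b t
  have h3 := M0_four_pos b t
  have h4 : cb b t * M 0 (1 : Fin 4 → ℕ) (fv b t) = M 1 (1 : Fin 4 → ℕ) (fv b t) := by
    unfold cb Phi
    field_simp
  apply mul_right_cancel₀ h3.ne'
  rw [mul_assoc, h4]
  linear_combination h1 - h2

theorem tendsto_inv_add (p : ℝ) : Tendsto (fun l : ℝ => (l + p)⁻¹) atTop (𝓝 0) :=
  tendsto_inv_atTop_zero.comp (tendsto_atTop_add_const_right _ _ tendsto_id)

/-- diagonal, first relation -/
theorem diag1 (b : ℝ) :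
    2 * M 1 (1 : Fin 4 → ℕ) (fv b b) + (u b + u (-b)) * M 0 (1 : Fin 4 → ℕ) (fv b b)
      = (u b * u (-b))⁻¹ := by
  have hp := u_pos b
  have hq := u_pos (-b)
  have hder : ∀ l ∈ Ioi (0:ℝ), HasDerivAt (fun l : ℝ => -((l + u b) * (l + u (-b)))⁻¹)
      (2 * (l ^ 1 * w (1 : Fin 4 → ℕ) (fv b b) l)
        + (u b + u (-b)) * (l ^ 0 * w (1 : Fin 4 → ℕ) (fv b b) l)) l := by
    intro l hl
    have hl' : (0:ℝ) < l := hl
    have h0 : (l + u b) * (l + u (-b)) ≠ 0 := by positivity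
    have h1 : HasDerivAt (fun l : ℝ => (l + u b) * (l + u (-b)))
      (1 * (l + u (-b)) + (l + u b) * 1) l :=
      ((hasDerivAt_id l).add_const _).mul ((hasDerivAt_id l).add_const _)
    have h2 : HasDerivAt (fun l : ℝ => -((l + u b) * (l + u (-b)))⁻¹)
      (-(-(1 * (l + u (-b)) + (l + u b) * 1) / ((l + u b) * (l + u (-b))) ^ 2)) l :=
      (h1.inv h0).neg
    refine h2.congr_deriv ?_
    rw [w_four]
    have h3 : l + u b ≠ 0 := by positivity
    have h4 : l + u (-b) ≠ 0 := by positivity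
    field_simp
    ring
  have hlim : Tendsto (fun l : ℝ => -((l + u b) * (l + u (-b)))⁻¹) atTop (𝓝 0) := by
    have h1 := (tendsto_inv_add (u b)).mul (tendsto_inv_add (u (-b)))
    have h2 := h1.neg
    simpa [mul_inv, mul_comm] using h2
  have hc : ContinuousWithinAt (fun l : ℝ => -((l + u b) * (l + u (-b)))⁻¹) (Ici 0) 0 := by
    have : ContinuousAt (fun l : ℝ => -((l + u b) * (l + u (-b)))⁻¹) 0 := by
      refine ContinuousAt.neg (ContinuousAt.inv₀ ?_ ?_)
      · exact (continuousAt_id.add continuousAt_const).mul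
          (continuousAt_id.add continuousAt_const)
      · simp only [zero_add]
        positivity
    exact this.continuousWithinAt
  have hint : IntegrableOn (fun l => 2 * (l ^ 1 * w (1 : Fin 4 → ℕ) (fv b b) l)
        + (u b + u (-b)) * (l ^ 0 * w (1 : Fin 4 → ℕ) (fv b b) l)) (Ioi 0) :=
    ((int_four b b 1 (by norm_num)).const_mul _).add
      ((int_four b b 0 (by norm_num)).const_mul _)
  have h := integral_Ioi_of_hasDerivAt_of_tendsto hc hder hint hlim
  rw [integral_add ((int_four b b 1 (by norm_num)).const_mul _)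
      ((int_four b b 0 (by norm_num)).const_mul _), integral_const_mul,
      integral_const_mul] at h
  unfold M
  rw [h]
  simp

/-- diagonal, second relation -/
theorem diag2 (b : ℝ) :
    b ^ 2 * M 0 (1 : Fin 4 → ℕ) (fv b b) = (u b + u (-b)) * (u b * u (-b))⁻¹ - 2 := by
  have hp := u_pos b
  have hq := u_pos (-b)
  have hder : ∀ l ∈ Ioi (0:ℝ), HasDerivAt (fun l : ℝ => (l + u b)⁻¹ + (l + u (-b))⁻¹)
      (-(2 * ((l + u b) * (l + u (-b)))⁻¹
        + b ^ 2 * (l ^ 0 * w (1 : Fin 4 → ℕ) (fv b b) l))) l := by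
    intro l hl
    have hl' : (0:ℝ) < l := hl
    have h3 : l + u b ≠ 0 := by positivity
    have h4 : l + u (-b) ≠ 0 := by positivity
    have h1 : HasDerivAt (fun l : ℝ => (l + u b)⁻¹) (-1 / (l + u b) ^ 2) l :=
      ((hasDerivAt_id l).add_const _).inv h3
    have h2 : HasDerivAt (fun l : ℝ => (l + u (-b))⁻¹) (-1 / (l + u (-b)) ^ 2) l :=
      ((hasDerivAt_id l).add_const _).inv h4
    refine (h1.add h2).congr_deriv ?_
    rw [w_four]
    have h6 := u_neg b
    rw [h6] at h4 ⊢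
    field_simp
    ring
  have hlim : Tendsto (fun l : ℝ => (l + u b)⁻¹ + (l + u (-b))⁻¹) atTop (𝓝 0) := by
    simpa using (tendsto_inv_add (u b)).add (tendsto_inv_add (u (-b)))
  have hc : ContinuousWithinAt (fun l : ℝ => (l + u b)⁻¹ + (l + u (-b))⁻¹) (Ici 0) 0 := by
    have : ContinuousAt (fun l : ℝ => (l + u b)⁻¹ + (l + u (-b))⁻¹) 0 := by
      refine ContinuousAt.add (ContinuousAt.inv₀ ?_ ?_) (ContinuousAt.inv₀ ?_ ?_)
      · exact continuousAt_id.add continuousAt_const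
      · simp only [zero_add]; positivity
      · exact continuousAt_id.add continuousAt_const
      · simp only [zero_add]; positivity
    exact this.continuousWithinAt
  have hint : IntegrableOn (fun l => -(2 * ((l + u b) * (l + u (-b)))⁻¹
        + b ^ 2 * (l ^ 0 * w (1 : Fin 4 → ℕ) (fv b b) l))) (Ioi 0) :=
    (((intOn_two hp hq).const_mul _).add ((int_four b b 0 (by norm_num)).const_mul _)).neg
  have h := integral_Ioi_of_hasDerivAt_of_tendsto hc hder hint hlim
  rw [integral_neg, integral_add ((intOn_two hp hq).const_mul _)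
      ((int_four b b 0 (by norm_num)).const_mul _), integral_const_mul,
      integral_const_mul, LM_one] at h
  unfold M
  have h7 : (u b + u (-b)) * (u b * u (-b))⁻¹ = (u b)⁻¹ + (u (-b))⁻¹ := by
    field_simp
    ring
  rw [h7]
  simp only [zero_add] at h
  linarith

/-- the joint function -/
noncomputable def HH (b t : ℝ) : ℝ := u b * u (-t) / u (b - t)




/-- the potential offset -/
noncomputable def xx (b t : ℝ) : ℝ := ((u b + u (-b)) / 2 - HH b t) / b






/-- the loss weight -/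
noncomputable def WW (b t : ℝ) : ℝ := u t * (1/2 + xx b t) ^ 2 + u (-t) * (1/2 - xx b t) ^ 2


variable {σ τ : Type*} {T : (σ →₀ ℂ) →ₗ[ℂ] (τ → ℂ)}




end Crest.Agent.R331.Bridge776
end

-- ▼ part R331/FOpiZ_712
section

/-! # Row 331 (EPnI): the bridge function `Z x = Phi (1,1,1,1) x` satisfies `ZFacts` -/

set_option autoImplicit false

open Finset Filter Topology MeasureTheory Set

namespace Crest.Agent.R331.FOpiZ712

open NetDefs835 (u)
open FOpiDefs712 FOpi712 Phi712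

/-- scaling of the weight -/
lemma w_scale (β : Fin 4 → ℕ) (x : Fin 4 → ℝ) {c : ℝ} (hc : 0 < c) (l : ℝ) :
    Bridge776.w β (fun i => c * x i) (c * l) = (c ^ (∑ i, β i))⁻¹ * Bridge776.w β x l := by
  unfold Bridge776.w
  have h : ∀ i, ((c * l + c * x i) ^ (β i))⁻¹ = (c ^ (β i))⁻¹ * ((l + x i) ^ (β i))⁻¹ := by
    intro i
    rw [← mul_add, mul_pow, mul_inv]
  simp only [h]
  rw [Finset.prod_mul_distrib, Finset.prod_inv_distrib, Finset.prod_pow_eq_pow_sum]

lemma M_scale (k : ℕ) (β : Fin 4 → ℕ) (x : Fin 4 → ℝ) {c : ℝ} (hc : 0 < c) :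
    Bridge776.M k β (fun i => c * x i)
      = c * (c ^ k * (c ^ (∑ i, β i))⁻¹) * Bridge776.M k β x := by
  have h := MeasureTheory.integral_comp_mul_left_Ioi
    (fun l => l ^ k * Bridge776.w β (fun i => c * x i) l) 0 hc
  rw [mul_zero, smul_eq_mul] at h
  unfold Bridge776.M
  have h2 : ∫ l in Ioi (0:ℝ), (c * l) ^ k * Bridge776.w β (fun i => c * x i) (c * l)
      = (c ^ k * (c ^ (∑ i, β i))⁻¹) * ∫ l in Ioi (0:ℝ), l ^ k * Bridge776.w β x l := by
    rw [← integral_const_mul]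
    refine setIntegral_congr_fun measurableSet_Ioi (fun l _ => ?_)
    beta_reduce
    rw [w_scale β x hc, mul_pow]
    ring
  rw [h2] at h
  have hc' : c ≠ 0 := hc.ne'
  rw [mul_assoc, h, ← mul_assoc, mul_inv_cancel₀ hc', one_mul]

lemma Phi_scale (β : Fin 4 → ℕ) (x : Fin 4 → ℝ) {c : ℝ} (hc : 0 < c) :
    Bridge776.Phi β (fun i => c * x i) = c * Bridge776.Phi β x := by
  unfold Bridge776.Phi
  rw [M_scale 1 β x hc, M_scale 0 β x hc]
  have hc' : c ≠ 0 := hc.ne'
  have h1 : (c ^ (∑ i, β i))⁻¹ ≠ 0 := by positivity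
  by_cases h0 : Bridge776.M 0 β x = 0
  · simp [h0]
  · field_simp

lemma inc_eq_up (β : Fin 4 → ℕ) (i : Fin 4) : inc β i = Bridge776.up β i := by
  funext j
  unfold inc Bridge776.up
  by_cases h : j = i
  · subst h; simp
  · simp [Function.update_of_ne h, Pi.single_eq_of_ne h]

lemma phiFacts : PhiFacts (fun β x => Bridge776.Phi β x) where
  pos β x hβ hx := Bridge776.Phi_pos β hx (by have := four_le_tot hβ; unfold tot at this; omega)
  recu β x hβ hx := by
    have h4 := four_le_tot hβ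
    unfold tot at h4
    have h := Bridge776.Phi_rec β hx (by omega)
    unfold tot
    rw [h]
    refine Finset.sum_congr rfl fun i _ => ?_
    rw [inc_eq_up]
  lower β x m hβ hm hx := by
    have h4 := four_le_tot hβ
    unfold tot at h4
    exact Bridge776.Phi_lower β (fun i => hm.trans_le (hx i)) (by omega) hx
  upper β x M hβ hx hM := by
    have h4 := four_le_tot hβ
    unfold tot at h4
    exact Bridge776.Phi_upper β hx (by omega) hM

/-- the bridge conductance -/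
noncomputable def Z (x : Fin 4 → ℝ) : ℝ := Bridge776.Phi (1 : Fin 4 → ℕ) x

lemma zFacts : ZFacts Z where
  pos x hx := Bridge776.Phi_pos _ hx (by simp)
  hom c x hc _ := Phi_scale _ x hc
  val b t := by
    have h := Bridge776.cb_rel b t
    unfold Bridge776.cb Bridge776.fv at h
    unfold Z
    rw [mul_comm]
    exact h
  val' b hb := by
    have h1 := Bridge776.diag1 b
    have h2 := Bridge776.diag2 b
    have h0 := Bridge776.M0_four_pos b b
    have hp := u_pos b
    have hq := u_pos (-b)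
    change Bridge776.Phi 1 (Bridge776.fv b b) * _ = _
    unfold Bridge776.Phi
    change 2 * Bridge776.M 1 1 (Bridge776.fv b b) + (u b + u (-b)) * Bridge776.M 0 1 (Bridge776.fv b b)
      = (u b * u (-b))⁻¹ at h1
    change b ^ 2 * Bridge776.M 0 1 (Bridge776.fv b b) = (u b + u (-b)) * (u b * u (-b))⁻¹ - 2 at h2
    set m0 := Bridge776.M 0 1 (Bridge776.fv b b) with hm0
    set m1 := Bridge776.M 1 1 (Bridge776.fv b b) with hm1
    have hπ : u b * u (-b) ≠ 0 := by positivity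
    rw [div_mul_eq_mul_div, div_eq_iff h0.ne']
    have hbq : u (-b) = u b + b := u_neg_add b
    set π := (u b * u (-b))⁻¹ with hπd
    have hππ : π * (u b * u (-b)) = 1 := inv_mul_cancel₀ hπ
    rw [hbq] at h1 h2 hππ ⊢
    linear_combination ((u b + (u b + b)) - 2 * (u b * (u b + b))) / 2 * h1 - (1 / 2) * h2 - hππ
  super := by
    intro ι τ _ _ T g h hg hh hyp z
    set D : ℝ := 1 + ∑ i, ∑ c, (g i c)⁻¹ + ∑ i, ∑ s, (h i s)⁻¹ with hD
    set E : ℝ := 1 + ∑ i, ∑ c, g i c + ∑ i, ∑ s, h i s with hE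
    have n1 : 0 ≤ ∑ i, ∑ c, (g i c)⁻¹ :=
      Finset.sum_nonneg fun i _ => Finset.sum_nonneg fun c _ => (inv_pos.2 (hg i c)).le
    have n2 : 0 ≤ ∑ i, ∑ s, (h i s)⁻¹ :=
      Finset.sum_nonneg fun i _ => Finset.sum_nonneg fun c _ => (inv_pos.2 (hh i c)).le
    have n3 : 0 ≤ ∑ i, ∑ c, g i c :=
      Finset.sum_nonneg fun i _ => Finset.sum_nonneg fun c _ => (hg i c).le
    have n4 : 0 ≤ ∑ i, ∑ s, h i s :=
      Finset.sum_nonneg fun i _ => Finset.sum_nonneg fun c _ => (hh i c).le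
    have hD1 : 1 ≤ D := by rw [hD]; linarith
    have hE1 : 1 ≤ E := by rw [hE]; linarith
    have hD0 : 0 < D := by linarith
    have hsum : ∀ {κ : Type} [Fintype κ] (f : Fin 4 → κ → ℝ), (∀ i c, 0 ≤ f i c) → ∀ i c,
        f i c ≤ ∑ i, ∑ c, f i c := by
      intro κ _ f hf i c
      calc f i c ≤ ∑ c, f i c := Finset.single_le_sum (fun c _ => hf i c) (Finset.mem_univ c)
        _ ≤ _ := Finset.single_le_sum (f := fun i => ∑ c, f i c)
            (fun i _ => Finset.sum_nonneg fun c _ => hf i c) (Finset.mem_univ i)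
    refine phi_super phiFacts T (g := g) (h := h) (m := D⁻¹) (M := E) (inv_pos.2 hD0) ?_ ?_ ?_ ?_
      ?_ hyp (β := 1) (fun i => le_rfl) z
    · intro i c
      rw [inv_le_comm₀ hD0 (hg i c)]
      have := hsum (fun i c => (g i c)⁻¹) (fun i c => (inv_pos.2 (hg i c)).le) i c
      rw [hD]; linarith
    · intro i c
      have := hsum g (fun i c => (hg i c).le) i c
      rw [hE]; linarith
    · intro i c
      rw [inv_le_comm₀ hD0 (hh i c)]
      have := hsum (fun i c => (h i c)⁻¹) (fun i c => (inv_pos.2 (hh i c)).le) i c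
      rw [hD]; linarith
    · intro i c
      have := hsum h (fun i c => (hh i c).le) i c
      rw [hE]; linarith
    · exact (inv_le_one_of_one_le₀ hD1).trans hE1

end Crest.Agent.R331.FOpiZ712
end

-- ▼ part R331/FOpiI_712
section

/-! # Row 331 (EPnI), leaf FOPI of `FDefs_136` -/

set_option autoImplicit false

open Matrix Finset
open scoped Kronecker ComplexOrder

namespace Crest.Agent.R331.FOpiI712


open Crest.Agent.R331.Fin7_380 (Diag wForm)
open Crest.Agent.R331.FCur380 (D0)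
open Duh839 (LMe LMe_pos dg)
open FDefs136
open Crest.Quantum

section forms

variable {κ : Type} [Fintype κ] [DecidableEq κ] {X : Matrix κ κ ℂ}

/-- log-eigenvalues -/
noncomputable def hh (hX : X.PosDef) : κ → ℝ := fun k => Real.log (hX.isHermitian.eigenvalues k)

theorem diag (hX : X.PosDef) :
    Diag X (hX.isHermitian.eigenvectorUnitary : Matrix κ κ ℂ) (hh hX) := by
  have hH := hX.isHermitian
  refine ⟨?_, ?_⟩
  · have := Unitary.coe_star_mul_self hH.eigenvectorUnitary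
    rwa [Matrix.star_eq_conjTranspose] at this
  · have h1 := hH.spectral_theorem
    rw [Unitary.conjStarAlgAut_apply] at h1
    rw [Matrix.star_eq_conjTranspose] at h1
    conv_lhs => rw [h1]
    congr 2
    ext i j
    by_cases hij : i = j
    · subst hij
      simp [hh, Real.exp_log (hX.eigenvalues_pos i)]
    · simp [hij]

lemma LM_eq {x y : ℝ} (hx : 0 < x) (hy : 0 < y) : LM x y = LMe (Real.log x) (Real.log y) := by
  unfold LM LMe
  by_cases h : x = y
  · subst h; simp [Real.exp_log hx]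
  · have h2 : Real.log x ≠ Real.log y := fun h3 => h (Real.log_injOn_pos hx hy h3)
    rw [if_neg h, if_neg h2, Real.exp_log hx, Real.exp_log hy]

lemma qf_eq (hX : X.PosDef) (w : ℝ → ℝ → ℝ) (Y : Matrix κ κ ℂ) :
    qf X w Y = ∑ i, ∑ j, w (hX.isHermitian.eigenvalues i) (hX.isHermitian.eigenvalues j)
      * ‖((hX.isHermitian.eigenvectorUnitary : Matrix κ κ ℂ)ᴴ * Y
        * (hX.isHermitian.eigenvectorUnitary : Matrix κ κ ℂ)) i j‖ ^ 2 := by
  unfold qf
  rw [dif_pos hX.isHermitian]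
  rfl

lemma formM_eq (hX : X.PosDef) (Y : Matrix κ κ ℂ) :
    formM X Y = wForm (hh hX) (fun _ => 1)
      ((hX.isHermitian.eigenvectorUnitary : Matrix κ κ ℂ)ᴴ * Y
        * (hX.isHermitian.eigenvectorUnitary : Matrix κ κ ℂ)) := by
  unfold formM
  rw [qf_eq hX]
  unfold wForm
  refine Finset.sum_congr rfl fun i _ => Finset.sum_congr rfl fun j _ => ?_
  rw [LM_eq (hX.eigenvalues_pos i) (hX.eigenvalues_pos j), mul_one]
  rfl

lemma formH_eq (hX : X.PosDef) (b : ℝ) (Y : Matrix κ κ ℂ) :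
    formH b X Y = wForm (hh hX) (FOpiDefs712.H b)
      ((hX.isHermitian.eigenvectorUnitary : Matrix κ κ ℂ)ᴴ * Y
        * (hX.isHermitian.eigenvectorUnitary : Matrix κ κ ℂ)) := by
  unfold formH
  rw [qf_eq hX]
  unfold wForm
  refine Finset.sum_congr rfl fun i _ => Finset.sum_congr rfl fun j _ => ?_
  rw [LM_eq (hX.eigenvalues_pos i) (hX.eigenvalues_pos j), mul_comm (FDefs136.H _ _)]
  rfl

lemma formD_eq (hX : X.PosDef) (b : ℝ) (Y : Matrix κ κ ℂ) :
    formD b X Y = D0 (hh hX) (FOpiDefs712.al b)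
      ((hX.isHermitian.eigenvectorUnitary : Matrix κ κ ℂ)ᴴ * Y
        * (hX.isHermitian.eigenvectorUnitary : Matrix κ κ ℂ)) := by
  unfold formD
  rw [qf_eq hX]
  unfold D0
  refine Finset.sum_congr rfl fun i _ => Finset.sum_congr rfl fun j _ => ?_
  have e1 : Real.exp (hh hX i) = hX.isHermitian.eigenvalues i := Real.exp_log (hX.eigenvalues_pos i)
  have e2 : Real.exp (hh hX j) = hX.isHermitian.eigenvalues j := Real.exp_log (hX.eigenvalues_pos j)
  rw [e1, e2]
  congr 1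
  rw [mul_comm (al b _ ^ 2), mul_comm ((1 - al b _) ^ 2)]
  rfl

end forms

/-! ### linearity -/

variable {n K : ℕ}

lemma heis_add (η : ℝ) (Y Z : Matrix (Bx n (2 * K)) (Bx n (2 * K)) ℂ) :
    heis η (Y + Z) = heis η Y + heis η Z := by
  unfold heis
  rw [Matrix.add_kronecker, Matrix.mul_add, Matrix.add_mul]

lemma heis_smul (η : ℝ) (z : ℂ) (Y : Matrix (Bx n (2 * K)) (Bx n (2 * K)) ℂ) :
    heis η (z • Y) = z • heis η Y := by
  unfold heis
  rw [Matrix.smul_kronecker, Matrix.mul_smul, Matrix.smul_mul]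

/-- `Y ↦ cen A (PA η B Y)` as a linear map -/
noncomputable def TA (η : ℝ) (A B : Matrix (Bx n K) (Bx n K) ℂ) :
    Matrix (Bx n (2 * K)) (Bx n (2 * K)) ℂ →ₗ[ℂ] Matrix (Bx n K) (Bx n K) ℂ where
  toFun Y := cen A (PA η B Y)
  map_add' Y Z := by
    unfold cen PA
    rw [heis_add, Matrix.mul_add, FCov76.ptR_add, Matrix.mul_add, Matrix.trace_add, add_smul]
    abel
  map_smul' z Y := by
    unfold cen PA
    rw [heis_smul, Matrix.mul_smul, FCov76.ptR_smul, Matrix.mul_smul, Matrix.trace_smul,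
      smul_eq_mul, mul_smul, smul_sub]
    rfl

/-- `Y ↦ cen B (PB η A Y)` as a linear map -/
noncomputable def TB (η : ℝ) (A B : Matrix (Bx n K) (Bx n K) ℂ) :
    Matrix (Bx n (2 * K)) (Bx n (2 * K)) ℂ →ₗ[ℂ] Matrix (Bx n K) (Bx n K) ℂ where
  toFun Y := cen B (PB η A Y)
  map_add' Y Z := by
    unfold cen PB
    rw [Matrix.add_kronecker, Matrix.mul_add, Matrix.add_mul, Matrix.mul_add, FCov76.ptR_add,
      Matrix.mul_add, Matrix.trace_add, add_smul]
    abel
  map_smul' z Y := by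
    unfold cen PB
    rw [Matrix.smul_kronecker, Matrix.mul_smul, Matrix.smul_mul, Matrix.mul_smul,
      FCov76.ptR_smul, Matrix.mul_smul, Matrix.trace_smul, smul_eq_mul, mul_smul, smul_sub]
    rfl

/-! ### positivity of `Q` -/

lemma ptR_posSemidef {α β : Type} [Fintype α] [Fintype β] [DecidableEq α] [DecidableEq β]
    {M : Matrix (α × β) (α × β) ℂ} (hM : M.PosSemidef) : (FCov76.ptR M).PosSemidef := by
  have e : FCov76.ptR M = ∑ j : β, M.submatrix (fun i => (i, j)) (fun i => (i, j)) := by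
    ext i i'
    simp [FCov76.ptR, Matrix.sum_apply]
  rw [e]
  exact posSemidef_sum _ fun j _ => hM.submatrix _

lemma outC_posSemidef (η : ℝ) {A B : Matrix (Bx n K) (Bx n K) ℂ} (hA : A.PosSemidef)
    (hB : B.PosSemidef) : (outC η A B).PosSemidef :=
  ptR_posSemidef ((hA.kronecker hB).mul_mul_conjTranspose_same (bsW η n K))

lemma outQ_posDef (η : ℝ) {ε : ℝ} (hε : 0 < ε) {A B : Matrix (Bx n K) (Bx n K) ℂ}
    (hA : A.PosSemidef) (hB : B.PosSemidef) : (outQ η ε A B).PosDef := by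
  unfold outQ
  refine Matrix.PosDef.posSemidef_add (outC_posSemidef η hA hB) ?_
  exact Matrix.PosDef.smul Matrix.PosDef.one (by exact_mod_cast hε)

/-! ### parameters -/

lemma NC_pos (p : Par) : 0 < p.NC := by
  unfold Par.NC
  have h1 := p.η_pos
  have h2 : 0 < 1 - p.η := by linarith [p.η_lt]
  have h3 := p.NA_pos
  have h4 := p.NB_pos
  positivity

lemma bA_pos (p : Par) : 0 < p.bA := FCur380.b_pos p.NA_pos
lemma bB_pos (p : Par) : 0 < p.bB := FCur380.b_pos p.NB_pos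
lemma bC_pos (p : Par) : 0 < p.bC := FCur380.b_pos (NC_pos p)

lemma budget_p (p : Par) : p.lamA * u p.bA + p.lamB * u p.bB = p.β / p.bC * u p.bC := by
  have h1 : u p.bA = p.bA * p.NA := FCur380.u_b p.NA_pos
  have h2 : u p.bB = p.bB * p.NB := FCur380.u_b p.NB_pos
  have h3 : u p.bC = p.bC * p.NC := FCur380.u_b (NC_pos p)
  have e1 := (bA_pos p).ne'
  have e2 := (bB_pos p).ne'
  have e3 := (bC_pos p).ne'
  rw [h1, h2, h3]
  unfold Par.lamA Par.lamB
  rw [show p.NC = p.η * p.NA + (1 - p.η) * p.NB from rfl]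
  field_simp

lemma budget_q (p : Par) : p.lamA * u (-p.bA) + p.lamB * u (-p.bB) = p.β / p.bC * u (-p.bC) := by
  have h1 : u (-p.bA) = p.bA * (p.NA + 1) := FCur380.u_neg_b p.NA_pos
  have h2 : u (-p.bB) = p.bB * (p.NB + 1) := FCur380.u_neg_b p.NB_pos
  have h3 : u (-p.bC) = p.bC * (p.NC + 1) := FCur380.u_neg_b (NC_pos p)
  have e1 := (bA_pos p).ne'
  have e2 := (bB_pos p).ne'
  have e3 := (bC_pos p).ne'
  rw [h1, h2, h3]
  unfold Par.lamA Par.lamB
  rw [show p.NC = p.η * p.NA + (1 - p.η) * p.NB from rfl]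
  field_simp
  ring

/-- the operator inequality with slack, from the contraction inequalities -/
theorem opi_of (p : Par) {ε : ℝ} (hε : 0 < ε) {A B : Matrix (Bx n K) (Bx n K) ℂ}
    (hA : A.PosDef) (hB : B.PosDef)
    (hS : ∀ Y : Matrix (Bx n (2 * K)) (Bx n (2 * K)) ℂ,
      formM A (cen A (PA p.η B Y)) ≤ p.lamA * formM (outQ p.η ε A B) Y ∧
      formM B (cen B (PB p.η A Y)) ≤ p.lamB * formM (outQ p.η ε A B) Y)
    (hAN : ∀ Y : Matrix (Bx n (2 * K)) (Bx n (2 * K)) ℂ,
      formR A (cen A (PA p.η B Y)) + formR B (cen B (PB p.η A Y)) ≤ formR (outQ p.η ε A B) Y ∧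
      formL A (cen A (PA p.η B Y)) + formL B (cen B (PB p.η A Y)) ≤ formL (outQ p.η ε A B) Y)
    (Y : Matrix (Bx n (2 * K)) (Bx n (2 * K)) ℂ) :
      formH p.bA A (cen A (PA p.η B Y)) + formH p.bB B (cen B (PB p.η A Y))
        + p.μ / p.bC * formD p.bC (outQ p.η ε A B) Y
      ≤ p.β / p.bC * formH p.bC (outQ p.η ε A B) Y := by
  have hQ := outQ_posDef p.η hε hA.posSemidef hB.posSemidef
  have hb := bC_pos p
  have hr : 1 ≤ p.β / p.bC := by
    rw [one_le_div hb]
    unfold Par.β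
    linarith [p.μ_pos]
  have hμ : p.μ / p.bC = p.β / p.bC - 1 := by
    unfold Par.β
    field_simp
    ring
  have key := FOpiM712.fopi FOpiZ712.zFacts (diag hA) (diag hB) (diag hQ) (TA p.η A B) (TB p.η A B)
    (bA_pos p) (bB_pos p) hb hr
    (fun Y => by
      have h := (hS Y).1
      rwa [formM_eq hA, formM_eq hQ] at h)
    (fun Y => by
      have h := (hS Y).2
      rwa [formM_eq hB, formM_eq hQ] at h)
    (fun Y => (hAN Y).1) (fun Y => (hAN Y).2)
    (budget_p p).le (budget_q p).le Y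
  rw [formH_eq hA, formH_eq hB, formH_eq hQ, formD_eq hQ, hμ]
  exact key

/-- **LEAF FOPI** -/
theorem fopi_of (hpos : FMINpos) (hS : FS) (hAN : FANOVA) : FOPI := by
  intro p n K ε hε A B hmin Y
  obtain ⟨hA, hB⟩ := hpos p n K ε hε A B hmin
  exact opi_of p hε hA hB (hS p n K ε hε A B hmin)
    (hAN p.η ε n K p.η_pos p.η_lt hε A B hmin.dA hmin.dB) Y

end Crest.Agent.R331.FOpiI712
end

-- ▼ part R331/FinWF_87

/-! # Energy identity `FENSUM` (helper87, row 331) -/

set_option autoImplicit false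
set_option linter.unusedSectionVars false

noncomputable section

namespace Crest.Agent.R331.FinW87

open Crest.MathPhysics.Bosonic Crest.Agent.R331.BS375 Finset Matrix Crest.Quantum
open Crest.Agent.R331.Fin8_628 (Bx occ)
open scoped Kronecker ComplexOrder

section abs
variable {α β γ δ : Type*} [Fintype α] [Fintype β] [Fintype γ] [Fintype δ]
    [DecidableEq α] [DecidableEq β] [DecidableEq γ] [DecidableEq δ]

/-- `Tr C cᴴ c = hA² Tr A aᴴ a + hB² Tr B bᴴ b + hA hB (conj <b> <a> + conj <a> <b>)`. -/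
theorem energy_abs (S : FCov76.BS α β γ δ) {A : Matrix α α ℂ} {B : Matrix β β ℂ}
    (hA : Aᴴ = A) (hB : Bᴴ = B) (tA : A.trace = 1) (tB : B.trace = 1) :
    (S.out A B * (S.cᴴ * S.c)).trace
      = (S.hA : ℂ) ^ 2 * (A * (S.aᴴ * S.a)).trace + (S.hB : ℂ) ^ 2 * (B * (S.bᴴ * S.b)).trace
        + (S.hA : ℂ) * (S.hB : ℂ) * (star (B * S.b).trace * (A * S.a).trace
          + star (A * S.a).trace * (B * S.b).trace) := by
  rw [S.trace_out_mul_c, S.PA_conjTranspose hB, S.PB_conjTranspose hA, S.PA_c tB, S.PB_c tA]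
  simp only [Matrix.conjTranspose_add, Matrix.conjTranspose_smul, Matrix.conjTranspose_one,
    Matrix.add_mul, Matrix.smul_mul, Matrix.one_mul, Matrix.mul_add, Matrix.mul_smul,
    Matrix.trace_add, Matrix.trace_smul, smul_eq_mul, star_mul', Complex.star_def,
    Complex.conj_ofReal]
  ring

end abs

variable {n K : ℕ}

theorem FENSUM_mode {η : ℝ} (h : η ∈ Set.Icc (0 : ℝ) 1) (j : Fin n)
    {A B : Matrix (Bx n K) (Bx n K) ℂ} (hA : IsDensity A) (hB : IsDensity B) :
    η * (A * numbx n K j).trace.re + (1 - η) * (B * numbx n K j).trace.re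
      + 2 * Real.sqrt η * Real.sqrt (1 - η) *
        ((starRingEnd ℂ) (FDefs136.mX j A) * FDefs136.mX j B).re
      = (FDefs136.outC η A B * numbx n (2 * K) j).trace.re := by
  have h1 := energy_abs (bxBS h n K j) hA.1.1 hB.1.1 hA.2 hB.2
  have e1 : (bxBS h n K j).cᴴ * (bxBS h n K j).c = numbx n (2 * K) j := xH_mul_x j
  have e2 : (bxBS h n K j).aᴴ * (bxBS h n K j).a = numbx n K j := xH_mul_x j
  have e3 : (bxBS h n K j).bᴴ * (bxBS h n K j).b = numbx n K j := xH_mul_x j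
  have e4 : (bxBS h n K j).out A B = FDefs136.outC η A B := rfl
  have e5 : (A * (bxBS h n K j).a).trace = FDefs136.mX j A := by
    rw [FDefs136.mX, ann_eq]; rfl
  have e6 : (B * (bxBS h n K j).b).trace = FDefs136.mX j B := by
    rw [FDefs136.mX, ann_eq]; rfl
  have e7 : (bxBS h n K j).hA = Real.sqrt η := rfl
  have e8 : (bxBS h n K j).hB = Real.sqrt (1 - η) := rfl
  rw [e1, e2, e3, e4, e5, e6, e7, e8] at h1
  have h2 := congrArg Complex.re h1
  rw [h2]
  have s1 : ((Real.sqrt η : ℝ) : ℂ) ^ 2 = ((η : ℝ) : ℂ) := by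
    rw [← Complex.ofReal_pow, Real.sq_sqrt h.1]
  have s2 : ((Real.sqrt (1 - η) : ℝ) : ℂ) ^ 2 = ((1 - η : ℝ) : ℂ) := by
    rw [← Complex.ofReal_pow, Real.sq_sqrt (by linarith [h.2])]
  rw [s1, s2, ← Complex.ofReal_mul, Complex.add_re, Complex.add_re, Complex.re_ofReal_mul,
    Complex.re_ofReal_mul, Complex.re_ofReal_mul, Complex.add_re]
  have s3 : (star (FDefs136.mX j B) * FDefs136.mX j A).re
      = ((starRingEnd ℂ) (FDefs136.mX j A) * FDefs136.mX j B).re := by
    simp only [Complex.star_def, Complex.mul_re, Complex.conj_re, Complex.conj_im]; ring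
  have s4 : (star (FDefs136.mX j A) * FDefs136.mX j B).re
      = ((starRingEnd ℂ) (FDefs136.mX j A) * FDefs136.mX j B).re := rfl
  rw [s3, s4]
  ring

/-- LEAF FENSUM. -/
theorem FENSUM_holds : FDefs136.FENSUM := by
  intro η n K h0 h1 A B hA hB
  have h : η ∈ Set.Icc (0 : ℝ) 1 := ⟨h0.le, h1.le⟩
  have e1 : ∀ (M : ℕ) (X : Matrix (Bx n M) (Bx n M) ℂ),
      (X * FDefs136.num n M).trace.re = ∑ j, (X * numbx n M j).trace.re := by
    intro M X
    rw [num_eq, Matrix.mul_sum, Matrix.trace_sum, Complex.re_sum]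
  rw [FDefs136.EnC, FDefs136.En, FDefs136.En, e1, e1, e1, Finset.mul_sum, Finset.mul_sum,
    Finset.mul_sum, ← Finset.sum_add_distrib, ← Finset.sum_add_distrib]
  exact Finset.sum_congr rfl fun j _ => FENSUM_mode h j hA hB

end Crest.Agent.R331.FinW87
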