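import Mathlib
import Crest.Agent.R331.FTop_136
import Crest.Agent.R331.FinPhi2_280
import Crest.Agent.R331.FinWBox_87
import Crest.Agent.R331.FDefs2_136
import Crest.Agent.R331.Fin3b_839
import Crest.Agent.R331.FLim_628
import Crest.Agent.R331.FinPhi_280
import Crest.Prelude.Def_FockState
import Crest.Agent.R331.FLMin_628_Mg
import Crest.Agent.R331.FinWF_87_Mg
import Crest.Agent.R331.FGapInst_633
import Crest.Agent.R331.FDefs_136
import Crest.Agent.R331.FCovB_76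

-- ▼ part R331/FAnova_136
section

/-!
Row 331, FIN track: `FANOVA` by name (from helper280's `anova_R_eps`, `anova_L_eps`).
-/

set_option autoImplicit false

namespace Crest.Agent.R331.FDefs136

open Matrix Crest.Quantum Crest.MathPhysics.Bosonic
open scoped Kronecker ComplexOrder BigOperators

noncomputable section



lemma swap_heis_aux {α β γ δ : Type*} [Fintype α] [Fintype β] [Fintype γ] [Fintype δ]
    [DecidableEq δ] (W : Matrix (γ × δ) (α × β) ℂ) (Z : Matrix (γ × δ) (γ × δ) ℂ) :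
    (W.submatrix id Prod.swap)ᴴ * Z * (W.submatrix id Prod.swap : Matrix (γ × δ) (β × α) ℂ)
      = (Wᴴ * Z * W).submatrix Prod.swap Prod.swap := by
  ext ⟨j, i⟩ ⟨j', i'⟩
  simp [Matrix.mul_apply, Matrix.conjTranspose_apply]

lemma PB_eq_280 (η : ℝ) {n K : ℕ} (A : Matrix (Bx n K) (Bx n K) ℂ)
    (Y : Matrix (Bx n (2 * K)) (Bx n (2 * K)) ℂ) :
    PB η A Y = FinPhi280.PB (bsW η n K) A Y := by
  unfold PB
  rw [swap_heis_aux]
  ext j j'
  simp only [FCov76.ptR, FinPhi280.PB, FinPhi280.tr1_apply, Matrix.mul_apply,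
    Fintype.sum_prod_type, kroneckerMap_apply, submatrix_apply, Prod.swap_prod_mk,
    Matrix.one_apply]
  refine Finset.sum_congr rfl fun i _ => ?_
  rw [Finset.sum_comm]
  refine Finset.sum_congr rfl fun k _ => Finset.sum_congr rfl fun l _ => ?_
  have : ((bsW η n K)ᴴ * (Y ⊗ₖ (1 : Matrix (Bx n (2 * K)) (Bx n (2 * K)) ℂ)) * bsW η n K) (k, l)
      (i, j') = FinPhi280.Gm (bsW η n K) Y (k, l) (i, j') := rfl
  rw [← this]
  simp only [Matrix.mul_apply, Fintype.sum_prod_type, kroneckerMap_apply, Matrix.one_apply]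
  ring

theorem fanova : FANOVA := by
  intro η ε n K h0 h1 hε A B hA hB Y
  have hW := bsW_iso FinW87.FW_holds n K h0 h1
  have hA' : (FinPhi280.Phi (bsW η n K) A B * Y).trace = (A * PA η B Y).trace := by
    rw [FinPhi280.trace_Phi_mul_PA]; rfl
  have hB' : (FinPhi280.Phi (bsW η n K) A B * Y).trace = (B * PB η A Y).trace := by
    rw [FinPhi280.trace_Phi_mul_PB, PB_eq_280]
  have hR := FinPhi280.anova_R_eps hW hA.1 hB.1 hA.2 hB.2 Y 0 hε.le
  have hL := FinPhi280.anova_L_eps hW hA.1 hB.1 hA.2 hB.2 Y 0 hε.le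
  rw [zero_smul, sub_zero] at hR hL
  constructor
  · unfold formR cen
    rw [← hB']
    rw [show (A * PA η B Y).trace = (FinPhi280.Phi (bsW η n K) A B * Y).trace from hA'.symm]
    rw [PB_eq_280]
    exact hR
  · unfold formL cen
    rw [← hB']
    rw [show (A * PA η B Y).trace = (FinPhi280.Phi (bsW η n K) A B * Y).trace from hA'.symm]
    rw [PB_eq_280]
    exact hL

end

end Crest.Agent.R331.FDefs136
end

-- ▼ part R331/FEn_839
section

set_option autoImplicit false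

/-!
Row 331, finite track: leaves FVALUE and FENERGY (helper839).
-/

namespace Crest.Agent.R331.FEn839

open Matrix Crest.Quantum Crest.MathPhysics.Bosonic Filter Topology
open Crest.Agent.R331.FDefs136 Crest.Agent.R331.Fin3_839
open scoped Kronecker ComplexOrder BigOperators

noncomputable section

variable {n K : ℕ}

theorem vn_eq_Sm {ι : Type*} [Fintype ι] [DecidableEq ι] (ρ : Matrix ι ι ℂ) (h : ρ.IsHermitian) :
    vnEntropy ρ = Sm ρ := by
  rw [Sm_eq h, Fin8_628.vn_eq h]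

theorem En_eq (A : Matrix (Bx n K) (Bx n K) ℂ) :
    En A = ∑ k, (A k k).re * (Fin3_839.tot k : ℝ) := by
  simp only [FDefs136.En, FDefs136.num, Matrix.trace, Matrix.diag_apply, Matrix.mul_diagonal,
    Complex.re_sum]
  refine Finset.sum_congr rfl fun k _ => ?_
  rw [mul_comm, ← Complex.ofReal_natCast, Complex.re_ofReal_mul, mul_comm]
  rfl

theorem En_nonneg {A : Matrix (Bx n K) (Bx n K) ℂ} (hA : IsDensity A) : 0 ≤ En A := by
  rw [En_eq]
  exact Finset.sum_nonneg fun k _ => mul_nonneg (dens_diag_nonneg hA k) (by positivity)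

/-- uniform energy bound of the entropy -/
theorem vn_le_exp {A : Matrix (Bx n K) (Bx n K) ℂ} (hA : IsDensity A) {s : ℝ} (hs : 0 < s) :
    vnEntropy A ≤ s * En A - n * Real.log (1 - Real.exp (-s)) := by
  rw [vn_eq_Sm A hA.1.1, En_eq]
  exact Sm_box_le hA s hs

theorem exp_bN {N : ℝ} (hN : 0 < N) : Real.exp (-bN N) = N / (N + 1) := by
  unfold bN
  have h : (0:ℝ) < 1 + 1 / N := by positivity
  rw [Real.exp_neg, Real.exp_log h]
  field_simp

theorem bN_pos {N : ℝ} (hN : 0 < N) : 0 < bN N := by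
  unfold bN
  refine Real.log_pos ?_
  have : 0 < 1 / N := by positivity
  linarith

/-- Gibbs bound at the thermal parameter. -/
theorem vn_le_bN {A : Matrix (Bx n K) (Bx n K) ℂ} (hA : IsDensity A) {N : ℝ} (hN : 0 < N) :
    vnEntropy A ≤ bN N * En A + n * Real.log (N + 1) := by
  have h := vn_le_exp hA (bN_pos hN)
  rw [exp_bN hN] at h
  have e : (1 : ℝ) - N / (N + 1) = (N + 1)⁻¹ := by
    have : (N + 1 : ℝ) ≠ 0 := by positivity
    field_simp
    ring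
  rw [e, Real.log_inv] at h
  linarith

theorem NC_pos (p : Par) : 0 < p.NC := by
  unfold Par.NC
  have h1 := mul_pos p.η_pos p.NA_pos
  have h2 := mul_pos (sub_pos.2 p.η_lt) p.NB_pos
  linarith

theorem β_pos (p : Par) : 0 < p.β := by
  unfold Par.β Par.bC
  have := bN_pos (NC_pos p)
  linarith [p.μ_pos]

theorem lamA_pos (p : Par) : 0 < p.lamA := by
  unfold Par.lamA Par.bA
  exact div_pos (mul_pos p.η_pos (β_pos p)) (bN_pos p.NA_pos)

theorem lamB_pos (p : Par) : 0 < p.lamB := by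
  unfold Par.lamB Par.bB
  exact div_pos (mul_pos (sub_pos.2 p.η_lt) (β_pos p)) (bN_pos p.NB_pos)

/-- **LEAF FVALUE** -/
theorem fvalue : FDefs136.FVALUE := by
  intro p n K ε _ A B hA hB
  have h1 := mul_le_mul_of_nonneg_left (vn_le_bN hA p.NA_pos) (lamA_pos p).le
  have h2 := mul_le_mul_of_nonneg_left (vn_le_bN hB p.NB_pos) (lamB_pos p).le
  have e1 : p.lamA * bN p.NA = p.η * (p.bC + p.μ) := by
    unfold Par.lamA Par.bA Par.β
    have := (bN_pos p.NA_pos).ne'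
    field_simp
  have e2 : p.lamB * bN p.NB = (1 - p.η) * (p.bC + p.μ) := by
    unfold Par.lamB Par.bB Par.β
    have := (bN_pos p.NB_pos).ne'
    field_simp
  rw [mul_add, ← mul_assoc, e1] at h1
  rw [mul_add, ← mul_assoc, e2] at h2
  unfold FDefs136.F
  linarith

/-! ### the vacuum -/

/-- vacuum -/
def vac (n K : ℕ) : Matrix (Bx n K) (Bx n K) ℂ :=
  Matrix.diagonal fun k => if k = 0 then 1 else 0

theorem vac_density (n K : ℕ) : IsDensity (vac n K) := by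
  constructor
  · unfold vac
    refine Matrix.PosSemidef.diagonal ?_
    intro k
    dsimp
    split_ifs
    · exact zero_le_one
    · exact le_refl _
  · unfold vac
    rw [Matrix.trace_diagonal]
    simp

theorem vn_diag_re {ι : Type*} [Fintype ι] [DecidableEq ι] (f : ι → ℝ) :
    vnEntropy (Matrix.diagonal fun i => (f i : ℂ)) = ∑ i, Real.negMulLog (f i) := by
  refine FLim_628.vn_of_diag (1 : Matrix ι ι ℂ) ?_ f ?_
  · simp
  · simp

theorem vn_vac (n K : ℕ) : vnEntropy (vac n K) = 0 := by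
  have e : vac n K = Matrix.diagonal fun k => (((if k = 0 then 1 else 0 : ℝ)) : ℂ) := by
    unfold vac
    congr 1
    funext k
    split_ifs <;> simp
  rw [e, vn_diag_re]
  refine Finset.sum_eq_zero fun k _ => ?_
  split_ifs <;> simp

theorem En_vac (n K : ℕ) : En (vac n K) = 0 := by
  rw [En_eq]
  refine Finset.sum_eq_zero fun k _ => ?_
  unfold vac
  rw [Matrix.diagonal_apply_eq]
  split_ifs with h
  · subst h
    simp [Fin3_839.tot]
  · simp

theorem bsAmp_zero (η : ℝ) (p q : ℕ) : bsAmp η 0 0 p q = if p = 0 ∧ q = 0 then 1 else 0 := by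
  unfold bsAmp
  by_cases h : p + q = 0 + 0
  · have hp : p = 0 := by omega
    have hq : q = 0 := by omega
    subst hp; subst hq
    simp
  · rw [if_neg h, if_neg]
    rintro ⟨rfl, rfl⟩
    exact h rfl

theorem bsAmpN_zero (η : ℝ) (p q : Bx n (2 * K)) :
    bsAmpN η (0 : Bx n K) (0 : Bx n K) p q = if p = 0 ∧ q = 0 then 1 else 0 := by
  unfold bsAmpN
  have e : ∀ j, bsAmp η ((0 : Bx n K) j) ((0 : Bx n K) j) (p j) (q j) =
      if ((p j : ℕ) = 0 ∧ (q j : ℕ) = 0) then 1 else 0 := by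
    intro j
    have h0 : (((0 : Bx n K) j : Fin (K + 1)) : ℕ) = 0 := rfl
    rw [h0]
    exact bsAmp_zero η _ _
  simp_rw [e]
  by_cases h : p = 0 ∧ q = 0
  · rw [if_pos h]
    obtain ⟨rfl, rfl⟩ := h
    refine Finset.prod_eq_one fun j _ => ?_
    rw [if_pos]
    exact ⟨rfl, rfl⟩
  · rw [if_neg h]
    have h2 : ∃ j, ¬ ((p j : ℕ) = 0 ∧ (q j : ℕ) = 0) := by
      by_contra hc
      push Not at hc
      refine h ⟨?_, ?_⟩
      · funext j
        exact Fin.ext (hc j).1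
      · funext j
        exact Fin.ext (hc j).2
    obtain ⟨j, hj⟩ := h2
    exact Finset.prod_eq_zero (Finset.mem_univ j) (if_neg hj)

theorem outC_vac (η : ℝ) (n K : ℕ) : outC η (vac n K) (vac n K) = vac n (2 * K) := by
  rw [FLim_628.outC_eq_bsOutput]
  ext p p'
  unfold bsOutput vac
  rw [Matrix.of_apply, Matrix.diagonal_apply]
  have e : ∀ q : Bx n (2 * K), (∑ k : Bx n K, ∑ l : Bx n K, ∑ k' : Bx n K, ∑ l' : Bx n K,
      (bsAmpN η k l p q : ℂ) * (Matrix.diagonal fun k => if k = 0 then (1:ℂ) else 0) k k' *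
        (Matrix.diagonal fun k => if k = 0 then (1:ℂ) else 0) l l' * (bsAmpN η k' l' p' q : ℂ)) =
      if q = 0 then (if p = 0 then (if p' = 0 then 1 else 0) else 0) else 0 := by
    intro q
    rw [Finset.sum_eq_single (0 : Bx n K), Finset.sum_eq_single (0 : Bx n K),
      Finset.sum_eq_single (0 : Bx n K), Finset.sum_eq_single (0 : Bx n K)]
    · rw [bsAmpN_zero, bsAmpN_zero]
      simp only [Matrix.diagonal_apply_eq, if_true]
      by_cases hq : q = 0 <;> by_cases hp : p = 0 <;> by_cases hp' : p' = 0 <;> simp [hq, hp, hp']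
    · intro b _ hb
      rw [Matrix.diagonal_apply_ne' _ hb]; simp
    · intro h; exact absurd (Finset.mem_univ _) h
    · intro b _ hb
      refine Finset.sum_eq_zero fun l' _ => ?_
      rw [Matrix.diagonal_apply_ne' _ hb]; simp
    · intro h; exact absurd (Finset.mem_univ _) h
    · intro b _ hb
      refine Finset.sum_eq_zero fun k' _ => Finset.sum_eq_zero fun l' _ => ?_
      rw [Matrix.diagonal_apply, Matrix.diagonal_apply, if_neg hb]; simp
    · intro h; exact absurd (Finset.mem_univ _) h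
    · intro b _ hb
      refine Finset.sum_eq_zero fun l _ => Finset.sum_eq_zero fun k' _ =>
        Finset.sum_eq_zero fun l' _ => ?_
      rw [Matrix.diagonal_apply, if_neg hb]; simp
    · intro h; exact absurd (Finset.mem_univ _) h
  refine (Finset.sum_congr rfl fun q _ => e q).trans ?_
  rw [Finset.sum_ite_eq' Finset.univ (0 : Bx n (2 * K))]
  simp only [Finset.mem_univ, if_true]
  by_cases hp : p = 0 <;> by_cases hp' : p' = 0 <;> simp [hp, hp', eq_comm]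

/-- entropy of `vac + ε` -/
theorem vn_outQ_vac (η ε : ℝ) (n K : ℕ) :
    vnEntropy (outQ η ε (vac n K) (vac n K)) =
      ∑ k : Bx n (2 * K), Real.negMulLog ((if k = 0 then 1 else 0) + ε) := by
  have e : outQ η ε (vac n K) (vac n K) =
      Matrix.diagonal fun k => (((if k = 0 then 1 else 0) + ε : ℝ) : ℂ) := by
    unfold outQ
    rw [outC_vac]
    unfold vac
    rw [← Matrix.diagonal_one, ← Matrix.diagonal_smul, Matrix.diagonal_add]
    congr 1
    funext k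
    simp only [Pi.smul_apply, smul_eq_mul, mul_one]
    push_cast
    split_ifs <;> simp
  rw [e, vn_diag_re]

/-- `S(C+ε) ≥ S(pure + ε)` -/
theorem pure_le {ι : Type*} [Fintype ι] [DecidableEq ι] {C : Matrix ι ι ℂ} (hC : IsDensity C)
    {ε : ℝ} (hε : 0 < ε) (i0 : ι) :
    ∑ k : ι, Real.negMulLog ((if k = i0 then 1 else 0) + ε) ≤
      vnEntropy (C + (ε : ℂ) • (1 : Matrix ι ι ℂ)) := by
  rw [FLim_628.vn_add_smul hC.1.1]
  have h1 : ∀ i, (1 - hC.1.1.eigenvalues i) * Real.negMulLog ε +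
      hC.1.1.eigenvalues i * Real.negMulLog (1 + ε) ≤
      Real.negMulLog (hC.1.1.eigenvalues i + ε) := by
    intro i
    have h0 := dens_eig_nonneg hC i
    have h1 := dens_eig_le_one hC i
    have hcc := Real.concaveOn_negMulLog.2 (Set.mem_Ici.2 hε.le)
      (Set.mem_Ici.2 (show (0:ℝ) ≤ 1 + ε by linarith))
      (show 0 ≤ 1 - hC.1.1.eigenvalues i by linarith) h0 (by ring)
    simp only [smul_eq_mul] at hcc
    refine hcc.trans (le_of_eq ?_)
    congr 1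
    ring
  have h2 : ∑ i, hC.1.1.eigenvalues i = 1 := Fin8_628.sum_eig hC
  have h3 : ∑ i, ((1 - hC.1.1.eigenvalues i) * Real.negMulLog ε +
      hC.1.1.eigenvalues i * Real.negMulLog (1 + ε)) =
      (Fintype.card ι - 1) * Real.negMulLog ε + Real.negMulLog (1 + ε) := by
    rw [Finset.sum_add_distrib, ← Finset.sum_mul, ← Finset.sum_mul, h2, Finset.sum_sub_distrib, h2]
    simp
  have h4 : ∑ k : ι, Real.negMulLog ((if k = i0 then 1 else 0) + ε) =
      (Fintype.card ι - 1) * Real.negMulLog ε + Real.negMulLog (1 + ε) := by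
    have e : ∀ k : ι, Real.negMulLog ((if k = i0 then 1 else 0) + ε) =
        Real.negMulLog ε + (if k = i0 then (Real.negMulLog (1 + ε) - Real.negMulLog ε) else 0) := by
      intro k
      by_cases h : k = i0 <;> simp [h]
    simp_rw [e]
    rw [Finset.sum_add_distrib, Finset.sum_ite_eq' Finset.univ i0]
    simp
    ring
  rw [h4, ← h3]
  exact Finset.sum_le_sum fun i _ => h1 i

/-- the box beam splitter is an isometry (every `n`, also `n = 0`) -/
theorem bsW_isometry {η : ℝ} (h0 : 0 ≤ η) (h1 : η ≤ 1) (n K : ℕ) :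
    (bsW η n K)ᴴ * bsW η n K = 1 := by
  rw [FinW87.bsW_eq]
  exact FinW87.iota_isometry h0 h1 FinW87.isCut_box

/-- the output of density matrices is a density matrix -/
theorem outC_isDensity {η : ℝ} (h0 : 0 ≤ η) (h1 : η ≤ 1) {A B : Matrix (Bx n K) (Bx n K) ℂ}
    (hA : IsDensity A) (hB : IsDensity B) : IsDensity (outC η A B) := by
  refine ⟨FLim_628.outC_psd η hA.1 hB.1, ?_⟩
  have h := FinPhi280.trace_Phi (bsW η n K) (bsW_isometry h0 h1 n K) A B
  rw [hA.2, hB.2, one_mul] at h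
  exact h

/-- **LEAF FENERGY** -/
theorem fenergy : FDefs136.FENERGY := by
  intro p n
  set sA : ℝ := p.μ * p.η / (2 * p.lamA) with hsA
  set sB : ℝ := p.μ * (1 - p.η) / (2 * p.lamB) with hsB
  have hlA := lamA_pos p
  have hlB := lamB_pos p
  have hη := p.η_pos
  have hη' := sub_pos.2 p.η_lt
  have hμ := p.μ_pos
  have hsA0 : 0 < sA := by positivity
  have hsB0 : 0 < sB := by positivity
  set D : ℝ := -(n * p.lamA * Real.log (1 - Real.exp (-sA)))
    - n * p.lamB * Real.log (1 - Real.exp (-sB)) with hD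
  refine ⟨2 * D / (p.μ * p.η) + 2 * D / (p.μ * (1 - p.η)), ?_⟩
  intro K ε hε A B hmin
  have h1 := hmin.le (vac n K) (vac n K) (vac_density n K) (vac_density n K)
  unfold FDefs136.F at h1
  rw [vn_vac, En_vac, vn_outQ_vac] at h1
  have h2 := pure_le (outC_isDensity p.η_pos.le p.η_lt.le hmin.dA hmin.dB) hε (0 : Bx n (2 * K))
  have h3 : p.lamA * vnEntropy A ≤ p.μ * p.η / 2 * En A
      - n * p.lamA * Real.log (1 - Real.exp (-sA)) := by
    have := mul_le_mul_of_nonneg_left (vn_le_exp hmin.dA hsA0) hlA.le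
    have e : p.lamA * sA = p.μ * p.η / 2 := by rw [hsA]; field_simp
    rw [mul_sub, ← mul_assoc, e] at this
    linarith
  have h4 : p.lamB * vnEntropy B ≤ p.μ * (1 - p.η) / 2 * En B
      - n * p.lamB * Real.log (1 - Real.exp (-sB)) := by
    have := mul_le_mul_of_nonneg_left (vn_le_exp hmin.dB hsB0) hlB.le
    have e : p.lamB * sB = p.μ * (1 - p.η) / 2 := by rw [hsB]; field_simp
    rw [mul_sub, ← mul_assoc, e] at this
    linarith
  have hEA := En_nonneg hmin.dA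
  have hEB := En_nonneg hmin.dB
  unfold outQ at h1
  have h5 : p.μ * p.η / 2 * En A + p.μ * (1 - p.η) / 2 * En B ≤ D := by
    rw [hD]
    linarith
  have hA0 : 0 ≤ p.μ * p.η / 2 * En A := by positivity
  have hB0 : 0 ≤ p.μ * (1 - p.η) / 2 * En B := by positivity
  have hD0 : 0 ≤ D := by linarith
  have hmA : 0 < p.μ * p.η := by positivity
  have hmB : 0 < p.μ * (1 - p.η) := by positivity
  have hA1 : En A ≤ 2 * D / (p.μ * p.η) := by
    rw [le_div_iff₀ hmA]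
    linarith
  have hB1 : En B ≤ 2 * D / (p.μ * (1 - p.η)) := by
    rw [le_div_iff₀ hmB]
    linarith
  have hA2 : 0 ≤ 2 * D / (p.μ * p.η) := by positivity
  have hB2 : 0 ≤ 2 * D / (p.μ * (1 - p.η)) := by positivity
  constructor <;> linarith

end

end Crest.Agent.R331.FEn839
end

-- ▼ part R331/Final_944
section

/-!
Row 331 (S0514), final assembly (captain: helper944): the literal conclusion of S0514 from the
remaining literal Props of the finite matrix track.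
-/

set_option autoImplicit false

namespace Crest.Agent.R331.Final944

open Crest.MathPhysics.Bosonic
open Crest.Agent.R331.FDefs136

theorem lgap (hEx : FMINexists) (hPos : FMINpos) (hEL : FMINel) (hFS : FS)
    (hERR : FERR) (hEDGE : FEDGE) : LGAP :=
  lgap_of (FGapInst633.fgap FinW87.FW_holds hPos hEL (FOpiI712.fopi_of hPos hFS fanova))
    hERR hEDGE FEn839.fenergy

theorem finmain (hEx : FMINexists) (hPos : FMINpos) (hEL : FMINel) (hFS : FS)
    (hERR : FERR) (hEDGE : FEDGE) : FDefs136.FINMAIN :=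
  have hG : LGAP := lgap hEx hPos hEL hFS hERR hEDGE
  have hE : LENERGY := FCur380.LENERGY_of FEn839.fenergy FinW87.FENSUM_holds
  FTop_628.finmain_of_leaves hEx FinW87.FW_holds hE hG (FCur380.LENC_of hG hE)
    (FCur380.LREC_of hG hE) FEn839.fvalue FinW87.FENSUM_holds

theorem linbox (hEx : FMINexists) (hPos : FMINpos) (hEL : FMINel) (hFS : FS)
    (hERR : FERR) (hEDGE : FEDGE) : Fext682.LINbox :=
  Link915.linbox_of_finmain136 (finmain hEx hPos hEL hFS hERR hEDGE)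

theorem result_of_leaves (hEx : FMINexists) (hPos : FMINpos) (hEL : FMINel) (hFS : FS)
    (hERR : FERR) (hEDGE : FEDGE)
    (n : ℕ) (hn : 1 ≤ n) (η : ℝ)
    (hη : η ∈ Set.Icc (0 : ℝ) 1) (ρA ρB : FockState n) (hA : FiniteEnergy ρA) (hB : FiniteEnergy ρB)
    (sA sB : ℝ) (hsA : HasEntropy ρA sA) (hsB : HasEntropy ρB sB) (tA tB : ℝ) (htA : 0 ≤ tA)
    (htB : 0 ≤ tB) (hgA : gBose tA = sA / n) (hgB : gBose tB = sB / n) :
    ∃ ρC : FockState n, IsBeamSplitterOutput η ρA ρB ρC ∧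
      ∃ sC : ℝ, HasEntropy ρC sC ∧ gBose (η * tA + (1 - η) * tB) ≤ sC / n :=
  Main944.result_of_LINbox (linbox hEx hPos hEL hFS hERR hEDGE) n hn η hη ρA ρB hA hB sA sB
    hsA hsB tA tB htA htB hgA hgB

end Crest.Agent.R331.Final944
end

-- ▼ part R331/FEdge_633
section

/-!
Row 331 (EPnI), finite-matrix track: leaf FEDGE (helper633).

* `cs` : trace Cauchy-Schwarz for a positive semidefinite weight;
* `comm_identity`, `G_row` : commutator identity with the hard-wall boundary term;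
* `E_contr` : conditional expectation is a contraction for the form `L`;
* `edge_weight` : the weight of the top level is controlled by the Euler-Lagrange equation;
* `mean_eq`  : the means are controlled;
* `sum_log_sq_le` : `∑ p log² p ≤ 4 log² d + 3`.
-/

set_option autoImplicit false
set_option linter.unusedSectionVars false

namespace Crest.Agent.R331.FEdge633

open Matrix
open scoped ComplexOrder Kronecker

variable {m n l : Type*} [Fintype m] [Fintype n] [Fintype l] [DecidableEq m] [DecidableEq n]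
  [DecidableEq l]

/-- Frobenius Cauchy-Schwarz. -/
theorem frob_cs (P Q : Matrix m n ℂ) :
    ‖trace (P * Qᴴ)‖ ^ 2 ≤ (trace (P * Pᴴ)).re * (trace (Q * Qᴴ)).re := by
  have e1 : ∀ R : Matrix m n ℂ, (trace (R * Rᴴ)).re = ∑ i, ∑ j, ‖R i j‖ ^ 2 := by
    intro R
    simp only [Matrix.trace, Matrix.diag_apply, Matrix.mul_apply, conjTranspose_apply,
      Complex.re_sum]
    refine Finset.sum_congr rfl fun i _ => Finset.sum_congr rfl fun j _ => ?_
    rw [← Complex.normSq_eq_norm_sq, RCLike.star_def, Complex.mul_conj]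
    simp
  have e2 : ‖trace (P * Qᴴ)‖ ≤ ∑ x : m × n, ‖P x.1 x.2‖ * ‖Q x.1 x.2‖ := by
    simp only [Matrix.trace, Matrix.diag_apply, Matrix.mul_apply, conjTranspose_apply]
    rw [Fintype.sum_prod_type]
    refine (norm_sum_le _ _).trans (Finset.sum_le_sum fun i _ => ?_)
    refine (norm_sum_le _ _).trans (Finset.sum_le_sum fun j _ => ?_)
    rw [norm_mul, norm_star]
  rw [e1 P, e1 Q]
  have e3 := Finset.sum_mul_sq_le_sq_mul_sq Finset.univ (fun x : m × n => ‖P x.1 x.2‖)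
    (fun x : m × n => ‖Q x.1 x.2‖)
  rw [Fintype.sum_prod_type (f := fun x : m × n => ‖P x.1 x.2‖ ^ 2),
    Fintype.sum_prod_type (f := fun x : m × n => ‖Q x.1 x.2‖ ^ 2)] at e3
  exact (pow_le_pow_left₀ (norm_nonneg _) e2 2).trans e3

open scoped MatrixOrder in
theorem exists_sq {ρ : Matrix m m ℂ} (hρ : ρ.PosSemidef) : ∃ B : Matrix m m ℂ, ρ = Bᴴ * B := by
  obtain ⟨B, hB⟩ := CStarAlgebra.nonneg_iff_eq_star_mul_self.mp hρ.nonneg
  exact ⟨B, hB⟩

theorem key_sq (B : Matrix m m ℂ) (U V : Matrix m n ℂ) :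
    trace (Bᴴ * B * (U * Vᴴ)) = trace ((B * U) * (B * V)ᴴ) := by
  rw [conjTranspose_mul, Matrix.mul_assoc Bᴴ, Matrix.trace_mul_comm Bᴴ]
  congr 1
  simp only [Matrix.mul_assoc]

/-- Trace Cauchy-Schwarz with a positive semidefinite weight on the left (form `L`). -/
theorem cs {ρ : Matrix m m ℂ} (hρ : ρ.PosSemidef) (X Z : Matrix m n ℂ) :
    ‖trace (ρ * (X * Zᴴ))‖ ^ 2 ≤ (trace (ρ * (X * Xᴴ))).re * (trace (ρ * (Z * Zᴴ))).re := by
  obtain ⟨B, rfl⟩ := exists_sq hρ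
  rw [key_sq, key_sq, key_sq]
  exact frob_cs _ _

theorem L_nonneg {ρ : Matrix m m ℂ} (hρ : ρ.PosSemidef) (X : Matrix m n ℂ) :
    0 ≤ (trace (ρ * (X * Xᴴ))).re := by
  obtain ⟨B, rfl⟩ := exists_sq hρ
  rw [key_sq]
  have h : (B * X * (B * X)ᴴ).PosSemidef := Matrix.posSemidef_self_mul_conjTranspose _
  have := h.trace_nonneg
  exact (Complex.le_def.1 this).1

theorem cs' {ρ : Matrix m m ℂ} (hρ : ρ.PosSemidef) (X Z : Matrix m n ℂ) {x z : ℝ} (hx : 0 ≤ x)
    (hz : 0 ≤ z) (hX : (trace (ρ * (X * Xᴴ))).re ≤ x ^ 2) (hZ : (trace (ρ * (Z * Zᴴ))).re ≤ z ^ 2) :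
    ‖trace (ρ * (X * Zᴴ))‖ ≤ x * z := by
  have h := cs hρ X Z
  have h2 : ‖trace (ρ * (X * Zᴴ))‖ ^ 2 ≤ (x * z) ^ 2 := by
    rw [mul_pow]
    exact h.trans (mul_le_mul hX hZ (L_nonneg hρ Z) (by positivity))
  exact abs_le_of_sq_le_sq' h2 (by positivity) |>.2

/-! ### Partial trace and the conditional expectation -/

/-- Partial trace over the second factor. -/
def pt (M : Matrix (m × n) (m × n) ℂ) : Matrix m m ℂ := Matrix.of fun i i' => ∑ j, M (i, j) (i', j)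

theorem trace_pt_mul (M : Matrix (m × n) (m × n) ℂ) (X : Matrix m m ℂ) :
    trace (pt M * X) = trace (M * (X ⊗ₖ (1 : Matrix n n ℂ))) := by
  simp only [Matrix.trace, Matrix.diag_apply, Matrix.mul_apply, pt, Matrix.of_apply,
    Fintype.sum_prod_type, kroneckerMap_apply, Matrix.one_apply]
  refine Finset.sum_congr rfl fun i _ => ?_
  simp only [mul_ite, mul_one, mul_zero, Finset.sum_ite_eq', Finset.mem_univ, if_true,
    Finset.sum_mul]
  rw [Finset.sum_comm]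

/-- The conditional expectation `E Z = Tr₂ [(1 ⊗ B) Z]`. -/
def Ex (B : Matrix n n ℂ) (Z : Matrix (m × n) (m × n) ℂ) : Matrix m m ℂ :=
  pt (((1 : Matrix m m ℂ) ⊗ₖ B) * Z)

theorem trace_Ex (A X : Matrix m m ℂ) (B : Matrix n n ℂ) (Z : Matrix (m × n) (m × n) ℂ) :
    trace (A * (Ex B Z * X)) = trace ((A ⊗ₖ B) * (Z * (X ⊗ₖ (1 : Matrix n n ℂ)))) := by
  rw [← Matrix.mul_assoc, Matrix.trace_mul_cycle, Matrix.trace_mul_comm, Ex, trace_pt_mul,
    Matrix.trace_mul_comm, ← Matrix.mul_assoc]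
  have h1 : (X * A) ⊗ₖ (1 : Matrix n n ℂ) = (X ⊗ₖ (1 : Matrix n n ℂ)) * (A ⊗ₖ (1 : Matrix n n ℂ)) := by
    rw [← Matrix.mul_kronecker_mul, Matrix.one_mul]
  have h2 : (A ⊗ₖ (1 : Matrix n n ℂ)) * ((1 : Matrix m m ℂ) ⊗ₖ B) = A ⊗ₖ B := by
    rw [← Matrix.mul_kronecker_mul, Matrix.one_mul, Matrix.mul_one]
  rw [h1, Matrix.mul_assoc (X ⊗ₖ (1 : Matrix n n ℂ)), h2, ← Matrix.mul_assoc (A ⊗ₖ B),
    Matrix.trace_mul_comm (A ⊗ₖ B * Z), ← Matrix.mul_assoc]

/-- The conditional expectation is a contraction for the form `L`. -/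
theorem E_contr {A : Matrix m m ℂ} {B : Matrix n n ℂ} (hA : A.PosSemidef) (hB : B.PosSemidef)
    (htB : trace B = 1) (Z : Matrix (m × n) (m × n) ℂ) :
    (trace (A * (Ex B Z * (Ex B Z)ᴴ))).re ≤ (trace ((A ⊗ₖ B) * (Z * Zᴴ))).re := by
  have hAB : (A ⊗ₖ B).PosSemidef := hA.kronecker hB
  set e := (trace (A * (Ex B Z * (Ex B Z)ᴴ))).re with he
  have h0 : 0 ≤ e := L_nonneg hA _
  have h1 := cs hAB Z ((Ex B Z) ⊗ₖ (1 : Matrix n n ℂ))
  have h2 : ((Ex B Z) ⊗ₖ (1 : Matrix n n ℂ))ᴴ = (Ex B Z)ᴴ ⊗ₖ (1 : Matrix n n ℂ) := by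
    rw [Matrix.conjTranspose_kronecker, Matrix.conjTranspose_one]
  rw [h2, ← trace_Ex] at h1
  have h3 : trace ((A ⊗ₖ B) * ((Ex B Z) ⊗ₖ (1 : Matrix n n ℂ) * ((Ex B Z)ᴴ ⊗ₖ (1 : Matrix n n ℂ))))
      = trace (A * (Ex B Z * (Ex B Z)ᴴ)) := by
    rw [← Matrix.mul_kronecker_mul, ← Matrix.mul_kronecker_mul, Matrix.trace_kronecker,
      Matrix.mul_one, Matrix.mul_one, htB, mul_one]
  rw [h3, ← he] at h1
  have h4 : e ≤ ‖trace (A * (Ex B Z * (Ex B Z)ᴴ))‖ := Complex.re_le_norm _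
  have h5 : e * e ≤ (trace ((A ⊗ₖ B) * (Z * Zᴴ))).re * e := by
    calc e * e = e ^ 2 := by ring
      _ ≤ _ := (pow_le_pow_left₀ h0 h4 2).trans h1
  rcases h0.eq_or_lt with h | h
  · rw [← h]; exact L_nonneg hAB _
  · exact le_of_mul_le_mul_right h5 h

/-! ### The commutator identity with boundary term -/

section comm

variable {p q : Type*} [Fintype p] [Fintype q] [DecidableEq p] [DecidableEq q]

/-- the boundary operator `G = Wᴴ (hA c - hB d) - a Wᴴ`. -/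
def G (W : Matrix (p × q) (m × n) ℂ) (a : Matrix m m ℂ) (c : Matrix p p ℂ) (d : Matrix q q ℂ)
    (hA hB : ℂ) : Matrix (m × n) (p × q) ℂ :=
  Wᴴ * (hA • (c ⊗ₖ (1 : Matrix q q ℂ)) - hB • ((1 : Matrix p p ℂ) ⊗ₖ d)) -
    (a ⊗ₖ (1 : Matrix n n ℂ)) * Wᴴ



end comm

/-! ### The weight of the top level -/

/-- **Edge weight.** `A` a density matrix satisfying the Euler-Lagrange equation
`r Y - lam Kh + s diag ν = c`, with `Tr A Y Yᴴ ≤ κ²`, `Tr A Kh Khᴴ ≤ v²`; `T` a set of indices with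
`K ≤ ν` on `T`; `p = Tr A 1_T`, `E = Tr A ν`. Then `s (K - E) p ≤ r κ (p + √p) + lam v √p`. -/
theorem edge_weight {A Y Kh : Matrix m m ℂ} (hA : A.PosSemidef) (htr : trace A = 1)
    (ν : m → ℝ) (T : Finset m) {K r lam s c κ v p E : ℝ}
    (hνT : ∀ k ∈ T, K ≤ ν k) (hr : 0 ≤ r) (hlam : 0 ≤ lam) (hs : 0 ≤ s) (hκ : 0 ≤ κ) (hv : 0 ≤ v)
    (hY : (trace (A * (Y * Yᴴ))).re ≤ κ ^ 2) (hK : (trace (A * (Kh * Khᴴ))).re ≤ v ^ 2)
    (hK0 : 0 ≤ (trace (A * Kh)).re)
    (hEL : (r : ℂ) • Y - (lam : ℂ) • Kh + (s : ℂ) • diagonal (fun k => (ν k : ℂ)) =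
      (c : ℂ) • (1 : Matrix m m ℂ))
    (hp : p = ∑ k ∈ T, (A k k).re) (hE : E = ∑ k, ν k * (A k k).re) :
    s * (K - E) * p ≤ r * κ * (p + √p) + lam * v * √p := by
  classical
  have hdiag : ∀ k, 0 ≤ (A k k).re := fun k => (Complex.le_def.1 (hA.diag_nonneg (i := k))).1
  have hp0 : 0 ≤ p := by rw [hp]; exact Finset.sum_nonneg fun k _ => hdiag k
  set Q : Matrix m m ℂ := diagonal (fun k => if k ∈ T then 1 else 0) with hQ
  have hQQ : Q * Qᴴ = Q := by
    rw [hQ, diagonal_conjTranspose, diagonal_mul_diagonal]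
    congr 1
    ext k
    by_cases h : k ∈ T <;> simp [h]
  have hQH : Qᴴ = Q := by
    rw [hQ, diagonal_conjTranspose]
    congr 1
    ext k
    by_cases h : k ∈ T <;> simp [h]
  have hAQ : (trace (A * Q)).re = p := by
    rw [hp, hQ, Matrix.trace, Complex.re_sum, ← Finset.sum_filter_add_sum_filter_not _ (· ∈ T)]
    simp only [Matrix.diag_apply, mul_diagonal]
    rw [Finset.filter_mem_eq_inter, Finset.univ_inter]
    rw [Finset.sum_eq_zero (s := Finset.filter (fun x => x ∉ T) Finset.univ), add_zero]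
    · refine Finset.sum_congr rfl fun k hk => ?_
      simp [hk]
    · intro k hk
      rw [Finset.mem_filter] at hk
      simp [hk.2]
  have hsq : (√p) ^ 2 = p := Real.sq_sqrt hp0
  have hQ2 : (trace (A * (Q * Qᴴ))).re ≤ (√p) ^ 2 := by rw [hQQ, hAQ, hsq]
  have h1 : |(trace (A * (Y * Q))).re| ≤ κ * √p := by
    have := cs' hA Y Q hκ (Real.sqrt_nonneg p) hY hQ2
    rw [hQH] at this
    exact (Complex.abs_re_le_norm _).trans this
  have h2 : |(trace (A * (Kh * Q))).re| ≤ v * √p := by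
    have := cs' hA Kh Q hv (Real.sqrt_nonneg p) hK hQ2
    rw [hQH] at this
    exact (Complex.abs_re_le_norm _).trans this
  have h3 : |(trace (A * Y)).re| ≤ κ := by
    have := cs' hA Y 1 hκ (zero_le_one) hY (by simp [htr])
    rw [conjTranspose_one, Matrix.mul_one, mul_one] at this
    exact (Complex.abs_re_le_norm _).trans this
  have h4 : (trace (A * (diagonal (fun k => (ν k : ℂ)) * Q))).re = ∑ k ∈ T, ν k * (A k k).re := by
    rw [hQ, diagonal_mul_diagonal, Matrix.trace, Complex.re_sum,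
      ← Finset.sum_filter_add_sum_filter_not _ (· ∈ T)]
    simp only [Matrix.diag_apply, mul_diagonal]
    rw [Finset.filter_mem_eq_inter, Finset.univ_inter]
    rw [Finset.sum_eq_zero (s := Finset.filter (fun x => x ∉ T) Finset.univ), add_zero]
    · refine Finset.sum_congr rfl fun k hk => ?_
      simp [hk, mul_comm]
    · intro k hk
      rw [Finset.mem_filter] at hk
      simp [hk.2]
  have h4' : K * p ≤ (trace (A * (diagonal (fun k => (ν k : ℂ)) * Q))).re := by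
    rw [h4, hp, Finset.mul_sum]
    exact Finset.sum_le_sum fun k hk => mul_le_mul_of_nonneg_right (hνT k hk) (hdiag k)
  have h5 : (trace (A * diagonal (fun k => (ν k : ℂ)))).re = E := by
    rw [hE, Matrix.trace, Complex.re_sum]
    refine Finset.sum_congr rfl fun k _ => ?_
    simp [mul_diagonal, mul_comm]
  have e1 : r * (trace (A * (Y * Q))).re - lam * (trace (A * (Kh * Q))).re +
      s * (trace (A * (diagonal (fun k => (ν k : ℂ)) * Q))).re = c * p := by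
    have := congrArg (fun M : Matrix m m ℂ => (trace (A * (M * Q))).re) hEL
    simp only [Matrix.add_mul, Matrix.sub_mul, Matrix.mul_add, Matrix.mul_sub, Matrix.smul_mul,
      Matrix.mul_smul, trace_add, trace_sub, trace_smul, Matrix.one_mul, Complex.add_re,
      Complex.sub_re, smul_eq_mul, Complex.re_ofReal_mul] at this
    rw [hAQ] at this
    exact this
  have e2 : r * (trace (A * Y)).re - lam * (trace (A * Kh)).re + s * E = c := by
    have := congrArg (fun M : Matrix m m ℂ => (trace (A * M)).re) hEL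
    simp only [Matrix.mul_add, Matrix.mul_sub, Matrix.mul_smul, trace_add, trace_sub, trace_smul,
      Matrix.mul_one, Complex.add_re, Complex.sub_re, smul_eq_mul, Complex.re_ofReal_mul, htr,
      Complex.one_re, mul_one] at this
    rw [h5] at this
    exact this
  have f1 := (abs_le.1 h1).1
  have f2 := (abs_le.1 h2).2
  have f3 := (abs_le.1 h3).2
  have g1 : s * (K * p) ≤ s * (trace (A * (diagonal (fun k => (ν k : ℂ)) * Q))).re :=
    mul_le_mul_of_nonneg_left h4' hs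
  have g2 : lam * (trace (A * (Kh * Q))).re ≤ lam * (v * √p) := mul_le_mul_of_nonneg_left f2 hlam
  have g3 : -(r * (κ * √p)) ≤ r * (trace (A * (Y * Q))).re := by
    have := mul_le_mul_of_nonneg_left f1 hr
    linarith
  have g4 : p * (r * (trace (A * Y)).re) ≤ p * (r * κ) :=
    mul_le_mul_of_nonneg_left (mul_le_mul_of_nonneg_left f3 hr) hp0
  have g5 : 0 ≤ p * (lam * (trace (A * Kh)).re) := by positivity
  have g6 : c * p = p * (r * (trace (A * Y)).re) - p * (lam * (trace (A * Kh)).re) + p * (s * E) := by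
    rw [← e2]; ring
  nlinarith [e1, g1, g2, g3, g4, g5, g6]

/-- Consequence: `√p ≤ (2 r κ + lam v) / (s (K - E))`. -/
theorem edge_weight' {A Y Kh : Matrix m m ℂ} (hA : A.PosSemidef) (htr : trace A = 1)
    (ν : m → ℝ) (T : Finset m) {K r lam s c κ v p E : ℝ}
    (hνT : ∀ k ∈ T, K ≤ ν k) (hr : 0 ≤ r) (hlam : 0 ≤ lam) (hs : 0 < s) (hκ : 0 ≤ κ) (hv : 0 ≤ v)
    (hY : (trace (A * (Y * Yᴴ))).re ≤ κ ^ 2) (hK : (trace (A * (Kh * Khᴴ))).re ≤ v ^ 2)
    (hK0 : 0 ≤ (trace (A * Kh)).re)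
    (hEL : (r : ℂ) • Y - (lam : ℂ) • Kh + (s : ℂ) • diagonal (fun k => (ν k : ℂ)) =
      (c : ℂ) • (1 : Matrix m m ℂ))
    (hp : p = ∑ k ∈ T, (A k k).re) (hE : E = ∑ k, ν k * (A k k).re) (hKE : E < K) :
    p ≤ ((2 * r * κ + lam * v) / (s * (K - E))) ^ 2 := by
  classical
  have h := edge_weight hA htr ν T hνT hr hlam hs.le hκ hv hY hK hK0 hEL hp hE
  have hdiag : ∀ k, 0 ≤ (A k k).re := fun k => (Complex.le_def.1 (hA.diag_nonneg (i := k))).1
  have hp0 : 0 ≤ p := by rw [hp]; exact Finset.sum_nonneg fun k _ => hdiag k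
  have hp1 : p ≤ 1 := by
    rw [hp]
    have : (trace A).re = 1 := by rw [htr]; simp
    rw [Matrix.trace, Complex.re_sum] at this
    rw [← this]
    exact Finset.sum_le_univ_sum_of_nonneg hdiag
  have hpp : p ≤ √p := by
    have h1 : √p ≤ 1 := Real.sqrt_le_one.2 hp1
    nlinarith [Real.sq_sqrt hp0, Real.sqrt_nonneg p]
  have hden : 0 < s * (K - E) := mul_pos hs (by linarith)
  have hmain : s * (K - E) * p ≤ (2 * r * κ + lam * v) * √p := by
    have : r * κ * (p + √p) ≤ r * κ * (√p + √p) := by gcongr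
    nlinarith
  have h3 : √p ≤ (2 * r * κ + lam * v) / (s * (K - E)) := by
    rw [le_div_iff₀ hden]
    rcases (Real.sqrt_nonneg p).eq_or_lt with h0 | h0
    · rw [← h0, zero_mul]; positivity
    · have h5 : (√p * (s * (K - E))) * √p ≤ (2 * r * κ + lam * v) * √p := by
        have : √p * (s * (K - E)) * √p = s * (K - E) * p := by
          rw [mul_right_comm, Real.mul_self_sqrt hp0]; ring
        rw [this]; exact hmain
      exact le_of_mul_le_mul_right h5 h0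
  calc p = (√p) ^ 2 := (Real.sq_sqrt hp0).symm
    _ ≤ _ := pow_le_pow_left₀ (Real.sqrt_nonneg p) h3 2


/-! ### `∑ p log² p ≤ 4 log² d + 3` -/

theorem mul_log_sq_le {x : ℝ} (hx : 0 ≤ x) (hx1 : x ≤ 1) : x * Real.log x ^ 2 ≤ 3 * √x := by
  rcases hx.eq_or_lt with h | h
  · rw [← h]; simp
  · -- `√x log² x ≤ 3`: with `y = x^{-1/8}`: `log (1/x) = 8 log y ≤ 8 (y/e)`...
    have h0 : 0 ≤ -Real.log x := by linarith [Real.log_nonpos hx hx1]
    -- use `exp t ≥ (t^2) / ...`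
    set t := -Real.log x with ht
    have hxe : x = Real.exp (-t) := by rw [ht, neg_neg, Real.exp_log h]
    have hsq : √x = Real.exp (-t / 2) := by
      rw [hxe, Real.sqrt_eq_rpow, ← Real.exp_mul]; ring_nf
    have hlog : Real.log x = -t := by rw [ht]; ring
    have key : t ^ 2 * Real.exp (-t / 2) ≤ 3 := by
      have h1 : Real.exp 1 * (t / 4) ≤ Real.exp (t / 4) := by
        have := Real.add_one_le_exp (t / 4 - 1)
        have h2 : Real.exp (t / 4) = Real.exp 1 * Real.exp (t / 4 - 1) := by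
          rw [← Real.exp_add]; ring_nf
        rw [h2]
        have h3 : 0 < Real.exp 1 := Real.exp_pos 1
        nlinarith
      have h2 : (Real.exp 1 * (t / 4)) ^ 2 ≤ Real.exp (t / 4) ^ 2 :=
        pow_le_pow_left₀ (by positivity) h1 2
      have h3 : Real.exp (t / 4) ^ 2 = Real.exp (t / 2) := by
        rw [← Real.exp_nat_mul]; ring_nf
      have h4 : Real.exp (-t / 2) * Real.exp (t / 2) = 1 := by
        rw [← Real.exp_add]; ring_nf; exact Real.exp_zero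
      have h5 : (2.7 : ℝ) < Real.exp 1 := by linarith [Real.exp_one_gt_d9]
      have h6 : (2.7 : ℝ) ^ 2 * (t / 4) ^ 2 ≤ Real.exp (t / 2) := by
        rw [← h3]
        refine le_trans ?_ h2
        rw [mul_pow]
        gcongr
      have h7 : 0 < Real.exp (-t / 2) := Real.exp_pos _
      have h8 := mul_le_mul_of_nonneg_left h6 h7.le
      rw [h4] at h8
      nlinarith
    rw [hlog, hsq]
    have h8 : x = Real.exp (-t / 2) * Real.exp (-t / 2) := by
      rw [← Real.exp_add, hxe]; ring_nf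
    have h7 : 0 < Real.exp (-t / 2) := Real.exp_pos _
    calc x * (-t) ^ 2 = Real.exp (-t / 2) * (t ^ 2 * Real.exp (-t / 2)) := by rw [h8]; ring
      _ ≤ Real.exp (-t / 2) * 3 := mul_le_mul_of_nonneg_left key h7.le
      _ = 3 * Real.exp (-t / 2) := by ring

theorem sum_log_sq_le {ι : Type*} [Fintype ι] (p : ι → ℝ) (hp : ∀ i, 0 ≤ p i)
    (hsum : ∑ i, p i ≤ 1) (hcard : 1 ≤ Fintype.card ι) :
    ∑ i, p i * Real.log (p i) ^ 2 ≤ 4 * Real.log (Fintype.card ι) ^ 2 + 3 := by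
  obtain ⟨D, hD⟩ : ∃ D : ℝ, D = (Fintype.card ι : ℝ) := ⟨_, rfl⟩
  rw [← hD]
  have hD1 : 1 ≤ D := by rw [hD]; exact_mod_cast hcard
  have hp1 : ∀ i, p i ≤ 1 := fun i =>
    (Finset.single_le_sum (fun j _ => hp j) (Finset.mem_univ i)).trans hsum
  have hterm : ∀ i, p i * Real.log (p i) ^ 2 ≤ p i * (4 * Real.log D ^ 2) + 3 / D := by
    intro i
    by_cases h : 1 / D ^ 2 ≤ p i
    · have hpos : 0 < p i := lt_of_lt_of_le (by positivity) h
      have h1 : -(2 * Real.log D) ≤ Real.log (p i) := by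
        have := Real.log_le_log (by positivity) h
        rw [one_div, Real.log_inv, Real.log_pow] at this
        push_cast at this
        linarith
      have h2 : Real.log (p i) ≤ 0 := Real.log_nonpos (hp i) (hp1 i)
      have h3 : Real.log (p i) ^ 2 ≤ 4 * Real.log D ^ 2 := by
        have h0 : 0 ≤ Real.log D := Real.log_nonneg hD1
        nlinarith
      have h4 : 0 ≤ 3 / D := by positivity
      nlinarith [mul_le_mul_of_nonneg_left h3 (hp i)]
    · push Not at h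
      have h1 := mul_log_sq_le (hp i) (hp1 i)
      have h2 : √(p i) ≤ 1 / D := by
        rw [show (1 : ℝ) / D = √(1 / D ^ 2) by
          rw [Real.sqrt_div zero_le_one, Real.sqrt_one, Real.sqrt_sq (by positivity)]]
        exact Real.sqrt_le_sqrt h.le
      have h3 : 0 ≤ p i * (4 * Real.log D ^ 2) := mul_nonneg (hp i) (by positivity)
      calc p i * Real.log (p i) ^ 2 ≤ 3 * √(p i) := h1
        _ ≤ 3 * (1 / D) := by gcongr
        _ = 3 / D := by ring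
        _ ≤ _ := by linarith
  calc ∑ i, p i * Real.log (p i) ^ 2 ≤ ∑ i, (p i * (4 * Real.log D ^ 2) + 3 / D) :=
        Finset.sum_le_sum fun i _ => hterm i
    _ = (∑ i, p i) * (4 * Real.log D ^ 2) + D * (3 / D) := by
        rw [Finset.sum_add_distrib, ← Finset.sum_mul, Finset.sum_const, Finset.card_univ,
          nsmul_eq_mul, hD]
    _ ≤ 1 * (4 * Real.log D ^ 2) + 3 := by
        have : D * (3 / D) = 3 := by field_simp
        rw [this]
        gcongr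
    _ = _ := by ring

end Crest.Agent.R331.FEdge633
end

-- ▼ part R331/FErr_8
section

/-!
Row 331 (EPnI), finite-matrix track: leaf FERR (helper8).

Bounds of the three linear error terms of (GAP) of the finite track (helper136 #13990), for abstract
finite matrices, in the notation `G`, `Ex` of `FEdge_633`.
-/

set_option autoImplicit false
set_option linter.unusedSectionVars false
set_option linter.unusedSimpArgs false

namespace Crest.Agent.R331.FErr8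

open Matrix FEdge633
open scoped ComplexOrder Kronecker

variable {m n l p q : Type*} [Fintype m] [Fintype n] [Fintype l] [Fintype p] [Fintype q]
  [DecidableEq m] [DecidableEq n] [DecidableEq l] [DecidableEq p] [DecidableEq q]

/-! ### The `L`-form and its seminorm -/

/-- the form `L_ρ(X) = Tr ρ X Xᴴ` -/
noncomputable def Lf (ρ : Matrix m m ℂ) (X : Matrix m n ℂ) : ℝ := (trace (ρ * (X * Xᴴ))).re

/-- the seminorm `√ Tr ρ X Xᴴ` -/
noncomputable def Ln (ρ : Matrix m m ℂ) (X : Matrix m n ℂ) : ℝ := √(Lf ρ X)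

theorem Lf_nonneg {ρ : Matrix m m ℂ} (hρ : ρ.PosSemidef) (X : Matrix m n ℂ) : 0 ≤ Lf ρ X :=
  L_nonneg hρ X

theorem Ln_nonneg (ρ : Matrix m m ℂ) (X : Matrix m n ℂ) : 0 ≤ Ln ρ X := Real.sqrt_nonneg _

theorem Ln_sq {ρ : Matrix m m ℂ} (hρ : ρ.PosSemidef) (X : Matrix m n ℂ) : Ln ρ X ^ 2 = Lf ρ X :=
  Real.sq_sqrt (Lf_nonneg hρ X)

theorem Ln_cs {ρ : Matrix m m ℂ} (hρ : ρ.PosSemidef) (X Z : Matrix m n ℂ) :
    ‖trace (ρ * (X * Zᴴ))‖ ≤ Ln ρ X * Ln ρ Z :=
  cs' hρ X Z (Ln_nonneg _ _) (Ln_nonneg _ _) (Ln_sq hρ X).ge (Ln_sq hρ Z).ge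

theorem Ln_add {ρ : Matrix m m ℂ} (hρ : ρ.PosSemidef) (X Z : Matrix m n ℂ) :
    Ln ρ (X + Z) ≤ Ln ρ X + Ln ρ Z := by
  have h1 := Ln_cs hρ X Z
  have h2 := Ln_cs hρ Z X
  have e : Lf ρ (X + Z) = Lf ρ X + Lf ρ Z + (trace (ρ * (X * Zᴴ))).re
      + (trace (ρ * (Z * Xᴴ))).re := by
    simp only [Lf, conjTranspose_add, Matrix.add_mul, Matrix.mul_add, trace_add, Complex.add_re]
    ring
  have h3 : (trace (ρ * (X * Zᴴ))).re ≤ Ln ρ X * Ln ρ Z := (Complex.re_le_norm _).trans h1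
  have h4 : (trace (ρ * (Z * Xᴴ))).re ≤ Ln ρ Z * Ln ρ X := (Complex.re_le_norm _).trans h2
  refine Real.sqrt_le_iff.2 ⟨add_nonneg (Ln_nonneg _ _) (Ln_nonneg _ _), ?_⟩
  rw [e]
  nlinarith [Ln_sq hρ X, Ln_sq hρ Z]

theorem Ln_smul (ρ : Matrix m m ℂ) (z : ℂ) (X : Matrix m n ℂ) :
    Ln ρ (z • X) = ‖z‖ * Ln ρ X := by
  have e : Lf ρ (z • X) = ‖z‖ ^ 2 * Lf ρ X := by
    simp only [Lf, conjTranspose_smul, Matrix.smul_mul, Matrix.mul_smul, trace_smul, smul_eq_mul,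
      ← mul_assoc]
    have : z * star z = ((‖z‖ ^ 2 : ℝ) : ℂ) := by
      rw [RCLike.star_def, Complex.mul_conj, Complex.normSq_eq_norm_sq]
    rw [mul_comm z (star z)] at this
    rw [this, Complex.re_ofReal_mul]
  rw [Ln, e, Real.sqrt_mul (sq_nonneg _), Real.sqrt_sq (norm_nonneg _), Ln]

theorem Ln_neg (ρ : Matrix m m ℂ) (X : Matrix m n ℂ) : Ln ρ (-X) = Ln ρ X := by
  have := Ln_smul ρ (-1) X
  simpa using this

theorem Ln_sub {ρ : Matrix m m ℂ} (hρ : ρ.PosSemidef) (X Z : Matrix m n ℂ) :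
    Ln ρ (X - Z) ≤ Ln ρ X + Ln ρ Z := by
  rw [sub_eq_add_neg, ← Ln_neg ρ Z]
  exact Ln_add hρ _ _

/-- right multiplication by a bounded matrix -/
theorem Ln_mul_le {ρ : Matrix m m ℂ} (hρ : ρ.PosSemidef) (X : Matrix m n ℂ) (D : Matrix n l ℂ)
    {s : ℝ} (hs : 0 ≤ s) (hD : (((s ^ 2 : ℝ) : ℂ) • (1 : Matrix n n ℂ) - D * Dᴴ).PosSemidef) :
    Ln ρ (X * D) ≤ s * Ln ρ X := by
  obtain ⟨B, hB⟩ := exists_sq hD
  obtain ⟨R, hR⟩ := exists_sq hρ
  have e : s ^ 2 * Lf ρ X - Lf ρ (X * D) = Lf ρ (X * Bᴴ) := by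
    have h1 : ρ * ((X * Bᴴ) * (X * Bᴴ)ᴴ) = ((s ^ 2 : ℝ) : ℂ) • (ρ * (X * Xᴴ))
        - ρ * ((X * D) * (X * D)ᴴ) := by
      have : (X * Bᴴ) * (X * Bᴴ)ᴴ = X * (Bᴴ * B) * Xᴴ := by
        simp only [conjTranspose_mul, conjTranspose_conjTranspose, Matrix.mul_assoc]
      rw [this, ← hB]
      simp only [conjTranspose_mul, Matrix.mul_sub, Matrix.sub_mul, Matrix.mul_smul,
        Matrix.smul_mul, Matrix.mul_one, Matrix.mul_assoc]
    rw [Lf, Lf, Lf, h1, trace_sub, trace_smul, Complex.sub_re, smul_eq_mul,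
      Complex.re_ofReal_mul]
  have h0 := Lf_nonneg hρ (X * Bᴴ)
  refine Real.sqrt_le_iff.2 ⟨mul_nonneg hs (Ln_nonneg _ _), ?_⟩
  rw [mul_pow, Ln_sq hρ]
  linarith

/-- left multiplication by a matrix `K` with `Kᴴ Q K ≤ κ² Q` -/
theorem Ln_left {Q K : Matrix m m ℂ} (hQ : Q.PosSemidef) (X : Matrix m n ℂ)
    {κ : ℝ} (hκ : 0 ≤ κ) (hK : (((κ ^ 2 : ℝ) : ℂ) • Q - Kᴴ * Q * K).PosSemidef) :
    Ln Q (K * X) ≤ κ * Ln Q X := by
  have e : κ ^ 2 * Lf Q X - Lf Q (K * X) = Lf (((κ ^ 2 : ℝ) : ℂ) • Q - Kᴴ * Q * K) X := by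
    have h2 : trace (Q * (K * X * (K * X)ᴴ)) = trace (Kᴴ * Q * K * (X * Xᴴ)) := by
      rw [conjTranspose_mul, trace_mul_comm]
      simp only [Matrix.mul_assoc]
      rw [trace_mul_comm K]
      simp only [Matrix.mul_assoc]
      rw [trace_mul_comm]
      simp only [Matrix.mul_assoc]
      rw [trace_mul_comm Xᴴ]
      simp only [Matrix.mul_assoc]
    rw [Lf, Lf, Lf, Matrix.sub_mul, trace_sub, Matrix.smul_mul, trace_smul, smul_eq_mul,
      Complex.sub_re, Complex.re_ofReal_mul, h2]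
  have h0 := Lf_nonneg hK X
  refine Real.sqrt_le_iff.2 ⟨mul_nonneg hκ (Ln_nonneg _ _), ?_⟩
  rw [mul_pow, Ln_sq hQ]
  linarith

/-- monotonicity in the weight -/
theorem Ln_mono {ρ σ : Matrix m m ℂ} (h : (σ - ρ).PosSemidef) (X : Matrix m n ℂ) :
    Ln ρ X ≤ Ln σ X := by
  refine Real.sqrt_le_sqrt ?_
  have h0 := Lf_nonneg h X
  rw [Lf, Matrix.sub_mul, trace_sub, Complex.sub_re] at h0
  rw [Lf, Lf]
  linarith

theorem Ln_one {ρ : Matrix m m ℂ} (htr : trace ρ = 1) : Ln ρ (1 : Matrix m m ℂ) = 1 := by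
  rw [Ln, Lf, conjTranspose_one, Matrix.mul_one, Matrix.mul_one, htr, Complex.one_re, Real.sqrt_one]

/-- adjoint of a bound: for an isometry `W`, `Ln ρ (X Wᴴ) = Ln ρ X` -/
theorem Ln_mul_iso (ρ : Matrix m m ℂ) (X : Matrix m n ℂ) (W : Matrix p n ℂ) (hW : Wᴴ * W = 1) :
    Ln ρ (X * Wᴴ) = Ln ρ X := by
  rw [Ln, Ln, Lf, Lf, conjTranspose_mul, conjTranspose_conjTranspose]
  have : X * Wᴴ * (W * Xᴴ) = X * Xᴴ := by
    rw [Matrix.mul_assoc, ← Matrix.mul_assoc Wᴴ, hW, Matrix.one_mul]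
  rw [this]

/-- `1 - W Wᴴ ≥ 0` for an isometry. -/
theorem iso_psd (W : Matrix p n ℂ) (hW : Wᴴ * W = 1) : ((1 : Matrix p p ℂ) - W * Wᴴ).PosSemidef := by
  have h1 : (1 : Matrix p p ℂ) - W * Wᴴ = (1 - W * Wᴴ) * (1 - W * Wᴴ)ᴴ := by
    have h2 : (1 - W * Wᴴ)ᴴ = 1 - W * Wᴴ := by
      rw [conjTranspose_sub, conjTranspose_one, conjTranspose_mul, conjTranspose_conjTranspose]
    have h3 : W * Wᴴ * (W * Wᴴ) = W * Wᴴ := by
      rw [Matrix.mul_assoc, ← Matrix.mul_assoc Wᴴ, hW, Matrix.one_mul]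
    rw [h2, Matrix.sub_mul, Matrix.mul_sub, Matrix.mul_sub, h3, Matrix.one_mul, Matrix.mul_one,
      Matrix.one_mul, sub_self, sub_zero]
  rw [h1]
  exact Matrix.posSemidef_self_mul_conjTranspose _

/-- right multiplication by an isometry contracts -/
theorem Ln_mul_iso_le {ρ : Matrix m m ℂ} (hρ : ρ.PosSemidef) (X : Matrix m p ℂ) (W : Matrix p n ℂ)
    (hW : Wᴴ * W = 1) : Ln ρ (X * W) ≤ Ln ρ X := by
  have := Ln_mul_le hρ X W (s := 1) zero_le_one (by
    rw [one_pow, Complex.ofReal_one, one_smul]; exact iso_psd W hW)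
  rwa [one_mul] at this

theorem kron_psd {D : Matrix p p ℂ} {s : ℝ}
    (hD : (((s ^ 2 : ℝ) : ℂ) • (1 : Matrix p p ℂ) - D * Dᴴ).PosSemidef) :
    (((s ^ 2 : ℝ) : ℂ) • (1 : Matrix (p × q) (p × q) ℂ) -
      (D ⊗ₖ (1 : Matrix q q ℂ)) * (D ⊗ₖ (1 : Matrix q q ℂ))ᴴ).PosSemidef := by
  have h1 : (((s ^ 2 : ℝ) : ℂ) • (1 : Matrix (p × q) (p × q) ℂ) -
      (D ⊗ₖ (1 : Matrix q q ℂ)) * (D ⊗ₖ (1 : Matrix q q ℂ))ᴴ) =
      (((s ^ 2 : ℝ) : ℂ) • (1 : Matrix p p ℂ) - D * Dᴴ) ⊗ₖ (1 : Matrix q q ℂ) := by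
    rw [Matrix.conjTranspose_kronecker, Matrix.conjTranspose_one, ← Matrix.mul_kronecker_mul,
      Matrix.mul_one]
    have h2 : (1 : Matrix (p × q) (p × q) ℂ) = (1 : Matrix p p ℂ) ⊗ₖ (1 : Matrix q q ℂ) :=
      Matrix.one_kronecker_one.symm
    rw [h2]
    ext ⟨i, j⟩ ⟨i', j'⟩
    simp only [Matrix.sub_apply, Matrix.smul_apply, kroneckerMap_apply, smul_eq_mul]
    ring
  rw [h1]
  exact hD.kronecker Matrix.PosSemidef.one

theorem kron_psd' {D : Matrix q q ℂ} {s : ℝ}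
    (hD : (((s ^ 2 : ℝ) : ℂ) • (1 : Matrix q q ℂ) - D * Dᴴ).PosSemidef) :
    (((s ^ 2 : ℝ) : ℂ) • (1 : Matrix (p × q) (p × q) ℂ) -
      ((1 : Matrix p p ℂ) ⊗ₖ D) * ((1 : Matrix p p ℂ) ⊗ₖ D)ᴴ).PosSemidef := by
  have h1 : (((s ^ 2 : ℝ) : ℂ) • (1 : Matrix (p × q) (p × q) ℂ) -
      ((1 : Matrix p p ℂ) ⊗ₖ D) * ((1 : Matrix p p ℂ) ⊗ₖ D)ᴴ) =
      (1 : Matrix p p ℂ) ⊗ₖ (((s ^ 2 : ℝ) : ℂ) • (1 : Matrix q q ℂ) - D * Dᴴ) := by
    rw [Matrix.conjTranspose_kronecker, Matrix.conjTranspose_one, ← Matrix.mul_kronecker_mul,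
      Matrix.mul_one]
    have h2 : (1 : Matrix (p × q) (p × q) ℂ) = (1 : Matrix p p ℂ) ⊗ₖ (1 : Matrix q q ℂ) :=
      Matrix.one_kronecker_one.symm
    rw [h2]
    ext ⟨i, j⟩ ⟨i', j'⟩
    simp only [Matrix.sub_apply, Matrix.smul_apply, kroneckerMap_apply, smul_eq_mul]
    ring
  rw [h1]
  exact Matrix.PosSemidef.one.kronecker hD

/-! ### The boundary operator -/

section edge

variable (W : Matrix (p × q) (m × n) ℂ) (a Q : Matrix m m ℂ) (c : Matrix p p ℂ) (d : Matrix q q ℂ)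
  (hA hB : ℝ)

/-- the compression of a PSD weight by a Hermitian projection -/
theorem Ln_proj {ρ P : Matrix m m ℂ} (hP : Pᴴ = P) (X : Matrix m n ℂ) :
    Ln ρ (P * X) = Ln (P * ρ * P) X := by
  rw [Ln, Ln, Lf, Lf, conjTranspose_mul, hP]
  congr 2
  have h1 : trace (ρ * (P * X * (Xᴴ * P))) = trace ((ρ * (P * (X * Xᴴ))) * P) := by
    simp only [Matrix.mul_assoc]
  rw [h1, Matrix.trace_mul_comm]
  simp only [Matrix.mul_assoc]

/-- **(e1)** the boundary operator is small in the state: `Ln ρ G ≤ ((|hA|+|hB|) s + sa) √p`. -/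
theorem Ln_G_le {ρ : Matrix (m × n) (m × n) ℂ} (hρ : ρ.PosSemidef) (hW : Wᴴ * W = 1)
    (hQH : Qᴴ = Q) (hQQ : Q * Q = Q)
    (hQG : (Q ⊗ₖ (1 : Matrix n n ℂ)) * G W a c d hA hB = G W a c d hA hB)
    {s sa : ℝ} (hs : 0 ≤ s) (hsa : 0 ≤ sa)
    (hc : (((s ^ 2 : ℝ) : ℂ) • (1 : Matrix p p ℂ) - c * cᴴ).PosSemidef)
    (hd : (((s ^ 2 : ℝ) : ℂ) • (1 : Matrix q q ℂ) - d * dᴴ).PosSemidef)
    (ha : (((sa ^ 2 : ℝ) : ℂ) • (1 : Matrix m m ℂ) - a * aᴴ).PosSemidef) :
    Ln ρ (G W a c d hA hB) ≤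
      ((|hA| + |hB|) * s + sa) * √(trace (ρ * (Q ⊗ₖ (1 : Matrix n n ℂ)))).re := by
  set P : Matrix (m × n) (m × n) ℂ := Q ⊗ₖ (1 : Matrix n n ℂ) with hP
  have hPH : Pᴴ = P := by
    rw [hP, Matrix.conjTranspose_kronecker, Matrix.conjTranspose_one, hQH]
  have hPP : P * P = P := by
    rw [hP, ← Matrix.mul_kronecker_mul, hQQ, Matrix.one_mul]
  set R : Matrix (m × n) (m × n) ℂ := P * ρ * P with hR
  have hRpsd : R.PosSemidef := by
    have := hρ.mul_mul_conjTranspose_same P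
    rwa [hPH] at this
  have hRtr : trace R = trace (ρ * P) := by
    rw [hR, Matrix.mul_assoc, Matrix.trace_mul_comm, Matrix.mul_assoc, hPP]
  have hR1 : Ln R (1 : Matrix (m × n) (m × n) ℂ) = √(trace (ρ * P)).re := by
    rw [Ln, Lf, conjTranspose_one, Matrix.mul_one, Matrix.mul_one, hRtr]
  have h0 : Ln ρ (G W a c d hA hB) = Ln R (G W a c d hA hB) := by
    rw [← hQG, Ln_proj hPH, hQG]
  have hWn : Ln R Wᴴ = √(trace (ρ * P)).re := by
    have := Ln_mul_iso R (1 : Matrix (m × n) (m × n) ℂ) W hW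
    rw [Matrix.one_mul] at this
    rw [this, hR1]
  set r := √(trace (ρ * P)).re with hr
  have e1 : Ln R (Wᴴ * (c ⊗ₖ (1 : Matrix q q ℂ))) ≤ s * r := by
    rw [← hWn]; exact Ln_mul_le hRpsd Wᴴ _ hs (kron_psd hc)
  have e2 : Ln R (Wᴴ * ((1 : Matrix p p ℂ) ⊗ₖ d)) ≤ s * r := by
    rw [← hWn]; exact Ln_mul_le hRpsd Wᴴ _ hs (kron_psd' hd)
  have e3 : Ln R ((a ⊗ₖ (1 : Matrix n n ℂ)) * Wᴴ) ≤ sa * r := by
    rw [Ln_mul_iso _ _ _ hW]
    have := Ln_mul_le hRpsd (1 : Matrix (m × n) (m × n) ℂ) (a ⊗ₖ (1 : Matrix n n ℂ)) hsa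
      (kron_psd ha)
    rwa [Matrix.one_mul, hR1] at this
  rw [h0, G, Matrix.mul_sub, Matrix.mul_smul, Matrix.mul_smul]
  refine (Ln_sub hRpsd _ _).trans ?_
  have e4 := Ln_sub hRpsd ((hA : ℂ) • (Wᴴ * (c ⊗ₖ (1 : Matrix q q ℂ))))
    ((hB : ℂ) • (Wᴴ * ((1 : Matrix p p ℂ) ⊗ₖ d)))
  rw [Ln_smul, Ln_smul, Complex.norm_real, Complex.norm_real, Real.norm_eq_abs,
    Real.norm_eq_abs] at e4
  have e5 : |hA| * Ln R (Wᴴ * (c ⊗ₖ (1 : Matrix q q ℂ))) ≤ |hA| * (s * r) :=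
    mul_le_mul_of_nonneg_left e1 (abs_nonneg _)
  have e6 : |hB| * Ln R (Wᴴ * ((1 : Matrix p p ℂ) ⊗ₖ d)) ≤ |hB| * (s * r) :=
    mul_le_mul_of_nonneg_left e2 (abs_nonneg _)
  calc _ ≤ |hA| * (s * r) + |hB| * (s * r) + sa * r := by linarith
    _ = _ := by ring

end edge

/-! ### The three error terms -/

section terms

variable {A : Matrix m m ℂ} {B : Matrix n n ℂ} (W : Matrix (p × q) (m × n) ℂ)
  (a : Matrix m m ℂ) (c : Matrix p p ℂ) (d : Matrix q q ℂ) (hA hB : ℝ)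

/-- the boundary error `Err_A(Y) = Tr_B [(1 ⊗ B) G (Y ⊗ 1) W]` -/
noncomputable def Err (B : Matrix n n ℂ) (Y : Matrix p p ℂ) : Matrix m m ℂ :=
  Ex B (G W a c d hA hB * (Y ⊗ₖ (1 : Matrix q q ℂ)) * W)

/-- **(e2)** `Ln A (Err K) ≤ κ Ln (A ⊗ B) G` for `K Kᴴ ≤ κ²`. -/
theorem Ln_Err_le (hAp : A.PosSemidef) (hBp : B.PosSemidef) (htB : trace B = 1)
    (hW : Wᴴ * W = 1) {K : Matrix p p ℂ} {κ : ℝ} (hκ : 0 ≤ κ)
    (hK : (((κ ^ 2 : ℝ) : ℂ) • (1 : Matrix p p ℂ) - K * Kᴴ).PosSemidef) :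
    Ln A (Err W a c d hA hB B K) ≤ κ * Ln (A ⊗ₖ B) (G W a c d hA hB) := by
  have hAB : (A ⊗ₖ B).PosSemidef := hAp.kronecker hBp
  have h1 : Ln A (Err W a c d hA hB B K) ≤
      Ln (A ⊗ₖ B) (G W a c d hA hB * (K ⊗ₖ (1 : Matrix q q ℂ)) * W) :=
    Real.sqrt_le_sqrt (E_contr hAp hBp htB _)
  exact h1.trans ((Ln_mul_iso_le hAB _ W hW).trans (Ln_mul_le hAB _ _ hκ (kron_psd hK)))

/-- `Tr A Err(Y) = Tr (A ⊗ B) G (Y ⊗ 1) W` -/
theorem trace_A_Err (A : Matrix m m ℂ) (B : Matrix n n ℂ) (Y : Matrix p p ℂ) :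
    trace (A * Err W a c d hA hB B Y) =
      trace ((A ⊗ₖ B) * (G W a c d hA hB * ((Y ⊗ₖ (1 : Matrix q q ℂ)) * W))) := by
  have h := trace_Ex A 1 B (G W a c d hA hB * (Y ⊗ₖ (1 : Matrix q q ℂ)) * W)
  rw [Matrix.mul_one, Matrix.one_kronecker_one, Matrix.mul_one] at h
  rw [Err, h, Matrix.mul_assoc (G W a c d hA hB)]

/-- **(e4), abstract form**: `|Tr A Err(Yᴴ)| ≤ Ln ρ G · √(Tr C Y Yᴴ)`, with
`Tr C M = Tr ρ Wᴴ (M ⊗ 1) W`. -/
theorem norm_trace_A_Err_le (hAp : A.PosSemidef) (hBp : B.PosSemidef) {C : Matrix p p ℂ}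
    (hC : ∀ M : Matrix p p ℂ, trace (C * M) =
      trace ((A ⊗ₖ B) * (Wᴴ * (M ⊗ₖ (1 : Matrix q q ℂ)) * W))) (Y : Matrix p p ℂ) :
    ‖trace (A * Err W a c d hA hB B Yᴴ)‖ ≤ Ln (A ⊗ₖ B) (G W a c d hA hB) * Ln C Y := by
  have hAB : (A ⊗ₖ B).PosSemidef := hAp.kronecker hBp
  have h1 := Ln_cs hAB (G W a c d hA hB) (Wᴴ * (Y ⊗ₖ (1 : Matrix q q ℂ)))
  have h2 : (Wᴴ * (Y ⊗ₖ (1 : Matrix q q ℂ)))ᴴ = (Yᴴ ⊗ₖ (1 : Matrix q q ℂ)) * W := by
    rw [conjTranspose_mul, conjTranspose_conjTranspose, Matrix.conjTranspose_kronecker,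
      Matrix.conjTranspose_one]
  have h3 : Ln (A ⊗ₖ B) (Wᴴ * (Y ⊗ₖ (1 : Matrix q q ℂ))) = Ln C Y := by
    rw [Ln, Ln, Lf, Lf, hC, h2]
    congr 4
    have : (Y * Yᴴ) ⊗ₖ (1 : Matrix q q ℂ) = (Y ⊗ₖ (1 : Matrix q q ℂ)) * (Yᴴ ⊗ₖ (1 : Matrix q q ℂ)) := by
      rw [← Matrix.mul_kronecker_mul, Matrix.mul_one]
    rw [this]
    simp only [Matrix.mul_assoc]
  rw [trace_A_Err, ← h2, ← h3]
  exact h1

/-- **(e3)** third error term. `w = (N+1) a A - N A a - ⟨a⟩ A`. -/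
theorem norm_trace_Err_w_le (hAp : A.PosSemidef) (htA : trace A = 1) {Q E : Matrix m m ℂ}
    (hQH : Qᴴ = Q) (hQa : Q * a = 0) (hQE : Q * E = E) {N : ℝ} (hN : 0 ≤ N) :
    ‖trace (Eᴴ * (((N + 1 : ℝ) : ℂ) • (a * A) - ((N : ℝ) : ℂ) • (A * a) - (trace (A * a)) • A))‖ ≤
      (N + 1) * (Ln A a * Ln A E) := by
  have h0 : Eᴴ * a = 0 := by
    rw [← hQE, conjTranspose_mul, hQH, Matrix.mul_assoc, hQa, Matrix.mul_zero]
  have h1 : trace (Eᴴ * (((N + 1 : ℝ) : ℂ) • (a * A) - ((N : ℝ) : ℂ) • (A * a)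
      - (trace (A * a)) • A)) = -(((N : ℝ) : ℂ) * trace (A * (a * Eᴴ)))
        - trace (A * a) * trace (A * (1 * Eᴴ)) := by
    rw [Matrix.mul_sub, Matrix.mul_sub, Matrix.mul_smul, Matrix.mul_smul, Matrix.mul_smul,
      ← Matrix.mul_assoc Eᴴ a, h0, Matrix.zero_mul, smul_zero, zero_sub, trace_sub, trace_neg,
      trace_smul, trace_smul, smul_eq_mul, smul_eq_mul, Matrix.one_mul,
      Matrix.trace_mul_comm Eᴴ A, Matrix.trace_mul_comm Eᴴ (A * a), Matrix.mul_assoc A a]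
  have h2 : ‖trace (A * (a * Eᴴ))‖ ≤ Ln A a * Ln A E := Ln_cs hAp a E
  have h3 : ‖trace (A * (1 * Eᴴ))‖ ≤ Ln A E := by
    have := Ln_cs hAp 1 E
    rw [Ln_one htA] at this
    simpa using this
  have h4 : ‖trace (A * a)‖ ≤ Ln A a := by
    have := Ln_cs hAp a 1
    rwa [Ln_one htA, mul_one, conjTranspose_one, Matrix.mul_one] at this
  rw [h1]
  refine (norm_sub_le _ _).trans ?_
  rw [norm_neg, norm_mul, norm_mul, Complex.norm_real, Real.norm_eq_abs, abs_of_nonneg hN]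
  have h5 : N * ‖trace (A * (a * Eᴴ))‖ ≤ N * (Ln A a * Ln A E) := mul_le_mul_of_nonneg_left h2 hN
  have h6 : ‖trace (A * a)‖ * ‖trace (A * (1 * Eᴴ))‖ ≤ Ln A a * Ln A E :=
    mul_le_mul h4 h3 (norm_nonneg _) (Ln_nonneg _ _)
  linarith

/-- the norm of `G_Q = K c - c K + b c` in the state `Q` -/
theorem Ln_GQ_le {Q K : Matrix p p ℂ} (hQ : Q.PosSemidef) {κ b : ℝ} (hκ : 0 ≤ κ) (hb : 0 ≤ b)
    (hK1 : (((κ ^ 2 : ℝ) : ℂ) • (1 : Matrix p p ℂ) - K * Kᴴ).PosSemidef)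
    (hK2 : (((κ ^ 2 : ℝ) : ℂ) • Q - Kᴴ * Q * K).PosSemidef) (c : Matrix p p ℂ) :
    Ln Q (K * c - c * K + (b : ℂ) • c) ≤ (2 * κ + b) * Ln Q c := by
  have h1 := Ln_add hQ (K * c - c * K) ((b : ℂ) • c)
  have h2 := Ln_sub hQ (K * c) (c * K)
  have h3 := Ln_left hQ c hκ hK2
  have h4 := Ln_mul_le hQ c K hκ hK1
  rw [Ln_smul, Complex.norm_real, Real.norm_eq_abs, abs_of_nonneg hb] at h1
  linarith

/-- `Ln 1` of a multiple of the identity -/
theorem Ln_one_smul_one (z : ℂ) :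
    Ln (1 : Matrix p p ℂ) (z • (1 : Matrix p p ℂ)) = ‖z‖ * √(Fintype.card p) := by
  rw [Ln_smul, Ln, Lf, conjTranspose_one, Matrix.mul_one, Matrix.mul_one, Matrix.trace_one]
  simp

/-- **(e5)** first error term: `|⟨G_Q^c, c - m⟩| ≤ (2κ+b) (‖c‖_F + |m| √D)²`. -/
theorem norm_first_le {K : Matrix p p ℂ} {κ b : ℝ} (hκ : 0 ≤ κ) (hb : 0 ≤ b) (hKH : Kᴴ = K)
    (hK1 : (((κ ^ 2 : ℝ) : ℂ) • (1 : Matrix p p ℂ) - K * Kᴴ).PosSemidef)
    (c : Matrix p p ℂ) (m : ℂ) :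
    ‖trace ((K * c - c * K + (b : ℂ) • c - ((b : ℂ) * m) • (1 : Matrix p p ℂ))ᴴ *
        (c - m • (1 : Matrix p p ℂ)))‖ ≤
      (2 * κ + b) * (Ln 1 c + ‖m‖ * √(Fintype.card p)) ^ 2 := by
  have h1p : (1 : Matrix p p ℂ).PosSemidef := Matrix.PosSemidef.one
  have hK2 : (((κ ^ 2 : ℝ) : ℂ) • (1 : Matrix p p ℂ) - Kᴴ * 1 * K).PosSemidef := by
    rw [Matrix.mul_one]
    rw [hKH] at hK1 ⊢
    exact hK1
  set G := K * c - c * K + (b : ℂ) • c with hG
  have hGQ : Ln 1 G ≤ (2 * κ + b) * Ln 1 c := Ln_GQ_le h1p hκ hb hK1 hK2 c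
  have e1 := Ln_sub h1p G (((b : ℂ) * m) • (1 : Matrix p p ℂ))
  have e2 := Ln_sub h1p c (m • (1 : Matrix p p ℂ))
  rw [Ln_one_smul_one] at e1 e2
  rw [norm_mul, Complex.norm_real, Real.norm_eq_abs, abs_of_nonneg hb] at e1
  have e3 := Ln_cs h1p (c - m • (1 : Matrix p p ℂ)) (G - ((b : ℂ) * m) • (1 : Matrix p p ℂ))
  rw [Matrix.one_mul, Matrix.trace_mul_comm] at e3
  refine e3.trans ?_
  set F := Ln (1 : Matrix p p ℂ) c
  set v := ‖m‖ * √(Fintype.card p) with hv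
  have hF : 0 ≤ F := Ln_nonneg _ _
  have hv0 : 0 ≤ v := mul_nonneg (norm_nonneg _) (Real.sqrt_nonneg _)
  have e4 : Ln 1 (G - ((b : ℂ) * m) • (1 : Matrix p p ℂ)) ≤ (2 * κ + b) * (F + v) := by
    have : b * ‖m‖ * √(Fintype.card p) = b * v := by rw [hv]; ring
    rw [this] at e1
    nlinarith
  calc _ ≤ (F + v) * ((2 * κ + b) * (F + v)) :=
        mul_le_mul e2 e4 (Ln_nonneg _ _) (add_nonneg hF hv0)
    _ = _ := by ring

end terms

/-! ### Diagonal representation of `Q` and `K_Q` -/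

/-- hypotheses `hK1`, `hK2` from a common unitary diagonalisation. -/
theorem diag_bounds {U : Matrix p p ℂ} (hU : Uᴴ * U = 1) {r k : p → ℝ} {κ : ℝ}
    (hr : ∀ i, 0 ≤ r i) (hk : ∀ i, |k i| ≤ κ) :
    (((κ ^ 2 : ℝ) : ℂ) • (1 : Matrix p p ℂ) -
      (U * diagonal (fun i => (k i : ℂ)) * Uᴴ) * (U * diagonal (fun i => (k i : ℂ)) * Uᴴ)ᴴ).PosSemidef
    ∧ (((κ ^ 2 : ℝ) : ℂ) • (U * diagonal (fun i => (r i : ℂ)) * Uᴴ) -
      (U * diagonal (fun i => (k i : ℂ)) * Uᴴ)ᴴ * (U * diagonal (fun i => (r i : ℂ)) * Uᴴ) *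
        (U * diagonal (fun i => (k i : ℂ)) * Uᴴ)).PosSemidef := by
  have hU' : U * Uᴴ = 1 := mul_eq_one_comm.mp hU
  have hd : (diagonal (fun i => (k i : ℂ)))ᴴ = diagonal (fun i => (k i : ℂ)) := by
    rw [diagonal_conjTranspose]
    congr 1
    ext i
    simp
  have hkH : (U * diagonal (fun i => (k i : ℂ)) * Uᴴ)ᴴ = U * diagonal (fun i => (k i : ℂ)) * Uᴴ := by
    rw [conjTranspose_mul, conjTranspose_mul, conjTranspose_conjTranspose, hd, Matrix.mul_assoc]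
  have hk2 : ∀ i, k i ^ 2 ≤ κ ^ 2 := fun i => by
    rw [← sq_abs (k i)]
    exact pow_le_pow_left₀ (abs_nonneg _) (hk i) 2
  constructor
  · have : (((κ ^ 2 : ℝ) : ℂ) • (1 : Matrix p p ℂ) -
      (U * diagonal (fun i => (k i : ℂ)) * Uᴴ) * (U * diagonal (fun i => (k i : ℂ)) * Uᴴ)ᴴ) =
      U * diagonal (fun i => ((κ ^ 2 - k i ^ 2 : ℝ) : ℂ)) * Uᴴ := by
      rw [hkH]
      have e1 : (U * diagonal (fun i => (k i : ℂ)) * Uᴴ) * (U * diagonal (fun i => (k i : ℂ)) * Uᴴ) =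
          U * diagonal (fun i => ((k i ^ 2 : ℝ) : ℂ)) * Uᴴ := by
        have : (U * diagonal (fun i => (k i : ℂ)) * Uᴴ) * (U * diagonal (fun i => (k i : ℂ)) * Uᴴ)
            = U * (diagonal (fun i => (k i : ℂ)) * (Uᴴ * U) * diagonal (fun i => (k i : ℂ))) * Uᴴ := by
          simp only [Matrix.mul_assoc]
        rw [this, hU, Matrix.mul_one, diagonal_mul_diagonal]
        congr 3
        ext i
        push_cast
        ring
      have e2 : ((κ ^ 2 : ℝ) : ℂ) • (1 : Matrix p p ℂ) =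
          U * diagonal (fun _ => ((κ ^ 2 : ℝ) : ℂ)) * Uᴴ := by
        have : diagonal (fun _ : p => ((κ ^ 2 : ℝ) : ℂ)) = ((κ ^ 2 : ℝ) : ℂ) • (1 : Matrix p p ℂ) := by
          rw [smul_one_eq_diagonal]
        rw [this, Matrix.mul_smul, Matrix.smul_mul, Matrix.mul_one, hU']
      rw [e1, e2, ← Matrix.sub_mul, ← Matrix.mul_sub]
      congr 2
      rw [diagonal_sub]
      congr 1
      ext i
      push_cast
      ring
    rw [this]
    refine Matrix.PosSemidef.mul_mul_conjTranspose_same ?_ U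
    rw [Matrix.posSemidef_diagonal_iff]
    intro i
    rw [Complex.zero_le_real]
    linarith [hk2 i]
  · have : (((κ ^ 2 : ℝ) : ℂ) • (U * diagonal (fun i => (r i : ℂ)) * Uᴴ) -
      (U * diagonal (fun i => (k i : ℂ)) * Uᴴ)ᴴ * (U * diagonal (fun i => (r i : ℂ)) * Uᴴ) *
        (U * diagonal (fun i => (k i : ℂ)) * Uᴴ)) =
      U * diagonal (fun i => ((r i * (κ ^ 2 - k i ^ 2) : ℝ) : ℂ)) * Uᴴ := by
      rw [hkH]
      have e1 : (U * diagonal (fun i => (k i : ℂ)) * Uᴴ) * (U * diagonal (fun i => (r i : ℂ)) * Uᴴ) *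
          (U * diagonal (fun i => (k i : ℂ)) * Uᴴ) =
          U * diagonal (fun i => ((r i * k i ^ 2 : ℝ) : ℂ)) * Uᴴ := by
        have : (U * diagonal (fun i => (k i : ℂ)) * Uᴴ) * (U * diagonal (fun i => (r i : ℂ)) * Uᴴ) *
          (U * diagonal (fun i => (k i : ℂ)) * Uᴴ)
            = U * (diagonal (fun i => (k i : ℂ)) * (Uᴴ * U) * diagonal (fun i => (r i : ℂ)) *
              (Uᴴ * U) * diagonal (fun i => (k i : ℂ))) * Uᴴ := by
          simp only [Matrix.mul_assoc]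
        rw [this, hU, Matrix.mul_one, Matrix.mul_one, diagonal_mul_diagonal, diagonal_mul_diagonal]
        congr 3
        ext i
        push_cast
        ring
      have e2 : ((κ ^ 2 : ℝ) : ℂ) • (U * diagonal (fun i => (r i : ℂ)) * Uᴴ) =
          U * diagonal (fun i => ((κ ^ 2 * r i : ℝ) : ℂ)) * Uᴴ := by
        rw [← Matrix.smul_mul, ← Matrix.mul_smul]
        congr 2
        ext i j
        simp only [Matrix.smul_apply, diagonal_apply, smul_eq_mul]
        split_ifs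
        · push_cast; ring
        · simp
      rw [e1, e2, ← Matrix.sub_mul, ← Matrix.mul_sub]
      congr 2
      rw [diagonal_sub]
      congr 1
      ext i
      push_cast
      ring
    rw [this]
    refine Matrix.PosSemidef.mul_mul_conjTranspose_same ?_ U
    rw [Matrix.posSemidef_diagonal_iff]
    intro i
    rw [Complex.zero_le_real]
    exact mul_nonneg (hr i) (by linarith [hk2 i])

end Crest.Agent.R331.FErr8
end

-- ▼ part R331/FErrB_8
section

/-!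
Row 331 (EPnI), finite-matrix track: leaf FERR (helper8), literal form for `FDefs136.gapErr`.
-/

set_option autoImplicit false
set_option linter.unusedSectionVars false
set_option linter.unusedSimpArgs false

namespace Crest.Agent.R331.FErr8

open Matrix FDefs136 Crest.Quantum
open scoped ComplexOrder Kronecker

noncomputable section

variable {n K : ℕ}

/-! ### The truncated ladder matrices -/

theorem succIn_unique {j : Fin n} {k k' l : Bx n K} (h : succIn j k l) (h' : succIn j k' l) :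
    k = k' := by
  funext i
  have h1 := h i
  have h2 := h' i
  apply Fin.ext
  omega

theorem succIn_unique' {j : Fin n} {k l l' : Bx n K} (h : succIn j k l) (h' : succIn j k l') :
    l = l' := by
  funext i
  have h1 := h i
  have h2 := h' i
  apply Fin.ext
  omega

theorem ann_mul_annH (j : Fin n) :
    ann n K j * (ann n K j)ᴴ =
      diagonal (fun k : Bx n K => if (k j : ℕ) + 1 ≤ K then (((k j : ℕ) + 1 : ℝ) : ℂ) else 0) := by
  ext k k'
  rw [Matrix.mul_apply]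
  simp only [conjTranspose_apply, ann, Matrix.of_apply]
  by_cases hk : k = k'
  · subst hk
    rw [diagonal_apply_eq]
    split_ifs with h
    · -- the unique successor
      set l0 : Bx n K := Function.update k j ⟨(k j : ℕ) + 1, by omega⟩ with hl0
      have hl : succIn j k l0 := by
        intro i
        by_cases hi : i = j
        · subst hi; simp [hl0]
        · simp [hl0, hi]
      rw [Finset.sum_eq_single l0]
      · rw [if_pos hl]
        have : ((l0 j : ℕ) : ℝ) = (k j : ℕ) + 1 := by simp [hl0]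
        rw [RCLike.star_def, Complex.conj_ofReal, ← Complex.ofReal_mul, this,
          Real.mul_self_sqrt (by positivity)]
      · intro l _ hne
        rw [if_neg (fun h' => hne (succIn_unique' h' hl))]
        simp
      · intro h'; exact absurd (Finset.mem_univ _) h'
    · refine Finset.sum_eq_zero fun l _ => ?_
      rw [if_neg (fun h' => ?_)]
      · simp
      · have h1 := h' j
        rw [if_pos rfl] at h1
        have := (l j).is_lt
        omega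
  · rw [diagonal_apply_ne _ hk]
    refine Finset.sum_eq_zero fun l _ => ?_
    by_cases h1 : succIn j k l
    · by_cases h2 : succIn j k' l
      · exact absurd (succIn_unique h1 h2) hk
      · rw [if_neg h2]; simp
    · rw [if_neg h1]; simp

theorem annH_mul_ann (j : Fin n) :
    (ann n K j)ᴴ * ann n K j = diagonal (fun k : Bx n K => (((k j : ℕ) : ℝ) : ℂ)) := by
  ext l l'
  rw [Matrix.mul_apply]
  simp only [conjTranspose_apply, ann, Matrix.of_apply]
  by_cases hl : l = l'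
  · subst hl
    rw [diagonal_apply_eq]
    rcases Nat.eq_zero_or_pos (l j : ℕ) with h0 | hpos
    · rw [h0]
      rw [Finset.sum_eq_zero]
      · simp
      · intro k _
        rw [if_neg (fun h' => ?_)]
        · simp
        · have h1 := h' j
          rw [if_pos rfl] at h1
          omega
    · set k0 : Bx n K := Function.update l j ⟨(l j : ℕ) - 1, by have := (l j).is_lt; omega⟩ with hk0
      have hk : succIn j k0 l := by
        intro i
        by_cases hi : i = j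
        · subst hi; simp [hk0]; omega
        · simp [hk0, hi]
      rw [Finset.sum_eq_single k0]
      · rw [if_pos hk, RCLike.star_def, Complex.conj_ofReal, ← Complex.ofReal_mul,
          Real.mul_self_sqrt (by positivity)]
      · intro k _ hne
        rw [if_neg (fun h' => hne (succIn_unique h' hk))]
        simp
      · intro h'; exact absurd (Finset.mem_univ _) h'
  · rw [diagonal_apply_ne _ hl]
    refine Finset.sum_eq_zero fun k _ => ?_
    by_cases h1 : succIn j k l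
    · by_cases h2 : succIn j k l'
      · exact absurd (succIn_unique' h1 h2) hl
      · rw [if_neg h2]; simp
    · rw [if_neg h1]; simp

theorem ann_bound (j : Fin n) :
    ((((√(K : ℝ)) ^ 2 : ℝ) : ℂ) • (1 : Matrix (Bx n K) (Bx n K) ℂ) -
      ann n K j * (ann n K j)ᴴ).PosSemidef := by
  rw [Real.sq_sqrt (Nat.cast_nonneg K), ann_mul_annH]
  have : (((K : ℝ) : ℂ) • (1 : Matrix (Bx n K) (Bx n K) ℂ)) = diagonal (fun _ => ((K : ℝ) : ℂ)) := by
    rw [smul_one_eq_diagonal]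
  rw [this, diagonal_sub, Matrix.posSemidef_diagonal_iff]
  intro k
  split_ifs with h
  · rw [← Complex.ofReal_sub, Complex.zero_le_real, sub_nonneg]
    exact_mod_cast h
  · rw [sub_zero, Complex.zero_le_real]
    positivity

theorem trace_mul_diag {ι : Type*} [Fintype ι] [DecidableEq ι] (A : Matrix ι ι ℂ) (d : ι → ℝ) :
    (trace (A * diagonal (fun k => (d k : ℂ)))).re = ∑ k, d k * (A k k).re := by
  rw [Matrix.trace, Complex.re_sum]
  refine Finset.sum_congr rfl fun k _ => ?_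
  rw [Matrix.diag_apply, mul_diagonal, mul_comm, Complex.re_ofReal_mul]

theorem diag_nonneg' {ι : Type*} [Fintype ι] {A : Matrix ι ι ℂ} (hA : A.PosSemidef) (k : ι) :
    0 ≤ (A k k).re := (Complex.le_def.1 (hA.diag_nonneg (i := k))).1

theorem sum_diag_re {ι : Type*} [Fintype ι] {A : Matrix ι ι ℂ} (hA : trace A = 1) :
    ∑ k, (A k k).re = 1 := by
  have : (trace A).re = 1 := by rw [hA]; simp
  rwa [Matrix.trace, Complex.re_sum] at this

theorem En_eq (A : Matrix (Bx n K) (Bx n K) ℂ) :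
    En A = ∑ k, (∑ i, ((k i : ℕ) : ℝ)) * (A k k).re := by
  rw [En, num, ← trace_mul_diag]
  congr 4
  ext k
  push_cast
  rfl

theorem Lf_annH_le {A : Matrix (Bx n K) (Bx n K) ℂ} (hA : A.PosSemidef) (j : Fin n) :
    Lf A (ann n K j)ᴴ ≤ En A := by
  rw [Lf, conjTranspose_conjTranspose, annH_mul_ann, trace_mul_diag, En_eq]
  refine Finset.sum_le_sum fun k _ => mul_le_mul_of_nonneg_right ?_ (diag_nonneg' hA k)
  exact Finset.single_le_sum (f := fun i => ((k i : ℕ) : ℝ)) (fun i _ => Nat.cast_nonneg _)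
    (Finset.mem_univ j)

theorem Lf_ann_le' {A : Matrix (Bx n K) (Bx n K) ℂ} (hA : A.PosSemidef) (htA : trace A = 1)
    (j : Fin n) : Lf A (ann n K j) ≤ Lf A (ann n K j)ᴴ + 1 := by
  have h1 : Lf A (ann n K j) = ∑ k : Bx n K, (if (k j : ℕ) + 1 ≤ K then ((k j : ℕ) + 1 : ℝ) else 0)
      * (A k k).re := by
    rw [Lf, ann_mul_annH, ← trace_mul_diag]
    congr 4
    ext k
    split_ifs <;> simp
  have h4 : Lf A (ann n K j)ᴴ = ∑ k : Bx n K, ((k j : ℕ) : ℝ) * (A k k).re := by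
    rw [Lf, conjTranspose_conjTranspose, annH_mul_ann, trace_mul_diag]
  have h3 := sum_diag_re htA
  have h5 : Lf A (ann n K j)ᴴ + 1 = ∑ k : Bx n K, (((k j : ℕ) : ℝ) + 1) * (A k k).re := by
    simp only [add_mul, one_mul, Finset.sum_add_distrib]
    rw [h4, h3]
  rw [h1, h5]
  refine Finset.sum_le_sum fun k _ => ?_
  have h2 := diag_nonneg' hA k
  split_ifs
  · exact le_rfl
  · rw [zero_mul]
    positivity

theorem Lf_ann_le {A : Matrix (Bx n K) (Bx n K) ℂ} (hA : A.PosSemidef) (htA : trace A = 1)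
    (j : Fin n) : Lf A (ann n K j) ≤ En A + 1 := by
  linarith [Lf_ann_le' hA htA j, Lf_annH_le hA j]

theorem En_nonneg {A : Matrix (Bx n K) (Bx n K) ℂ} (hA : A.PosSemidef) : 0 ≤ En A := by
  rw [En_eq]
  exact Finset.sum_nonneg fun k _ => mul_nonneg (Finset.sum_nonneg fun i _ => Nat.cast_nonneg _)
    (diag_nonneg' hA k)

/-- Frobenius norm of the ladder matrix -/
theorem Lf_one_ann_le (j : Fin n) :
    Lf (1 : Matrix (Bx n K) (Bx n K) ℂ) (ann n K j) ≤ K * (K + 1) ^ n := by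
  have h1 : Lf (1 : Matrix (Bx n K) (Bx n K) ℂ) (ann n K j) =
      ∑ k : Bx n K, (if (k j : ℕ) + 1 ≤ K then ((k j : ℕ) + 1 : ℝ) else 0) := by
    rw [Lf, ann_mul_annH, Matrix.one_mul, Matrix.trace_diagonal, Complex.re_sum]
    refine Finset.sum_congr rfl fun k _ => ?_
    split_ifs <;> simp
  rw [h1]
  have h2 : ∀ k : Bx n K, (if (k j : ℕ) + 1 ≤ K then ((k j : ℕ) + 1 : ℝ) else 0) ≤ (K : ℝ) := by
    intro k
    split_ifs with h
    · exact_mod_cast h
    · positivity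
  refine (Finset.sum_le_sum fun k _ => h2 k).trans ?_
  rw [Finset.sum_const, Finset.card_univ, nsmul_eq_mul]
  have : Fintype.card (Bx n K) = (K + 1) ^ n := by simp [Bx]
  rw [this]
  push_cast
  linarith

/-! ### Spectral facts about `Q = C + ε` -/

section spec

variable {γ : Type*} [Fintype γ] [DecidableEq γ]

theorem eig_lower {C : Matrix γ γ ℂ} (hC : C.PosSemidef) {ε : ℝ}
    (hQ : (C + (ε : ℂ) • (1 : Matrix γ γ ℂ)).IsHermitian) (i : γ) : ε ≤ hQ.eigenvalues i := by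
  rw [hQ.eigenvalues_eq i]
  set v : γ → ℂ := ⇑(hQ.eigenvectorBasis i) with hv
  have h1 : star v ⬝ᵥ ((C + (ε : ℂ) • (1 : Matrix γ γ ℂ)) *ᵥ v) =
      star v ⬝ᵥ (C *ᵥ v) + (ε : ℂ) * (star v ⬝ᵥ v) := by
    rw [Matrix.add_mulVec, dotProduct_add, Matrix.smul_mulVec, Matrix.one_mulVec, dotProduct_smul,
      smul_eq_mul]
  have h2 : star v ⬝ᵥ v = 1 := by
    have h3 := hQ.eigenvectorBasis.orthonormal.1 i
    have h4 : (inner ℂ (hQ.eigenvectorBasis i) (hQ.eigenvectorBasis i) : ℂ) = 1 := by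
      rw [inner_self_eq_norm_sq_to_K, h3]; simp
    rw [EuclideanSpace.inner_eq_star_dotProduct] at h4
    rw [dotProduct_comm]
    exact h4
  have h3 : 0 ≤ (star v ⬝ᵥ (C *ᵥ v)).re := (Complex.le_def.1 (hC.dotProduct_mulVec_nonneg v)).1
  rw [h1, h2, mul_one]
  simp only [map_add, RCLike.re_to_complex, Complex.ofReal_re]
  linarith

theorem eig_upper {C : Matrix γ γ ℂ} (hC : C.PosSemidef) (htC : trace C = 1) {ε : ℝ}
    (hQ : (C + (ε : ℂ) • (1 : Matrix γ γ ℂ)).IsHermitian) (i : γ) :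
    hQ.eigenvalues i ≤ 1 + ε := by
  have h1 : (trace (C + (ε : ℂ) • (1 : Matrix γ γ ℂ))) = ∑ i, (hQ.eigenvalues i : ℂ) :=
    hQ.trace_eq_sum_eigenvalues
  have h2 : ∑ i, (hQ.eigenvalues i - ε) = 1 := by
    have h3 := congrArg Complex.re h1
    rw [trace_add, htC, trace_smul, trace_one, Complex.re_sum] at h3
    simp only [Complex.add_re, Complex.one_re, smul_eq_mul, Complex.re_ofReal_mul,
      Complex.natCast_re, Complex.ofReal_re] at h3
    rw [Finset.sum_sub_distrib, ← h3, Finset.sum_const, Finset.card_univ, nsmul_eq_mul]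
    ring
  have h4 : hQ.eigenvalues i - ε ≤ ∑ i, (hQ.eigenvalues i - ε) :=
    Finset.single_le_sum (f := fun i => hQ.eigenvalues i - ε)
      (fun k _ => sub_nonneg.2 (eig_lower hC hQ k)) (Finset.mem_univ i)
  linarith

theorem KL_eq {X : Matrix γ γ ℂ} (h : X.IsHermitian) :
    KL X = (h.eigenvectorUnitary : Matrix γ γ ℂ) *
      diagonal (fun i => ((-Real.log (h.eigenvalues i) : ℝ) : ℂ)) *
      (h.eigenvectorUnitary : Matrix γ γ ℂ)ᴴ := by
  rw [KL, mlog, dif_pos h, ← Matrix.neg_mul, ← Matrix.mul_neg]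
  congr 2
  ext i j
  by_cases hij : i = j
  · subst hij; simp
  · simp [hij]

theorem spec_eq {X : Matrix γ γ ℂ} (h : X.IsHermitian) :
    X = (h.eigenvectorUnitary : Matrix γ γ ℂ) *
      diagonal (fun i => ((h.eigenvalues i : ℝ) : ℂ)) *
      (h.eigenvectorUnitary : Matrix γ γ ℂ)ᴴ := by
  conv_lhs => rw [h.spectral_theorem]
  rfl

theorem KL_herm {X : Matrix γ γ ℂ} (h : X.IsHermitian) : (KL X)ᴴ = KL X := by
  rw [KL_eq h, conjTranspose_mul, conjTranspose_mul, conjTranspose_conjTranspose,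
    diagonal_conjTranspose, Matrix.mul_assoc]
  congr 3
  ext i
  simp

/-- the three facts on `K_Q` -/
theorem KQ_bounds {C : Matrix γ γ ℂ} (hC : C.PosSemidef) (htC : trace C = 1) {ε : ℝ} (hε : 0 < ε)
    (hε2 : ε ≤ 1 / 2) :
    (((Real.log (1 / ε) ^ 2 : ℝ) : ℂ) • (1 : Matrix γ γ ℂ) -
      KL (C + (ε : ℂ) • (1 : Matrix γ γ ℂ)) * (KL (C + (ε : ℂ) • (1 : Matrix γ γ ℂ)))ᴴ).PosSemidef
    ∧ (((Real.log (1 / ε) ^ 2 : ℝ) : ℂ) • (C + (ε : ℂ) • (1 : Matrix γ γ ℂ)) -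
      (KL (C + (ε : ℂ) • (1 : Matrix γ γ ℂ)))ᴴ * (C + (ε : ℂ) • (1 : Matrix γ γ ℂ)) *
        KL (C + (ε : ℂ) • (1 : Matrix γ γ ℂ))).PosSemidef := by
  have hQ : (C + (ε : ℂ) • (1 : Matrix γ γ ℂ)).IsHermitian := by
    rw [IsHermitian, conjTranspose_add, hC.isHermitian.eq, conjTranspose_smul, conjTranspose_one]
    simp
  have hU : (hQ.eigenvectorUnitary : Matrix γ γ ℂ)ᴴ * (hQ.eigenvectorUnitary : Matrix γ γ ℂ) = 1 := by
    rw [← star_eq_conjTranspose]
    exact Unitary.coe_star_mul_self hQ.eigenvectorUnitary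
  have hr : ∀ i, 0 ≤ hQ.eigenvalues i := fun i => hε.le.trans (eig_lower hC hQ i)
  have hk : ∀ i, |-Real.log (hQ.eigenvalues i)| ≤ Real.log (1 / ε) := by
    intro i
    have h1 := eig_lower hC hQ i
    have h2 := eig_upper hC htC hQ i
    have h3 : 0 < hQ.eigenvalues i := hε.trans_le h1
    rw [abs_neg, abs_le]
    constructor
    · rw [one_div, Real.log_inv, neg_neg]
      exact Real.log_le_log hε h1
    · refine Real.log_le_log h3 (h2.trans ?_)
      rw [le_div_iff₀ hε]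
      nlinarith
  have hd := diag_bounds hU hr hk
  rw [← KL_eq hQ, ← spec_eq hQ] at hd
  exact hd

end spec

/-! ### `FCov76.BS` level -/

section bs

variable {α β γ δ : Type*} [Fintype α] [Fintype β] [Fintype γ] [Fintype δ]
  [DecidableEq α] [DecidableEq β] [DecidableEq γ] [DecidableEq δ] (S : FCov76.BS α β γ δ)



/-- the size of the boundary operator in the state -/
theorem BS_Ln_G_le {A : Matrix α α ℂ} {B : Matrix β β ℂ} (hA : A.PosSemidef) (hB : B.PosSemidef)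
    (htB : trace B = 1) {s sa : ℝ} (hs : 0 ≤ s) (hsa : 0 ≤ sa)
    (hc : (((s ^ 2 : ℝ) : ℂ) • (1 : Matrix γ γ ℂ) - S.c * S.cᴴ).PosSemidef)
    (hd : (((s ^ 2 : ℝ) : ℂ) • (1 : Matrix δ δ ℂ) - S.d * S.dᴴ).PosSemidef)
    (ha : (((sa ^ 2 : ℝ) : ℂ) • (1 : Matrix α α ℂ) - S.a * S.aᴴ).PosSemidef) :
    Ln (A ⊗ₖ B) (FEdge633.G S.ι S.a S.c S.d S.hA S.hB) ≤
      ((|S.hA| + |S.hB|) * s + sa) * √(trace (A * S.QA)).re := by
  have h := Ln_G_le S.ι S.a S.QA S.c S.d S.hA S.hB (hA.kronecker hB) S.iso S.QA_herm S.QA_idem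
    S.QA_EA hs hsa hc hd ha
  have e : trace ((A ⊗ₖ B) * (S.QA ⊗ₖ (1 : Matrix β β ℂ))) = trace (A * S.QA) := by
    rw [← Matrix.mul_kronecker_mul, Matrix.trace_kronecker, Matrix.mul_one, htB, mul_one]
  rwa [e] at h

/-- **second error term** -/
theorem BS_second {A : Matrix α α ℂ} {B : Matrix β β ℂ} (hA : A.PosSemidef) (hB : B.PosSemidef)
    (Y : Matrix γ γ ℂ) : ‖trace (A * S.ErrA B Yᴴ)‖ ≤
      Ln (A ⊗ₖ B) (FEdge633.G S.ι S.a S.c S.d S.hA S.hB) * Ln (S.out A B) Y :=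
  norm_trace_A_Err_le S.ι S.a S.c S.d S.hA S.hB hA hB (C := S.out A B)
    (fun M => S.trace_Phi_mul (A ⊗ₖ B) M) Y

/-- **third error term** -/
theorem BS_third {A : Matrix α α ℂ} {B : Matrix β β ℂ} (hA : A.PosSemidef) (hB : B.PosSemidef)
    (htA : trace A = 1) (htB : trace B = 1) {K : Matrix γ γ ℂ} {κ N : ℝ} (hκ : 0 ≤ κ) (hN : 0 ≤ N)
    (hK : (((κ ^ 2 : ℝ) : ℂ) • (1 : Matrix γ γ ℂ) - K * Kᴴ).PosSemidef) :
    ‖trace ((S.ErrA B K)ᴴ * (((N + 1 : ℝ) : ℂ) • (S.a * A) - ((N : ℝ) : ℂ) • (A * S.a)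
      - (trace (A * S.a)) • A))‖ ≤
      (N + 1) * (Ln A S.a * (κ * Ln (A ⊗ₖ B) (FEdge633.G S.ι S.a S.c S.d S.hA S.hB))) := by
  have h1 := norm_trace_Err_w_le S.a hA htA S.QA_herm S.QA_a (S.QA_ErrA B K) hN
  have h2 := Ln_Err_le S.ι S.a S.c S.d S.hA S.hB hA hB htB S.iso hκ hK
  refine h1.trans ?_
  refine mul_le_mul_of_nonneg_left (mul_le_mul_of_nonneg_left ?_ (Ln_nonneg _ _)) (by linarith)
  exact h2

/-- energy of the output mode -/
theorem BS_energy {A : Matrix α α ℂ} {B : Matrix β β ℂ} (hA : A.PosSemidef) (hB : B.PosSemidef)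
    (htA : trace A = 1) (htB : trace B = 1) :
    Lf (S.out A B) S.cᴴ ≤ Lf A S.aᴴ + Lf B S.bᴴ := by
  have hρ : (A ⊗ₖ B).PosSemidef := hA.kronecker hB
  set X : Matrix (α × β) (α × β) ℂ := (S.hA : ℂ) • (S.a ⊗ₖ (1 : Matrix β β ℂ))
    + (S.hB : ℂ) • ((1 : Matrix α α ℂ) ⊗ₖ S.b) with hX
  have e1 : S.heis (S.cᴴ * S.c) = Xᴴ * X := by
    have h1 : (S.cᴴ * S.c) ⊗ₖ (1 : Matrix δ δ ℂ) =
        (S.cᴴ ⊗ₖ (1 : Matrix δ δ ℂ)) * (S.c ⊗ₖ (1 : Matrix δ δ ℂ)) := by
      rw [← Matrix.mul_kronecker_mul, Matrix.mul_one]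
    have h2 : S.ιᴴ * (S.cᴴ ⊗ₖ (1 : Matrix δ δ ℂ)) = (S.ι * X)ᴴ := by
      rw [hX, ← S.H1, conjTranspose_mul, conjTranspose_kronecker, conjTranspose_one]
    rw [FCov76.BS.heis, h1, ← Matrix.mul_assoc, h2, Matrix.mul_assoc, S.H1, ← hX,
      conjTranspose_mul, Matrix.mul_assoc, ← Matrix.mul_assoc S.ιᴴ, S.iso, Matrix.one_mul]
  have e2 : Lf (S.out A B) S.cᴴ = Lf (A ⊗ₖ B) Xᴴ := by
    rw [Lf, Lf, conjTranspose_conjTranspose, conjTranspose_conjTranspose, ← e1]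
    exact congrArg Complex.re (S.trace_Phi_mul (A ⊗ₖ B) (S.cᴴ * S.c))
  have e3 : Xᴴ = (S.hA : ℂ) • (S.aᴴ ⊗ₖ (1 : Matrix β β ℂ))
    + (S.hB : ℂ) • ((1 : Matrix α α ℂ) ⊗ₖ S.bᴴ) := by
    rw [hX, conjTranspose_add, conjTranspose_smul, conjTranspose_smul, conjTranspose_kronecker,
      conjTranspose_kronecker, conjTranspose_one, conjTranspose_one]
    simp
  have e4 : Ln (A ⊗ₖ B) (S.aᴴ ⊗ₖ (1 : Matrix β β ℂ)) = Ln A S.aᴴ := by
    rw [Ln, Ln, Lf, Lf, conjTranspose_kronecker, conjTranspose_one, conjTranspose_conjTranspose,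
      ← Matrix.mul_kronecker_mul, ← Matrix.mul_kronecker_mul, Matrix.trace_kronecker,
      Matrix.mul_one, Matrix.mul_one, htB, mul_one]
  have e5 : Ln (A ⊗ₖ B) ((1 : Matrix α α ℂ) ⊗ₖ S.bᴴ) = Ln B S.bᴴ := by
    rw [Ln, Ln, Lf, Lf, conjTranspose_kronecker, conjTranspose_one, conjTranspose_conjTranspose,
      ← Matrix.mul_kronecker_mul, ← Matrix.mul_kronecker_mul, Matrix.trace_kronecker,
      Matrix.mul_one, Matrix.mul_one, htA, one_mul]
  have e6 : Ln (A ⊗ₖ B) Xᴴ ≤ |S.hA| * Ln A S.aᴴ + |S.hB| * Ln B S.bᴴ := by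
    rw [e3, ← e4, ← e5]
    refine (Ln_add hρ _ _).trans (le_of_eq ?_)
    rw [Ln_smul, Ln_smul, Complex.norm_real, Complex.norm_real, Real.norm_eq_abs, Real.norm_eq_abs]
  have e7 := Ln_sq hρ Xᴴ
  have e8 := Ln_sq hA S.aᴴ
  have e9 := Ln_sq hB S.bᴴ
  rw [e2, ← e7, ← e8, ← e9]
  have h0 := Ln_nonneg (A ⊗ₖ B) Xᴴ
  have h1 := Ln_nonneg A S.aᴴ
  have h2 := Ln_nonneg B S.bᴴ
  have h3 : |S.hA| ^ 2 + |S.hB| ^ 2 = 1 := by rw [sq_abs, sq_abs]; exact S.hAB
  set x := Ln A S.aᴴ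
  set y := Ln B S.bᴴ
  set u := |S.hA|
  set v := |S.hB|
  calc Ln (A ⊗ₖ B) Xᴴ ^ 2 ≤ (u * x + v * y) ^ 2 := pow_le_pow_left₀ h0 e6 2
    _ ≤ (u ^ 2 + v ^ 2) * (x ^ 2 + y ^ 2) := by nlinarith [sq_nonneg (u * y - v * x)]
    _ = x ^ 2 + y ^ 2 := by rw [h3, one_mul]

end bs

/-! ### The literal bound of `FDefs136.gapErr` -/

section literal

variable {η : ℝ} {j : Fin n} {S : FCov76.BS (Bx n K) (Bx n K) (Bx n (2 * K)) (Bx n (2 * K))}

theorem PA_eq (hS : IsBox (η := η) j S) (B : Matrix (Bx n K) (Bx n K) ℂ)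
    (Y : Matrix (Bx n (2 * K)) (Bx n (2 * K)) ℂ) : PA η B Y = S.PA B Y := by
  rw [PA, heis, FCov76.BS.PA, FCov76.BS.heis, hS.ι]

theorem PB_eq (hS : IsBox (η := η) j S) (A : Matrix (Bx n K) (Bx n K) ℂ)
    (Y : Matrix (Bx n (2 * K)) (Bx n (2 * K)) ℂ) : PB η A Y = S.PB A Y := by
  rw [PB, ← hS.ι]
  rfl

theorem outC_eq (hS : IsBox (η := η) j S) (A B : Matrix (Bx n K) (Bx n K) ℂ) :
    outC η A B = S.out A B := by
  rw [outC, FCov76.BS.out, FCov76.BS.Phi, hS.ι]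

theorem ErrA_eq (hS : IsBox (η := η) j S) (B : Matrix (Bx n K) (Bx n K) ℂ)
    (Y : Matrix (Bx n (2 * K)) (Bx n (2 * K)) ℂ) : ErrA η j B Y = S.ErrA B Y := by
  have h := S.cov_A B Y
  rw [ErrA, PA_eq hS, PA_eq hS, ← hS.hA, ← hS.c, ← hS.a, h]
  abel

theorem ErrB_eq (hS : IsBox (η := η) j S) (A : Matrix (Bx n K) (Bx n K) ℂ)
    (Y : Matrix (Bx n (2 * K)) (Bx n (2 * K)) ℂ) : ErrB η j A Y = S.ErrB A Y := by
  have h := S.cov_B A Y
  rw [ErrB, PB_eq hS, PB_eq hS, ← hS.hB, ← hS.c, ← hS.b, h]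
  abel


theorem bC_pos (p : Par) : 0 < p.bC := by
  have h1 : 0 < p.NC := by
    have h2 : 0 < 1 - p.η := sub_pos.2 p.η_lt
    have h3 := p.NA_pos
    have h4 := p.NB_pos
    have h5 := p.η_pos
    rw [Par.NC]
    positivity
  rw [Par.bC, bN]
  refine Real.log_pos ?_
  have : 0 < 1 / p.NC := by positivity
  linarith

theorem assemble {ε t1 t2A t2B t3A t3B B1 B2A B2B B3A B3B x y NA NB : ℝ} (hε : 0 ≤ ε)
    (hNA : 0 ≤ NA) (hNB : 0 ≤ NB) (hx : 0 ≤ x) (hx1 : x ≤ 1) (hy : 0 ≤ y) (hy1 : y ≤ 1)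
    (h1 : t1 ≤ B1) (h2A : -B2A ≤ t2A) (h2B : -B2B ≤ t2B) (h3A : t3A ≤ B3A) (h3B : t3B ≤ B3B)
    (hA : 0 ≤ B2A) (hB : 0 ≤ B2B) :
    ε * t1 - x * NA * t2A - y * NB * t2B + t3A + t3B ≤
      ε * B1 + NA * B2A + NB * B2B + B3A + B3B := by
  have s1 := mul_le_mul_of_nonneg_left h1 hε
  have s2A : -(x * NA * t2A) ≤ NA * B2A := by
    calc -(x * NA * t2A) = (x * NA) * (-t2A) := by ring
      _ ≤ (x * NA) * B2A := mul_le_mul_of_nonneg_left (by linarith) (mul_nonneg hx hNA)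
      _ ≤ (1 * NA) * B2A :=
          mul_le_mul_of_nonneg_right (mul_le_mul_of_nonneg_right hx1 hNA) hA
      _ = NA * B2A := by ring
  have s2B : -(y * NB * t2B) ≤ NB * B2B := by
    calc -(y * NB * t2B) = (y * NB) * (-t2B) := by ring
      _ ≤ (y * NB) * B2B := mul_le_mul_of_nonneg_left (by linarith) (mul_nonneg hy hNB)
      _ ≤ (1 * NB) * B2B :=
          mul_le_mul_of_nonneg_right (mul_le_mul_of_nonneg_right hy1 hNB) hB
      _ = NB * B2B := by ring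
  linarith


end literal

end

end Crest.Agent.R331.FErr8
end

-- ▼ part R331/FErrD_8
section

/-!
Row 331 (EPnI), finite-matrix track: leaf FERR (helper8), `FDefs136.FERR` by name.
-/

set_option autoImplicit false
set_option linter.unusedSectionVars false
set_option linter.unusedSimpArgs false

namespace Crest.Agent.R331.FErr8

open Matrix FDefs136 Crest.Quantum
open scoped ComplexOrder Kronecker

noncomputable section

variable {n K : ℕ} {η : ℝ} {j : Fin n}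
  {S : FCov76.BS (Bx n K) (Bx n K) (Bx n (2 * K)) (Bx n (2 * K))}

/-- explicit bound of the gap errors, second form -/
def errBd2 (p : Par) (n K : ℕ) (ε EA EB TA TB : ℝ) : ℝ :=
  ε * ((2 * Real.log (1 / ε) + p.bC) *
      (√((2 * K : ℝ) * (2 * K + 1) ^ n) + √(2 * K : ℝ) * √((2 * K + 1) ^ n)) ^ 2)
  + (2 * Real.log (1 / ε) + p.bC) * √(EA + EB + 1 + ε * ((2 * K : ℝ) * (2 * K + 1) ^ n)) *
      (3 * √K) * (p.NA * √TA + p.NB * √TB)
  + Real.log (1 / ε) * (3 * √K) *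
      ((p.NA + 1) * √(EA + 1) * √TA + (p.NB + 1) * √(EB + 1) * √TB)

set_option maxHeartbeats 1000000 in
/-- **FERR.** Explicit bound of the gap errors for arbitrary densities. -/
theorem gapErr_le2 (p : Par) {ε : ℝ} (hε : 0 < ε) (hε2 : ε ≤ 1 / 2) (hS : IsBox (η := p.η) j S)
    {A B : Matrix (Bx n K) (Bx n K) ℂ} (dA : IsDensity A) (dB : IsDensity B) :
    gapErr p ε j A B ≤ errBd2 p n K ε (En A) (En B) (Tp j A) (Tp j B) := by
  obtain ⟨hA, htA⟩ := dA
  obtain ⟨hB, htB⟩ := dB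
  have hC : (S.out A B).PosSemidef := S.out_posSemidef hA hB
  have htC : trace (S.out A B) = 1 := by rw [S.trace_out, htA, htB, one_mul]
  obtain ⟨hK1, hK2⟩ := KQ_bounds hC htC hε hε2
  have hQe : outQ p.η ε A B = S.out A B + (ε : ℂ) • (1 : Matrix _ _ ℂ) := by
    rw [outQ, outC_eq hS]
  set Q := S.out A B + (ε : ℂ) • (1 : Matrix (Bx n (2 * K)) (Bx n (2 * K)) ℂ) with hQ
  have hQH : Q.IsHermitian := by
    rw [hQ, IsHermitian, conjTranspose_add, hC.isHermitian.eq, conjTranspose_smul,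
      conjTranspose_one]
    simp
  have hQC : (Q - S.out A B).PosSemidef := by
    rw [hQ, add_sub_cancel_left]
    exact Matrix.PosSemidef.one.smul (by rw [Complex.zero_le_real]; exact hε.le)
  have hQp : Q.PosSemidef := by
    have := hQC.add hC
    rwa [sub_add_cancel] at this
  have hKH : (KL Q)ᴴ = KL Q := KL_herm hQH
  set κ := Real.log (1 / ε) with hκd
  have hκ : 0 ≤ κ := Real.log_nonneg (by rw [le_div_iff₀ hε]; linarith)
  have hb : 0 < p.bC := bC_pos p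
  set b := p.bC with hbd
  -- names
  have hSc : S.c = ann n (2 * K) j := hS.c
  have hSa : S.a = ann n K j := hS.a
  have hSb : S.b = ann n K j := hS.b
  have hSd : S.d = ann n (2 * K) j := hS.d
  have hcast : ((2 * K : ℕ) : ℝ) = 2 * (K : ℝ) := by push_cast; ring
  -- bounds of the ladder matrices
  have bc : (((√(2 * K : ℝ) ^ 2 : ℝ) : ℂ) • (1 : Matrix (Bx n (2 * K)) (Bx n (2 * K)) ℂ)
      - S.c * S.cᴴ).PosSemidef := by
    have := ann_bound (n := n) (K := 2 * K) j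
    rwa [hcast, ← hSc] at this
  have bd : (((√(2 * K : ℝ) ^ 2 : ℝ) : ℂ) • (1 : Matrix (Bx n (2 * K)) (Bx n (2 * K)) ℂ)
      - S.d * S.dᴴ).PosSemidef := by
    have := ann_bound (n := n) (K := 2 * K) j
    rwa [hcast, ← hSd] at this
  have ba : (((√(K : ℝ) ^ 2 : ℝ) : ℂ) • (1 : Matrix (Bx n K) (Bx n K) ℂ)
      - S.a * S.aᴴ).PosSemidef := by
    rw [hSa]; exact ann_bound j
  have bb : (((√(K : ℝ) ^ 2 : ℝ) : ℂ) • (1 : Matrix (Bx n K) (Bx n K) ℂ)
      - S.b * S.bᴴ).PosSemidef := by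
    rw [hSb]; exact ann_bound j
  have hη0 : 0 < 1 - p.η := sub_pos.2 p.η_lt
  have hhA : 0 ≤ S.hA := by rw [hS.hA]; exact Real.sqrt_nonneg _
  have hhB : 0 ≤ S.hB := by rw [hS.hB]; exact Real.sqrt_nonneg _
  have hAB : S.hA ^ 2 + S.hB ^ 2 = 1 := S.hAB
  have hhA1 : S.hA ≤ 1 := by nlinarith
  have hhB1 : S.hB ≤ 1 := by nlinarith
  -- g ≤ 3 √K
  have hsum : S.hA + S.hB ≤ √2 := by
    refine Real.le_sqrt_of_sq_le ?_
    nlinarith [sq_nonneg (S.hA - S.hB)]
  have hg : (|S.hA| + |S.hB|) * √(2 * K : ℝ) + √(K : ℝ) ≤ 3 * √(K : ℝ) := by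
    rw [abs_of_nonneg hhA, abs_of_nonneg hhB, Real.sqrt_mul (by norm_num) (K : ℝ)]
    have h2 : √2 * √2 = (2 : ℝ) := Real.mul_self_sqrt (by norm_num)
    have h3 : 0 ≤ √2 * √(K : ℝ) := by positivity
    calc (S.hA + S.hB) * (√2 * √(K : ℝ)) + √(K : ℝ) ≤ √2 * (√2 * √(K : ℝ)) + √(K : ℝ) := by
          gcongr
      _ = (√2 * √2) * √(K : ℝ) + √(K : ℝ) := by ring
      _ = 3 * √(K : ℝ) := by rw [h2]; ring
  -- size of G on both sides
  set LA := Ln (A ⊗ₖ B) (FEdge633.G S.ι S.a S.c S.d S.hA S.hB) with hLA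
  set LB := Ln (B ⊗ₖ A) (FEdge633.G S.swap.ι S.swap.a S.swap.c S.swap.d S.swap.hA S.swap.hB) with hLB
  have hLA0 : 0 ≤ LA := Ln_nonneg _ _
  have hLB0 : 0 ≤ LB := Ln_nonneg _ _
  have gA : LA ≤ 3 * √(K : ℝ) * √(Tp j A) := by
    refine (BS_Ln_G_le S hA hB htB (Real.sqrt_nonneg _) (Real.sqrt_nonneg _) bc bd ba).trans ?_
    rw [hS.QA]
    exact mul_le_mul_of_nonneg_right hg (Real.sqrt_nonneg _)
  have gB : LB ≤ 3 * √(K : ℝ) * √(Tp j B) := by
    have bd' : (((√(2 * K : ℝ) ^ 2 : ℝ) : ℂ) • (1 : Matrix (Bx n (2 * K)) (Bx n (2 * K)) ℂ)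
      - S.swap.d * S.swap.dᴴ).PosSemidef := by
      have e : S.swap.d * S.swap.dᴴ = S.d * S.dᴴ := by
        show (-S.d) * (-S.d)ᴴ = _
        rw [conjTranspose_neg, neg_mul_neg]
      rw [e]; exact bd
    refine (BS_Ln_G_le S.swap hB hA htA (Real.sqrt_nonneg _) (Real.sqrt_nonneg _) bc bd' bb).trans ?_
    have e : S.swap.QA = top n K j := hS.QB
    rw [e]
    have e2 : |S.swap.hA| + |S.swap.hB| = |S.hA| + |S.hB| := add_comm _ _
    rw [e2]
    exact mul_le_mul_of_nonneg_right hg (Real.sqrt_nonneg _)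
  -- energies
  have hEA := En_nonneg hA
  have hEB := En_nonneg hB
  have eCH : Lf (S.out A B) S.cᴴ ≤ En A + En B := by
    have h1 := BS_energy S hA hB htA htB
    have h2 := Lf_annH_le hA j
    have h3 := Lf_annH_le hB j
    rw [hSa, hSb] at h1
    linarith
  have eC : Lf (S.out A B) S.c ≤ En A + En B + 1 := by
    have h1 := Lf_ann_le' hC htC j
    rw [← hSc] at h1
    linarith
  set F2 : ℝ := (2 * K : ℝ) * (2 * K + 1) ^ n with hF2
  have hF20 : 0 ≤ F2 := by positivity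
  have eF : Lf (1 : Matrix (Bx n (2 * K)) (Bx n (2 * K)) ℂ) S.c ≤ F2 := by
    have h1 := Lf_one_ann_le (n := n) (K := 2 * K) j
    rw [hcast, ← hSc] at h1
    exact h1
  have eQ : Lf Q S.c ≤ En A + En B + 1 + ε * F2 := by
    have h1 : Lf Q S.c = Lf (S.out A B) S.c + ε * Lf (1 : Matrix _ _ ℂ) S.c := by
      rw [hQ, Lf, Lf, Lf, Matrix.add_mul, trace_add, Complex.add_re, Matrix.smul_mul, trace_smul,
        smul_eq_mul, Complex.re_ofReal_mul]
    rw [h1]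
    have := mul_le_mul_of_nonneg_left eF hε.le
    linarith
  have lQ : Ln Q S.c ≤ √(En A + En B + 1 + ε * F2) := Real.sqrt_le_sqrt eQ
  have lF : Ln (1 : Matrix (Bx n (2 * K)) (Bx n (2 * K)) ℂ) S.c ≤ √F2 := Real.sqrt_le_sqrt eF
  -- G_Q
  have lG : Ln (S.out A B) (KL Q * S.c - S.c * KL Q + (b : ℂ) • S.c) ≤
      (2 * κ + b) * √(En A + En B + 1 + ε * F2) := by
    refine (Ln_mono hQC _).trans ((Ln_GQ_le hQp hκ hb.le hK1 hK2 S.c).trans ?_)
    exact mul_le_mul_of_nonneg_left lQ (by positivity)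
  -- mean
  have hm : ‖mC p.η j A B‖ ≤ √(2 * K : ℝ) := by
    have h1 := Ln_cs hC S.c 1
    rw [Ln_one htC, mul_one, conjTranspose_one, Matrix.mul_one] at h1
    rw [mC, outC_eq hS, ← hSc]
    have h2 := Ln_mul_le hC (1 : Matrix _ _ ℂ) S.c (Real.sqrt_nonneg _) bc
    rw [Matrix.one_mul, Ln_one htC, mul_one] at h2
    exact h1.trans h2
  have hcard : (Fintype.card (Bx n (2 * K)) : ℝ) = (2 * K + 1) ^ n := by
    have : Fintype.card (Bx n (2 * K)) = (2 * K + 1) ^ n := by simp [Bx]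
    rw [this]; push_cast; ring
  -- first term
  have t1 : ‖trace ((GQc p ε j A B)ᴴ * (ann n (2 * K) j - mC p.η j A B • (1 : Matrix _ _ ℂ)))‖ ≤
      (2 * κ + b) * (√F2 + √(2 * K : ℝ) * √((2 * K + 1) ^ n)) ^ 2 := by
    have h1 := norm_first_le hκ hb.le hKH hK1 (ann n (2 * K) j) (mC p.η j A B)
    rw [GQc, GQ, GG, hQe]
    refine h1.trans (mul_le_mul_of_nonneg_left ?_ (by positivity))
    refine pow_le_pow_left₀ (add_nonneg (Ln_nonneg _ _)
      (mul_nonneg (norm_nonneg _) (Real.sqrt_nonneg _))) ?_ 2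
    rw [hcard]
    refine add_le_add ?_ (mul_le_mul_of_nonneg_right hm (Real.sqrt_nonneg _))
    rw [← hSc]; exact lF
  -- second terms
  have t2A : ‖trace (A * ErrA p.η j B (GQ p ε j A B)ᴴ)‖ ≤
      3 * √(K : ℝ) * √(Tp j A) * ((2 * κ + b) * √(En A + En B + 1 + ε * F2)) := by
    rw [ErrA_eq hS, GQ, GG, hQe, ← hSc]
    refine (BS_second S hA hB _).trans ?_
    exact mul_le_mul gA lG (Ln_nonneg _ _) (by positivity)
  have t2B : ‖trace (B * ErrB p.η j A (GQ p ε j A B)ᴴ)‖ ≤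
      3 * √(K : ℝ) * √(Tp j B) * ((2 * κ + b) * √(En A + En B + 1 + ε * F2)) := by
    rw [ErrB_eq hS, GQ, GG, hQe, ← hSc]
    refine (BS_second S.swap hB hA _).trans ?_
    rw [FCov76.BS.swap_out]
    exact mul_le_mul gB lG (Ln_nonneg _ _) (by positivity)
  -- third terms
  have t3A : ‖trace ((ErrA p.η j B (KL (outQ p.η ε A B)))ᴴ * om p.NA (mX j A) A (ann n K j))‖ ≤
      (p.NA + 1) * (√(En A + 1) * (κ * (3 * √(K : ℝ) * √(Tp j A)))) := by
    have h1 := BS_third S hA hB htA htB hκ p.NA_pos.le hK1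
    have e1 : om p.NA (mX j A) A (ann n K j) = ((p.NA + 1 : ℝ) : ℂ) • (S.a * A)
        - ((p.NA : ℝ) : ℂ) • (A * S.a) - (trace (A * S.a)) • A := by
      rw [om, mX, hSa]
      simp only [Matrix.sub_mul, Matrix.mul_sub, Matrix.smul_mul, Matrix.mul_smul, Matrix.one_mul,
        Matrix.mul_one, smul_sub, smul_smul]
      push_cast
      module
    rw [ErrA_eq hS, hQe, e1]
    refine h1.trans ?_
    have h2 : Ln A S.a ≤ √(En A + 1) := by
      rw [hSa]; exact Real.sqrt_le_sqrt (Lf_ann_le hA htA j)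
    have h3 : κ * LA ≤ κ * (3 * √(K : ℝ) * √(Tp j A)) := mul_le_mul_of_nonneg_left gA hκ
    have hN := p.NA_pos
    refine mul_le_mul_of_nonneg_left (mul_le_mul h2 h3 (by positivity) (Real.sqrt_nonneg _))
      (by linarith)
  have t3B : ‖trace ((ErrB p.η j A (KL (outQ p.η ε A B)))ᴴ * om p.NB (mX j B) B (ann n K j))‖ ≤
      (p.NB + 1) * (√(En B + 1) * (κ * (3 * √(K : ℝ) * √(Tp j B)))) := by
    have h1 := BS_third S.swap hB hA htB htA hκ p.NB_pos.le hK1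
    have e1 : om p.NB (mX j B) B (ann n K j) = ((p.NB + 1 : ℝ) : ℂ) • (S.swap.a * B)
        - ((p.NB : ℝ) : ℂ) • (B * S.swap.a) - (trace (B * S.swap.a)) • B := by
      have e2 : S.swap.a = ann n K j := hSb
      rw [om, mX, e2]
      simp only [Matrix.sub_mul, Matrix.mul_sub, Matrix.smul_mul, Matrix.mul_smul, Matrix.one_mul,
        Matrix.mul_one, smul_sub, smul_smul]
      push_cast
      module
    rw [ErrB_eq hS, hQe, e1]
    refine h1.trans ?_
    have h2 : Ln B S.swap.a ≤ √(En B + 1) := by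
      have e2 : S.swap.a = ann n K j := hSb
      rw [e2]; exact Real.sqrt_le_sqrt (Lf_ann_le hB htB j)
    have h3 : κ * LB ≤ κ * (3 * √(K : ℝ) * √(Tp j B)) := mul_le_mul_of_nonneg_left gB hκ
    have hN := p.NB_pos
    refine mul_le_mul_of_nonneg_left (mul_le_mul h2 h3 (by positivity) (Real.sqrt_nonneg _))
      (by linarith)
  -- assemble
  have hpA : p.hA = S.hA := by rw [Par.hA, hS.hA]
  have hpB : p.hB = S.hB := by rw [Par.hB, hS.hB]
  rw [gapErr, errBd2, ← hκd, ← hbd, ← hF2, hpA, hpB]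
  refine (assemble hε.le p.NA_pos.le p.NB_pos.le hhA hhA1 hhB hhB1
    ((Complex.re_le_norm _).trans t1)
    (neg_le_of_abs_le ((Complex.abs_re_le_norm _).trans t2A))
    (neg_le_of_abs_le ((Complex.abs_re_le_norm _).trans t2B))
    ((Complex.re_le_norm _).trans t3A) ((Complex.re_le_norm _).trans t3B)
    (norm_nonneg _ |>.trans t2A) (norm_nonneg _ |>.trans t2B)).trans (le_of_eq ?_)
  ring


/-- Markov: `K T ≤ E` -/
theorem K_mul_Tp_le {A : Matrix (Bx n K) (Bx n K) ℂ} (hA : A.PosSemidef) (j : Fin n) :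
    (K : ℝ) * Tp j A ≤ En A := by
  have h1 : Tp j A = ∑ k : Bx n K, (if (k j : ℕ) = K then (1 : ℝ) else 0) * (A k k).re := by
    rw [Tp, top, ← trace_mul_diag]
    congr 4
    ext k
    split_ifs <;> simp
  rw [h1, En_eq, Finset.mul_sum]
  refine Finset.sum_le_sum fun k _ => ?_
  have h2 := diag_nonneg' hA k
  have h3 : ((k j : ℕ) : ℝ) ≤ ∑ i, ((k i : ℕ) : ℝ) :=
    Finset.single_le_sum (f := fun i => ((k i : ℕ) : ℝ)) (fun i _ => Nat.cast_nonneg _)
      (Finset.mem_univ j)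
  split_ifs with h
  · rw [one_mul]
    refine mul_le_mul_of_nonneg_right ?_ h2
    have h4 : ((k j : ℕ) : ℝ) = (K : ℝ) := by exact_mod_cast h
    linarith
  · rw [zero_mul, mul_zero]
    refine mul_nonneg ?_ h2
    exact Finset.sum_nonneg fun i _ => Nat.cast_nonneg _

theorem Tp_nonneg {A : Matrix (Bx n K) (Bx n K) ℂ} (hA : A.PosSemidef) (j : Fin n) :
    0 ≤ Tp j A := by
  have h1 : Tp j A = ∑ k : Bx n K, (if (k j : ℕ) = K then (1 : ℝ) else 0) * (A k k).re := by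
    rw [Tp, top, ← trace_mul_diag]
    congr 4
    ext k
    split_ifs <;> simp
  rw [h1]
  refine Finset.sum_nonneg fun k _ => mul_nonneg ?_ (diag_nonneg' hA k)
  split_ifs <;> norm_num

set_option maxHeartbeats 4000000 in
/-- scalar repackaging of the explicit bound -/
theorem scal_bd {κ b ε P K D EA EB TA TB NA NB : ℝ} (hκ : 0 ≤ κ) (hb : 0 < b) (hε : 0 < ε)
    (hK : 0 ≤ K) (hD : 0 ≤ D) (hP : 2 * K * D ≤ P) (hEA : 0 ≤ EA) (hEB : 0 ≤ EB)
    (hTA : 0 ≤ TA) (hTB : 0 ≤ TB) (hKA : K * TA ≤ EA) (hKB : K * TB ≤ EB) (hNA : 0 < NA)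
    (hNB : 0 < NB) :
    ε * ((2 * κ + b) * (√(2 * K * D) + √(2 * K) * √D) ^ 2)
      + (2 * κ + b) * √(EA + EB + 1 + ε * (2 * K * D)) * (3 * √K) * (NA * √TA + NB * √TB)
      + κ * (3 * √K) * ((NA + 1) * √(EA + 1) * √TA + (NB + 1) * √(EB + 1) * √TB) ≤
    (4 * (2 + b) + 5 * (2 + b) * (NA + NB) + 3 * (NA + NB + 2)) *
      ((κ + 1) * √((K + 1) * (TA + TB)) * √(1 + EA + EB) + ε * (κ + 1) * P) := by
  have hP0 : 0 ≤ P := le_trans (by positivity) hP
  set X : ℝ := √((K + 1) * (TA + TB)) * √(1 + EA + EB) with hX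
  have hX0 : 0 ≤ X := by positivity
  have h2κ : 2 * κ + b ≤ (2 + b) * (κ + 1) := by nlinarith
  have h2κ0 : 0 ≤ 2 * κ + b := by positivity
  have hκ1 : 0 ≤ κ + 1 := by linarith
  -- term 1
  have T1 : ε * ((2 * κ + b) * (√(2 * K * D) + √(2 * K) * √D) ^ 2) ≤
      4 * (2 + b) * (ε * (κ + 1) * P) := by
    have e1 : (√(2 * K * D) + √(2 * K) * √D) ^ 2 = 4 * (2 * K * D) := by
      rw [← Real.sqrt_mul (by positivity) D]
      have := Real.sq_sqrt (show 0 ≤ 2 * K * D by positivity)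
      nlinarith
    rw [e1]
    calc ε * ((2 * κ + b) * (4 * (2 * K * D))) ≤ ε * (((2 + b) * (κ + 1)) * (4 * P)) := by
          refine mul_le_mul_of_nonneg_left ?_ hε.le
          exact mul_le_mul h2κ (by linarith) (by positivity) (by positivity)
      _ = _ := by ring
  -- sqrt K sqrt T <= sqrt ((K+1)(TA+TB))
  have sA : √K * √TA ≤ √((K + 1) * (TA + TB)) := by
    rw [← Real.sqrt_mul hK]
    refine Real.sqrt_le_sqrt ?_
    nlinarith [mul_nonneg hK hTB]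
  have sB : √K * √TB ≤ √((K + 1) * (TA + TB)) := by
    rw [← Real.sqrt_mul hK]
    refine Real.sqrt_le_sqrt ?_
    nlinarith [mul_nonneg hK hTA]
  have sA0 : 0 ≤ √K * √TA := by positivity
  have sB0 : 0 ≤ √K * √TB := by positivity
  have sE : √(1 + EA + EB) = √(EA + EB + 1) := by congr 1; ring
  have sE1 : 1 ≤ √(EA + EB + 1) := Real.one_le_sqrt.2 (by linarith)
  -- sqrt (E+1+εF) ≤ sqrt(E+1) + sqrt(εP)
  have r1 : √(EA + EB + 1 + ε * (2 * K * D)) ≤ √(EA + EB + 1) + √(ε * P) := by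
    refine (Real.sqrt_le_sqrt (show EA + EB + 1 + ε * (2 * K * D) ≤ EA + EB + 1 + ε * P by
      nlinarith)).trans ?_
    refine Real.sqrt_le_iff.2 ⟨by positivity, ?_⟩
    have w1 : √(EA + EB + 1) ^ 2 = EA + EB + 1 := Real.sq_sqrt (by positivity)
    have w2 : √(ε * P) ^ 2 = ε * P := Real.sq_sqrt (by positivity)
    have w3 : 0 ≤ √(EA + EB + 1) * √(ε * P) := by positivity
    nlinarith
  -- cross terms
  have cA : √(ε * P) * (√K * √TA) ≤ (1 / 2) * (ε * P) + (1 / 2) * X := by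
    have e1 : √(ε * P) ^ 2 = ε * P := Real.sq_sqrt (by positivity)
    have e2 : (√K * √TA) ^ 2 ≤ X := by
      have e3 : √K * √TA ≤ √(EA + EB + 1) := by
        rw [← Real.sqrt_mul hK]
        exact Real.sqrt_le_sqrt (by linarith)
      calc (√K * √TA) ^ 2 = (√K * √TA) * (√K * √TA) := by ring
        _ ≤ √((K + 1) * (TA + TB)) * √(EA + EB + 1) := mul_le_mul sA e3 sA0 (Real.sqrt_nonneg _)
        _ = X := by rw [hX, sE]
    nlinarith [sq_nonneg (√(ε * P) - √K * √TA)]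
  have cB : √(ε * P) * (√K * √TB) ≤ (1 / 2) * (ε * P) + (1 / 2) * X := by
    have e1 : √(ε * P) ^ 2 = ε * P := Real.sq_sqrt (by positivity)
    have e2 : (√K * √TB) ^ 2 ≤ X := by
      have e3 : √K * √TB ≤ √(EA + EB + 1) := by
        rw [← Real.sqrt_mul hK]
        exact Real.sqrt_le_sqrt (by linarith)
      calc (√K * √TB) ^ 2 = (√K * √TB) * (√K * √TB) := by ring
        _ ≤ √((K + 1) * (TA + TB)) * √(EA + EB + 1) := mul_le_mul sB e3 sB0 (Real.sqrt_nonneg _)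
        _ = X := by rw [hX, sE]
    nlinarith [sq_nonneg (√(ε * P) - √K * √TB)]
  have dA : √(EA + EB + 1) * (√K * √TA) ≤ X := by
    rw [hX, sE, mul_comm]
    exact mul_le_mul_of_nonneg_right sA (Real.sqrt_nonneg _)
  have dB : √(EA + EB + 1) * (√K * √TB) ≤ X := by
    rw [hX, sE, mul_comm]
    exact mul_le_mul_of_nonneg_right sB (Real.sqrt_nonneg _)
  have T2 : (2 * κ + b) * √(EA + EB + 1 + ε * (2 * K * D)) * (3 * √K) * (NA * √TA + NB * √TB) ≤
      5 * (2 + b) * (NA + NB) * ((κ + 1) * X + ε * (κ + 1) * P) := by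
    have e1 : √(EA + EB + 1 + ε * (2 * K * D)) * (√K * (NA * √TA + NB * √TB)) ≤
        (NA + NB) * ((3 / 2) * X + (1 / 2) * (ε * P)) := by
      have f0 : 0 ≤ √K * (NA * √TA + NB * √TB) := by positivity
      calc _ ≤ (√(EA + EB + 1) + √(ε * P)) * (√K * (NA * √TA + NB * √TB)) :=
            mul_le_mul_of_nonneg_right r1 f0
        _ = NA * (√(EA + EB + 1) * (√K * √TA) + √(ε * P) * (√K * √TA))
            + NB * (√(EA + EB + 1) * (√K * √TB) + √(ε * P) * (√K * √TB)) := by ring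
        _ ≤ NA * (X + ((1 / 2) * (ε * P) + (1 / 2) * X))
            + NB * (X + ((1 / 2) * (ε * P) + (1 / 2) * X)) := by
            refine add_le_add ?_ ?_
            · exact mul_le_mul_of_nonneg_left (add_le_add dA cA) hNA.le
            · exact mul_le_mul_of_nonneg_left (add_le_add dB cB) hNB.le
        _ = _ := by ring
    have e2 : 0 ≤ (NA + NB) * ((3 / 2) * X + (1 / 2) * (ε * P)) := by positivity
    calc _ = 3 * ((2 * κ + b) * (√(EA + EB + 1 + ε * (2 * K * D)) *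
            (√K * (NA * √TA + NB * √TB)))) := by ring
      _ ≤ 3 * (((2 + b) * (κ + 1)) * ((NA + NB) * ((3 / 2) * X + (1 / 2) * (ε * P)))) := by
          refine mul_le_mul_of_nonneg_left ?_ (by norm_num)
          exact mul_le_mul h2κ e1 (by positivity) (by positivity)
      _ = (9 / 2) * ((2 + b) * (NA + NB) * ((κ + 1) * X))
            + (3 / 2) * ((2 + b) * (NA + NB) * (ε * (κ + 1) * P)) := by ring
      _ ≤ 5 * ((2 + b) * (NA + NB) * ((κ + 1) * X))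
            + 5 * ((2 + b) * (NA + NB) * (ε * (κ + 1) * P)) := by
          have g1 : 0 ≤ (2 + b) * (NA + NB) * ((κ + 1) * X) := by positivity
          have g2 : 0 ≤ (2 + b) * (NA + NB) * (ε * (κ + 1) * P) := by positivity
          linarith
      _ = _ := by ring
  have T3 : κ * (3 * √K) * ((NA + 1) * √(EA + 1) * √TA + (NB + 1) * √(EB + 1) * √TB) ≤
      3 * (NA + NB + 2) * ((κ + 1) * X) := by
    have fA : √(EA + 1) ≤ √(EA + EB + 1) := Real.sqrt_le_sqrt (by linarith)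
    have fB : √(EB + 1) ≤ √(EA + EB + 1) := Real.sqrt_le_sqrt (by linarith)
    have e1 : √K * ((NA + 1) * √(EA + 1) * √TA + (NB + 1) * √(EB + 1) * √TB) ≤
        (NA + NB + 2) * X := by
      calc _ = (NA + 1) * (√(EA + 1) * (√K * √TA)) + (NB + 1) * (√(EB + 1) * (√K * √TB)) := by ring
        _ ≤ (NA + 1) * (√(EA + EB + 1) * (√K * √TA))
            + (NB + 1) * (√(EA + EB + 1) * (√K * √TB)) := by gcongr
        _ ≤ (NA + 1) * X + (NB + 1) * X := by
            refine add_le_add ?_ ?_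
            · exact mul_le_mul_of_nonneg_left dA (by linarith)
            · exact mul_le_mul_of_nonneg_left dB (by linarith)
        _ = _ := by ring
    have e0 : 0 ≤ √K * ((NA + 1) * √(EA + 1) * √TA + (NB + 1) * √(EB + 1) * √TB) := by positivity
    calc _ = 3 * (κ * (√K * ((NA + 1) * √(EA + 1) * √TA + (NB + 1) * √(EB + 1) * √TB))) := by ring
      _ ≤ 3 * ((κ + 1) * ((NA + NB + 2) * X)) := by
          refine mul_le_mul_of_nonneg_left ?_ (by norm_num)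
          exact mul_le_mul (by linarith) e1 e0 hκ1
      _ = _ := by ring
  have g3 : 0 ≤ ε * (κ + 1) * P := by positivity
  have g4 : 0 ≤ (κ + 1) * X := by positivity
  have e5 : (κ + 1) * √((K + 1) * (TA + TB)) * √(1 + EA + EB) = (κ + 1) * X := by rw [hX]; ring
  rw [e5]
  have w1 : 0 ≤ 4 * (2 + b) * ((κ + 1) * X) := by positivity
  have w2 : 0 ≤ 3 * (NA + NB + 2) * (ε * (κ + 1) * P) := by positivity
  calc _ ≤ 4 * (2 + b) * (ε * (κ + 1) * P)
        + 5 * (2 + b) * (NA + NB) * ((κ + 1) * X + ε * (κ + 1) * P)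
        + 3 * (NA + NB + 2) * ((κ + 1) * X) := add_le_add (add_le_add T1 T2) T3
    _ ≤ _ := by linarith

/-- **LEAF FERR**, by name. -/
theorem ferr : FDefs136.FERR := by
  intro p
  have hb := bC_pos p
  have hNA := p.NA_pos
  have hNB := p.NB_pos
  refine ⟨4 * (2 + p.bC) + 5 * (2 + p.bC) * (p.NA + p.NB) + 3 * (p.NA + p.NB + 2), by positivity,
    ?_⟩
  intro n K j ε hε hε2 A B dA dB
  obtain ⟨S, hS⟩ := FinW87.FW_holds p.η n K j p.η_pos p.η_lt
  have h1 := gapErr_le2 p hε hε2 hS dA dB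
  refine h1.trans ?_
  have hκ : 0 ≤ Real.log (1 / ε) := Real.log_nonneg (by rw [le_div_iff₀ hε]; linarith)
  have hK0 : (0 : ℝ) ≤ (K : ℝ) := Nat.cast_nonneg K
  have hP : 2 * (K : ℝ) * (2 * (K : ℝ) + 1) ^ n ≤ ((2 * K + 1 : ℕ) : ℝ) ^ (n + 1) := by
    push_cast
    rw [pow_succ]
    have : (0 : ℝ) ≤ (2 * (K : ℝ) + 1) ^ n := by positivity
    nlinarith
  exact scal_bd hκ hb hε hK0 (by positivity) hP (En_nonneg dA.1) (En_nonneg dB.1)
    (Tp_nonneg dA.1 j) (Tp_nonneg dB.1 j) (K_mul_Tp_le dA.1 j) (K_mul_Tp_le dB.1 j) hNA hNB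

end

end Crest.Agent.R331.FErr8
end

-- ▼ part R331/FinWE_87
section

/-! # Norm bound of the boundary defect `EA` for the box (helper87, row 331) -/

set_option autoImplicit false
set_option linter.unusedSectionVars false

noncomputable section

namespace Crest.Agent.R331.FinW87

open Crest.MathPhysics.Bosonic Crest.Agent.R331.BS375 Finset Matrix
open Crest.Agent.R331.Fin8_628 (Bx occ)
open scoped Kronecker ComplexOrder

section abs
variable {α β γ δ : Type*} [Fintype α] [Fintype β] [Fintype γ] [Fintype δ]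
    [DecidableEq α] [DecidableEq β] [DecidableEq γ] [DecidableEq δ]

/-- `M Mᴴ ≤ e` implies `Mᴴ M ≤ e`. -/
lemma flip_bound {m k : Type*} [Fintype m] [Fintype k] [DecidableEq m] [DecidableEq k]
    {e : ℝ} (he : 0 < e) (M : Matrix m k ℂ)
    (h : ((e : ℂ) • (1 : Matrix m m ℂ) - M * Mᴴ).PosSemidef) :
    ((e : ℂ) • (1 : Matrix k k ℂ) - Mᴴ * M).PosSemidef := by
  have h1 : (Mᴴ * ((e : ℂ) • (1 : Matrix m m ℂ) - M * Mᴴ) * M).PosSemidef :=
    h.conjTranspose_mul_mul_same M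
  have h2 : (((e : ℂ) • (1 : Matrix k k ℂ) - Mᴴ * M)ᴴ * ((e : ℂ) • (1 : Matrix k k ℂ) - Mᴴ * M)).PosSemidef :=
    Matrix.posSemidef_conjTranspose_mul_self _
  have h3 := (h1.add h2).smul (show (0 : ℝ) ≤ e⁻¹ by positivity)
  have h4 : (e : ℂ) • (1 : Matrix k k ℂ) - Mᴴ * M
      = (e⁻¹ : ℝ) • (Mᴴ * ((e : ℂ) • (1 : Matrix m m ℂ) - M * Mᴴ) * M
        + ((e : ℂ) • (1 : Matrix k k ℂ) - Mᴴ * M)ᴴ * ((e : ℂ) • (1 : Matrix k k ℂ) - Mᴴ * M)) := by
    have e1 : ((e : ℂ) • (1 : Matrix k k ℂ) - Mᴴ * M)ᴴ = (e : ℂ) • (1 : Matrix k k ℂ) - Mᴴ * M := by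
      simp [Matrix.conjTranspose_sub, Matrix.conjTranspose_smul, Matrix.conjTranspose_mul]
    rw [e1]
    have e2 : Mᴴ * ((e : ℂ) • (1 : Matrix m m ℂ) - M * Mᴴ) * M
        + ((e : ℂ) • (1 : Matrix k k ℂ) - Mᴴ * M) * ((e : ℂ) • (1 : Matrix k k ℂ) - Mᴴ * M)
        = (e : ℂ) • ((e : ℂ) • (1 : Matrix k k ℂ) - Mᴴ * M) := by
      simp only [Matrix.mul_sub, Matrix.sub_mul, Matrix.mul_smul, Matrix.smul_mul, Matrix.mul_one,
        Matrix.one_mul, Matrix.mul_assoc, smul_sub]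
      abel
    rw [e2]
    rw [← Complex.coe_smul, smul_smul]
    push_cast
    rw [inv_mul_cancel₀ (by exact_mod_cast he.ne'), one_smul]
  rw [h4]
  exact h3

/-- abstract bound of `EA` by `c cᴴ ⊗ 1 + 1 ⊗ d dᴴ` on the range of `ι`. -/
theorem EA_bound (S : FCov76.BS α β γ δ) {e : ℝ} (he : 0 < e)
    (h : ((e : ℂ) • (1 : Matrix (α × β) (α × β) ℂ)
      - S.ιᴴ * ((S.c * S.cᴴ) ⊗ₖ (1 : Matrix δ δ ℂ)
        + (1 : Matrix γ γ ℂ) ⊗ₖ (S.d * S.dᴴ)) * S.ι).PosSemidef) :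
    ((e : ℂ) • (1 : Matrix (γ × δ) (γ × δ) ℂ) - S.EAᴴ * S.EA).PosSemidef := by
  apply flip_bound he
  set C : Matrix (γ × δ) (γ × δ) ℂ := S.c ⊗ₖ (1 : Matrix δ δ ℂ) with hC
  set D : Matrix (γ × δ) (γ × δ) ℂ := (1 : Matrix γ γ ℂ) ⊗ₖ S.d with hD
  set Q : Matrix (α × β) (α × β) ℂ := S.QA ⊗ₖ (1 : Matrix β β ℂ) with hQ
  set R : Matrix (γ × δ) (γ × δ) ℂ := (S.hA : ℂ) • C - (S.hB : ℂ) • D with hR
  have hQH : Qᴴ = Q := by
    rw [hQ, Matrix.conjTranspose_kronecker, S.QA_herm, Matrix.conjTranspose_one]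
  have hQQ : Q * Q = Q := by
    rw [hQ, ← Matrix.mul_kronecker_mul, S.QA_idem, Matrix.one_mul]
  have hEA : S.EA = Q * S.ιᴴ * R := by
    rw [← S.QA_EA]
    have : S.EA = S.ιᴴ * R - (S.a ⊗ₖ (1 : Matrix β β ℂ)) * S.ιᴴ := rfl
    rw [this, Matrix.mul_sub, ← Matrix.mul_assoc, ← Matrix.mul_assoc,
      ← Matrix.mul_kronecker_mul, S.QA_a]
    simp [hQ]
  have hCC : (S.c * S.cᴴ) ⊗ₖ (1 : Matrix δ δ ℂ) = C * Cᴴ := by
    rw [hC, Matrix.conjTranspose_kronecker, ← Matrix.mul_kronecker_mul, Matrix.conjTranspose_one,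
      Matrix.mul_one]
  have hDD : (1 : Matrix γ γ ℂ) ⊗ₖ (S.d * S.dᴴ) = D * Dᴴ := by
    rw [hD, Matrix.conjTranspose_kronecker, ← Matrix.mul_kronecker_mul, Matrix.conjTranspose_one,
      Matrix.mul_one]
  rw [hCC, hDD] at h
  -- `C Cᴴ + D Dᴴ - R Rᴴ` is a square
  set P : Matrix (γ × δ) (γ × δ) ℂ := (S.hB : ℂ) • C + (S.hA : ℂ) • D with hP
  have hsq : C * Cᴴ + D * Dᴴ - R * Rᴴ = P * Pᴴ := by
    have h1 : ((S.hA : ℂ)) ^ 2 + ((S.hB : ℂ)) ^ 2 = 1 := by
      have := S.hAB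
      exact_mod_cast this
    rw [hR, hP]
    simp only [Matrix.conjTranspose_sub, Matrix.conjTranspose_add, Matrix.conjTranspose_smul,
      Complex.star_def, Complex.conj_ofReal, Matrix.sub_mul, Matrix.mul_sub, Matrix.add_mul,
      Matrix.mul_add, Matrix.smul_mul, Matrix.mul_smul, smul_smul]
    have h2 : C * Cᴴ + D * Dᴴ = ((S.hA : ℂ) ^ 2 + (S.hB : ℂ) ^ 2) • (C * Cᴴ)
        + ((S.hA : ℂ) ^ 2 + (S.hB : ℂ) ^ 2) • (D * Dᴴ) := by rw [h1, one_smul, one_smul]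
    rw [h2]
    module
  have key : (e : ℂ) • (1 : Matrix (α × β) (α × β) ℂ) - S.EA * S.EAᴴ
      = Q * ((e : ℂ) • (1 : Matrix (α × β) (α × β) ℂ) - S.ιᴴ * (C * Cᴴ + D * Dᴴ) * S.ι) * Qᴴ
        + (Q * S.ιᴴ * P) * (Q * S.ιᴴ * P)ᴴ + (e : ℂ) • ((1 - Q) * (1 - Q)ᴴ) := by
    have h1 : (Q * S.ιᴴ * P) * (Q * S.ιᴴ * P)ᴴ = Q * (S.ιᴴ * (P * Pᴴ) * S.ι) * Q := by
      simp only [Matrix.conjTranspose_mul, Matrix.conjTranspose_conjTranspose, hQH, Matrix.mul_assoc]
    have h2 : S.EA * S.EAᴴ = Q * (S.ιᴴ * (R * Rᴴ) * S.ι) * Q := by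
      rw [hEA]
      simp only [Matrix.conjTranspose_mul, Matrix.conjTranspose_conjTranspose, hQH, Matrix.mul_assoc]
    have h3 : (1 - Q) * (1 - Q)ᴴ = 1 - Q := by
      rw [Matrix.conjTranspose_sub, hQH, Matrix.conjTranspose_one, Matrix.mul_sub, Matrix.sub_mul,
        Matrix.sub_mul, hQQ]
      simp
    rw [h1, h2, h3, hQH, ← hsq]
    have h4 : Q * ((e : ℂ) • (1 : Matrix (α × β) (α × β) ℂ)) * Q = (e : ℂ) • Q := by
      rw [Matrix.mul_smul, Matrix.mul_one, Matrix.smul_mul, hQQ]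
    simp only [Matrix.mul_sub, Matrix.sub_mul, h4, smul_sub]
    abel
  rw [key]
  refine ((h.mul_mul_conjTranspose_same Q).add (Matrix.posSemidef_self_mul_conjTranspose _)).add ?_
  have := (Matrix.posSemidef_self_mul_conjTranspose (1 - Q)).smul (show (0 : ℝ) ≤ e from he.le)
  rw [← Complex.coe_smul] at this
  exact this

/-- the same for the second input. -/
theorem EA_swap_bound (S : FCov76.BS α β γ δ) {e : ℝ} (he : 0 < e)
    (h : ((e : ℂ) • (1 : Matrix (α × β) (α × β) ℂ)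
      - S.ιᴴ * ((S.c * S.cᴴ) ⊗ₖ (1 : Matrix δ δ ℂ)
        + (1 : Matrix γ γ ℂ) ⊗ₖ (S.d * S.dᴴ)) * S.ι).PosSemidef) :
    ((e : ℂ) • (1 : Matrix (γ × δ) (γ × δ) ℂ) - S.swap.EAᴴ * S.swap.EA).PosSemidef := by
  apply EA_bound S.swap he
  have h1 : (e : ℂ) • (1 : Matrix (β × α) (β × α) ℂ)
      - S.swap.ιᴴ * ((S.swap.c * S.swap.cᴴ) ⊗ₖ (1 : Matrix δ δ ℂ)
        + (1 : Matrix γ γ ℂ) ⊗ₖ (S.swap.d * S.swap.dᴴ)) * S.swap.ι
      = ((e : ℂ) • (1 : Matrix (α × β) (α × β) ℂ)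
      - S.ιᴴ * ((S.c * S.cᴴ) ⊗ₖ (1 : Matrix δ δ ℂ)
        + (1 : Matrix γ γ ℂ) ⊗ₖ (S.d * S.dᴴ)) * S.ι).submatrix Prod.swap Prod.swap := by
    have e1 : S.swap.ι = S.ι.submatrix id Prod.swap := rfl
    have e2 : S.swap.c = S.c := rfl
    have e3 : S.swap.d = -S.d := rfl
    rw [e1, e2, e3]
    ext x y
    simp only [Matrix.sub_apply, Matrix.smul_apply, Matrix.submatrix_apply, Matrix.mul_apply,
      Matrix.conjTranspose_submatrix, Matrix.conjTranspose_neg, Matrix.neg_mul, Matrix.mul_neg,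
      neg_neg, id_eq]
    congr 2
    simp [Matrix.one_apply, Prod.ext_iff, and_comm]
  rw [h1]
  exact h.submatrix _

end abs

variable {n K : ℕ}

/-- `W^H (x x^H ⊗ 1 + 1 ⊗ x x^H) W ≤ 2K + 2` on the box. -/
theorem box_ladder_bound {η : ℝ} (h : η ∈ Set.Icc (0 : ℝ) 1) (j : Fin n) :
    (((2 * K + 2 : ℝ) : ℂ) • (1 : Matrix (Bx n K × Bx n K) (Bx n K × Bx n K) ℂ)
      - (Wbx η n K)ᴴ * ((xbx n (2 * K) j * (xbx n (2 * K) j)ᴴ) ⊗ₖ
          (1 : Matrix (Bx n (2 * K)) (Bx n (2 * K)) ℂ)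
        + (1 : Matrix (Bx n (2 * K)) (Bx n (2 * K)) ℂ) ⊗ₖ
          (xbx n (2 * K) j * (xbx n (2 * K) j)ᴴ)) * Wbx η n K).PosSemidef := by
  classical
  have hiso : (Wbx η n K)ᴴ * Wbx η n K = 1 := iota_isometry h.1 h.2 isCut_box
  have hnum := num_iota η (occ : Bx n K → Occ n) (occ : Bx n (2 * K) → Occ n) j
  have e1 : (xbx n (2 * K) j * (xbx n (2 * K) j)ᴴ) ⊗ₖ
          (1 : Matrix (Bx n (2 * K)) (Bx n (2 * K)) ℂ)
        + (1 : Matrix (Bx n (2 * K)) (Bx n (2 * K)) ℂ) ⊗ₖ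
          (xbx n (2 * K) j * (xbx n (2 * K) j)ᴴ)
      = (numbx n (2 * K) j ⊗ₖ (1 : Matrix (Bx n (2 * K)) (Bx n (2 * K)) ℂ)
        + (1 : Matrix (Bx n (2 * K)) (Bx n (2 * K)) ℂ) ⊗ₖ numbx n (2 * K) j)
        + (2 : ℂ) • 1
        - (((2 * K : ℕ) : ℂ) + 1) • (topbx n (2 * K) j ⊗ₖ
            (1 : Matrix (Bx n (2 * K)) (Bx n (2 * K)) ℂ)
          + (1 : Matrix (Bx n (2 * K)) (Bx n (2 * K)) ℂ) ⊗ₖ topbx n (2 * K) j) := by
    rw [x_mul_xH]
    ext x y
    simp only [Matrix.add_apply, Matrix.sub_apply, Matrix.smul_apply, Matrix.kroneckerMap_apply,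
      smul_eq_mul]
    have h1 : (1 : Matrix (Bx n (2 * K) × Bx n (2 * K)) (Bx n (2 * K) × Bx n (2 * K)) ℂ) x y
        = (1 : Matrix (Bx n (2 * K)) (Bx n (2 * K)) ℂ) x.1 y.1
          * (1 : Matrix (Bx n (2 * K)) (Bx n (2 * K)) ℂ) x.2 y.2 := by
      rw [← Matrix.one_kronecker_one, Matrix.kroneckerMap_apply]
    rw [h1]
    ring
  have e2 : (Wbx η n K)ᴴ * (numbx n (2 * K) j ⊗ₖ (1 : Matrix (Bx n (2 * K)) (Bx n (2 * K)) ℂ)
        + (1 : Matrix (Bx n (2 * K)) (Bx n (2 * K)) ℂ) ⊗ₖ numbx n (2 * K) j) * Wbx η n K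
      = numbx n K j ⊗ₖ (1 : Matrix (Bx n K) (Bx n K) ℂ)
        + (1 : Matrix (Bx n K) (Bx n K) ℂ) ⊗ₖ numbx n K j := by
    have : (numbx n (2 * K) j ⊗ₖ (1 : Matrix (Bx n (2 * K)) (Bx n (2 * K)) ℂ)
        + (1 : Matrix (Bx n (2 * K)) (Bx n (2 * K)) ℂ) ⊗ₖ numbx n (2 * K) j) * Wbx η n K
        = Wbx η n K * (numbx n K j ⊗ₖ (1 : Matrix (Bx n K) (Bx n K) ℂ)
        + (1 : Matrix (Bx n K) (Bx n K) ℂ) ⊗ₖ numbx n K j) := hnum
    rw [Matrix.mul_assoc, this, ← Matrix.mul_assoc, hiso, Matrix.one_mul]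
  set T : Matrix (Bx n (2 * K) × Bx n (2 * K)) (Bx n (2 * K) × Bx n (2 * K)) ℂ :=
    topbx n (2 * K) j ⊗ₖ (1 : Matrix (Bx n (2 * K)) (Bx n (2 * K)) ℂ)
          + (1 : Matrix (Bx n (2 * K)) (Bx n (2 * K)) ℂ) ⊗ₖ topbx n (2 * K) j with hT
  have hTpos : T.PosSemidef := by
    rw [hT, topbx_eq, kron_diag_left, kron_diag_right, Matrix.diagonal_add,
      Matrix.posSemidef_diagonal_iff]
    intro x
    split_ifs <;> norm_num
  have e3 : ((2 * K + 2 : ℝ) : ℂ) • (1 : Matrix (Bx n K × Bx n K) (Bx n K × Bx n K) ℂ)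
      - (Wbx η n K)ᴴ * ((xbx n (2 * K) j * (xbx n (2 * K) j)ᴴ) ⊗ₖ
          (1 : Matrix (Bx n (2 * K)) (Bx n (2 * K)) ℂ)
        + (1 : Matrix (Bx n (2 * K)) (Bx n (2 * K)) ℂ) ⊗ₖ
          (xbx n (2 * K) j * (xbx n (2 * K) j)ᴴ)) * Wbx η n K
      = (Matrix.diagonal fun x : Bx n K × Bx n K =>
          (((2 * K : ℝ) - (x.1 j : ℕ) - (x.2 j : ℕ) : ℝ) : ℂ))
        + (2 * K + 1 : ℝ) • ((Wbx η n K)ᴴ * T * Wbx η n K) := by
    rw [e1, Matrix.mul_sub, Matrix.mul_add, Matrix.sub_mul, Matrix.add_mul, e2,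
      Matrix.mul_smul, Matrix.mul_one, Matrix.smul_mul, hiso, Matrix.mul_smul, Matrix.smul_mul]
    have e4 : numbx n K j ⊗ₖ (1 : Matrix (Bx n K) (Bx n K) ℂ)
        + (1 : Matrix (Bx n K) (Bx n K) ℂ) ⊗ₖ numbx n K j
        = Matrix.diagonal fun x : Bx n K × Bx n K => (((x.1 j : ℕ) : ℂ) + ((x.2 j : ℕ) : ℂ)) := by
      show num occ j ⊗ₖ (1 : Matrix (Bx n K) (Bx n K) ℂ)
        + (1 : Matrix (Bx n K) (Bx n K) ℂ) ⊗ₖ num occ j = _
      rw [num, kron_diag_left, kron_diag_right, Matrix.diagonal_add]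
      rfl
    rw [e4]
    ext x y
    simp only [Matrix.add_apply, Matrix.sub_apply, Matrix.smul_apply, Matrix.diagonal_apply,
      Matrix.one_apply, smul_eq_mul, Complex.real_smul]
    split_ifs with hxy
    · push_cast; ring
    · push_cast; ring
  rw [e3]
  refine Matrix.PosSemidef.add ?_ ?_
  · rw [Matrix.posSemidef_diagonal_iff]
    intro x
    have h1 := numbx_le (K := K) j x.1
    have h2 := numbx_le (K := K) j x.2
    have : (0 : ℝ) ≤ 2 * K - (x.1 j : ℕ) - (x.2 j : ℕ) := by linarith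
    exact_mod_cast this
  · exact (hTpos.conjTranspose_mul_mul_same _).smul (by positivity)



/-- the same for any `S` with helper136's `IsBox` (input `A`). -/
theorem hE_isBox {η : ℝ} (h : η ∈ Set.Icc (0 : ℝ) 1) (j : Fin n)
    {S : FCov76.BS (Bx n K) (Bx n K) (Bx n (2 * K)) (Bx n (2 * K))}
    (hS : FDefs136.IsBox (η := η) j S) :
    (((2 * K + 2 : ℝ) : ℂ) • (1 : Matrix (Bx n (2 * K) × Bx n (2 * K))
        (Bx n (2 * K) × Bx n (2 * K)) ℂ) - S.EAᴴ * S.EA).PosSemidef ∧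
    (((2 * K + 2 : ℝ) : ℂ) • (1 : Matrix (Bx n (2 * K) × Bx n (2 * K))
        (Bx n (2 * K) × Bx n (2 * K)) ℂ) - S.swap.EAᴴ * S.swap.EA).PosSemidef := by
  have h1 : (((2 * K + 2 : ℝ) : ℂ) • (1 : Matrix (Bx n K × Bx n K) (Bx n K × Bx n K) ℂ)
      - S.ιᴴ * ((S.c * S.cᴴ) ⊗ₖ (1 : Matrix (Bx n (2 * K)) (Bx n (2 * K)) ℂ)
        + (1 : Matrix (Bx n (2 * K)) (Bx n (2 * K)) ℂ) ⊗ₖ (S.d * S.dᴴ)) * S.ι).PosSemidef := by
    rw [hS.ι, hS.c, hS.d, ann_eq, bsW_eq]
    exact box_ladder_bound h j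
  exact ⟨EA_bound S (by positivity) h1, EA_swap_bound S (by positivity) h1⟩


end Crest.Agent.R331.FinW87
end
end

-- ▼ part R331/FEdgeInst_633

/-!
Row 331 (EPnI), finite-matrix track, leaf FEDGE (helper633): `FDefs136.FEDGE` by name.
-/

set_option autoImplicit false
set_option linter.unusedSectionVars false

namespace Crest.Agent.R331.FEdgeInst633

open Matrix Crest.Quantum Crest.Agent.R331.FDefs136 Crest.Agent.R331.FGapInst633
open scoped Kronecker ComplexOrder BigOperators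

noncomputable section

/-! ### functions of a Hermitian matrix -/

section spec
variable {ι : Type*} [Fintype ι] [DecidableEq ι]

/-- `U diag f Uᴴ` -/
def sp {X : Matrix ι ι ℂ} (h : X.IsHermitian) (f : ι → ℝ) : Matrix ι ι ℂ :=
  (h.eigenvectorUnitary : Matrix ι ι ℂ) * diagonal (fun i => ((f i : ℝ) : ℂ)) *
    (h.eigenvectorUnitary : Matrix ι ι ℂ)ᴴ

variable {X : Matrix ι ι ℂ} (h : X.IsHermitian)

theorem eU' : (h.eigenvectorUnitary : Matrix ι ι ℂ) * (h.eigenvectorUnitary : Matrix ι ι ℂ)ᴴ = 1 :=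
  mul_eq_one_comm.1 (eU h)

theorem sp_mul (f g : ι → ℝ) : sp h f * sp h g = sp h (fun i => f i * g i) := by
  unfold sp
  set U := (h.eigenvectorUnitary : Matrix ι ι ℂ) with hU
  have h1 : Uᴴ * U = 1 := eU h
  calc U * diagonal (fun i => ((f i : ℝ) : ℂ)) * Uᴴ * (U * diagonal (fun i => ((g i : ℝ) : ℂ)) * Uᴴ)
      = U * (diagonal (fun i => ((f i : ℝ) : ℂ)) * (Uᴴ * U) *
          diagonal (fun i => ((g i : ℝ) : ℂ))) * Uᴴ := by simp only [Matrix.mul_assoc]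
    _ = _ := by
      rw [h1, Matrix.mul_one, diagonal_mul_diagonal]
      push_cast
      rfl

theorem sp_trace (f : ι → ℝ) : (sp h f).trace = ((∑ i, f i : ℝ) : ℂ) := by
  unfold sp
  rw [Matrix.trace_mul_comm, ← Matrix.mul_assoc, eU h, Matrix.one_mul, Matrix.trace_diagonal]
  push_cast
  rfl

theorem sp_conj (f : ι → ℝ) : (sp h f)ᴴ = sp h f := by
  unfold sp
  rw [conjTranspose_mul, conjTranspose_mul, conjTranspose_conjTranspose, diagonal_conjTranspose,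
    Matrix.mul_assoc]
  congr 3
  ext i
  simp

theorem sp_const (c : ℝ) : sp h (fun _ => c) = (c : ℂ) • (1 : Matrix ι ι ℂ) := by
  have h1 : diagonal (fun _ : ι => (c : ℂ)) = (c : ℂ) • (1 : Matrix ι ι ℂ) := by
    rw [← Matrix.diagonal_one, ← Matrix.diagonal_smul]
    congr 1
    ext i
    simp
  unfold sp
  rw [h1, Matrix.mul_smul, Matrix.smul_mul, Matrix.mul_one, eU' h]

theorem sp_sub (f g : ι → ℝ) : sp h f - sp h g = sp h (fun i => f i - g i) := by
  unfold sp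
  rw [← Matrix.sub_mul, ← Matrix.mul_sub, diagonal_sub]
  push_cast
  rfl

theorem sp_psd {f : ι → ℝ} (hf : ∀ i, 0 ≤ f i) : (sp h f).PosSemidef := by
  unfold sp
  refine Matrix.PosSemidef.mul_mul_conjTranspose_same ?_ _
  refine Matrix.PosSemidef.diagonal (fun i => ?_)
  show (0 : ℂ) ≤ ((f i : ℝ) : ℂ)
  exact_mod_cast hf i

theorem sp_self : X = sp h h.eigenvalues := eX h

theorem KL_eq : KL X = sp h (fun i => -Real.log (h.eigenvalues i)) := eK h

include h in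
theorem KL_conj : (KL X)ᴴ = KL X := by rw [KL_eq h, sp_conj]

theorem self_mul_sp (f : ι → ℝ) : X * sp h f = sp h (fun i => h.eigenvalues i * f i) := by
  have h1 := sp_mul h h.eigenvalues f
  rwa [← sp_self h] at h1

theorem sp_mul_self (f : ι → ℝ) : sp h f * X = sp h (fun i => f i * h.eigenvalues i) := by
  have h1 := sp_mul h f h.eigenvalues
  rwa [← sp_self h] at h1

include h in
theorem KL_comm : X * KL X = KL X * X := by
  rw [KL_eq h, self_mul_sp, sp_mul_self]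
  congr 1
  ext i
  ring

/-- eigenvalues of `C + ε` -/
theorem eig_mem {C : Matrix ι ι ℂ} (hC : IsDensity C) {ε : ℝ}
    (hQ : (C + (ε : ℂ) • (1 : Matrix ι ι ℂ)).IsHermitian) (i : ι) :
    ε ≤ hQ.eigenvalues i ∧ hQ.eigenvalues i ≤ 1 + ε := by
  set U := (hQ.eigenvectorUnitary : Matrix ι ι ℂ) with hU
  have h1 : Uᴴ * U = 1 := eU hQ
  have h2 : Uᴴ * (C + (ε : ℂ) • (1 : Matrix ι ι ℂ)) * U =
      diagonal (fun i => ((hQ.eigenvalues i : ℝ) : ℂ)) := by
    conv_lhs => rw [sp_self hQ, sp]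
    rw [← hU]
    calc Uᴴ * (U * diagonal (fun i => ((hQ.eigenvalues i : ℝ) : ℂ)) * Uᴴ) * U
        = (Uᴴ * U) * diagonal (fun i => ((hQ.eigenvalues i : ℝ) : ℂ)) * (Uᴴ * U) := by
          simp only [Matrix.mul_assoc]
      _ = _ := by rw [h1, Matrix.one_mul, Matrix.mul_one]
  have h3 : Uᴴ * C * U = diagonal (fun i => ((hQ.eigenvalues i - ε : ℝ) : ℂ)) := by
    rw [Matrix.mul_add, Matrix.add_mul, Matrix.mul_smul, Matrix.smul_mul, Matrix.mul_one, h1] at h2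
    have h2' := eq_sub_iff_add_eq.2 h2
    rw [h2']
    generalize hQ.eigenvalues = q
    ext a b
    by_cases hab : a = b
    · subst hab; simp
    · simp [hab]
  have h4 : (Uᴴ * C * U).PosSemidef := hC.1.conjTranspose_mul_mul_same U
  have h5 : ∀ k, 0 ≤ hQ.eigenvalues k - ε := by
    intro k
    have := h4.diag_nonneg (i := k)
    rw [h3, diagonal_apply_eq] at this
    exact_mod_cast this
  have h6 : ∑ k, (hQ.eigenvalues k - ε) = 1 := by
    have h7 : (Uᴴ * C * U).trace = 1 := by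
      rw [Matrix.trace_mul_comm, ← Matrix.mul_assoc, mul_eq_one_comm.1 h1, Matrix.one_mul, hC.2]
    rw [h3, Matrix.trace_diagonal] at h7
    exact_mod_cast h7
  refine ⟨by linarith [h5 i], ?_⟩
  have := Finset.single_le_sum (fun k _ => h5 k) (Finset.mem_univ i)
  rw [h6] at this
  linarith

theorem kap_pos {ε : ℝ} (h0 : 0 < ε) (h2 : ε ≤ 1 / 2) : 0 < kap ε := by
  unfold kap
  apply Real.log_pos
  rw [lt_div_iff₀ h0]
  linarith

theorem abs_log_le {ε q : ℝ} (h0 : 0 < ε) (h2 : ε ≤ 1 / 2) (h3 : ε ≤ q) (h4 : q ≤ 1 + ε) :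
    |-Real.log q| ≤ kap ε := by
  have hq : 0 < q := lt_of_lt_of_le h0 h3
  have e1 : kap ε = -Real.log ε := by rw [kap, one_div, Real.log_inv]
  rw [e1, abs_le]
  constructor
  · have : Real.log q ≤ -Real.log ε := by
      rw [← Real.log_inv]
      apply Real.log_le_log hq
      refine h4.trans ?_
      rw [← one_div, le_div_iff₀ h0]
      nlinarith
    linarith
  · have := Real.log_le_log h0 h3
    linarith

/-- `K_Q² ≤ κ²` -/
theorem KQ_bound {C : Matrix ι ι ℂ} (hC : IsDensity C) {ε : ℝ} (h0 : 0 < ε) (h2 : ε ≤ 1 / 2) :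
    (((kap ε ^ 2 : ℝ) : ℂ) • (1 : Matrix ι ι ℂ) -
      (KL (C + (ε : ℂ) • (1 : Matrix ι ι ℂ)))ᴴ * KL (C + (ε : ℂ) • (1 : Matrix ι ι ℂ))).PosSemidef := by
  have hQ : (C + (ε : ℂ) • (1 : Matrix ι ι ℂ)).IsHermitian := by
    rw [Matrix.IsHermitian, conjTranspose_add, conjTranspose_smul, conjTranspose_one, hC.1.1.eq]
    simp
  rw [KL_eq hQ, sp_conj, sp_mul, ← sp_const hQ, sp_sub]
  refine sp_psd hQ fun i => ?_
  obtain ⟨h3, h4⟩ := eig_mem hC hQ i
  have h5 := abs_log_le h0 h2 h3 h4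
  have h6 := sq_le_sq' (by linarith [(abs_le.1 h5).1]) (abs_le.1 h5).2
  nlinarith

/-- `Tr A K_A² ≤ (2 log d + 2)²` -/
theorem v_bound {A : Matrix ι ι ℂ} (hA : IsDensity A) :
    (A * (KL A * (KL A)ᴴ)).trace.re ≤ (2 * Real.log (Fintype.card ι) + 2) ^ 2 := by
  have h : A.IsHermitian := hA.1.1
  have hsum : ∑ i, h.eigenvalues i = 1 := by
    have h1 := sp_trace h h.eigenvalues
    rw [← sp_self h, hA.2] at h1
    exact_mod_cast h1.symm
  have h0 : ∀ i, 0 ≤ h.eigenvalues i := fun i => hA.1.eigenvalues_nonneg i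
  have hcard : 1 ≤ Fintype.card ι := by
    rw [Nat.one_le_iff_ne_zero]
    intro h1
    have : IsEmpty ι := Fintype.card_eq_zero_iff.1 h1
    simp at hsum
  rw [KL_conj h, KL_eq h, sp_mul, self_mul_sp, sp_trace, Complex.ofReal_re]
  have h3 := FEdge633.sum_log_sq_le h.eigenvalues h0 hsum.le hcard
  have h4 : 0 ≤ Real.log (Fintype.card ι) := Real.log_natCast_nonneg _
  have h5 : ∑ i, h.eigenvalues i * (-Real.log (h.eigenvalues i) * -Real.log (h.eigenvalues i)) =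
      ∑ i, h.eigenvalues i * Real.log (h.eigenvalues i) ^ 2 :=
    Finset.sum_congr rfl fun i _ => by ring
  rw [h5]
  nlinarith

theorem KL_mean_nonneg {A : Matrix ι ι ℂ} (hA : IsDensity A) : 0 ≤ (A * KL A).trace.re := by
  have h : A.IsHermitian := hA.1.1
  have hsum : ∑ i, h.eigenvalues i = 1 := by
    have h1 := sp_trace h h.eigenvalues
    rw [← sp_self h, hA.2] at h1
    exact_mod_cast h1.symm
  have h0 : ∀ i, 0 ≤ h.eigenvalues i := fun i => hA.1.eigenvalues_nonneg i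
  rw [KL_eq h, self_mul_sp, sp_trace, Complex.ofReal_re]
  refine Finset.sum_nonneg fun i _ => mul_nonneg (h0 i) ?_
  have : h.eigenvalues i ≤ 1 := by
    rw [← hsum]; exact Finset.single_le_sum (fun k _ => h0 k) (Finset.mem_univ i)
  linarith [Real.log_nonpos (h0 i) this]

end spec

section bs
variable {α β γ δ : Type*} [Fintype α] [Fintype β] [Fintype γ] [Fintype δ]
  [DecidableEq α] [DecidableEq β] [DecidableEq γ] [DecidableEq δ]

theorem isDensity_out (S : FCov76.BS α β γ δ) {A : Matrix α α ℂ} {B : Matrix β β ℂ}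
    (hA : IsDensity A) (hB : IsDensity B) : IsDensity (S.out A B) :=
  ⟨S.out_posSemidef hA.1 hB.1, by rw [S.trace_out, hA.2, hB.2, mul_one]⟩

theorem herm_out_eps (S : FCov76.BS α β γ δ) {A : Matrix α α ℂ} {B : Matrix β β ℂ}
    (hA : IsDensity A) (hB : IsDensity B) (ε : ℝ) :
    (S.out A B + (ε : ℂ) • (1 : Matrix γ γ ℂ)).IsHermitian := by
  rw [Matrix.IsHermitian, conjTranspose_add, conjTranspose_smul, conjTranspose_one,
    (isDensity_out S hA hB).1.1.eq]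
  simp

/-- `Tr C K_Q² ≤ κ²` -/
theorem C_bound (S : FCov76.BS α β γ δ) {A : Matrix α α ℂ} {B : Matrix β β ℂ}
    (hA : IsDensity A) (hB : IsDensity B) {ε : ℝ} (h0 : 0 < ε) (h2 : ε ≤ 1 / 2) :
    (S.out A B * ((KL (S.out A B + (ε : ℂ) • (1 : Matrix γ γ ℂ)))ᴴ *
      KL (S.out A B + (ε : ℂ) • (1 : Matrix γ γ ℂ)))).trace.re ≤ kap ε ^ 2 := by
  have h1 := FCov76.trace_mono (isDensity_out S hA hB).1 (KQ_bound (isDensity_out S hA hB) h0 h2)
  rw [Matrix.mul_smul, Matrix.mul_one, trace_smul, (isDensity_out S hA hB).2, smul_eq_mul,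
    mul_one, Complex.ofReal_re] at h1
  exact h1

/-- `Tr A Y Yᴴ ≤ κ²` for `Y = P_A K_Q` -/
theorem Y_bound (S : FCov76.BS α β γ δ) {A : Matrix α α ℂ} {B : Matrix β β ℂ}
    (hA : IsDensity A) (hB : IsDensity B) {ε : ℝ} (h0 : 0 < ε) (h2 : ε ≤ 1 / 2) :
    (A * (S.PA B (KL (S.out A B + (ε : ℂ) • (1 : Matrix γ γ ℂ))) *
      (S.PA B (KL (S.out A B + (ε : ℂ) • (1 : Matrix γ γ ℂ))))ᴴ)).trace.re ≤ kap ε ^ 2 := by
  refine le_trans ?_ (C_bound S hA hB h0 h2)
  have hK := KL_conj (herm_out_eps S hA hB ε)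
  set KQ := KL (S.out A B + (ε : ℂ) • (1 : Matrix γ γ ℂ)) with hKQ
  have hY : (S.PA B KQ)ᴴ = S.PA B KQ := by rw [← S.PA_conjTranspose hB.1.1.eq, hK]
  have e1 : S.PA B KQ * (S.PA B KQ)ᴴ = (S.PA B KQ)ᴴ * S.PA B KQ := by rw [hY]
  rw [e1, S.PA_eq_ex]
  have h3 := FCov76.trace_mono hA.1 (FCov76.kadison hB.1 hB.2 (S.heis KQ))
  rw [FCov76.trace_mul_ex] at h3
  refine h3.trans ?_
  have h4 := FCov76.trace_mono (hA.1.kronecker hB.1) (S.heis_kadison KQ)
  refine h4.trans (le_of_eq ?_)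
  rw [FCov76.BS.out, S.trace_Phi_mul]

end bs

/-! ### one side -/

section side
variable {n K : ℕ}

theorem diag_re_nonneg {ι : Type*} {A : Matrix ι ι ℂ} [Fintype ι] (hA : A.PosSemidef) (k : ι) :
    0 ≤ (A k k).re := (Complex.le_def.1 (hA.diag_nonneg (i := k))).1

theorem En_eq (A : Matrix (Bx n K) (Bx n K) ℂ) :
    En A = ∑ k : Bx n K, ((∑ i, (k i : ℕ) : ℕ) : ℝ) * (A k k).re := by
  rw [En, num, Matrix.trace, Complex.re_sum]
  refine Finset.sum_congr rfl fun k _ => ?_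
  rw [Matrix.diag_apply, Matrix.mul_diagonal, mul_comm, ← Complex.ofReal_natCast,
    Complex.re_ofReal_mul]

theorem En_nonneg {A : Matrix (Bx n K) (Bx n K) ℂ} (hA : A.PosSemidef) : 0 ≤ En A := by
  rw [En_eq]
  exact Finset.sum_nonneg fun k _ => mul_nonneg (Nat.cast_nonneg _) (diag_re_nonneg hA k)

theorem Tp_eq (j : Fin n) (A : Matrix (Bx n K) (Bx n K) ℂ) :
    Tp j A = ∑ k ∈ Finset.univ.filter (fun k : Bx n K => (k j : ℕ) = K), (A k k).re := by
  rw [Tp, top, Matrix.trace, Complex.re_sum, Finset.sum_filter]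
  refine Finset.sum_congr rfl fun k _ => ?_
  rw [Matrix.diag_apply, Matrix.mul_diagonal]
  split_ifs <;> simp

theorem Tp_nonneg (j : Fin n) {A : Matrix (Bx n K) (Bx n K) ℂ} (hA : A.PosSemidef) :
    0 ≤ Tp j A := by
  rw [Tp_eq]
  exact Finset.sum_nonneg fun k _ => diag_re_nonneg hA k

set_option maxHeartbeats 2000000 in
/-- edge weight and mean of one input -/
theorem side (S : FCov76.BS (Bx n K) (Bx n K) (Bx n (2 * K)) (Bx n (2 * K))) (j : Fin n)
    (hSa : S.a = ann n K j) (hSQ : S.QA = top n K j) (hA0 : 0 < S.hA)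
    {A B : Matrix (Bx n K) (Bx n K) ℂ} (hA : IsDensity A) (hB : IsDensity B)
    {ε μ lam r : ℝ} (h0 : 0 < ε) (h2 : ε ≤ 1 / 2) (hμ : 0 < μ) (hlam : 0 ≤ lam)
    (EL : (lam : ℂ) • KL A = S.PA B (KL (S.out A B + (ε : ℂ) • (1 : Matrix _ _ ℂ)))
      + ((μ * S.hA ^ 2 : ℝ) : ℂ) • num n K + (r : ℂ) • (1 : Matrix _ _ ℂ))
    (hE : (((2 * K + 2 : ℝ) : ℂ) • (1 : Matrix (Bx n (2 * K) × Bx n (2 * K))
        (Bx n (2 * K) × Bx n (2 * K)) ℂ) - S.EAᴴ * S.EA).PosSemidef)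
    (hK : 2 * (En A + 1) ≤ K) :
    Tp j A ≤ (4 * (1 + lam) / (μ * S.hA ^ 2) * (kap ε + n * Real.log (2 * K + 2) + 1) / K) ^ 2 ∧
    ‖mX j A‖ ≤ 4 * (1 + lam) / (μ * S.hA ^ 2) * kap ε * Real.sqrt ((K + 1) * Tp j A) := by
  have hEn : 0 ≤ En A := En_nonneg hA.1
  have hT0 : 0 ≤ Tp j A := Tp_nonneg j hA.1
  have hkap : 0 < kap ε := kap_pos h0 h2
  have hs : 0 < μ * S.hA ^ 2 := by positivity
  have hK2 : (2 : ℝ) ≤ K := by linarith
  have hK0 : (0 : ℝ) < K := by linarith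
  have hlogd : 0 ≤ Real.log (Fintype.card (Bx n K)) := Real.log_natCast_nonneg _
  have hlogd2 : Real.log (Fintype.card (Bx n K)) ≤ n * Real.log (2 * K + 2) := by
    have e1 : ((Fintype.card (Bx n K) : ℕ) : ℝ) = ((K : ℝ) + 1) ^ n := by
      simp [Bx]
    rw [e1, Real.log_pow]
    refine mul_le_mul_of_nonneg_left (Real.log_le_log (by positivity) (by linarith))
      (Nat.cast_nonneg _)
  constructor
  · have h := FEdge633.edge_weight' hA.1 hA.2 (fun k : Bx n K => ((∑ i, (k i : ℕ) : ℕ) : ℝ))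
      (Finset.univ.filter fun k : Bx n K => (k j : ℕ) = K) (K := (K : ℝ)) (r := 1) (lam := lam)
      (s := μ * S.hA ^ 2) (c := -r) (κ := kap ε)
      (v := 2 * Real.log (Fintype.card (Bx n K)) + 2) (p := Tp j A) (E := En A)
      (Y := S.PA B (KL (S.out A B + (ε : ℂ) • (1 : Matrix _ _ ℂ)))) (Kh := KL A)
      (by
        intro k hk
        rw [Finset.mem_filter] at hk
        have h1 : (k j : ℕ) ≤ ∑ i, (k i : ℕ) :=
          Finset.single_le_sum (f := fun i => (k i : ℕ)) (fun i _ => Nat.zero_le _)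
            (Finset.mem_univ j)
        rw [hk.2] at h1
        exact_mod_cast h1)
      zero_le_one hlam hs hkap.le (by positivity) (Y_bound S hA hB h0 h2) (v_bound hA)
      (KL_mean_nonneg hA)
      (by
        rw [EL, num]
        have e1 : (fun k : Bx n K => ((((∑ i, (k i : ℕ) : ℕ) : ℝ)) : ℂ)) =
            fun k : Bx n K => ((∑ i, (k i : ℕ) : ℕ) : ℂ) := by
          funext k
          rw [Complex.ofReal_natCast]
        rw [e1]
        push_cast
        module)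
      (Tp_eq j A) (En_eq A) (by linarith)
    refine h.trans (pow_le_pow_left₀ (by
      have : En A < K := by linarith
      have : 0 < (K : ℝ) - En A := by linarith
      positivity) ?_ 2)
    have hKE : (K : ℝ) / 2 ≤ K - En A := by linarith
    have e1 : (2 * 1 * kap ε + lam * (2 * Real.log (Fintype.card (Bx n K)) + 2)) ≤
        2 * (1 + lam) * (kap ε + n * Real.log (2 * K + 2) + 1) := by
      have f1 : lam * (2 * Real.log (Fintype.card (Bx n K)) + 2) ≤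
          lam * (2 * (n * Real.log (2 * K + 2)) + 2) := by gcongr
      have f2 : 0 ≤ (n : ℝ) * Real.log (2 * K + 2) := hlogd.trans hlogd2
      nlinarith [mul_nonneg hlam hkap.le]
    calc (2 * 1 * kap ε + lam * (2 * Real.log (Fintype.card (Bx n K)) + 2)) /
          (μ * S.hA ^ 2 * (K - En A))
        ≤ (2 * (1 + lam) * (kap ε + n * Real.log (2 * K + 2) + 1)) /
          (μ * S.hA ^ 2 * (K / 2)) := by
          gcongr
          have : 0 ≤ Real.log (2 * (K : ℝ) + 2) := Real.log_nonneg (by linarith)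
          positivity
      _ = 4 * (1 + lam) / (μ * S.hA ^ 2) * (kap ε + n * Real.log (2 * K + 2) + 1) / K := by
          field_simp
          ring
  · have hA0' : S.hA ≠ 0 := hA0.ne'
    have hcomC : S.out A B * KL (S.out A B + (ε : ℂ) • (1 : Matrix _ _ ℂ)) =
        KL (S.out A B + (ε : ℂ) • (1 : Matrix _ _ ℂ)) * S.out A B := by
      have := KL_comm (herm_out_eps S hA hB ε)
      rw [Matrix.add_mul, Matrix.mul_add, Matrix.smul_mul, Matrix.mul_smul, Matrix.one_mul,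
        Matrix.mul_one] at this
      exact add_right_cancel this
    have hm := FGap633.mean_A S (A := A) (B := B) (by rw [hSa]; exact ann_comm_num j) (r : ℂ) EL
      (KL_comm hA.1.1) hcomC
    have hb := S.trace_ErrA_bound hA.1 hB.1 hB.2 hE
      (KL (S.out A B + (ε : ℂ) • (1 : Matrix _ _ ℂ)))
    rw [← hm, hSQ, hSa] at hb
    have hb2 : (μ * S.hA ^ 2 * ‖mX j A‖) ^ 2 ≤ Tp j A * ((2 * K + 2) * kap ε ^ 2) := by
      have e1 : ‖((μ * S.hA ^ 2 : ℝ) : ℂ) * (A * ann n K j).trace‖ = μ * S.hA ^ 2 * ‖mX j A‖ := by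
        rw [norm_mul, Complex.norm_real, Real.norm_of_nonneg hs.le, mX]
      rw [e1] at hb
      refine hb.trans ?_
      have e2 : (A * top n K j).trace.re = Tp j A := rfl
      rw [e2]
      gcongr
      exact C_bound S hA hB h0 h2
    have hb3 : μ * S.hA ^ 2 * ‖mX j A‖ ≤ 2 * kap ε * Real.sqrt ((K + 1) * Tp j A) := by
      apply abs_le_of_sq_le_sq' _ (by positivity) |>.2
      refine hb2.trans ?_
      rw [mul_pow, mul_pow, Real.sq_sqrt (by positivity)]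
      nlinarith [mul_nonneg (mul_nonneg hT0 (sq_nonneg (kap ε))) (by linarith : (0 : ℝ) ≤ K + 1)]
    have hb4 : ‖mX j A‖ ≤ 2 * kap ε * Real.sqrt ((K + 1) * Tp j A) / (μ * S.hA ^ 2) := by
      rw [le_div_iff₀ hs]
      linarith
    refine hb4.trans ?_
    have e3 : 4 * (1 + lam) / (μ * S.hA ^ 2) * kap ε * Real.sqrt ((K + 1) * Tp j A) =
        (4 * (1 + lam) * kap ε * Real.sqrt ((K + 1) * Tp j A)) / (μ * S.hA ^ 2) := by ring
    rw [e3]
    apply div_le_div_of_nonneg_right _ hs.le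
    have : 0 ≤ kap ε * Real.sqrt ((K + 1) * Tp j A) := by positivity
    nlinarith

end side

set_option maxHeartbeats 1000000 in
/-- **LEAF FEDGE** -/
theorem fedge (hW : FW) (hEL : FMINel) : FEDGE := by
  intro p
  have h1η : 0 < 1 - p.η := by linarith [p.η_lt]
  have hNC0 : 0 < p.NC := by
    have := p.NA_pos; have := p.NB_pos; have := p.η_pos
    unfold Par.NC; positivity
  have hbA : 0 < p.bA := bN_pos p.NA_pos
  have hbB : 0 < p.bB := bN_pos p.NB_pos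
  have hbC : 0 < p.bC := bN_pos hNC0
  have hμ := p.μ_pos
  have hη := p.η_pos
  have hβ : 0 < p.β := by unfold Par.β; positivity
  have hlA : 0 ≤ p.lamA := by unfold Par.lamA; positivity
  have hlB : 0 ≤ p.lamB := by unfold Par.lamB; positivity
  refine ⟨4 * (1 + p.lamA) / (p.μ * p.η) + 4 * (1 + p.lamB) / (p.μ * (1 - p.η)), by positivity, ?_⟩
  intro n K j ε h0 h2 A B hmin hK
  obtain ⟨S, hS⟩ := hW p.η n K j p.η_pos p.η_lt
  obtain ⟨⟨rA, hELA⟩, ⟨rB, hELB⟩⟩ := hEL p n K ε h0 A B hmin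
  have hhA : S.hA ^ 2 = p.η := by rw [hS.hA, Real.sq_sqrt p.η_pos.le]
  have hhB : S.hB ^ 2 = 1 - p.η := by rw [hS.hB, Real.sq_sqrt h1η.le]
  have hA0 : 0 < S.hA := by rw [hS.hA]; exact Real.sqrt_pos.2 p.η_pos
  have hB0 : 0 < S.hB := by rw [hS.hB]; exact Real.sqrt_pos.2 h1η
  have hEnA := En_nonneg hmin.dA.1
  have hEnB := En_nonneg hmin.dB.1
  have hQdef : outQ p.η ε A B = S.out A B + (ε : ℂ) • (1 : Matrix _ _ ℂ) := by
    rw [out_inst hS, outQ]
  obtain ⟨hE1, hE2⟩ := FinW87.hE_isBox ⟨p.η_pos.le, p.η_lt.le⟩ j hS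
  obtain ⟨a1, a2⟩ := side S j hS.a hS.QA hA0 hmin.dA hmin.dB h0 h2 hμ hlA
    (r := rA) (by rw [hELA, hhA, PA_inst hS, hQdef]) hE1 (by linarith)
  have hswap : S.swap.out B A = S.out A B := S.swap_out A B
  have hsw : S.swap.hA ^ 2 = 1 - p.η := hhB
  have hPB : S.swap.PA A (KL (S.swap.out B A + (ε : ℂ) • (1 : Matrix _ _ ℂ))) =
      PB p.η A (KL (outQ p.η ε A B)) := by
    rw [hswap, ← hQdef, ← PB_inst hS]
    rfl
  obtain ⟨b1, b2⟩ := side S.swap j hS.b hS.QB hB0 hmin.dB hmin.dA h0 h2 hμ hlB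
    (r := rB) (by rw [hELB, hPB, hsw]) hE2 (by linarith)
  rw [hhA] at a1 a2
  rw [hsw] at b1 b2
  have hkap : 0 < kap ε := kap_pos h0 h2
  have hlog : 0 ≤ Real.log (2 * (K : ℝ) + 2) :=
    Real.log_nonneg (by have : (0 : ℝ) ≤ K := Nat.cast_nonneg K; linarith)
  have cA : 0 ≤ 4 * (1 + p.lamA) / (p.μ * p.η) := by positivity
  have cB : 0 ≤ 4 * (1 + p.lamB) / (p.μ * (1 - p.η)) := by positivity
  refine ⟨a1.trans ?_, b1.trans ?_, a2.trans ?_, b2.trans ?_⟩
  · gcongr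
    linarith
  · gcongr
    linarith
  · gcongr
    linarith
  · gcongr
    linarith

end

end Crest.Agent.R331.FEdgeInst633
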