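import Mathlib
import Crest.Agent.R331.Duh_839
import Crest.Agent.R332.FullKlein
import Crest.Agent.R331.FDefs_136
import Crest.Agent.R331.FinPhi2_280
import Crest.Agent.R331.FinW_87

-- ▼ part R331/Duh2_839
section

set_option autoImplicit false

open Matrix NormedSpace Filter Topology

namespace Crest.Agent.R331.Duh839

variable {m : Type*} [Fintype m] [DecidableEq m]

section
open scoped Matrix.Norms.Operator

theorem diffAt_exp (H : Matrix m m ℂ) : DifferentiableAt ℂ (exp : Matrix m m ℂ → Matrix m m ℂ) H :=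
  (exp_analytic (𝕂 := ℂ) H).differentiableAt

theorem line_deriv {H E : Matrix m m ℂ} {D : Matrix m m ℂ →L[ℂ] Matrix m m ℂ}
    (hD : HasFDerivAt (exp : Matrix m m ℂ → Matrix m m ℂ) D H) :
    HasDerivAt (fun t : ℂ => exp (H + t • E)) (D E) 0 := by
  have h1 : HasDerivAt (fun t : ℂ => H + t • E) E 0 := by
    have h0 := ((hasDerivAt_id (0:ℂ)).smul_const E).const_add H
    simp only [id, one_smul] at h0
    exact h0
  have h2 : HasFDerivAt (exp : Matrix m m ℂ → Matrix m m ℂ) D (H + (0:ℂ) • E) := by simpa using hD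
  exact h2.comp_hasDerivAt (0:ℂ) h1

theorem fderiv_single (h : m → ℝ) (i j : m) {D : Matrix m m ℂ →L[ℂ] Matrix m m ℂ}
    (hD : HasFDerivAt (exp : Matrix m m ℂ → Matrix m m ℂ) D (dg h)) :
    D (Matrix.single i j (1:ℂ)) = (LMe (h i) (h j) : ℂ) • Matrix.single i j (1:ℂ) := by
  have h1 := line_deriv (E := Matrix.single i j (1:ℂ)) hD
  refine h1.unique ?_
  by_cases hij : i = j
  · subst hij
    have h2 : (fun t : ℂ => exp (dg h + t • Matrix.single i i (1:ℂ))) = fun t : ℂ =>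
        exp (dg h) + ((Real.exp (h i) : ℂ) * (Complex.exp t - 1)) • Matrix.single i i (1 : ℂ) := by
      funext t; exact exp_add_single_self h i t
    rw [h2]
    have h3 : HasDerivAt (fun t : ℂ => (Real.exp (h i) : ℂ) * (Complex.exp t - 1))
        ((Real.exp (h i) : ℂ) * Complex.exp 0) 0 :=
      ((Complex.hasDerivAt_exp 0).sub_const 1).const_mul _
    have h4 := (h3.smul_const (Matrix.single i i (1:ℂ))).const_add (exp (dg h))
    have h5 : LMe (h i) (h i) = Real.exp (h i) := by simp [LMe]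
    rw [h5]
    simpa using h4
  · have h2 : (fun t : ℂ => exp (dg h + t • Matrix.single i j (1:ℂ))) = fun t : ℂ =>
        exp (dg h) + (t * (LMe (h i) (h j) : ℂ)) • Matrix.single i j (1:ℂ) := by
      funext t; exact exp_add_single_of_ne h hij t
    rw [h2]
    have h3 : HasDerivAt (fun t : ℂ => t * (LMe (h i) (h j) : ℂ)) (1 * (LMe (h i) (h j) : ℂ)) 0 :=
      (hasDerivAt_id (0:ℂ)).mul_const _
    have h4 := (h3.smul_const (Matrix.single i j (1:ℂ))).const_add (exp (dg h))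
    simpa using h4

theorem fderiv_apply (h : m → ℝ) (Z : Matrix m m ℂ) {D : Matrix m m ℂ →L[ℂ] Matrix m m ℂ}
    (hD : HasFDerivAt (exp : Matrix m m ℂ → Matrix m m ℂ) D (dg h)) :
    D Z = Matrix.of fun i j => Z i j * (LMe (h i) (h j) : ℂ) := by
  conv_lhs => rw [Matrix.matrix_eq_sum_single Z]
  rw [map_sum]
  simp_rw [map_sum]
  have h1 : ∀ i j, D (Matrix.single i j (Z i j)) = Matrix.single i j (Z i j * (LMe (h i) (h j) : ℂ)) := by
    intro i j
    have h2 : Matrix.single i j (Z i j) = (Z i j) • Matrix.single i j (1:ℂ) := by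
      rw [Matrix.smul_single]; simp
    rw [h2, map_smul, fderiv_single h i j hD, Matrix.smul_single, Matrix.smul_single]
    simp
  simp_rw [h1]
  exact (Matrix.matrix_eq_sum_single (Matrix.of fun i j => Z i j * (LMe (h i) (h j) : ℂ))).symm

end

/-- conjugation by the eigenvector unitary -/
theorem exp_conj_unitary (U : Matrix.unitaryGroup m ℂ) (A : Matrix m m ℂ) :
    exp ((U : Matrix m m ℂ) * A * star (U : Matrix m m ℂ)) =
      (U : Matrix m m ℂ) * exp A * star (U : Matrix m m ℂ) := by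
  let V : (Matrix m m ℂ)ˣ := ⟨U, star (U : Matrix m m ℂ), Unitary.mul_star_self_of_mem U.2,
    Unitary.star_mul_self_of_mem U.2⟩
  exact Matrix.exp_units_conj V A

theorem trace_conj_unitary (U : Matrix.unitaryGroup m ℂ) (A : Matrix m m ℂ) :
    ((U : Matrix m m ℂ) * A * star (U : Matrix m m ℂ)).trace = A.trace := by
  rw [Matrix.trace_mul_cycle, Unitary.star_mul_self_of_mem U.2, one_mul]

section
open scoped Matrix.Norms.Operator

/-- entrywise derivative of `t ↦ exp (diag h + t Z)` at `0` -/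
theorem hasDerivAt_exp_entry (h : m → ℝ) (Z : Matrix m m ℂ) (i j : m) :
    HasDerivAt (fun t : ℝ => exp (dg h + (t:ℂ) • Z) i j) (Z i j * (LMe (h i) (h j) : ℂ)) 0 := by
  have hD := (diffAt_exp (dg h)).hasFDerivAt
  have h1 := line_deriv (E := Z) hD
  rw [fderiv_apply h Z hD] at h1
  let L : Matrix m m ℂ →ₗ[ℂ] ℂ := 
    { toFun := fun M => M i j
      map_add' := fun _ _ => rfl
      map_smul' := fun _ _ => rfl }
  have h2 := (L.toContinuousLinearMap.hasFDerivAt (x := exp (dg h + (0:ℂ) • Z))).comp_hasDerivAt (0:ℂ) h1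
  have h3 := h2.comp_ofReal
  exact h3

/-- derivative of the trace of the exponential along a line of Hermitian matrices -/
theorem hasDerivAt_trace_exp {H Z : Matrix m m ℂ} (hH : H.IsHermitian) (hZ : Z.IsHermitian) (t₀ : ℝ) :
    HasDerivAt (fun t : ℝ => (exp (H + (t:ℂ) • Z)).trace) ((exp (H + (t₀:ℂ) • Z) * Z).trace) t₀ := by
  set K : Matrix m m ℂ := H + (t₀:ℂ) • Z with hK
  have hKh : K.IsHermitian := by
    rw [hK]
    refine hH.add ?_
    unfold Matrix.IsHermitian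
    rw [Matrix.conjTranspose_smul, hZ.eq]
    simp
  -- diagonalise
  set U := hKh.eigenvectorUnitary with hU
  set h := hKh.eigenvalues with hh
  have hspec : K = (U : Matrix m m ℂ) * dg h * star (U : Matrix m m ℂ) := by
    conv_lhs => rw [hKh.spectral_theorem]
    rw [Unitary.conjStarAlgAut_apply]
    rfl
  set W : Matrix m m ℂ := star (U : Matrix m m ℂ) * Z * (U : Matrix m m ℂ) with hW
  have hZW : Z = (U : Matrix m m ℂ) * W * star (U : Matrix m m ℂ) := by
    have e1 : (U : Matrix m m ℂ) * star (U : Matrix m m ℂ) = 1 := Unitary.mul_star_self_of_mem U.2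
    rw [hW]
    calc Z = 1 * Z * 1 := by simp
      _ = ((U : Matrix m m ℂ) * star (U : Matrix m m ℂ)) * Z *
          ((U : Matrix m m ℂ) * star (U : Matrix m m ℂ)) := by rw [e1]
      _ = _ := by simp only [Matrix.mul_assoc]
  have hline : ∀ t : ℝ, (exp (H + (t:ℂ) • Z)).trace = (exp (dg h + ((t - t₀ : ℝ) : ℂ) • W)).trace := by
    intro t
    have e1 : H + (t:ℂ) • Z = (U : Matrix m m ℂ) * (dg h + ((t - t₀ : ℝ) : ℂ) • W) *
        star (U : Matrix m m ℂ) := by
      rw [Matrix.mul_add, Matrix.add_mul, ← hspec, Matrix.mul_smul, Matrix.smul_mul, ← hZW, hK]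
      push_cast
      rw [sub_smul]
      abel
    rw [e1, exp_conj_unitary, trace_conj_unitary]
  have hd : ∀ i : m, HasDerivAt (fun t : ℝ => exp (dg h + ((t - t₀ : ℝ) : ℂ) • W) i i)
      (W i i * (LMe (h i) (h i) : ℂ)) t₀ := by
    intro i
    have h1 := hasDerivAt_exp_entry h W i i
    have h2 : HasDerivAt (fun t : ℝ => t - t₀) 1 t₀ := (hasDerivAt_id t₀).sub_const t₀
    have h3 : HasDerivAt (fun t : ℝ => exp (dg h + (t:ℂ) • W) i i) (W i i * (LMe (h i) (h i) : ℂ))
        ((fun t : ℝ => t - t₀) t₀) := by simpa using h1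
    have h4 := HasDerivAt.scomp (h := fun t : ℝ => t - t₀) t₀ h3 h2
    rw [one_smul] at h4
    exact h4
  have hsum : HasDerivAt (fun t : ℝ => ∑ i, exp (dg h + ((t - t₀ : ℝ) : ℂ) • W) i i)
      (∑ i, W i i * (LMe (h i) (h i) : ℂ)) t₀ := by
    have := HasDerivAt.fun_sum (u := Finset.univ) (fun i _ => hd i)
    exact this
  have hfun : (fun t : ℝ => (exp (H + (t:ℂ) • Z)).trace) =
      fun t : ℝ => ∑ i, exp (dg h + ((t - t₀ : ℝ) : ℂ) • W) i i := by
    funext t
    rw [hline t]; rfl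
  rw [hfun]
  convert hsum using 1
  -- trace (exp K * Z) = ∑ W i i e^{h i}
  have e2 : exp K * Z = (U : Matrix m m ℂ) * (exp (dg h) * W) * star (U : Matrix m m ℂ) := by
    have e1 : star (U : Matrix m m ℂ) * (U : Matrix m m ℂ) = 1 := Unitary.star_mul_self_of_mem U.2
    conv_lhs => rw [hspec, exp_conj_unitary, hZW]
    calc (U : Matrix m m ℂ) * exp (dg h) * star (U : Matrix m m ℂ) *
          ((U : Matrix m m ℂ) * W * star (U : Matrix m m ℂ))
        = (U : Matrix m m ℂ) * exp (dg h) * (star (U : Matrix m m ℂ) * (U : Matrix m m ℂ)) * W *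
            star (U : Matrix m m ℂ) := by simp only [Matrix.mul_assoc]
      _ = _ := by rw [e1]; simp only [Matrix.mul_assoc, Matrix.mul_one, Matrix.one_mul]
  rw [e2, trace_conj_unitary, exp_dg, Matrix.trace]
  refine Finset.sum_congr rfl fun i _ => ?_
  rw [Matrix.diag_apply, Matrix.diagonal_mul]
  simp [LMe, mul_comm]

end

end Crest.Agent.R331.Duh839
end

-- ▼ part R331/FMin_299
section

/-!
# Row 331 (S0514), finite-matrix route: leaves [FMIN] and [FSDPI]

Finite Hermitian matrices only.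
* `ent`, `mlog`, `lse H = log Tr e^H`, Klein inequality with equality case, Gibbs principle;
* continuity of `ent`, compactness of the set of density matrices, existence of minimisers;
* `ELData`: abstract pair `(C, P)` with `Tr (C(A) Y) = Tr (A P(Y))` on densities; a minimiser `A` of
  `F(A) = ent (C A) + Tr A h0 - lam * ent A` is `exp(-h/lam)/Z`, and satisfies the strong data
  processing inequality `M_A[P Y] ≤ lam M_C[Y]` for the Kubo-Mori forms.
-/

set_option autoImplicit false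
set_option linter.unusedSectionVars false

open scoped ComplexOrder Matrix Topology
open Matrix Filter Crest.Agent.R332.Full Crest.Agent.R331.Duh839

namespace Crest.Agent.R331.FMin299

variable {ι : Type*} [Fintype ι] [DecidableEq ι]
variable {κ : Type*} [Fintype κ] [DecidableEq κ]

/-- Density matrices. -/
def IsDens (A : Matrix ι ι ℂ) : Prop := A.PosSemidef ∧ A.trace = 1

/-- von Neumann entropy (through the functional calculus). -/
noncomputable def ent (A : Matrix ι ι ℂ) : ℝ := (cf Real.negMulLog A).trace.re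

/-- matrix logarithm -/
noncomputable def mlog (A : Matrix ι ι ℂ) : Matrix ι ι ℂ := cf Real.log A

/-- `log Tr e^H` -/
noncomputable def lse (H : Matrix ι ι ℂ) : ℝ := Real.log ((cf Real.exp H).trace.re)

/-! ### functional calculus -/

lemma cf_comp (g f : ℝ → ℝ) {A : Matrix ι ι ℂ} (hA : A.IsHermitian) :
    cf g (cf f A) = cf (fun x => g (f x)) A := by
  have h := cfc_comp' g f A (((Matrix.finite_real_spectrum (A := A)).image f).continuousOn g)
    (continuousOn_spectrum f) hA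
  exact h.symm

lemma trace_cf {A : Matrix ι ι ℂ} (hA : A.IsHermitian) (f : ℝ → ℝ) :
    (cf f A).trace = ((∑ i, f (hA.eigenvalues i) : ℝ) : ℂ) := by
  have h1 : cf f A = (hA.eigenvectorUnitary : Matrix ι ι ℂ) *
      diagonal (RCLike.ofReal ∘ f ∘ hA.eigenvalues) *
      star (hA.eigenvectorUnitary : Matrix ι ι ℂ) := by
    rw [cf_def, hA.cfc_eq, Matrix.IsHermitian.cfc, Unitary.conjStarAlgAut_apply]
  rw [h1, trace_conj_unitary]
  simp [Matrix.trace]

lemma ent_eq_sum {A : Matrix ι ι ℂ} (hA : A.IsHermitian) :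
    ent A = ∑ i, Real.negMulLog (hA.eigenvalues i) := by
  rw [ent, trace_cf hA, Complex.ofReal_re]

lemma spectral_form {H : Matrix ι ι ℂ} (hH : H.IsHermitian) :
    H = (hH.eigenvectorUnitary : Matrix ι ι ℂ) * dg hH.eigenvalues *
      star (hH.eigenvectorUnitary : Matrix ι ι ℂ) := by
  conv_lhs => rw [hH.spectral_theorem]
  rw [Unitary.conjStarAlgAut_apply]
  rfl

lemma cf_form {H : Matrix ι ι ℂ} (hH : H.IsHermitian) (f : ℝ → ℝ) :
    cf f H = (hH.eigenvectorUnitary : Matrix ι ι ℂ) * dg (fun i => f (hH.eigenvalues i)) *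
      star (hH.eigenvectorUnitary : Matrix ι ι ℂ) := by
  rw [cf_def, hH.cfc_eq, Matrix.IsHermitian.cfc, Unitary.conjStarAlgAut_apply]
  rfl

lemma exp_eq_cf {H : Matrix ι ι ℂ} (hH : H.IsHermitian) :
    NormedSpace.exp H = cf Real.exp H := by
  conv_lhs => rw [spectral_form hH]
  rw [exp_conj_unitary, exp_dg, cf_form hH]

lemma isHermitian_mlog (A : Matrix ι ι ℂ) : (mlog A).IsHermitian := isHermitian_cf _ _

lemma spec_pos {A : Matrix ι ι ℂ} (hA : A.PosDef) {x : ℝ} (hx : x ∈ spectrum ℝ A) : 0 < x := by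
  rw [hA.1.spectrum_real_eq_range_eigenvalues] at hx
  obtain ⟨i, rfl⟩ := hx
  exact hA.eigenvalues_pos i


lemma cf_exp_mlog {A : Matrix ι ι ℂ} (hA : A.PosDef) : cf Real.exp (mlog A) = A := by
  rw [mlog, cf_comp _ _ hA.1]
  conv_rhs => rw [← cf_id hA.1]
  exact cf_congr fun x hx => Real.exp_log (spec_pos hA hx)

lemma mlog_cf_exp {H : Matrix ι ι ℂ} (hH : H.IsHermitian) : mlog (cf Real.exp H) = H := by
  rw [mlog, cf_comp _ _ hH]
  conv_rhs => rw [← cf_id hH]
  exact cf_congr fun x _ => Real.log_exp x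

lemma posDef_cf {A : Matrix ι ι ℂ} (hA : A.IsHermitian) {f : ℝ → ℝ}
    (h : ∀ x, 0 < f x) : (cf f A).PosDef := by
  rw [cf_form hA]
  have h1 : (dg (fun i => f (hA.eigenvalues i))).PosDef := by
    apply Matrix.PosDef.diagonal
    intro i
    exact_mod_cast h _
  have h2 := h1.mul_mul_conjTranspose_same (B := (hA.eigenvectorUnitary : Matrix ι ι ℂ)) ?_
  · exact h2
  · have : IsUnit (hA.eigenvectorUnitary : Matrix ι ι ℂ) :=
      ⟨⟨_, _, Unitary.coe_mul_star_self hA.eigenvectorUnitary,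
        Unitary.coe_star_mul_self hA.eigenvectorUnitary⟩, rfl⟩
    exact Matrix.vecMul_injective_iff_isUnit.mpr this

/-! ### Klein inequality and relative entropy -/

lemma klein_pt {x y : ℝ} (hx : 0 ≤ x) (hy : 0 < y) :
    0 ≤ -Real.negMulLog x - x * Real.log y - x + y := by
  rcases hx.eq_or_lt with h | h
  · subst h; simp; linarith
  · have h1 := Real.log_le_sub_one_of_pos (div_pos hy h)
    rw [Real.log_div hy.ne' h.ne'] at h1
    have h2 : x * (Real.log y - Real.log x) ≤ x * (y / x - 1) :=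
      mul_le_mul_of_nonneg_left h1 h.le
    have h3 : x * (y / x - 1) = y - x := by field_simp
    rw [Real.negMulLog]
    nlinarith

lemma klein_pt_eq {x y : ℝ} (hx : 0 ≤ x) (hy : 0 < y)
    (h0 : -Real.negMulLog x - x * Real.log y - x + y = 0) : x = y := by
  rcases hx.eq_or_lt with h | h
  · subst h; simp at h0; linarith
  · by_contra hne
    have h1 := Real.log_lt_sub_one_of_pos (div_pos hy h) (by
      intro h'; rw [div_eq_one_iff_eq h.ne'] at h'; exact hne h'.symm)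
    rw [Real.log_div hy.ne' h.ne'] at h1
    have h2 : x * (Real.log y - Real.log x) < x * (y / x - 1) :=
      mul_lt_mul_of_pos_left h1 h
    have h3 : x * (y / x - 1) = y - x := by field_simp
    rw [Real.negMulLog] at h0
    nlinarith

/-- relative entropy `Tr A log A - Tr A log T` -/
noncomputable def rel (A T : Matrix ι ι ℂ) : ℝ := - ent A - tp A (mlog T)

lemma tp_one_right (A : Matrix ι ι ℂ) : tp A 1 = A.trace.re := by simp [tp]

lemma tp_one_left (A : Matrix ι ι ℂ) : tp 1 A = A.trace.re := by simp [tp]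

lemma klein_expand {A T : Matrix ι ι ℂ} (hA : A.PosSemidef) (hT : T.PosDef) :
    ∃ w : ι → ι → ℝ, (∀ i j, 0 ≤ w i j) ∧
      rel A T - A.trace.re + T.trace.re = ∑ i, ∑ j, w i j *
        (-Real.negMulLog (hA.1.eigenvalues i) - hA.1.eigenvalues i * Real.log (hT.1.eigenvalues j)
          - hA.1.eigenvalues i + hT.1.eigenvalues j) ∧
      tp (A - T) (A - T) = ∑ i, ∑ j, w i j * (hA.1.eigenvalues i - hT.1.eigenvalues j) ^ 2 := by
  obtain ⟨w, hw, h⟩ := exists_tp_cf_cf hA.1 hT.1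
  refine ⟨w, hw, ?_, ?_⟩
  · have e1 := h Real.negMulLog (fun _ => 1)
    have e2 := h (fun x => x) Real.log
    have e3 := h (fun x => x) (fun _ => 1)
    have e4 := h (fun _ => 1) (fun x => x)
    rw [cf_one hT.1, tp_one_right] at e1
    rw [cf_id hA.1] at e2
    rw [cf_id hA.1, cf_one hT.1, tp_one_right] at e3
    rw [cf_id hT.1, cf_one hA.1, tp_one_left] at e4
    rw [rel, ent, mlog, e1, e2, e3, e4, ← Finset.sum_neg_distrib, ← Finset.sum_sub_distrib,
      ← Finset.sum_sub_distrib, ← Finset.sum_add_distrib]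
    refine Finset.sum_congr rfl fun i _ => ?_
    rw [← Finset.sum_neg_distrib, ← Finset.sum_sub_distrib,
      ← Finset.sum_sub_distrib, ← Finset.sum_add_distrib]
    refine Finset.sum_congr rfl fun j _ => ?_
    ring
  · have e1 : tp A A = ∑ i, ∑ j, w i j * (hA.1.eigenvalues i ^ 2 * 1) := by
      have := h (fun x => x * x) (fun _ => 1)
      rw [← cf_mul, cf_one hT.1, cf_id hA.1, tp, mul_one] at this
      rw [tp, this]
      simp only [pow_two]
    have e2 : tp T T = ∑ i, ∑ j, w i j * (1 * hT.1.eigenvalues j ^ 2) := by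
      have := h (fun _ => 1) (fun x => x * x)
      rw [← cf_mul, cf_one hA.1, cf_id hT.1, tp, one_mul] at this
      rw [tp, this]
      simp only [pow_two]
    have e3 := h (fun x => x) (fun x => x)
    rw [cf_id hA.1, cf_id hT.1] at e3
    rw [tp_sub_left, tp_sub_right, tp_sub_right, tp_comm T A, e1, e2, e3,
      ← Finset.sum_sub_distrib, ← Finset.sum_sub_distrib, ← Finset.sum_sub_distrib]
    refine Finset.sum_congr rfl fun i _ => ?_
    rw [← Finset.sum_sub_distrib, ← Finset.sum_sub_distrib, ← Finset.sum_sub_distrib]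
    refine Finset.sum_congr rfl fun j _ => ?_
    ring

/-- **Klein inequality** (unnormalised). -/
theorem rel_nonneg' {A T : Matrix ι ι ℂ} (hA : A.PosSemidef) (hT : T.PosDef) :
    0 ≤ rel A T - A.trace.re + T.trace.re := by
  obtain ⟨w, hw, h, -⟩ := klein_expand hA hT
  rw [h]
  exact Finset.sum_nonneg fun i _ => Finset.sum_nonneg fun j _ =>
    mul_nonneg (hw i j) (klein_pt (hA.eigenvalues_nonneg i) (hT.eigenvalues_pos j))

/-- Equality case of Klein's inequality. -/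
theorem eq_of_rel_eq' {A T : Matrix ι ι ℂ} (hA : A.PosSemidef) (hT : T.PosDef)
    (h0 : rel A T - A.trace.re + T.trace.re = 0) : A = T := by
  obtain ⟨w, hw, h, h2⟩ := klein_expand hA hT
  rw [h] at h0
  have hterm : ∀ i j, 0 ≤ w i j *
        (-Real.negMulLog (hA.1.eigenvalues i) - hA.1.eigenvalues i * Real.log (hT.1.eigenvalues j)
          - hA.1.eigenvalues i + hT.1.eigenvalues j) := fun i j =>
    mul_nonneg (hw i j) (klein_pt (hA.eigenvalues_nonneg i) (hT.eigenvalues_pos j))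
  have h1 : ∀ i j, w i j *
        (-Real.negMulLog (hA.1.eigenvalues i) - hA.1.eigenvalues i * Real.log (hT.1.eigenvalues j)
          - hA.1.eigenvalues i + hT.1.eigenvalues j) = 0 := by
    intro i j
    have a1 := (Finset.sum_eq_zero_iff_of_nonneg
      (fun i _ => Finset.sum_nonneg fun j _ => hterm i j)).1 h0 i (Finset.mem_univ _)
    exact (Finset.sum_eq_zero_iff_of_nonneg (fun j _ => hterm i j)).1 a1 j (Finset.mem_univ _)
  have h3 : tp (A - T) (A - T) = 0 := by
    rw [h2]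
    refine Finset.sum_eq_zero fun i _ => Finset.sum_eq_zero fun j _ => ?_
    rcases mul_eq_zero.1 (h1 i j) with h' | h'
    · rw [h']; ring
    · rw [klein_pt_eq (hA.eigenvalues_nonneg i) (hT.eigenvalues_pos j) h']; ring
  rw [tp_self_eq (hA.1.sub hT.1)] at h3
  have h4 : ∀ i j, ‖(A - T) i j‖ ^ 2 = 0 := by
    intro i j
    have a1 := (Finset.sum_eq_zero_iff_of_nonneg
      (fun i _ => Finset.sum_nonneg fun j _ => sq_nonneg ‖(A - T) i j‖)).1 h3 i (Finset.mem_univ _)
    exact (Finset.sum_eq_zero_iff_of_nonneg (fun j _ => sq_nonneg _)).1 a1 j (Finset.mem_univ _)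
  ext i j
  have := h4 i j
  rw [sq_eq_zero_iff, norm_eq_zero, Matrix.sub_apply, sub_eq_zero] at this
  exact this

theorem rel_nonneg {A T : Matrix ι ι ℂ} (hA : IsDens A) (hT : T.PosDef) (hT1 : T.trace = 1) :
    0 ≤ rel A T := by
  have := rel_nonneg' hA.1 hT
  rw [hA.2, hT1] at this
  linarith

/-- Klein: `S(A) ≤ -Tr A log T`. -/
theorem ent_le {A T : Matrix ι ι ℂ} (hA : IsDens A) (hT : T.PosDef) (hT1 : T.trace = 1) :
    ent A ≤ - tp A (mlog T) := by
  have := rel_nonneg hA hT hT1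
  rw [rel] at this
  linarith

theorem eq_of_ent_eq {A T : Matrix ι ι ℂ} (hA : IsDens A) (hT : T.PosDef) (hT1 : T.trace = 1)
    (h : ent A = - tp A (mlog T)) : A = T := by
  refine eq_of_rel_eq' hA.1 hT ?_
  rw [rel, h, hA.2, hT1]
  simp

/-- `S(A) = -Tr A log A`. -/
theorem ent_eq_tp {A : Matrix ι ι ℂ} (hA : A.IsHermitian) : ent A = - tp A (mlog A) := by
  have h : tp A (mlog A) = tp (cf (fun x => x) A) (cf Real.log A) := by rw [cf_id hA]; rfl
  rw [h, tp, cf_mul, ent]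
  have h2 : cf Real.negMulLog A = (-1 : ℝ) • cf (fun x => x * Real.log x) A := by
    rw [cf_smul]
    congr 1
    funext x
    rw [Real.negMulLog]; ring
  rw [h2, Matrix.trace_smul]
  simp

/-! ### Gibbs states -/

/-- Gibbs state `e^H / Tr e^H`. -/
noncomputable def gibbs (H : Matrix ι ι ℂ) : Matrix ι ι ℂ := cf Real.exp (H - lse H • 1)

lemma sub_smul_one {H : Matrix ι ι ℂ} (hH : H.IsHermitian) (c : ℝ) :
    H - c • (1 : Matrix ι ι ℂ) = cf (fun x => x - c) H := by
  rw [← cf_sub (fun x => x) (fun _ => c) H, cf_id hH, cf_const hH]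

lemma isHermitian_sub_smul_one {H : Matrix ι ι ℂ} (hH : H.IsHermitian) (c : ℝ) :
    (H - c • (1 : Matrix ι ι ℂ)).IsHermitian := by
  rw [sub_smul_one hH]; exact isHermitian_cf _ _

lemma cf_exp_sub {H : Matrix ι ι ℂ} (hH : H.IsHermitian) (c : ℝ) :
    cf Real.exp (H - c • 1) = Real.exp (-c) • cf Real.exp H := by
  rw [sub_smul_one hH, cf_comp _ _ hH, cf_smul]
  congr 1
  funext x
  rw [← Real.exp_add]
  congr 1
  ring

lemma trace_exp_pos [Nonempty ι] {H : Matrix ι ι ℂ} (hH : H.IsHermitian) :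
    0 < (cf Real.exp H).trace.re := by
  rw [trace_cf hH, Complex.ofReal_re]
  exact Finset.sum_pos (fun i _ => Real.exp_pos _) Finset.univ_nonempty

lemma trace_exp_real {H : Matrix ι ι ℂ} (hH : H.IsHermitian) :
    (cf Real.exp H).trace = (((cf Real.exp H).trace.re : ℝ) : ℂ) := by
  rw [trace_cf hH, Complex.ofReal_re]

lemma gibbs_trace [Nonempty ι] {H : Matrix ι ι ℂ} (hH : H.IsHermitian) : (gibbs H).trace = 1 := by
  rw [gibbs, cf_exp_sub hH, Matrix.trace_smul, trace_exp_real hH, Complex.real_smul,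
    ← Complex.ofReal_mul, lse, Real.exp_neg, Real.exp_log (trace_exp_pos hH),
    inv_mul_cancel₀ (trace_exp_pos hH).ne', Complex.ofReal_one]

lemma gibbs_posDef {H : Matrix ι ι ℂ} (hH : H.IsHermitian) : (gibbs H).PosDef :=
  posDef_cf (isHermitian_sub_smul_one hH _) Real.exp_pos

lemma gibbs_isDens [Nonempty ι] {H : Matrix ι ι ℂ} (hH : H.IsHermitian) : IsDens (gibbs H) :=
  ⟨(gibbs_posDef hH).posSemidef, gibbs_trace hH⟩

lemma mlog_gibbs {H : Matrix ι ι ℂ} (hH : H.IsHermitian) :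
    mlog (gibbs H) = H - lse H • 1 :=
  mlog_cf_exp (isHermitian_sub_smul_one hH _)

/-- **Gibbs variational principle**, inequality. -/
theorem gibbs_le [Nonempty ι] {A H : Matrix ι ι ℂ} (hA : IsDens A) (hH : H.IsHermitian) :
    tp A H + ent A ≤ lse H := by
  have h := ent_le hA (gibbs_posDef hH) (gibbs_trace hH)
  rw [mlog_gibbs hH, tp_sub_right, tp_smul_right, tp_one_right, hA.2] at h
  simp only [Complex.one_re, mul_one] at h
  linarith

/-- Gibbs variational principle: uniqueness of the maximiser. -/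
theorem gibbs_unique [Nonempty ι] {A H : Matrix ι ι ℂ} (hA : IsDens A) (hH : H.IsHermitian)
    (h : tp A H + ent A = lse H) : A = gibbs H := by
  refine eq_of_ent_eq hA (gibbs_posDef hH) (gibbs_trace hH) ?_
  rw [mlog_gibbs hH, tp_sub_right, tp_smul_right, tp_one_right, hA.2]
  simp only [Complex.one_re, mul_one]
  linarith

/-- Gibbs variational principle: the Gibbs state attains the maximum. -/
theorem gibbs_eq [Nonempty ι] {H : Matrix ι ι ℂ} (hH : H.IsHermitian) :
    tp (gibbs H) H + ent (gibbs H) = lse H := by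
  rw [ent_eq_tp (gibbs_posDef hH).1, mlog_gibbs hH, tp_sub_right, tp_smul_right, tp_one_right,
    gibbs_trace hH]
  simp

/-! ### The abstract minimisation problem -/

/-- Abstract data: `C` sends density matrices to positive definite density matrices, `P` is the
dual map. `C A = Phi A + s0` with `Phi` linear is covered (`P Y + Tr (s0 Y) 1`). -/
structure ELData (C : Matrix ι ι ℂ → Matrix κ κ ℂ) (P : Matrix κ κ ℂ →ₗ[ℂ] Matrix ι ι ℂ) :
    Prop where
  posDef : ∀ A, IsDens A → (C A).PosDef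
  trace_one : ∀ A, IsDens A → (C A).trace = 1
  dual : ∀ A Y, IsDens A → (C A * Y).trace = (A * P Y).trace
  star : ∀ Y, P Yᴴ = (P Y)ᴴ

/-- the functional -/
noncomputable def FF (C : Matrix ι ι ℂ → Matrix κ κ ℂ) (h0 : Matrix ι ι ℂ) (lam : ℝ)
    (A : Matrix ι ι ℂ) : ℝ := ent (C A) + tp A h0 - lam * ent A

/-- the effective Hamiltonian at `A` -/
noncomputable def hh (C : Matrix ι ι ℂ → Matrix κ κ ℂ) (P : Matrix κ κ ℂ →ₗ[ℂ] Matrix ι ι ℂ)
    (h0 : Matrix ι ι ℂ) (A : Matrix ι ι ℂ) : Matrix ι ι ℂ := h0 - P (mlog (C A))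

namespace ELData

variable {C : Matrix ι ι ℂ → Matrix κ κ ℂ} {P : Matrix κ κ ℂ →ₗ[ℂ] Matrix ι ι ℂ}

lemma dual' (D : ELData C P) {A : Matrix ι ι ℂ} (hA : IsDens A) (Y : Matrix κ κ ℂ) :
    tp (C A) Y = tp A (P Y) := by
  rw [tp, D.dual A Y hA, tp]

lemma herm (D : ELData C P) {Y : Matrix κ κ ℂ} (hY : Y.IsHermitian) : (P Y).IsHermitian := by
  unfold Matrix.IsHermitian
  rw [← D.star, hY.eq]

lemma herm_hh (D : ELData C P) {h0 : Matrix ι ι ℂ} (hh0 : h0.IsHermitian) (A : Matrix ι ι ℂ) :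
    (hh C P h0 A).IsHermitian := hh0.sub (D.herm (isHermitian_mlog _))

/-- `C A` as a density matrix -/
lemma isDens (D : ELData C P) {A : Matrix ι ι ℂ} (hA : IsDens A) : IsDens (C A) :=
  ⟨(D.posDef A hA).posSemidef, D.trace_one A hA⟩

/-- `F(A') = Tr A' h - lam S(A') - D(C A' ‖ C A)`, `h` the effective Hamiltonian at `A`. -/
lemma FF_eq (D : ELData C P) (h0 : Matrix ι ι ℂ) (lam : ℝ) {A A' : Matrix ι ι ℂ}
    (hA' : IsDens A') :
    FF C h0 lam A' = tp A' (hh C P h0 A) - lam * ent A' - rel (C A') (C A) := by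
  rw [FF, hh, rel, D.dual' hA', tp_sub_right]
  ring

lemma rel_nonneg (D : ELData C P) {A A' : Matrix ι ι ℂ} (hA : IsDens A) (hA' : IsDens A') :
    0 ≤ rel (C A') (C A) := FMin299.rel_nonneg (D.isDens hA') (D.posDef A hA) (D.trace_one A hA)

lemma rel_self {A : Matrix ι ι ℂ} (hA : A.IsHermitian) : rel A A = 0 := by
  rw [rel, ent_eq_tp hA]; ring

/-- **[FMIN] (M1)** a minimiser is the Gibbs state of its effective Hamiltonian. -/
theorem eq_gibbs [Nonempty ι] (D : ELData C P) {h0 : Matrix ι ι ℂ} (hh0 : h0.IsHermitian)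
    {lam : ℝ} (hlam : 0 < lam) {A : Matrix ι ι ℂ} (hA : IsDens A)
    (hmin : ∀ A', IsDens A' → FF C h0 lam A ≤ FF C h0 lam A') :
    A = gibbs (-(lam⁻¹) • hh C P h0 A) := by
  set H : Matrix ι ι ℂ := -(lam⁻¹) • hh C P h0 A with hH
  have hHh : H.IsHermitian := by
    rw [hH]
    exact (D.herm_hh hh0 A).smul (by simp [IsSelfAdjoint])
  have hlamne : lam ≠ 0 := hlam.ne'
  have key : ∀ X : Matrix ι ι ℂ, tp X (hh C P h0 A) = - lam * tp X H := by
    intro X
    rw [hH, tp_smul_right]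
    field_simp
  apply gibbs_unique hA hHh
  apply le_antisymm (gibbs_le hA hHh)
  have h1 := hmin _ (gibbs_isDens hHh)
  rw [D.FF_eq h0 lam (A := A) hA, D.FF_eq h0 lam (A := A) (gibbs_isDens hHh),
    rel_self (D.posDef A hA).1, key, key] at h1
  have h2 := D.rel_nonneg hA (gibbs_isDens hHh)
  have h3 := gibbs_eq hHh
  have h4 : lam * lse H ≤ lam * (tp A H + ent A) := by
    rw [← h3]; nlinarith
  exact le_of_mul_le_mul_left h4 hlam

/-- Euler-Lagrange equation. -/
structure EL (C : Matrix ι ι ℂ → Matrix κ κ ℂ) (P : Matrix κ κ ℂ →ₗ[ℂ] Matrix ι ι ℂ)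
    (h0 : Matrix ι ι ℂ) (lam : ℝ) (A : Matrix ι ι ℂ) (c : ℝ) : Prop where
  posDef : A.PosDef
  trace_one : A.trace = 1
  eq : lam • mlog A = P (mlog (C A)) - h0 - c • 1

theorem exists_EL [Nonempty ι] (D : ELData C P) {h0 : Matrix ι ι ℂ} (hh0 : h0.IsHermitian)
    {lam : ℝ} (hlam : 0 < lam) {A : Matrix ι ι ℂ} (hA : IsDens A)
    (hmin : ∀ A', IsDens A' → FF C h0 lam A ≤ FF C h0 lam A') :
    ∃ c : ℝ, EL C P h0 lam A c := by
  have h := D.eq_gibbs hh0 hlam hA hmin
  set H : Matrix ι ι ℂ := -(lam⁻¹) • hh C P h0 A with hH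
  have hHh : H.IsHermitian := by
    rw [hH]
    exact (D.herm_hh hh0 A).smul (by simp [IsSelfAdjoint])
  have hml : mlog A = H - lse H • 1 := by
    conv_lhs => rw [h]
    exact mlog_gibbs hHh
  refine ⟨lam * lse H, ?_, hA.2, ?_⟩
  · rw [h]; exact gibbs_posDef hHh
  · rw [hml, smul_sub, smul_smul, hH, smul_smul, hh]
    have : lam * -lam⁻¹ = -1 := by field_simp
    rw [this, neg_smul, one_smul, neg_sub]

namespace EL
variable {h0 : Matrix ι ι ℂ} {lam : ℝ} {A : Matrix ι ι ℂ} {c : ℝ}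

lemma isDens (E : EL C P h0 lam A c) : IsDens A := ⟨E.posDef.posSemidef, E.trace_one⟩

lemma tp_hh (E : EL C P h0 lam A c) {A' : Matrix ι ι ℂ} (hA' : IsDens A') :
    tp A' (hh C P h0 A) = - lam * tp A' (mlog A) - c := by
  have : hh C P h0 A = (-lam) • mlog A - c • 1 := by
    rw [hh, neg_smul, E.eq]; abel
  rw [this, tp_sub_right, tp_smul_right, tp_smul_right, tp_one_right, hA'.2]
  simp

/-- **[FMIN] (M2)** exact formula for the increment. -/
theorem FF_sub (D : ELData C P) (E : EL C P h0 lam A c) {A' : Matrix ι ι ℂ} (hA' : IsDens A') :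
    FF C h0 lam A' - FF C h0 lam A = lam * rel A' A - rel (C A') (C A) := by
  rw [D.FF_eq h0 lam (A := A) hA', D.FF_eq h0 lam (A := A) E.isDens, rel_self (D.posDef A E.isDens).1,
    E.tp_hh hA', E.tp_hh E.isDens, ent_eq_tp E.posDef.1, rel, rel]
  ring

/-- **[FMIN] (M2)** data processing with constant `lam`. -/
theorem rel_le (D : ELData C P) (E : EL C P h0 lam A c)
    (hmin : ∀ A', IsDens A' → FF C h0 lam A ≤ FF C h0 lam A') {A' : Matrix ι ι ℂ}
    (hA' : IsDens A') : rel (C A') (C A) ≤ lam * rel A' A := by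
  have h1 := E.FF_sub D hA'
  have h2 := hmin A' hA'
  linarith

end EL

/-- **[FSDPI], exponential form**. -/
theorem lse_le [Nonempty ι] [Nonempty κ] (D : ELData C P) {lam : ℝ} {A : Matrix ι ι ℂ}
    (hdpi : ∀ A', IsDens A' → rel (C A') (C A) ≤ lam * rel A' A)
    {Y : Matrix κ κ ℂ} (hY : Y.IsHermitian) (u : ℝ) :
    lam * lse (mlog A + u • P Y) ≤ lse (mlog (C A) + (lam * u) • Y) := by
  have hH : (mlog A + u • P Y).IsHermitian :=
    (isHermitian_mlog _).add ((D.herm hY).smul (by simp [IsSelfAdjoint]))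
  have hK : (mlog (C A) + (lam * u) • Y).IsHermitian :=
    (isHermitian_mlog _).add (hY.smul (by simp [IsSelfAdjoint]))
  set A' := gibbs (mlog A + u • P Y) with hA'
  have hd : IsDens A' := gibbs_isDens hH
  have h1 := gibbs_eq hH
  rw [← hA'] at h1
  have h2 := gibbs_le (D.isDens hd) hK
  have h3 := hdpi A' hd
  rw [rel, rel] at h3
  rw [tp_add_right, tp_smul_right, D.dual' hd Y] at h2
  rw [tp_add_right, tp_smul_right] at h1
  rw [← h1]
  nlinarith

end ELData

/-! ### Kubo-Mori form and second derivatives -/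

/-- Kubo-Mori form in the eigenbasis of `A`: `∑ LM(p_i,p_j) |⟨i|X|j⟩|²`. -/
noncomputable def MF {A : Matrix ι ι ℂ} (hA : A.IsHermitian) (X : Matrix ι ι ℂ) : ℝ :=
  ∑ i, ∑ j, LMe (Real.log (hA.eigenvalues i)) (Real.log (hA.eigenvalues j)) *
    Complex.normSq ((star (hA.eigenvectorUnitary : Matrix ι ι ℂ) * X *
      (hA.eigenvectorUnitary : Matrix ι ι ℂ)) i j)

lemma LMe_log {p q : ℝ} (hp : 0 < p) (hq : 0 < q) :
    LMe (Real.log p) (Real.log q) =
      if p = q then p else (p - q) / (Real.log p - Real.log q) := by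
  unfold LMe
  by_cases h : p = q
  · subst h; simp [Real.exp_log hp]
  · have h' : Real.log p ≠ Real.log q := fun h'' => h (Real.log_injOn_pos hp hq h'')
    rw [if_neg h, if_neg h', Real.exp_log hp, Real.exp_log hq]

lemma smul_coe (u : ℝ) (X : Matrix ι ι ℂ) : u • X = (u : ℂ) • X := by
  ext i j
  simp

lemma conj_form {A : Matrix ι ι ℂ} (hA : A.IsHermitian) (X : Matrix ι ι ℂ) :
    X = (hA.eigenvectorUnitary : Matrix ι ι ℂ) *
      (star (hA.eigenvectorUnitary : Matrix ι ι ℂ) * X *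
      (hA.eigenvectorUnitary : Matrix ι ι ℂ)) * star (hA.eigenvectorUnitary : Matrix ι ι ℂ) := by
  have e1 : (hA.eigenvectorUnitary : Matrix ι ι ℂ) *
      star (hA.eigenvectorUnitary : Matrix ι ι ℂ) = 1 :=
    Unitary.mul_star_self_of_mem hA.eigenvectorUnitary.2
  calc X = 1 * X * 1 := by simp
    _ = _ := by rw [← e1]; simp only [Matrix.mul_assoc]

lemma exp_line {A : Matrix ι ι ℂ} (hA : A.IsHermitian) (X : Matrix ι ι ℂ) (t : ℝ) :
    NormedSpace.exp (mlog A + (t : ℂ) • X) = (hA.eigenvectorUnitary : Matrix ι ι ℂ) *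
      NormedSpace.exp (dg (fun i => Real.log (hA.eigenvalues i)) + (t : ℂ) •
        (star (hA.eigenvectorUnitary : Matrix ι ι ℂ) * X *
      (hA.eigenvectorUnitary : Matrix ι ι ℂ))) *
        star (hA.eigenvectorUnitary : Matrix ι ι ℂ) := by
  rw [← exp_conj_unitary]
  congr 1
  rw [Matrix.mul_add, Matrix.add_mul, Matrix.mul_smul, Matrix.smul_mul, ← conj_form hA X, mlog,
    cf_form hA]

/-- derivative of `Tr (e^{log A + tX} X)` at `t = 0` -/
theorem hasDerivAt_tp_exp {A X : Matrix ι ι ℂ} (hA : A.IsHermitian) (hX : X.IsHermitian) :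
    HasDerivAt (fun t : ℝ => (NormedSpace.exp (mlog A + (t : ℂ) • X) * X).trace.re)
      (MF hA X) 0 := by
  set U : Matrix ι ι ℂ := (hA.eigenvectorUnitary : Matrix ι ι ℂ) with hU
  set h : ι → ℝ := fun i => Real.log (hA.eigenvalues i) with hh
  set W : Matrix ι ι ℂ := star U * X * U with hW
  have hUU : star U * U = 1 := Unitary.star_mul_self_of_mem hA.eigenvectorUnitary.2
  have hWh : W.IsHermitian := by
    unfold Matrix.IsHermitian
    rw [hW, ← star_eq_conjTranspose, star_mul, star_mul, star_star, star_eq_conjTranspose X, hX.eq,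
      mul_assoc]
  have hfun : (fun t : ℝ => (NormedSpace.exp (mlog A + (t : ℂ) • X) * X).trace.re) =
      fun t : ℝ => (∑ i, ∑ j, NormedSpace.exp (dg h + (t : ℂ) • W) i j * W j i).re := by
    funext t
    congr 1
    have e1 : NormedSpace.exp (mlog A + (t : ℂ) • X) * X =
        U * (NormedSpace.exp (dg h + (t : ℂ) • W) * W) * star U := by
      rw [exp_line hA X t]
      conv_lhs => rw [conj_form hA X]
      calc U * NormedSpace.exp (dg h + (t : ℂ) • (star U * (U * (star U * X * U) * star U) * U)) *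
            star U * (U * (star U * X * U) * star U)
          = U * NormedSpace.exp (dg h + (t : ℂ) •
              ((star U * U) * (star U * X * U) * (star U * U))) *
            (star U * U) * (star U * X * U) * star U := by simp only [Matrix.mul_assoc]
        _ = _ := by rw [hUU]; simp only [Matrix.mul_assoc, Matrix.mul_one, Matrix.one_mul, hW]
    rw [e1]
    have e2 := trace_conj_unitary hA.eigenvectorUnitary (NormedSpace.exp (dg h + (t : ℂ) • W) * W)
    rw [← hU] at e2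
    rw [e2, Matrix.trace]
    refine Finset.sum_congr rfl fun i _ => ?_
    rw [Matrix.diag_apply, Matrix.mul_apply]
  rw [hfun]
  have hd : HasDerivAt (fun t : ℝ => ∑ i, ∑ j, NormedSpace.exp (dg h + (t : ℂ) • W) i j * W j i)
      (∑ i, ∑ j, W i j * (LMe (h i) (h j) : ℂ) * W j i) 0 := by
    refine HasDerivAt.fun_sum fun i _ => HasDerivAt.fun_sum fun j _ => ?_
    exact (hasDerivAt_exp_entry h W i j).mul_const _
  have hre := (Complex.reCLM.hasFDerivAt
    (x := ∑ i, ∑ j, NormedSpace.exp (dg h + ((0:ℝ) : ℂ) • W) i j * W j i)).comp_hasDerivAt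
      (0 : ℝ) hd
  have hval : Complex.reCLM (∑ i, ∑ j, W i j * (LMe (h i) (h j) : ℂ) * W j i) = MF hA X := by
    rw [Complex.reCLM_apply, Complex.re_sum, MF]
    refine Finset.sum_congr rfl fun i _ => ?_
    rw [Complex.re_sum]
    refine Finset.sum_congr rfl fun j _ => ?_
    have e1 : W j i = star (W i j) := (hWh.apply j i).symm
    have e2 : W i j * (LMe (h i) (h j) : ℂ) * W j i =
        ((LMe (h i) (h j) * Complex.normSq (W i j) : ℝ) : ℂ) := by
      rw [e1, RCLike.star_def, Complex.ofReal_mul, ← Complex.mul_conj]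
      ring
    rw [e2, Complex.ofReal_re]
  rw [hval] at hre
  exact hre

lemma exp_line_eq_cf {H X : Matrix ι ι ℂ} (hH : H.IsHermitian) (hX : X.IsHermitian) (t : ℝ) :
    cf Real.exp (H + t • X) = NormedSpace.exp (H + (t : ℂ) • X) := by
  rw [← smul_coe, exp_eq_cf]
  exact hH.add (hX.smul (by simp [IsSelfAdjoint]))

/-- first derivative of `u ↦ lse (H + u X)` -/
theorem hasDerivAt_lse [Nonempty ι] {H X : Matrix ι ι ℂ} (hH : H.IsHermitian)
    (hX : X.IsHermitian) (u : ℝ) :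
    HasDerivAt (fun u : ℝ => lse (H + u • X))
      ((NormedSpace.exp (H + (u : ℂ) • X) * X).trace.re /
        (NormedSpace.exp (H + (u : ℂ) • X)).trace.re) u := by
  have h1 := hasDerivAt_trace_exp hH hX u
  have h2 := (Complex.reCLM.hasFDerivAt
    (x := (NormedSpace.exp (H + (u : ℂ) • X)).trace)).comp_hasDerivAt u h1
  have hpos : 0 < (NormedSpace.exp (H + (u : ℂ) • X)).trace.re := by
    rw [← exp_line_eq_cf hH hX]
    exact trace_exp_pos (hH.add (hX.smul (by simp [IsSelfAdjoint])))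
  have h3 := h2.log (by
    simp only [Function.comp, Complex.reCLM_apply]; exact hpos.ne')
  have hfun : (fun u : ℝ => lse (H + u • X)) =
      fun u : ℝ => Real.log ((Complex.reCLM ∘ fun t : ℝ =>
        (NormedSpace.exp (H + (t : ℂ) • X)).trace) u) := by
    funext t
    rw [lse, exp_line_eq_cf hH hX]
    rfl
  rw [hfun]
  exact h3

/-- second derivative of `u ↦ lse (log A + u X)` at `0` for a positive definite density `A` -/
theorem hasDerivAt_lse' [Nonempty ι] {A X : Matrix ι ι ℂ} (hA : A.PosDef) (hA1 : A.trace = 1)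
    (hX : X.IsHermitian) :
    HasDerivAt (fun u : ℝ => (NormedSpace.exp (mlog A + (u : ℂ) • X) * X).trace.re /
        (NormedSpace.exp (mlog A + (u : ℂ) • X)).trace.re) (MF hA.1 X - tp A X ^ 2) 0 := by
  have h1 := hasDerivAt_tp_exp hA.1 hX
  have h2 := (Complex.reCLM.hasFDerivAt
    (x := (NormedSpace.exp (mlog A + ((0 : ℝ) : ℂ) • X)).trace)).comp_hasDerivAt (0 : ℝ)
      (hasDerivAt_trace_exp (isHermitian_mlog A) hX 0)
  have e0 : NormedSpace.exp (mlog A + ((0 : ℝ) : ℂ) • X) = A := by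
    rw [Complex.ofReal_zero, zero_smul, add_zero, exp_eq_cf (isHermitian_mlog A), cf_exp_mlog hA]
  have e1 : (NormedSpace.exp (mlog A + ((0 : ℝ) : ℂ) • X)).trace.re = 1 := by
    rw [e0, hA1]; simp
  have h3 := h1.div h2 (by
    simp only [Function.comp, Complex.reCLM_apply]; rw [e1]; exact one_ne_zero)
  refine h3.congr_deriv ?_
  simp only [Function.comp, Complex.reCLM_apply]
  rw [e1, e0]
  simp only [tp]
  ring

lemma second_deriv_nonneg {g g' : ℝ → ℝ} {a : ℝ} (h1 : ∀ u, HasDerivAt g (g' u) u)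
    (h2 : HasDerivAt g' a 0) (hmin : ∀ u, 0 ≤ g u) (h0 : g 0 = 0) : 0 ≤ a := by
  by_contra hneg
  push Not at hneg
  have hg0 : g' 0 = 0 := by
    have hl : IsLocalMin g 0 := Eventually.of_forall fun u => by rw [h0]; exact hmin u
    exact hl.hasDerivAt_eq_zero (h1 0)
  have h3 : ∀ᶠ u in 𝓝[≠] (0:ℝ), slope g' 0 u < 0 :=
    (hasDerivAt_iff_tendsto_slope.1 h2).eventually (eventually_lt_nhds hneg)
  have h4 : ∀ᶠ u in 𝓝[>] (0:ℝ), g' u < 0 := by
    have h5 : ∀ᶠ u in 𝓝[>] (0:ℝ), slope g' 0 u < 0 :=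
      h3.filter_mono (nhdsWithin_mono _ (fun x hx => ne_of_gt hx))
    filter_upwards [h5, self_mem_nhdsWithin] with u hu hu0
    rw [slope_def_field, hg0, sub_zero, sub_zero] at hu
    have hu0' : (0:ℝ) < u := hu0
    rcases div_neg_iff.1 hu with ⟨_, h⟩ | ⟨h, _⟩
    · linarith
    · exact h
  obtain ⟨d, hd, hsub⟩ := mem_nhdsGT_iff_exists_Ioc_subset.1 h4
  have hd0 : (0:ℝ) < d := hd
  obtain ⟨x, hx, hx2⟩ := exists_hasDerivAt_eq_slope g g' hd0
    (fun u _ => (h1 u).continuousAt.continuousWithinAt) (fun u _ => h1 u)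
  have h6 : g' x < 0 := hsub ⟨hx.1, hx.2.le⟩
  rw [hx2, h0, sub_zero, sub_zero] at h6
  have := hmin d
  have h7 : 0 ≤ g d / d := div_nonneg this hd0.le
  linarith

namespace ELData

variable {C : Matrix ι ι ℂ → Matrix κ κ ℂ} {P : Matrix κ κ ℂ →ₗ[ℂ] Matrix ι ι ℂ}

/-- SDPI for Hermitian `Y`. -/
theorem sdpi_herm [Nonempty ι] [Nonempty κ] (D : ELData C P) {lam : ℝ} (hlam : 0 < lam)
    {A : Matrix ι ι ℂ} (hA : IsDens A) (hApos : A.PosDef)
    (hdpi : ∀ A', IsDens A' → rel (C A') (C A) ≤ lam * rel A' A)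
    {Y : Matrix κ κ ℂ} (hY : Y.IsHermitian) :
    MF hApos.1 (P Y) - tp A (P Y) ^ 2 ≤
      lam * (MF (D.posDef A hA).1 Y - tp (C A) Y ^ 2) := by
  have hCp := D.posDef A hA
  have hCt := D.trace_one A hA
  have hPY := D.herm hY
  set fA : ℝ → ℝ := fun u => (NormedSpace.exp (mlog A + (u : ℂ) • P Y) * P Y).trace.re /
        (NormedSpace.exp (mlog A + (u : ℂ) • P Y)).trace.re with hfA
  set fC : ℝ → ℝ := fun u => (NormedSpace.exp (mlog (C A) + (u : ℂ) • Y) * Y).trace.re /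
        (NormedSpace.exp (mlog (C A) + (u : ℂ) • Y)).trace.re with hfC
  have a1 : ∀ u, HasDerivAt (fun u : ℝ => lse (mlog A + u • P Y)) (fA u) u :=
    hasDerivAt_lse (isHermitian_mlog A) hPY
  have c1 : ∀ u, HasDerivAt (fun u : ℝ => lse (mlog (C A) + u • Y)) (fC u) u :=
    hasDerivAt_lse (isHermitian_mlog _) hY
  have a2 : HasDerivAt fA (MF hApos.1 (P Y) - tp A (P Y) ^ 2) 0 :=
    hasDerivAt_lse' hApos hA.2 hPY
  have c2 : HasDerivAt fC (MF hCp.1 Y - tp (C A) Y ^ 2) 0 := hasDerivAt_lse' hCp hCt hY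
  have hlin : ∀ u : ℝ, HasDerivAt (fun u : ℝ => lam * u) lam u := fun u => by
    simpa using (hasDerivAt_id u).const_mul lam
  have c1' : ∀ u, HasDerivAt (fun u : ℝ => lse (mlog (C A) + (lam * u) • Y))
      (lam * fC (lam * u)) u := fun u => by
    have := (c1 (lam * u)).comp u (hlin u)
    rw [mul_comm lam (fC (lam * u))]
    exact this
  have c2' : HasDerivAt (fun u : ℝ => fC (lam * u)) ((MF hCp.1 Y - tp (C A) Y ^ 2) * lam) 0 := by
    have h := HasDerivAt.comp (h₂ := fC) (h := fun u : ℝ => lam * u)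
      (h₂' := MF hCp.1 Y - tp (C A) Y ^ 2) (0 : ℝ) (by simpa using c2) (hlin 0)
    exact h
  have g1 : ∀ u, HasDerivAt (fun u : ℝ => lse (mlog (C A) + (lam * u) • Y) -
      lam * lse (mlog A + u • P Y)) (lam * fC (lam * u) - lam * fA u) u := fun u =>
    (c1' u).sub ((a1 u).const_mul lam)
  have g2 : HasDerivAt (fun u : ℝ => lam * fC (lam * u) - lam * fA u)
      (lam * ((MF hCp.1 Y - tp (C A) Y ^ 2) * lam) - lam * (MF hApos.1 (P Y) - tp A (P Y) ^ 2))
      0 := (c2'.const_mul lam).sub (a2.const_mul lam)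
  have h0 : lse (mlog (C A) + (lam * 0) • Y) - lam * lse (mlog A + (0:ℝ) • P Y) = 0 := by
    rw [mul_zero, zero_smul, zero_smul, add_zero, add_zero, lse, lse, cf_exp_mlog hCp,
      cf_exp_mlog hApos, hCt, hA.2]
    simp
  have hnn := second_deriv_nonneg g1 g2
    (fun u => sub_nonneg.2 (D.lse_le hdpi hY u)) h0
  have h5 : 0 ≤ lam * (lam * (MF hCp.1 Y - tp (C A) Y ^ 2) -
      (MF hApos.1 (P Y) - tp A (P Y) ^ 2)) := by
    calc (0:ℝ) ≤ _ := hnn
      _ = _ := by ring
  have h6 := nonneg_of_mul_nonneg_right h5 hlam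
  linarith

end ELData

/-! ### complex arguments and centring -/

lemma MF_conjTranspose {A : Matrix ι ι ℂ} (hA : A.IsHermitian) (X : Matrix ι ι ℂ) :
    MF hA Xᴴ = MF hA X := by
  rw [MF, MF, Finset.sum_comm]
  refine Finset.sum_congr rfl fun i _ => Finset.sum_congr rfl fun j _ => ?_
  have : (star (hA.eigenvectorUnitary : Matrix ι ι ℂ) * Xᴴ *
      (hA.eigenvectorUnitary : Matrix ι ι ℂ)) =
      (star (hA.eigenvectorUnitary : Matrix ι ι ℂ) * X *
      (hA.eigenvectorUnitary : Matrix ι ι ℂ))ᴴ := by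
    simp only [← star_eq_conjTranspose, star_mul, star_star, mul_assoc]
  rw [this, Matrix.conjTranspose_apply, LMe_symm, RCLike.star_def, Complex.normSq_conj]


lemma MF_parallelogram {A : Matrix ι ι ℂ} (hA : A.IsHermitian) (X Y : Matrix ι ι ℂ) :
    MF hA (X + Y) + MF hA (X - Y) = 2 * MF hA X + 2 * MF hA Y := by
  simp only [MF, Finset.mul_sum, ← Finset.sum_add_distrib]
  refine Finset.sum_congr rfl fun i _ => Finset.sum_congr rfl fun j _ => ?_
  rw [Matrix.mul_add, Matrix.add_mul, Matrix.mul_sub, Matrix.sub_mul, Matrix.add_apply,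
    Matrix.sub_apply]
  simp only [Complex.normSq_apply, Complex.add_re, Complex.add_im, Complex.sub_re, Complex.sub_im]
  ring

lemma MF_smul {A : Matrix ι ι ℂ} (hA : A.IsHermitian) (c : ℂ) (X : Matrix ι ι ℂ) :
    MF hA (c • X) = Complex.normSq c * MF hA X := by
  simp only [MF, Finset.mul_sum]
  refine Finset.sum_congr rfl fun i _ => Finset.sum_congr rfl fun j _ => ?_
  rw [Matrix.mul_smul, Matrix.smul_mul, Matrix.smul_apply, smul_eq_mul, Complex.normSq_mul]
  ring

lemma MF_add_I {A : Matrix ι ι ℂ} (hA : A.IsHermitian) {X Y : Matrix ι ι ℂ}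
    (hX : X.IsHermitian) (hY : Y.IsHermitian) :
    MF hA (X + Complex.I • Y) = MF hA X + MF hA Y := by
  have h1 := MF_parallelogram hA X (Complex.I • Y)
  have h2 := MF_conjTranspose hA (X + Complex.I • Y)
  have h3 : (X + Complex.I • Y)ᴴ = X - Complex.I • Y := by
    rw [Matrix.conjTranspose_add, Matrix.conjTranspose_smul, hX.eq, hY.eq, RCLike.star_def,
      Complex.conj_I, neg_smul, sub_eq_add_neg]
  rw [h3] at h2
  rw [MF_smul] at h1
  simp only [Complex.normSq_I, one_mul] at h1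
  linarith

/-- `∑ p_i (U* X U)_ii = Tr (A X)`. -/
lemma sum_eig_diag {A : Matrix ι ι ℂ} (hA : A.IsHermitian) (X : Matrix ι ι ℂ) :
    ∑ i, (hA.eigenvalues i : ℂ) * (star (hA.eigenvectorUnitary : Matrix ι ι ℂ) * X *
      (hA.eigenvectorUnitary : Matrix ι ι ℂ)) i i = (A * X).trace := by
  have hUU : star (hA.eigenvectorUnitary : Matrix ι ι ℂ) *
      (hA.eigenvectorUnitary : Matrix ι ι ℂ) = 1 :=
    Unitary.star_mul_self_of_mem hA.eigenvectorUnitary.2
  have e1 : A * X = (hA.eigenvectorUnitary : Matrix ι ι ℂ) * (dg hA.eigenvalues *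
      (star (hA.eigenvectorUnitary : Matrix ι ι ℂ) * X *
      (hA.eigenvectorUnitary : Matrix ι ι ℂ))) *
      star (hA.eigenvectorUnitary : Matrix ι ι ℂ) := by
    conv_lhs => rw [spectral_form hA, conj_form hA X]
    generalize star (hA.eigenvectorUnitary : Matrix ι ι ℂ) * X *
      (hA.eigenvectorUnitary : Matrix ι ι ℂ) = W
    calc (hA.eigenvectorUnitary : Matrix ι ι ℂ) * dg hA.eigenvalues *
          star (hA.eigenvectorUnitary : Matrix ι ι ℂ) *
          ((hA.eigenvectorUnitary : Matrix ι ι ℂ) * W *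
          star (hA.eigenvectorUnitary : Matrix ι ι ℂ))
        = (hA.eigenvectorUnitary : Matrix ι ι ℂ) * dg hA.eigenvalues *
          (star (hA.eigenvectorUnitary : Matrix ι ι ℂ) *
          (hA.eigenvectorUnitary : Matrix ι ι ℂ)) * W *
          star (hA.eigenvectorUnitary : Matrix ι ι ℂ) := by simp only [Matrix.mul_assoc]
      _ = _ := by rw [hUU, Matrix.mul_one]; simp only [Matrix.mul_assoc]
  rw [e1, trace_conj_unitary, Matrix.trace]
  refine Finset.sum_congr rfl fun i _ => ?_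
  rw [Matrix.diag_apply, Matrix.diagonal_mul]

/-- centring -/
lemma MF_sub_mean {A : Matrix ι ι ℂ} (hA : A.PosDef) (hA1 : A.trace = 1) (X : Matrix ι ι ℂ) :
    MF hA.1 (X - (A * X).trace • 1) = MF hA.1 X - Complex.normSq (A * X).trace := by
  set m := (A * X).trace with hm
  set U : Matrix ι ι ℂ := (hA.1.eigenvectorUnitary : Matrix ι ι ℂ) with hU
  have hUU : star U * U = 1 := Unitary.star_mul_self_of_mem hA.1.eigenvectorUnitary.2
  have hW : star U * (X - m • (1 : Matrix ι ι ℂ)) * U = star U * X * U - m • 1 := by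
    rw [Matrix.mul_sub, Matrix.sub_mul, Matrix.mul_smul, Matrix.smul_mul, Matrix.mul_one, hUU]
  have hsum : ∑ i, (hA.1.eigenvalues i : ℂ) * (star U * X * U) i i = m := sum_eig_diag hA.1 X
  have hp1 : ∑ i, (hA.1.eigenvalues i : ℂ) = 1 := by
    have h := sum_eig_diag hA.1 1
    have hA1' : (A * 1).trace = 1 := by rw [Matrix.mul_one, hA1]
    rw [hA1'] at h
    rw [← h]
    refine Finset.sum_congr rfl fun i _ => ?_
    rw [Matrix.mul_one, ← hU, hUU, Matrix.one_apply_eq, mul_one]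
  have hdiff : MF hA.1 (X - m • 1) - MF hA.1 X =
      ∑ i, hA.1.eigenvalues i * (Complex.normSq m -
        2 * ((starRingEnd ℂ) m * (star U * X * U) i i).re) := by
    rw [MF, MF, ← Finset.sum_sub_distrib]
    refine Finset.sum_congr rfl fun i _ => ?_
    rw [← Finset.sum_sub_distrib, Finset.sum_eq_single i]
    · rw [← hU, hW, Matrix.sub_apply, Matrix.smul_apply, Matrix.one_apply_eq, smul_eq_mul, mul_one]
      have : LMe (Real.log (hA.1.eigenvalues i)) (Real.log (hA.1.eigenvalues i)) =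
          hA.1.eigenvalues i := by
        rw [LMe_log (hA.eigenvalues_pos i) (hA.eigenvalues_pos i), if_pos rfl]
      rw [this]
      simp only [Complex.normSq_apply, Complex.sub_re, Complex.sub_im, Complex.mul_re,
        Complex.conj_re, Complex.conj_im]
      ring
    · intro j _ hj
      rw [← hU, hW, Matrix.sub_apply, Matrix.smul_apply, Matrix.one_apply_ne (Ne.symm hj),
        smul_zero, sub_zero, sub_self]
    · intro h; exact absurd (Finset.mem_univ i) h
  have h2 : ∑ i, hA.1.eigenvalues i * (Complex.normSq m -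
        2 * ((starRingEnd ℂ) m * (star U * X * U) i i).re) = - Complex.normSq m := by
    have e1 : ∑ i, hA.1.eigenvalues i = 1 := by
      have := congrArg Complex.re hp1
      rw [Complex.re_sum] at this
      simpa using this
    have e2 : ∑ i, hA.1.eigenvalues i * ((starRingEnd ℂ) m * (star U * X * U) i i).re =
        Complex.normSq m := by
      have : (((starRingEnd ℂ) m * m).re) = Complex.normSq m := by
        rw [mul_comm, Complex.mul_conj, Complex.ofReal_re]
      rw [← this]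
      have h3 : ((starRingEnd ℂ) m * m) = (starRingEnd ℂ) m *
          ∑ i, (hA.1.eigenvalues i : ℂ) * (star U * X * U) i i := by rw [hsum]
      rw [h3, Finset.mul_sum, Complex.re_sum]
      refine Finset.sum_congr rfl fun i _ => ?_
      rw [mul_left_comm, Complex.re_ofReal_mul]
    calc _ = Complex.normSq m * (∑ i, hA.1.eigenvalues i) - 2 * ∑ i, hA.1.eigenvalues i *
        ((starRingEnd ℂ) m * (star U * X * U) i i).re := by
          rw [Finset.mul_sum, Finset.mul_sum, ← Finset.sum_sub_distrib]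
          refine Finset.sum_congr rfl fun i _ => ?_
          ring
      _ = _ := by rw [e1, e2]; ring
  linarith

/-- Hermitian parts -/
lemma exists_herm_parts (Y : Matrix κ κ ℂ) : ∃ Y₁ Y₂ : Matrix κ κ ℂ, Y₁.IsHermitian ∧
    Y₂.IsHermitian ∧ Y = Y₁ + Complex.I • Y₂ := by
  refine ⟨(1/2 : ℂ) • (Y + Yᴴ), (-Complex.I/2 : ℂ) • (Y - Yᴴ), ?_, ?_, ?_⟩
  · unfold Matrix.IsHermitian
    rw [Matrix.conjTranspose_smul, Matrix.conjTranspose_add, Matrix.conjTranspose_conjTranspose,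
      add_comm Yᴴ Y]
    simp
  · unfold Matrix.IsHermitian
    rw [Matrix.conjTranspose_smul, Matrix.conjTranspose_sub, Matrix.conjTranspose_conjTranspose,
      ← neg_sub Y Yᴴ, smul_neg, ← neg_smul]
    congr 1
    simp
    ring
  · rw [smul_smul]
    have : Complex.I * (-Complex.I / 2) = 1 / 2 := by
      rw [mul_div_assoc', mul_neg, Complex.I_mul_I]; norm_num
    rw [this, ← smul_add]
    have h2 : Y + Yᴴ + (Y - Yᴴ) = (2:ℂ) • Y := by
      rw [two_smul]; abel
    rw [h2, smul_smul]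
    norm_num

lemma trace_mul_herm_real {A X : Matrix ι ι ℂ} (hA : A.IsHermitian) (hX : X.IsHermitian) :
    (A * X).trace = ((tp A X : ℝ) : ℂ) := by
  have h : star (A * X).trace = (A * X).trace := by
    rw [← Matrix.trace_conjTranspose, Matrix.conjTranspose_mul, hA.eq, hX.eq, Matrix.trace_mul_comm]
  rw [tp]
  exact (Complex.conj_eq_iff_re.1 h).symm

lemma normSq_trace_add_I {A X Y : Matrix ι ι ℂ} (hA : A.IsHermitian) (hX : X.IsHermitian)
    (hY : Y.IsHermitian) :
    Complex.normSq (A * (X + Complex.I • Y)).trace = tp A X ^ 2 + tp A Y ^ 2 := by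
  rw [Matrix.mul_add, Matrix.mul_smul, Matrix.trace_add, Matrix.trace_smul,
    trace_mul_herm_real hA hX, trace_mul_herm_real hA hY]
  simp [Complex.normSq_apply]
  ring

namespace ELData

variable {C : Matrix ι ι ℂ → Matrix κ κ ℂ} {P : Matrix κ κ ℂ →ₗ[ℂ] Matrix ι ι ℂ}

/-- **[FSDPI]**, all complex `Y`, variance form. -/
theorem sdpi [Nonempty ι] [Nonempty κ] (D : ELData C P) {lam : ℝ} (hlam : 0 < lam)
    {A : Matrix ι ι ℂ} (hA : IsDens A) (hApos : A.PosDef)
    (hdpi : ∀ A', IsDens A' → rel (C A') (C A) ≤ lam * rel A' A) (Y : Matrix κ κ ℂ) :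
    MF hApos.1 (P Y) - Complex.normSq (A * P Y).trace ≤
      lam * (MF (D.posDef A hA).1 Y - Complex.normSq (C A * Y).trace) := by
  obtain ⟨Y₁, Y₂, h1, h2, rfl⟩ := exists_herm_parts Y
  have a1 := D.sdpi_herm hlam hA hApos hdpi h1
  have a2 := D.sdpi_herm hlam hA hApos hdpi h2
  rw [map_add, map_smul, MF_add_I _ (D.herm h1) (D.herm h2), MF_add_I _ h1 h2,
    normSq_trace_add_I hApos.1 (D.herm h1) (D.herm h2),
    normSq_trace_add_I (D.posDef A hA).1 h1 h2]
  nlinarith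

/-- **[FSDPI]**, centred form. -/
theorem sdpi_centred [Nonempty ι] [Nonempty κ] (D : ELData C P) {lam : ℝ} (hlam : 0 < lam)
    {A : Matrix ι ι ℂ} (hA : IsDens A) (hApos : A.PosDef)
    (hdpi : ∀ A', IsDens A' → rel (C A') (C A) ≤ lam * rel A' A) (Y : Matrix κ κ ℂ) :
    MF hApos.1 (P Y - (A * P Y).trace • 1) ≤
      lam * MF (D.posDef A hA).1 (Y - (C A * Y).trace • 1) := by
  rw [MF_sub_mean hApos hA.2, MF_sub_mean (D.posDef A hA) (D.trace_one A hA)]
  exact D.sdpi hlam hA hApos hdpi Y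

end ELData

/-! ### continuity, compactness, existence of minimisers -/

section
open scoped Matrix.Norms.L2Operator

/-- continuity of the functional calculus of matrices (product topology) -/
theorem continuousOn_cf {f : ℝ → ℝ} {s : Set ℝ} (hs : IsCompact s) (hf : ContinuousOn f s) :
    ContinuousOn (cf f : Matrix ι ι ℂ → Matrix ι ι ℂ)
      {A | IsSelfAdjoint A ∧ spectrum ℝ A ⊆ s} := by
  unfold cf
  exact continuousOn_cfc (Matrix ι ι ℂ) hs f hf

end

lemma sum_eigenvalues {A : Matrix ι ι ℂ} (hA : IsDens A) : ∑ i, hA.1.1.eigenvalues i = 1 := by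
  have h := trace_cf hA.1.1 (fun x => x)
  rw [cf_id hA.1.1] at h
  have h2 := h.symm.trans hA.2
  exact_mod_cast h2

lemma eigenvalues_le_one {A : Matrix ι ι ℂ} (hA : IsDens A) (i : ι) :
    hA.1.1.eigenvalues i ≤ 1 := by
  rw [← sum_eigenvalues hA]
  exact Finset.single_le_sum (f := hA.1.1.eigenvalues)
    (fun j _ => hA.1.eigenvalues_nonneg j) (Finset.mem_univ i)

lemma dens_spectrum {A : Matrix ι ι ℂ} (hA : IsDens A) : spectrum ℝ A ⊆ Set.Icc 0 1 := by
  intro x hx
  rw [hA.1.1.spectrum_real_eq_range_eigenvalues] at hx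
  obtain ⟨i, rfl⟩ := hx
  exact ⟨hA.1.eigenvalues_nonneg i, eigenvalues_le_one hA i⟩

theorem continuous_re_trace : Continuous (fun A : Matrix ι ι ℂ => A.trace.re) := by
  unfold Matrix.trace
  simp only [Matrix.diag_apply]
  fun_prop

theorem continuous_tp_const (h : Matrix ι ι ℂ) : Continuous (fun A : Matrix ι ι ℂ => tp A h) := by
  have : (fun A : Matrix ι ι ℂ => tp A h) = fun A => ∑ i, ∑ j, (A i j * h j i).re := by
    funext A; exact tp_eq_sum A h
  rw [this]
  fun_prop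

/-- The entropy is continuous on density matrices. -/
theorem continuousOn_ent : ContinuousOn (ent : Matrix ι ι ℂ → ℝ) {A | IsDens A} := by
  have h1 : ContinuousOn (cf Real.negMulLog : Matrix ι ι ℂ → Matrix ι ι ℂ) {A | IsDens A} :=
    (continuousOn_cf (isCompact_Icc (a := (0:ℝ)) (b := 1))
      Real.continuous_negMulLog.continuousOn).mono (fun A hA => ⟨hA.1.1, dens_spectrum hA⟩)
  exact continuous_re_trace.comp_continuousOn h1

lemma trace_conjTranspose_mul_self (B : Matrix ι ι ℂ) :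
    (Bᴴ * B).trace = ((∑ i, ∑ j, ‖B i j‖ ^ 2 : ℝ) : ℂ) := by
  rw [Finset.sum_comm, Matrix.trace, Complex.ofReal_sum]
  refine Finset.sum_congr rfl fun i _ => ?_
  rw [Matrix.diag_apply, Matrix.mul_apply, Complex.ofReal_sum]
  refine Finset.sum_congr rfl fun j _ => ?_
  rw [Matrix.conjTranspose_apply, RCLike.star_def, mul_comm, Complex.mul_conj,
    Complex.normSq_eq_norm_sq]

/-- The set of density matrices is compact. -/
theorem isCompact_dens : IsCompact {A : Matrix ι ι ℂ | IsDens A} := by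
  set K : Set (Matrix ι ι ℂ) := {B | ∑ i, ∑ j, ‖B i j‖ ^ 2 = 1} with hK
  have hKc : IsCompact K := by
    have hbox : IsCompact (Set.univ.pi fun _ : ι => Set.univ.pi fun _ : ι =>
        Metric.closedBall (0:ℂ) 1) :=
      isCompact_univ_pi fun _ => isCompact_univ_pi fun _ => isCompact_closedBall _ _
    refine IsCompact.of_isClosed_subset hbox ?_ ?_
    · have hc : Continuous (fun B : Matrix ι ι ℂ => ∑ i, ∑ j, ‖B i j‖ ^ 2) := by fun_prop
      exact isClosed_singleton.preimage hc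
    · intro B hB i _ j _
      have h1 : ‖B i j‖ ^ 2 ≤ 1 := by
        have hB' : ∑ i, ∑ j, ‖B i j‖ ^ 2 = 1 := hB
        rw [← hB']
        refine le_trans ?_ (Finset.single_le_sum (f := fun i => ∑ j, ‖B i j‖ ^ 2)
          (fun i _ => Finset.sum_nonneg fun j _ => sq_nonneg _) (Finset.mem_univ i))
        exact Finset.single_le_sum (f := fun j => ‖B i j‖ ^ 2)
          (fun j _ => sq_nonneg _) (Finset.mem_univ j)
      rw [mem_closedBall_zero_iff]
      nlinarith [norm_nonneg (B i j)]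
  have himg : {A : Matrix ι ι ℂ | IsDens A} = (fun B : Matrix ι ι ℂ => Bᴴ * B) '' K := by
    ext A
    constructor
    · intro hA
      obtain ⟨B, hB⟩ : ∃ B : Matrix ι ι ℂ, A = star B * B := by
        open scoped MatrixOrder in
        exact CStarAlgebra.nonneg_iff_eq_star_mul_self.mp hA.1.nonneg
      refine ⟨B, ?_, hB.symm⟩
      have h2 := hA.2
      rw [hB, star_eq_conjTranspose, trace_conjTranspose_mul_self] at h2
      exact_mod_cast h2
    · rintro ⟨B, hB, rfl⟩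
      refine ⟨Matrix.posSemidef_conjTranspose_mul_self B, ?_⟩
      show (Bᴴ * B).trace = 1
      rw [trace_conjTranspose_mul_self]
      have hB' : ∑ i, ∑ j, ‖B i j‖ ^ 2 = 1 := hB
      rw [hB', Complex.ofReal_one]
  rw [himg]
  refine hKc.image ?_
  fun_prop

lemma exists_dens [Nonempty ι] : ∃ A : Matrix ι ι ℂ, IsDens A :=
  ⟨gibbs 0, gibbs_isDens Matrix.isHermitian_zero⟩

/-- existence of a joint minimiser of a continuous function on pairs of density matrices -/
theorem exists_min_pair [Nonempty ι] [Nonempty κ] (F : Matrix ι ι ℂ → Matrix κ κ ℂ → ℝ)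
    (hF : ContinuousOn (fun p : Matrix ι ι ℂ × Matrix κ κ ℂ => F p.1 p.2)
      {p | IsDens p.1 ∧ IsDens p.2}) :
    ∃ A B, IsDens A ∧ IsDens B ∧ ∀ A' B', IsDens A' → IsDens B' → F A B ≤ F A' B' := by
  have hc : IsCompact ({A : Matrix ι ι ℂ | IsDens A} ×ˢ {B : Matrix κ κ ℂ | IsDens B}) :=
    isCompact_dens.prod isCompact_dens
  obtain ⟨A₀, hA₀⟩ := exists_dens (ι := ι)
  obtain ⟨B₀, hB₀⟩ := exists_dens (ι := κ)
  obtain ⟨p, hp, hmin⟩ := hc.exists_isMinOn ⟨(A₀, B₀), ⟨hA₀, hB₀⟩⟩ hF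
  exact ⟨p.1, p.2, hp.1, hp.2, fun A' B' hA' hB' => hmin (show (A', B') ∈ _ from ⟨hA', hB'⟩)⟩

/-! ### elementary bounds -/




/-! ### two inputs: joint minimiser -/

variable {ι' : Type*} [Fintype ι'] [DecidableEq ι']

/-- Abstract two-input data: output `Psi A B`, dual maps `PA B`, `PB A`. -/
structure PairData (Psi : Matrix ι ι ℂ → Matrix ι' ι' ℂ → Matrix κ κ ℂ)
    (PA : Matrix ι' ι' ℂ → (Matrix κ κ ℂ →ₗ[ℂ] Matrix ι ι ℂ))
    (PB : Matrix ι ι ℂ → (Matrix κ κ ℂ →ₗ[ℂ] Matrix ι' ι' ℂ)) : Prop where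
  posDef : ∀ A B, IsDens A → IsDens B → (Psi A B).PosDef
  trace_one : ∀ A B, IsDens A → IsDens B → (Psi A B).trace = 1
  cont : ContinuousOn (fun p : Matrix ι ι ℂ × Matrix ι' ι' ℂ => Psi p.1 p.2)
    {p | IsDens p.1 ∧ IsDens p.2}
  dualA : ∀ A B Y, IsDens A → IsDens B → (Psi A B * Y).trace = (A * PA B Y).trace
  dualB : ∀ A B Y, IsDens A → IsDens B → (Psi A B * Y).trace = (B * PB A Y).trace
  starA : ∀ B Y, IsDens B → PA B Yᴴ = (PA B Y)ᴴ
  starB : ∀ A Y, IsDens A → PB A Yᴴ = (PB A Y)ᴴ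

/-- the two-input functional -/
noncomputable def FF2 (Psi : Matrix ι ι ℂ → Matrix ι' ι' ℂ → Matrix κ κ ℂ) (hA : Matrix ι ι ℂ)
    (hB : Matrix ι' ι' ℂ) (lamA lamB : ℝ) (A : Matrix ι ι ℂ) (B : Matrix ι' ι' ℂ) : ℝ :=
  ent (Psi A B) + tp A hA + tp B hB - lamA * ent A - lamB * ent B

namespace PairData

variable {Psi : Matrix ι ι ℂ → Matrix ι' ι' ℂ → Matrix κ κ ℂ}
  {PA : Matrix ι' ι' ℂ → (Matrix κ κ ℂ →ₗ[ℂ] Matrix ι ι ℂ)}
  {PB : Matrix ι ι ℂ → (Matrix κ κ ℂ →ₗ[ℂ] Matrix ι' ι' ℂ)}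

lemma elA (D : PairData Psi PA PB) {B : Matrix ι' ι' ℂ} (hB : IsDens B) :
    ELData (fun A => Psi A B) (PA B) where
  posDef A hA := D.posDef A B hA hB
  trace_one A hA := D.trace_one A B hA hB
  dual A Y hA := D.dualA A B Y hA hB
  star Y := D.starA B Y hB

lemma elB (D : PairData Psi PA PB) {A : Matrix ι ι ℂ} (hA : IsDens A) :
    ELData (fun B => Psi A B) (PB A) where
  posDef B hB := D.posDef A B hA hB
  trace_one B hB := D.trace_one A B hA hB
  dual B Y hB := D.dualB A B Y hA hB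
  star Y := D.starB A Y hA

lemma isDens (D : PairData Psi PA PB) {A : Matrix ι ι ℂ} {B : Matrix ι' ι' ℂ} (hA : IsDens A)
    (hB : IsDens B) : IsDens (Psi A B) :=
  ⟨(D.posDef A B hA hB).posSemidef, D.trace_one A B hA hB⟩

lemma continuousOn_FF2 (D : PairData Psi PA PB) (hA : Matrix ι ι ℂ) (hB : Matrix ι' ι' ℂ)
    (lamA lamB : ℝ) :
    ContinuousOn (fun p : Matrix ι ι ℂ × Matrix ι' ι' ℂ => FF2 Psi hA hB lamA lamB p.1 p.2)
      {p | IsDens p.1 ∧ IsDens p.2} := by
  have h1 : ContinuousOn (fun p : Matrix ι ι ℂ × Matrix ι' ι' ℂ => ent (Psi p.1 p.2))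
      {p | IsDens p.1 ∧ IsDens p.2} :=
    continuousOn_ent.comp D.cont (fun p hp => D.isDens hp.1 hp.2)
  have h2 : ContinuousOn (fun p : Matrix ι ι ℂ × Matrix ι' ι' ℂ => ent p.1)
      {p | IsDens p.1 ∧ IsDens p.2} :=
    continuousOn_ent.comp continuous_fst.continuousOn (fun p hp => hp.1)
  have h3 : ContinuousOn (fun p : Matrix ι ι ℂ × Matrix ι' ι' ℂ => ent p.2)
      {p | IsDens p.1 ∧ IsDens p.2} :=
    continuousOn_ent.comp continuous_snd.continuousOn (fun p hp => hp.2)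
  have h4 : Continuous (fun p : Matrix ι ι ℂ × Matrix ι' ι' ℂ => tp p.1 hA) :=
    (continuous_tp_const hA).comp continuous_fst
  have h5 : Continuous (fun p : Matrix ι ι ℂ × Matrix ι' ι' ℂ => tp p.2 hB) :=
    (continuous_tp_const hB).comp continuous_snd
  unfold FF2
  exact (((h1.add h4.continuousOn).add h5.continuousOn).sub (h2.const_smul lamA)).sub
    (h3.const_smul lamB)


end PairData

end Crest.Agent.R331.FMin299
end

-- ▼ part R331/FMinI_299

/-!
# Row 331 (S0514), FIN track: the leaves FMINexists, FMINpos, FMINel, FS of `FDefs_136`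
-/

set_option autoImplicit false
set_option linter.unusedSectionVars false

open scoped ComplexOrder Matrix Topology Kronecker
open Matrix Filter Crest.Agent.R332.Full Crest.Agent.R331.Duh839 Crest.Agent.R331.FMin299
open Crest.Quantum Crest.MathPhysics.Bosonic

namespace Crest.Agent.R331.FMinI299

/-! ### dictionary `FMin_299` ↔ `FDefs_136` -/

section dict

variable {ι : Type*} [Fintype ι] [DecidableEq ι]

lemma vnEntropy_eq {A : Matrix ι ι ℂ} (hA : A.IsHermitian) : vnEntropy A = ent A := by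
  rw [vnEntropy, dif_pos hA, ent_eq_sum hA, ← Finset.sum_neg_distrib]
  refine Finset.sum_congr rfl fun i _ => ?_
  rw [Real.negMulLog]; ring

lemma mlog_eq {X : Matrix ι ι ℂ} (hX : X.IsHermitian) : FDefs136.mlog X = FMin299.mlog X := by
  rw [FDefs136.mlog, dif_pos hX, FMin299.mlog, cf_form hX]
  rfl

lemma LM_eq {p q : ℝ} (hp : 0 < p) (hq : 0 < q) :
    FDefs136.LM p q = LMe (Real.log p) (Real.log q) := by
  rw [LMe_log hp hq]; rfl

lemma formM_eq {X : Matrix ι ι ℂ} (hX : X.PosDef) (Y : Matrix ι ι ℂ) :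
    FDefs136.formM X Y = MF hX.1 Y := by
  rw [FDefs136.formM, FDefs136.qf, dif_pos hX.1, MF]
  refine Finset.sum_congr rfl fun i _ => Finset.sum_congr rfl fun j _ => ?_
  rw [LM_eq (hX.eigenvalues_pos i) (hX.eigenvalues_pos j), Complex.normSq_eq_norm_sq]
  rfl

lemma trace_conj_aux {T : Matrix ι ι ℂ} (hTT : T * Tᴴ = 1) (M W : Matrix ι ι ℂ) :
    (Tᴴ * M * T * (Tᴴ * W * T)ᴴ).trace = (M * Wᴴ).trace := by
  rw [Matrix.conjTranspose_mul, Matrix.conjTranspose_mul, Matrix.conjTranspose_conjTranspose]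
  have e : Tᴴ * M * T * (Tᴴ * (Wᴴ * T)) = Tᴴ * (M * (T * Tᴴ) * Wᴴ * T) := by
    simp only [Matrix.mul_assoc]
  have e2 : M * 1 * Wᴴ * T * Tᴴ = M * Wᴴ * (T * Tᴴ) := by
    rw [Matrix.mul_one]; simp only [Matrix.mul_assoc]
  rw [e, hTT, Matrix.trace_mul_comm, e2, hTT, Matrix.mul_one]

/-- a weighted double sum does not depend on the diagonalisation -/
theorem weighted_sum_indep {U V : Matrix ι ι ℂ} {p q : ι → ℝ} (hU : Uᴴ * U = 1)
    (hV : Vᴴ * V = 1)
    (h : U * diagonal (fun i => ((p i : ℝ) : ℂ)) * Uᴴ = V * diagonal (fun i => ((q i : ℝ) : ℂ)) * Vᴴ)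
    (w : ℝ → ℝ → ℝ) (Y : Matrix ι ι ℂ) :
    ∑ i, ∑ j, w (p i) (p j) * ‖(Uᴴ * Y * U) i j‖ ^ 2 =
      ∑ i, ∑ j, w (q i) (q j) * ‖(Vᴴ * Y * V) i j‖ ^ 2 := by
  have hU' : U * Uᴴ = 1 := mul_eq_one_comm.mp hU
  have hV' : V * Vᴴ = 1 := mul_eq_one_comm.mp hV
  set T : Matrix ι ι ℂ := Uᴴ * V with hT
  have hTT : T * Tᴴ = 1 := by
    rw [hT, Matrix.conjTranspose_mul, Matrix.conjTranspose_conjTranspose]
    calc Uᴴ * V * (Vᴴ * U) = Uᴴ * (V * Vᴴ) * U := by simp only [Matrix.mul_assoc]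
      _ = 1 := by rw [hV', Matrix.mul_one, hU]
  have hcomm : diagonal (fun i => ((p i : ℝ) : ℂ)) * T = T * diagonal (fun i => ((q i : ℝ) : ℂ)) := by
    have e1 : Uᴴ * (U * diagonal (fun i => ((p i : ℝ) : ℂ)) * Uᴴ) * V =
        diagonal (fun i => ((p i : ℝ) : ℂ)) * T := by
      calc _ = (Uᴴ * U) * diagonal (fun i => ((p i : ℝ) : ℂ)) * (Uᴴ * V) := by
            simp only [Matrix.mul_assoc]
        _ = _ := by rw [hU, Matrix.one_mul]
    have e2 : Uᴴ * (V * diagonal (fun i => ((q i : ℝ) : ℂ)) * Vᴴ) * V =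
        T * diagonal (fun i => ((q i : ℝ) : ℂ)) := by
      calc _ = (Uᴴ * V) * diagonal (fun i => ((q i : ℝ) : ℂ)) * (Vᴴ * V) := by
            simp only [Matrix.mul_assoc]
        _ = _ := by rw [hV, Matrix.mul_one]
    rw [← e1, ← e2, h]
  have hz : ∀ i k, T i k ≠ 0 → p i = q k := by
    intro i k hne
    have := congrFun (congrFun hcomm i) k
    rw [Matrix.diagonal_mul, Matrix.mul_diagonal, mul_comm (T i k)] at this
    exact_mod_cast mul_right_cancel₀ hne this
  set W : Matrix ι ι ℂ := Uᴴ * Y * U with hW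
  have hW0 : Vᴴ * Y * V = Tᴴ * W * T := by
    rw [hT, hW, Matrix.conjTranspose_mul, Matrix.conjTranspose_conjTranspose]
    calc Vᴴ * Y * V = Vᴴ * 1 * Y * 1 * V := by simp
      _ = _ := by rw [← hU']; simp only [Matrix.mul_assoc]
  -- Hadamard products
  have key : ∀ (r : ι → ℝ) (Z : Matrix ι ι ℂ),
      ((∑ i, ∑ j, w (r i) (r j) * ‖Z i j‖ ^ 2 : ℝ) : ℂ) =
        ((Matrix.of fun i j => (w (r i) (r j) : ℂ) * Z i j) * Zᴴ).trace := by
    intro r Z
    rw [Matrix.trace, Complex.ofReal_sum]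
    refine Finset.sum_congr rfl fun i _ => ?_
    rw [Matrix.diag_apply, Matrix.mul_apply, Complex.ofReal_sum]
    refine Finset.sum_congr rfl fun j _ => ?_
    rw [Matrix.of_apply, Matrix.conjTranspose_apply, RCLike.star_def, mul_assoc, Complex.mul_conj,
      Complex.normSq_eq_norm_sq]
    push_cast
    ring
  have hH : (Matrix.of fun k l => (w (q k) (q l) : ℂ) * (Vᴴ * Y * V) k l) =
      Tᴴ * (Matrix.of fun i j => (w (p i) (p j) : ℂ) * W i j) * T := by
    rw [hW0]
    ext k l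
    rw [Matrix.of_apply, Matrix.mul_apply, Matrix.mul_apply, Finset.mul_sum]
    refine Finset.sum_congr rfl fun j _ => ?_
    rw [Matrix.mul_apply, Matrix.mul_apply, Finset.sum_mul, Finset.sum_mul, Finset.mul_sum]
    refine Finset.sum_congr rfl fun i _ => ?_
    rw [Matrix.conjTranspose_apply, Matrix.of_apply]
    by_cases h1 : T i k = 0
    · rw [h1]; simp
    by_cases h2 : T j l = 0
    · rw [h2]; simp
    rw [hz i k h1, hz j l h2]
    ring
  have : ((∑ i, ∑ j, w (p i) (p j) * ‖W i j‖ ^ 2 : ℝ) : ℂ) =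
      ((∑ i, ∑ j, w (q i) (q j) * ‖(Vᴴ * Y * V) i j‖ ^ 2 : ℝ) : ℂ) := by
    rw [key, key, hH, hW0, trace_conj_aux hTT]
  exact_mod_cast this

/-- `qf` in any diagonalisation -/
theorem qf_eq_of_diag {X : Matrix ι ι ℂ} {U : Matrix ι ι ℂ} {p : ι → ℝ} (hU : Uᴴ * U = 1)
    (hX : X = U * diagonal (fun i => ((p i : ℝ) : ℂ)) * Uᴴ) (w : ℝ → ℝ → ℝ) (Y : Matrix ι ι ℂ) :
    FDefs136.qf X w Y = ∑ i, ∑ j, w (p i) (p j) * ‖(Uᴴ * Y * U) i j‖ ^ 2 := by
  have hH : X.IsHermitian := by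
    unfold Matrix.IsHermitian
    rw [hX, Matrix.conjTranspose_mul, Matrix.conjTranspose_mul, Matrix.conjTranspose_conjTranspose,
      Matrix.diagonal_conjTranspose, Matrix.mul_assoc]
    congr 2
    congr 1
    funext i
    simp
  rw [FDefs136.qf, dif_pos hH]
  symm
  refine weighted_sum_indep hU (V := (hH.eigenvectorUnitary : Matrix ι ι ℂ)) ?_ ?_ w Y
  · rw [← star_eq_conjTranspose]
    exact Unitary.coe_star_mul_self _
  · rw [← hX]
    exact spectral_form hH

/-- scaling of a form under `X ↦ s X` -/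
theorem qf_smul_left {X : Matrix ι ι ℂ} (hX : X.IsHermitian) (s : ℝ) (w : ℝ → ℝ → ℝ)
    (Y : Matrix ι ι ℂ) :
    FDefs136.qf ((s : ℂ) • X) w Y = FDefs136.qf X (fun x y => w (s * x) (s * y)) Y := by
  have hX' : (s : ℂ) • X = (hX.eigenvectorUnitary : Matrix ι ι ℂ) *
      diagonal (fun i => ((s * hX.eigenvalues i : ℝ) : ℂ)) *
      (hX.eigenvectorUnitary : Matrix ι ι ℂ)ᴴ := by
    conv_lhs => rw [spectral_form hX]
    rw [← Matrix.smul_mul, ← Matrix.mul_smul, star_eq_conjTranspose]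
    congr 2
    ext i j
    by_cases hij : i = j
    · subst hij; simp
    · simp [hij]
  rw [qf_eq_of_diag (U := (hX.eigenvectorUnitary : Matrix ι ι ℂ)) ?_ hX', FDefs136.qf, dif_pos hX]
  · rfl
  · rw [← star_eq_conjTranspose]
    exact Unitary.coe_star_mul_self _

end dict

/-! ### scaling -/

section scaling

variable {ι : Type*} [Fintype ι] [DecidableEq ι]

lemma smul_eq_cf {X : Matrix ι ι ℂ} (hX : X.IsHermitian) (s : ℝ) :
    s • X = cf (fun x => s * x) X := by
  rw [← cf_smul s (fun x => x) X, cf_id hX]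

lemma mlog_smul {X : Matrix ι ι ℂ} (hX : X.PosDef) {s : ℝ} (hs : 0 < s) :
    FMin299.mlog (s • X) = FMin299.mlog X + Real.log s • 1 := by
  rw [smul_eq_cf hX.1, FMin299.mlog, cf_comp _ _ hX.1, ← cf_const hX.1, FMin299.mlog, cf_add]
  refine cf_congr fun x hx => ?_
  rw [Real.log_mul hs.ne' (spec_pos hX hx).ne']
  ring

lemma ent_smul {X : Matrix ι ι ℂ} (hX : X.IsHermitian) (s : ℝ) :
    ent (s • X) = s * ent X + Real.negMulLog s * X.trace.re := by
  have h : cf Real.negMulLog (s • X) = s • cf Real.negMulLog X + Real.negMulLog s • X := by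
    rw [smul_eq_cf hX, cf_comp _ _ hX, cf_smul]
    conv_rhs => rw [smul_eq_cf hX, cf_add]
    refine cf_congr fun x _ => ?_
    rw [Real.negMulLog_mul]
    ring
  rw [ent, h, Matrix.trace_add, Matrix.trace_smul, Matrix.trace_smul, Complex.add_re, ent]
  simp

lemma LM_smul {s x y : ℝ} (hs : 0 < s) (hx : 0 < x) (hy : 0 < y) :
    FDefs136.LM (s * x) (s * y) = s * FDefs136.LM x y := by
  unfold FDefs136.LM
  by_cases h : x = y
  · subst h; simp
  · have h' : s * x ≠ s * y := fun h'' => h (mul_left_cancel₀ hs.ne' h'')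
    rw [if_neg h, if_neg h', Real.log_mul hs.ne' hx.ne', Real.log_mul hs.ne' hy.ne']
    rw [mul_div_assoc', mul_sub]
    congr 1
    ring

lemma formM_smul_left {X : Matrix ι ι ℂ} (hX : X.PosDef) {s : ℝ} (hs : 0 < s)
    (Y : Matrix ι ι ℂ) : FDefs136.formM (s • X) Y = s * FDefs136.formM X Y := by
  rw [FDefs136.formM, smul_coe, qf_smul_left hX.1, FDefs136.formM, FDefs136.qf, FDefs136.qf,
    dif_pos hX.1, dif_pos hX.1, Finset.mul_sum]
  refine Finset.sum_congr rfl fun i _ => ?_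
  rw [Finset.mul_sum]
  refine Finset.sum_congr rfl fun j _ => ?_
  rw [LM_smul hs (hX.eigenvalues_pos i) (hX.eigenvalues_pos j)]
  ring

lemma MF_scale {X : Matrix ι ι ℂ} (hX : X.PosDef) (s : ℝ) (Z : Matrix ι ι ℂ) :
    MF hX.1 (s • Z) = s ^ 2 * MF hX.1 Z := by
  rw [smul_coe, MF_smul, Complex.normSq_ofReal, sq]

end scaling

/-! ### facts at an arbitrary joint minimiser -/

section facts

variable {ι : Type*} [Fintype ι] [DecidableEq ι] {ι' : Type*} [Fintype ι'] [DecidableEq ι']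
  {κ : Type*} [Fintype κ] [DecidableEq κ]
  {Psi : Matrix ι ι ℂ → Matrix ι' ι' ℂ → Matrix κ κ ℂ}
  {PA : Matrix ι' ι' ℂ → (Matrix κ κ ℂ →ₗ[ℂ] Matrix ι ι ℂ)}
  {PB : Matrix ι ι ℂ → (Matrix κ κ ℂ →ₗ[ℂ] Matrix ι' ι' ℂ)}

theorem facts [Nonempty ι] [Nonempty ι'] [Nonempty κ] (D : PairData Psi PA PB)
    {hA : Matrix ι ι ℂ} {hB : Matrix ι' ι' ℂ} (hhA : hA.IsHermitian) (hhB : hB.IsHermitian)
    {lamA lamB : ℝ} (hlA : 0 < lamA) (hlB : 0 < lamB) {A : Matrix ι ι ℂ} {B : Matrix ι' ι' ℂ}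
    (dA : IsDens A) (dB : IsDens B)
    (hmin : ∀ A' B', IsDens A' → IsDens B' →
        FF2 Psi hA hB lamA lamB A B ≤ FF2 Psi hA hB lamA lamB A' B') :
    ∃ (pA : A.PosDef) (pB : B.PosDef) (cA cB : ℝ),
      lamA • FMin299.mlog A = PA B (FMin299.mlog (Psi A B)) - hA - cA • 1 ∧
      lamB • FMin299.mlog B = PB A (FMin299.mlog (Psi A B)) - hB - cB • 1 ∧
      (∀ A', IsDens A' → rel (Psi A' B) (Psi A B) ≤ lamA * rel A' A) ∧
      (∀ B', IsDens B' → rel (Psi A B') (Psi A B) ≤ lamB * rel B' B) ∧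
      (∀ Y, MF pA.1 (PA B Y - (Psi A B * Y).trace • 1) ≤
        lamA * MF (D.posDef A B dA dB).1 (Y - (Psi A B * Y).trace • 1)) ∧
      (∀ Y, MF pB.1 (PB A Y - (Psi A B * Y).trace • 1) ≤
        lamB * MF (D.posDef A B dA dB).1 (Y - (Psi A B * Y).trace • 1)) := by
  have DA := D.elA dB
  have DB := D.elB dA
  have hminA : ∀ A', IsDens A' →
      FF (fun A => Psi A B) hA lamA A ≤ FF (fun A => Psi A B) hA lamA A' := by
    intro A' hA'
    have := hmin A' B hA' dB
    simp only [FF2] at this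
    simp only [FF]
    linarith
  have hminB : ∀ B', IsDens B' →
      FF (fun B => Psi A B) hB lamB B ≤ FF (fun B => Psi A B) hB lamB B' := by
    intro B' hB'
    have := hmin A B' dA hB'
    simp only [FF2] at this
    simp only [FF]
    linarith
  obtain ⟨cA, EA⟩ := DA.exists_EL hhA hlA dA hminA
  obtain ⟨cB, EB⟩ := DB.exists_EL hhB hlB dB hminB
  have rA : ∀ A', IsDens A' → rel (Psi A' B) (Psi A B) ≤ lamA * rel A' A := fun A' hA' =>
    EA.rel_le DA hminA hA'
  have rB : ∀ B', IsDens B' → rel (Psi A B') (Psi A B) ≤ lamB * rel B' B := fun B' hB' =>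
    EB.rel_le DB hminB hB'
  refine ⟨EA.posDef, EB.posDef, cA, cB, EA.eq, EB.eq, rA, rB, fun Y => ?_, fun Y => ?_⟩
  · have h := DA.sdpi_centred hlA dA EA.posDef rA Y
    have e : (A * PA B Y).trace = (Psi A B * Y).trace := (D.dualA A B Y dA dB).symm
    rw [e] at h
    exact h
  · have h := DB.sdpi_centred hlB dB EB.posDef rB Y
    have e : (B * PB A Y).trace = (Psi A B * Y).trace := (D.dualB A B Y dA dB).symm
    rw [e] at h
    exact h

end facts

/-! ### the concrete beam splitter on boxes -/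

lemma PB_generic {α β γ δ : Type*} [Fintype α] [Fintype β] [Fintype γ] [Fintype δ]
    [DecidableEq α] [DecidableEq β] [DecidableEq γ] [DecidableEq δ]
    (W : Matrix (γ × δ) (α × β) ℂ) (A : Matrix α α ℂ) (Y : Matrix γ γ ℂ) :
    FCov76.ptR (((1 : Matrix β β ℂ) ⊗ₖ A) * ((W.submatrix id Prod.swap)ᴴ *
      (Y ⊗ₖ (1 : Matrix δ δ ℂ)) * W.submatrix id Prod.swap)) = FinPhi280.PB W A Y := by
  have hs : ((W.submatrix id Prod.swap)ᴴ * (Y ⊗ₖ (1 : Matrix δ δ ℂ)) *
      W.submatrix id Prod.swap) = (FinPhi280.Gm W Y).submatrix Prod.swap Prod.swap := by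
    ext ⟨j, i⟩ ⟨j', i'⟩
    simp [FinPhi280.Gm, Matrix.mul_apply]
  have hPB : FinPhi280.PB W A Y = FinPhi280.tr1 ((A ⊗ₖ (1 : Matrix β β ℂ)) * FinPhi280.Gm W Y) :=
    rfl
  rw [hs, hPB]
  generalize FinPhi280.Gm W Y = G
  ext j j'
  simp only [FCov76.ptR, FinPhi280.tr1_apply, Matrix.mul_apply,
    Fintype.sum_prod_type, kroneckerMap_apply, submatrix_apply, Prod.swap_prod_mk,
    Matrix.one_apply]
  refine Finset.sum_congr rfl fun i _ => ?_
  rw [Finset.sum_comm]
  refine Finset.sum_congr rfl fun k _ => Finset.sum_congr rfl fun l _ => ?_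
  ring

section boxes

variable {n K : ℕ}

/-- embedding of a box into all occupations -/
def emb (n K : ℕ) (k : FDefs136.Bx n K) : Occ n := fun i => (k i : ℕ)

lemma isCut (n K : ℕ) : FinW87.IsCut (emb n K) (emb n (2 * K)) where
  injS k l h := by
    funext i
    exact Fin.ext (congrFun h i)
  injT k l h := by
    funext i
    exact Fin.ext (congrFun h i)
  downS k l h := ⟨fun i => ⟨l i, lt_of_le_of_lt (h i) (k i).2⟩, rfl⟩
  downT k l h := ⟨fun i => ⟨l i, lt_of_le_of_lt (h i) (k i).2⟩, rfl⟩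
  dom k l p h := ⟨fun i => ⟨p i, by
    have h1 := h i
    have h2 := (k i).2
    have h3 := (l i).2
    simp only [Pi.add_apply, emb] at h1
    omega⟩, rfl⟩

lemma bsW_eq (η : ℝ) : FDefs136.bsW η n K = FinW87.iota η (emb n K) (emb n (2 * K)) := rfl

lemma bsW_iso {η : ℝ} (h0 : 0 ≤ η) (h1 : η ≤ 1) :
    (FDefs136.bsW η n K)ᴴ * FDefs136.bsW η n K = 1 := by
  rw [bsW_eq]
  exact FinW87.iota_isometry h0 h1 (isCut n K)

lemma outC_eq (η : ℝ) (A B : Matrix (FDefs136.Bx n K) (FDefs136.Bx n K) ℂ) :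
    FDefs136.outC η A B = FinPhi280.Phi (FDefs136.bsW η n K) A B := rfl

lemma PA_eq (η : ℝ) (B : Matrix (FDefs136.Bx n K) (FDefs136.Bx n K) ℂ)
    (Y : Matrix (FDefs136.Bx n (2 * K)) (FDefs136.Bx n (2 * K)) ℂ) :
    FDefs136.PA η B Y = FinPhi280.PA (FDefs136.bsW η n K) B Y := rfl

lemma PB_eq (η : ℝ) (A : Matrix (FDefs136.Bx n K) (FDefs136.Bx n K) ℂ)
    (Y : Matrix (FDefs136.Bx n (2 * K)) (FDefs136.Bx n (2 * K)) ℂ) :
    FDefs136.PB η A Y = FinPhi280.PB (FDefs136.bsW η n K) A Y :=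
  PB_generic _ _ _

end boxes

/-! ### `Q = C + ε`, normalised -/

section norm

variable {I J K L : Type*} [Fintype I] [DecidableEq I] [Fintype J] [DecidableEq J]
  [Fintype K] [DecidableEq K] [Fintype L] [DecidableEq L] (W : Matrix (K × L) (I × J) ℂ)

/-- `Q = C + ε` -/
noncomputable def QQ (ε : ℝ) (A : Matrix I I ℂ) (B : Matrix J J ℂ) : Matrix K K ℂ :=
  FinPhi280.Phi W A B + (ε : ℂ) • (1 : Matrix K K ℂ)

/-- the trace of `Q` -/
noncomputable def tau (K : Type*) [Fintype K] (ε : ℝ) : ℝ := 1 + ε * Fintype.card K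

lemma tau_pos {ε : ℝ} (hε : 0 < ε) : 0 < tau K ε := by
  unfold tau; positivity

/-- normalised output -/
noncomputable def Psi (ε : ℝ) (A : Matrix I I ℂ) (B : Matrix J J ℂ) : Matrix K K ℂ :=
  (tau K ε)⁻¹ • QQ W ε A B

/-- dual map for the first input -/
noncomputable def PAl (ε : ℝ) (B : Matrix J J ℂ) : Matrix K K ℂ →ₗ[ℂ] Matrix I I ℂ where
  toFun Y := (tau K ε)⁻¹ • (FinPhi280.PA W B Y + ((ε : ℂ) * Y.trace) • (1 : Matrix I I ℂ))
  map_add' Y Z := by
    rw [FinPhi280.PA_add, Matrix.trace_add, mul_add, add_smul, ← smul_add]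
    congr 1
    abel
  map_smul' c Y := by
    rw [FinPhi280.PA_smul, Matrix.trace_smul, RingHom.id_apply, smul_comm c, smul_eq_mul]
    congr 1
    rw [smul_add, smul_smul]
    congr 2
    ring

/-- dual map for the second input -/
noncomputable def PBl (ε : ℝ) (A : Matrix I I ℂ) : Matrix K K ℂ →ₗ[ℂ] Matrix J J ℂ where
  toFun Y := (tau K ε)⁻¹ • (FinPhi280.PB W A Y + ((ε : ℂ) * Y.trace) • (1 : Matrix J J ℂ))
  map_add' Y Z := by
    rw [FinPhi280.PB_add, Matrix.trace_add, mul_add, add_smul, ← smul_add]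
    congr 1
    abel
  map_smul' c Y := by
    rw [FinPhi280.PB_smul, Matrix.trace_smul, RingHom.id_apply, smul_comm c, smul_eq_mul]
    congr 1
    rw [smul_add, smul_smul]
    congr 2
    ring

lemma PAl_apply (ε : ℝ) (B : Matrix J J ℂ) (Y : Matrix K K ℂ) : PAl W ε B Y =
    (tau K ε)⁻¹ • (FinPhi280.PA W B Y + ((ε : ℂ) * Y.trace) • (1 : Matrix I I ℂ)) := rfl

lemma PBl_apply (ε : ℝ) (A : Matrix I I ℂ) (Y : Matrix K K ℂ) : PBl W ε A Y =
    (tau K ε)⁻¹ • (FinPhi280.PB W A Y + ((ε : ℂ) * Y.trace) • (1 : Matrix J J ℂ)) := rfl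

lemma QQ_posDef {ε : ℝ} (hε : 0 < ε) {A : Matrix I I ℂ} {B : Matrix J J ℂ} (hA : IsDens A)
    (hB : IsDens B) : (QQ W ε A B).PosDef :=
  FinPhi280.posDef_add_eps (FinPhi280.Phi_posSemidef W hA.1 hB.1) hε

lemma QQ_trace (hW : Wᴴ * W = 1) (ε : ℝ) {A : Matrix I I ℂ} {B : Matrix J J ℂ} (hA : IsDens A)
    (hB : IsDens B) : (QQ W ε A B).trace = ((tau K ε : ℝ) : ℂ) := by
  rw [QQ, Matrix.trace_add, FinPhi280.trace_Phi W hW, hA.2, hB.2, Matrix.trace_smul,
    Matrix.trace_one, tau]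
  push_cast
  simp

lemma QQ_mul_trace (ε : ℝ) (A : Matrix I I ℂ) (B : Matrix J J ℂ) (Y : Matrix K K ℂ) :
    (QQ W ε A B * Y).trace = (FinPhi280.Phi W A B * Y).trace + (ε : ℂ) * Y.trace := by
  rw [QQ, Matrix.add_mul, Matrix.trace_add, Matrix.smul_mul, Matrix.one_mul, Matrix.trace_smul,
    smul_eq_mul]

lemma Psi_mul_trace (ε : ℝ) (A : Matrix I I ℂ) (B : Matrix J J ℂ) (Y : Matrix K K ℂ) :
    (Psi W ε A B * Y).trace =
      (tau K ε)⁻¹ • ((FinPhi280.Phi W A B * Y).trace + (ε : ℂ) * Y.trace) := by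
  rw [Psi, Matrix.smul_mul, Matrix.trace_smul, QQ_mul_trace]

lemma mul_PAl_trace (ε : ℝ) {A : Matrix I I ℂ} (hA : A.trace = 1) (B : Matrix J J ℂ)
    (Y : Matrix K K ℂ) :
    (A * PAl W ε B Y).trace =
      (tau K ε)⁻¹ • ((FinPhi280.Phi W A B * Y).trace + (ε : ℂ) * Y.trace) := by
  rw [PAl_apply, Matrix.mul_smul, Matrix.trace_smul, Matrix.mul_add, Matrix.trace_add,
    Matrix.mul_smul, Matrix.mul_one, Matrix.trace_smul, hA, smul_eq_mul, mul_one,
    ← FinPhi280.trace_Phi_mul_PA]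

lemma mul_PBl_trace (ε : ℝ) (A : Matrix I I ℂ) {B : Matrix J J ℂ} (hB : B.trace = 1)
    (Y : Matrix K K ℂ) :
    (B * PBl W ε A Y).trace =
      (tau K ε)⁻¹ • ((FinPhi280.Phi W A B * Y).trace + (ε : ℂ) * Y.trace) := by
  rw [PBl_apply, Matrix.mul_smul, Matrix.trace_smul, Matrix.mul_add, Matrix.trace_add,
    Matrix.mul_smul, Matrix.mul_one, Matrix.trace_smul, hB, smul_eq_mul, mul_one,
    ← FinPhi280.trace_Phi_mul_PB]

lemma continuous_Phi : Continuous (fun p : Matrix I I ℂ × Matrix J J ℂ =>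
    FinPhi280.Phi W p.1 p.2) := by
  refine continuous_matrix fun k k' => ?_
  simp only [FinPhi280.Phi, FinPhi280.tr2_apply, Matrix.mul_apply, kroneckerMap_apply]
  fun_prop

lemma pairData (hW : Wᴴ * W = 1) {ε : ℝ} (hε : 0 < ε) :
    PairData (Psi W ε) (PAl W ε) (PBl W ε) where
  posDef A B hA hB := (QQ_posDef W hε hA hB).smul (inv_pos.2 (tau_pos hε))
  trace_one A B hA hB := by
    rw [Psi, Matrix.trace_smul, QQ_trace W hW ε hA hB, Complex.real_smul, ← Complex.ofReal_mul,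
      inv_mul_cancel₀ (tau_pos hε).ne', Complex.ofReal_one]
  cont := by
    have h : Continuous (fun p : Matrix I I ℂ × Matrix J J ℂ => Psi W ε p.1 p.2) := by
      unfold Psi QQ
      exact ((continuous_Phi W).add continuous_const).const_smul ((tau K ε)⁻¹)
    exact h.continuousOn
  dualA A B Y hA hB := by rw [Psi_mul_trace, mul_PAl_trace W ε hA.2]
  dualB A B Y hA hB := by rw [Psi_mul_trace, mul_PBl_trace W ε A hB.2]
  starA B Y hB := by
    rw [PAl_apply, PAl_apply, FinPhi280.PA_conjTranspose W hB.1.1, Matrix.trace_conjTranspose,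
      Matrix.conjTranspose_smul, Matrix.conjTranspose_add, Matrix.conjTranspose_smul,
      Matrix.conjTranspose_one]
    simp
  starB A Y hA := by
    rw [PBl_apply, PBl_apply, FinPhi280.PB_conjTranspose W hA.1.1, Matrix.trace_conjTranspose,
      Matrix.conjTranspose_smul, Matrix.conjTranspose_add, Matrix.conjTranspose_smul,
      Matrix.conjTranspose_one]
    simp

/-- the unnormalised functional -/
noncomputable def Fu (ε : ℝ) (hA : Matrix I I ℂ) (hB : Matrix J J ℂ) (lamA lamB : ℝ)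
    (A : Matrix I I ℂ) (B : Matrix J J ℂ) : ℝ :=
  ent (QQ W ε A B) + tp A hA + tp B hB - lamA * ent A - lamB * ent B

lemma Fu_eq (hW : Wᴴ * W = 1) {ε : ℝ} (hε : 0 < ε) (hA : Matrix I I ℂ) (hB : Matrix J J ℂ)
    (lamA lamB : ℝ) {A : Matrix I I ℂ} {B : Matrix J J ℂ} (dA : IsDens A) (dB : IsDens B) :
    Fu W ε hA hB lamA lamB A B = tau K ε * FF2 (Psi W ε) ((tau K ε)⁻¹ • hA) ((tau K ε)⁻¹ • hB)
      ((tau K ε)⁻¹ * lamA) ((tau K ε)⁻¹ * lamB) A B + Real.negMulLog (tau K ε) := by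
  have ht := tau_pos (K := K) hε
  have hQ : QQ W ε A B = tau K ε • Psi W ε A B := by
    rw [Psi, smul_smul, mul_inv_cancel₀ ht.ne', one_smul]
  have D := pairData W hW hε
  rw [Fu, FF2, hQ, ent_smul (D.posDef A B dA dB).1, D.trace_one A B dA dB, tp_smul_right,
    tp_smul_right, Complex.one_re]
  field_simp
  ring

theorem factsQ [Nonempty I] [Nonempty J] [Nonempty K] (hW : Wᴴ * W = 1) {ε : ℝ} (hε : 0 < ε)
    {hA : Matrix I I ℂ} {hB : Matrix J J ℂ} (hhA : hA.IsHermitian) (hhB : hB.IsHermitian)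
    {lamA lamB : ℝ} (hlA : 0 < lamA) (hlB : 0 < lamB) {A : Matrix I I ℂ} {B : Matrix J J ℂ}
    (dA : IsDens A) (dB : IsDens B)
    (hmin : ∀ A' B', IsDens A' → IsDens B' →
        Fu W ε hA hB lamA lamB A B ≤ Fu W ε hA hB lamA lamB A' B') :
    A.PosDef ∧ B.PosDef ∧
      (∃ r : ℝ, lamA • FMin299.mlog A = FinPhi280.PA W B (FMin299.mlog (QQ W ε A B)) - hA -
        r • (1 : Matrix I I ℂ)) ∧
      (∃ r : ℝ, lamB • FMin299.mlog B = FinPhi280.PB W A (FMin299.mlog (QQ W ε A B)) - hB -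
        r • (1 : Matrix J J ℂ)) ∧
      (∀ Y, FDefs136.formM A (FDefs136.cen A (FinPhi280.PA W B Y)) ≤
        lamA * FDefs136.formM (QQ W ε A B) Y) ∧
      (∀ Y, FDefs136.formM B (FDefs136.cen B (FinPhi280.PB W A Y)) ≤
        lamB * FDefs136.formM (QQ W ε A B) Y) := by
  have ht := tau_pos (K := K) hε
  have hti := inv_pos.2 ht
  have D := pairData W hW hε
  set τ := tau K ε with hτ
  have hQ := QQ_posDef W hε dA dB
  have hmin' : ∀ A' B', IsDens A' → IsDens B' →
      FF2 (Psi W ε) (τ⁻¹ • hA) (τ⁻¹ • hB) (τ⁻¹ * lamA) (τ⁻¹ * lamB) A B ≤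
        FF2 (Psi W ε) (τ⁻¹ • hA) (τ⁻¹ • hB) (τ⁻¹ * lamA) (τ⁻¹ * lamB) A' B' := by
    intro A' B' dA' dB'
    have h := hmin A' B' dA' dB'
    rw [Fu_eq W hW hε hA hB lamA lamB dA dB, Fu_eq W hW hε hA hB lamA lamB dA' dB'] at h
    exact le_of_mul_le_mul_left (by linarith) ht
  obtain ⟨pA, pB, cA, cB, eA, eB, -, -, sA, sB⟩ := facts D (hhA.smul (by simp [IsSelfAdjoint]))
    (hhB.smul (by simp [IsSelfAdjoint])) (mul_pos hti hlA) (mul_pos hti hlB) dA dB hmin'
  have hlogP : FMin299.mlog (Psi W ε A B) = FMin299.mlog (QQ W ε A B) + Real.log τ⁻¹ • 1 := by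
    rw [Psi, mlog_smul hQ hti]
  have hLr : ∀ {L₀ : Matrix K K ℂ}, L₀.IsHermitian → L₀.trace = ((L₀.trace.re : ℝ) : ℂ) := by
    intro L₀ hL
    have h : star L₀.trace = L₀.trace := by rw [← Matrix.trace_conjTranspose, hL.eq]
    exact (Complex.conj_eq_iff_re.1 h).symm
  have hherm : (FMin299.mlog (QQ W ε A B) + Real.log τ⁻¹ • (1 : Matrix K K ℂ)).IsHermitian := by
    rw [← hlogP]; exact isHermitian_mlog _
  have htr := hLr hherm
  set L₀ := FMin299.mlog (QQ W ε A B) with hL₀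
  set t₀ : ℝ := (L₀ + Real.log τ⁻¹ • (1 : Matrix K K ℂ)).trace.re with ht₀
  have h1 : ∀ c : ℝ, FinPhi280.PA W B (c • (1 : Matrix K K ℂ)) = c • (1 : Matrix I I ℂ) := by
    intro c
    rw [smul_coe, FinPhi280.PA_smul, FinPhi280.PA_one W hW dB.2, ← smul_coe]
  have h2 : ∀ c : ℝ, FinPhi280.PB W A (c • (1 : Matrix K K ℂ)) = c • (1 : Matrix J J ℂ) := by
    intro c
    rw [smul_coe, FinPhi280.PB_smul, FinPhi280.PB_one W hW dA.2, ← smul_coe]
  have hR : ∀ Y : Matrix K K ℂ, MF (D.posDef A B dA dB).1 (Y - (Psi W ε A B * Y).trace • 1) ≤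
      τ⁻¹ * FDefs136.formM (QQ W ε A B) Y := by
    intro Y
    rw [MF_sub_mean (D.posDef A B dA dB) (D.trace_one A B dA dB)]
    have h3 : MF (D.posDef A B dA dB).1 Y = τ⁻¹ * FDefs136.formM (QQ W ε A B) Y := by
      rw [← formM_smul_left hQ hti]
      exact (formM_eq (D.posDef A B dA dB) Y).symm
    rw [h3]
    linarith [Complex.normSq_nonneg (Psi W ε A B * Y).trace]
  refine ⟨pA, pB, ⟨τ * cA - Real.log τ⁻¹ - ε * t₀, ?_⟩, ⟨τ * cB - Real.log τ⁻¹ - ε * t₀, ?_⟩,
    fun Y => ?_, fun Y => ?_⟩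
  · have e := congrArg (fun Z => τ • Z) eA
    beta_reduce at e
    rw [hlogP, PAl_apply, htr, FinPhi280.PA_add, h1, ← Complex.ofReal_mul, ← smul_coe] at e
    rw [← hτ] at e
    simp only [smul_sub, smul_smul, mul_inv_cancel₀ ht.ne', one_smul, ← mul_assoc, one_mul] at e
    rw [e, sub_smul, sub_smul, ← smul_smul, ← smul_smul]
    abel
  · have e := congrArg (fun Z => τ • Z) eB
    beta_reduce at e
    rw [hlogP, PBl_apply, htr, FinPhi280.PB_add, h2, ← Complex.ofReal_mul, ← smul_coe] at e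
    rw [← hτ] at e
    simp only [smul_sub, smul_smul, mul_inv_cancel₀ ht.ne', one_smul, ← mul_assoc, one_mul] at e
    rw [e, sub_smul, sub_smul, ← smul_smul, ← smul_smul]
    abel
  · have e := (sA Y).trans (mul_le_mul_of_nonneg_left (hR Y) (mul_pos hti hlA).le)
    have e3 : PAl W ε B Y - (Psi W ε A B * Y).trace • (1 : Matrix I I ℂ) =
        τ⁻¹ • FDefs136.cen A (FinPhi280.PA W B Y) := by
      rw [FDefs136.cen, PAl_apply, Psi_mul_trace, ← FinPhi280.trace_Phi_mul_PA, ← hτ, smul_sub,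
        smul_add, smul_assoc, add_smul, smul_add]
      abel
    rw [e3, MF_scale pA, ← formM_eq pA] at e
    have h4 : τ⁻¹ ^ 2 * FDefs136.formM A (FDefs136.cen A (FinPhi280.PA W B Y)) ≤
        τ⁻¹ ^ 2 * (lamA * FDefs136.formM (QQ W ε A B) Y) := by
      calc _ ≤ _ := e
        _ = _ := by ring
    exact le_of_mul_le_mul_left h4 (by positivity)
  · have e := (sB Y).trans (mul_le_mul_of_nonneg_left (hR Y) (mul_pos hti hlB).le)
    have e3 : PBl W ε A Y - (Psi W ε A B * Y).trace • (1 : Matrix J J ℂ) =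
        τ⁻¹ • FDefs136.cen B (FinPhi280.PB W A Y) := by
      rw [FDefs136.cen, PBl_apply, Psi_mul_trace, ← FinPhi280.trace_Phi_mul_PB, ← hτ, smul_sub,
        smul_add, smul_assoc, add_smul, smul_add]
      abel
    rw [e3, MF_scale pB, ← formM_eq pB] at e
    have h4 : τ⁻¹ ^ 2 * FDefs136.formM B (FDefs136.cen B (FinPhi280.PB W A Y)) ≤
        τ⁻¹ ^ 2 * (lamB * FDefs136.formM (QQ W ε A B) Y) := by
      calc _ ≤ _ := e
        _ = _ := by ring
    exact le_of_mul_le_mul_left h4 (by positivity)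

end norm

/-! ### the literal leaves -/

section leaves

open FDefs136

variable {n K : ℕ}

lemma par_pos (p : Par) : 0 < p.bA ∧ 0 < p.bB ∧ 0 < p.bC ∧ 0 < p.β ∧ 0 < p.lamA ∧ 0 < p.lamB := by
  have hb : ∀ {N : ℝ}, 0 < N → 0 < bN N := by
    intro N hN
    unfold bN
    apply Real.log_pos
    have : 0 < 1 / N := by positivity
    linarith
  have hNC : 0 < p.NC := by
    unfold Par.NC
    have h1 := mul_pos p.η_pos p.NA_pos
    have h2 := mul_pos (sub_pos.2 p.η_lt) p.NB_pos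
    linarith
  have h1 := hb p.NA_pos
  have h2 := hb p.NB_pos
  have h3 := hb hNC
  have h4 : 0 < p.β := by
    unfold Par.β Par.bC
    have := p.μ_pos
    linarith
  refine ⟨h1, h2, h3, h4, ?_, ?_⟩
  · exact div_pos (mul_pos p.η_pos h4) h1
  · exact div_pos (mul_pos (sub_pos.2 p.η_lt) h4) h2

lemma num_herm : (num n K).IsHermitian := by
  unfold num Matrix.IsHermitian
  rw [Matrix.diagonal_conjTranspose]
  congr 1
  funext i
  simp

lemma tp_num (c : ℝ) (A : Matrix (Bx n K) (Bx n K) ℂ) : tp A (c • num n K) = c * En A := by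
  rw [tp_smul_right]; rfl

lemma F_eq (p : Par) {ε : ℝ} {A B : Matrix (Bx n K) (Bx n K) ℂ} (dA : IsDensity A)
    (dB : IsDensity B) : F p ε A B = Fu (bsW p.η n K) ε ((p.μ * p.η) • num n K)
      ((p.μ * (1 - p.η)) • num n K) p.lamA p.lamB A B := by
  have hQ : (outQ p.η ε A B).IsHermitian := by
    unfold outQ
    refine Matrix.IsHermitian.add ?_ ?_
    · rw [outC_eq]
      exact (FinPhi280.Phi_posSemidef (bsW p.η n K) dA.1 dB.1).1
    · rw [← smul_coe]
      exact Matrix.isHermitian_one.smul (by simp [IsSelfAdjoint])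
  rw [F, vnEntropy_eq hQ, vnEntropy_eq dA.1.1, vnEntropy_eq dB.1.1, Fu, tp_num, tp_num]
  have : QQ (bsW p.η n K) ε A B = outQ p.η ε A B := rfl
  rw [this]
  ring

lemma isMin_iff (p : Par) {ε : ℝ} {A B : Matrix (Bx n K) (Bx n K) ℂ} :
    IsMin p ε A B ↔ IsDens A ∧ IsDens B ∧ ∀ A' B', IsDens A' → IsDens B' →
      Fu (bsW p.η n K) ε ((p.μ * p.η) • num n K) ((p.μ * (1 - p.η)) • num n K) p.lamA p.lamB A B
      ≤ Fu (bsW p.η n K) ε ((p.μ * p.η) • num n K) ((p.μ * (1 - p.η)) • num n K)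
        p.lamA p.lamB A' B' := by
  constructor
  · intro h
    refine ⟨h.dA, h.dB, fun A' B' dA' dB' => ?_⟩
    rw [← F_eq p h.dA h.dB, ← F_eq p dA' dB']
    exact h.le A' B' dA' dB'
  · rintro ⟨dA, dB, h⟩
    refine ⟨dA, dB, fun A' B' dA' dB' => ?_⟩
    rw [F_eq p dA dB, F_eq p dA' dB']
    exact h A' B' dA' dB'

/-- LEAF FMIN: existence. -/
theorem fminExists : FMINexists := by
  intro p n K ε hε
  have hW := bsW_iso (n := n) (K := K) p.η_pos.le p.η_lt.le
  have D := pairData (bsW p.η n K) hW hε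
  set τ := tau (Bx n (2 * K)) ε with hτ
  have ht : 0 < τ := tau_pos hε
  obtain ⟨A, B, dA, dB, hmin⟩ := exists_min_pair _
    (D.continuousOn_FF2 (τ⁻¹ • ((p.μ * p.η) • num n K)) (τ⁻¹ • ((p.μ * (1 - p.η)) • num n K))
      (τ⁻¹ * p.lamA) (τ⁻¹ * p.lamB))
  refine ⟨A, B, (isMin_iff p).2 ⟨dA, dB, fun A' B' dA' dB' => ?_⟩⟩
  rw [Fu_eq (bsW p.η n K) hW hε _ _ p.lamA p.lamB dA dB,
    Fu_eq (bsW p.η n K) hW hε _ _ p.lamA p.lamB dA' dB']
  have h := mul_le_mul_of_nonneg_left (hmin A' B' dA' dB') ht.le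
  linarith

lemma allFacts (p : Par) {ε : ℝ} (hε : 0 < ε) {A B : Matrix (Bx n K) (Bx n K) ℂ}
    (h : IsMin p ε A B) :
    A.PosDef ∧ B.PosDef ∧
      (∃ r : ℝ, p.lamA • FMin299.mlog A = FinPhi280.PA (bsW p.η n K) B
        (FMin299.mlog (QQ (bsW p.η n K) ε A B)) - (p.μ * p.η) • num n K -
        r • (1 : Matrix (Bx n K) (Bx n K) ℂ)) ∧
      (∃ r : ℝ, p.lamB • FMin299.mlog B = FinPhi280.PB (bsW p.η n K) A
        (FMin299.mlog (QQ (bsW p.η n K) ε A B)) - (p.μ * (1 - p.η)) • num n K -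
        r • (1 : Matrix (Bx n K) (Bx n K) ℂ)) ∧
      (∀ Y, formM A (cen A (FinPhi280.PA (bsW p.η n K) B Y)) ≤
        p.lamA * formM (QQ (bsW p.η n K) ε A B) Y) ∧
      (∀ Y, formM B (cen B (FinPhi280.PB (bsW p.η n K) A Y)) ≤
        p.lamB * formM (QQ (bsW p.η n K) ε A B) Y) :=
  factsQ (bsW p.η n K) (bsW_iso (n := n) (K := K) p.η_pos.le p.η_lt.le) hε
    (num_herm.smul (k := p.μ * p.η) (by simp [IsSelfAdjoint]))
    (num_herm.smul (k := p.μ * (1 - p.η)) (by simp [IsSelfAdjoint]))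
    (par_pos p).2.2.2.2.1 (par_pos p).2.2.2.2.2 h.dA h.dB ((isMin_iff p).1 h).2.2

/-- LEAF FMIN: full rank. -/
theorem fminPos : FMINpos := by
  intro p n K ε hε A B h
  obtain ⟨pA, pB, -⟩ := allFacts p hε h
  exact ⟨pA, pB⟩

lemma KL_eq {ι : Type*} [Fintype ι] [DecidableEq ι] {X : Matrix ι ι ℂ} (hX : X.IsHermitian) :
    KL X = - FMin299.mlog X := by
  rw [KL, mlog_eq hX]

/-- LEAF FMIN: Euler-Lagrange. -/
theorem fminEl : FMINel := by
  intro p n K ε hε A B h
  obtain ⟨pA, pB, ⟨rA, eA⟩, ⟨rB, eB⟩, -⟩ := allFacts p hε h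
  have hQ : (outQ p.η ε A B).PosDef := QQ_posDef (bsW p.η n K) hε h.dA h.dB
  have hQQ : QQ (bsW p.η n K) ε A B = outQ p.η ε A B := rfl
  refine ⟨⟨rA, ?_⟩, ⟨rB, ?_⟩⟩
  · rw [KL_eq pA.1, KL_eq hQ.1, PA_eq, ← neg_one_smul ℂ (FMin299.mlog (outQ p.η ε A B)),
      FinPhi280.PA_smul, ← smul_coe, ← smul_coe, ← smul_coe, smul_neg, eA, hQQ, neg_one_smul]
    abel
  · rw [KL_eq pB.1, KL_eq hQ.1, PB_eq, ← neg_one_smul ℂ (FMin299.mlog (outQ p.η ε A B)),
      FinPhi280.PB_smul, ← smul_coe, ← smul_coe, ← smul_coe, smul_neg, eB, hQQ, neg_one_smul]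
    abel

/-- LEAF FS: Kubo-Mori contraction. -/
theorem fs : FS := by
  intro p n K ε hε A B h Y
  obtain ⟨-, -, -, -, sA, sB⟩ := allFacts p hε h
  refine ⟨?_, ?_⟩
  · rw [PA_eq]
    exact sA Y
  · rw [PB_eq]
    exact sB Y

end leaves

end Crest.Agent.R331.FMinI299
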